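import Vale.Agent.P119.ML.ConvFix
import Vale.Agent.P119.KT.Iso

/-!
# P119, block ML (`helper860`): a regular contact is eventually the only contact

* `sepR t`: two legs are at different positions at almost all times before `t`;
* `eventually_nice`: for almost all parameters `x` of a regular contact with the leg `k` of a forest,
  the attached tree satisfies `niceZ` for all small `ε`.
-/

open MeasureTheory Filter Topology Set
open scoped ENNReal NNReal

noncomputable section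

namespace Vale.Agent.P119.ML

open KU M KT CTree GC

variable {Φ : E3 → ℝ} {ε : ℝ} {f₀ : Ph → ℝ} {L : ℕ}

/-! ### Almost all parameters -/

theorem ae_nvol_fst {P : ℝ → Prop} (h : ∀ᵐ s, P s) : ∀ᵐ q ∂nvol, P q.1 := by
  rw [nvol_eq]
  exact Measure.quasiMeasurePreserving_fst.ae h

theorem ae_prod_time {P : ℝ → Prop} (h : ∀ᵐ s, P s) (τ : Shape) :
    ∀ᵐ x : ND × PD τ ∂(nvol.prod (pvol τ)), P x.1.1 :=
  Measure.quasiMeasurePreserving_fst.ae (ae_nvol_fst h)

/-- The velocity of the hitting line is not in a given moving affine line. -/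
theorem ae_not_aff (c : E3) {D : ℝ → E3} (hD : Measurable D) (τ : Shape) :
    ∀ᵐ x : ND × PD τ ∂(nvol.prod (pvol τ)), x.1.2.1 ∉ aff c (D x.1.1) := by
  have h1 : ∀ᵐ q : ND ∂nvol, q.2.1 ∉ aff c (D q.1) := by
    unfold nvol
    refine ae_restrict_of_ae ?_
    have hm : MeasurableSet {q : ND | q.2.1 ∈ aff c (D q.1)} := by
      have e1 : Measurable fun q : ND => ((q.2.1, c, D q.1) : E3 × E3 × E3) :=
        (by fun_prop : Measurable fun q : ND => q.2.1).prodMk
          (measurable_const.prodMk (hD.comp measurable_fst))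
      exact e1 measurableSet_aff'
    have h2 : (volume : Measure ND) {q : ND | q.2.1 ∈ aff c (D q.1)} = 0 := by
      rw [Measure.volume_eq_prod, Measure.prod_apply hm]
      have h3 : ∀ s : ℝ, (volume : Measure (E3 × E2)) (Prod.mk s ⁻¹'
          {q : ND | q.2.1 ∈ aff c (D q.1)}) = 0 := by
        intro s
        have h4 : Prod.mk s ⁻¹' {q : ND | q.2.1 ∈ aff c (D q.1)} =
            aff c (D s) ×ˢ (univ : Set E2) := by
          ext y; simp
        rw [h4, Measure.volume_eq_prod, Measure.prod_prod, null_aff, zero_mul]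
      simp only [h3, lintegral_zero]
    exact measure_eq_zero_iff_ae_notMem.1 h2
  exact Measure.quasiMeasurePreserving_fst.ae h1

/-- Two legs at different positions at almost all times before `t`. -/
def sepR (t : ℝ) (x y : LG × ℝ × ℝ) : Prop :=
  ∀ᵐ s : ℝ, s < t → x.2.1 ≤ s → s ≤ x.2.2 → y.2.1 ≤ s → s ≤ y.2.2 →
    (KU.free s x.1.1).1 ≠ (KU.free s y.1.1).1

theorem sepR_symm (t : ℝ) (x y : LG × ℝ × ℝ) (h : sepR t x y) : sepR t y x := by
  unfold sepR at h ⊢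
  filter_upwards [h] with s hs h1 h2 h3 h4 h5
  exact (hs h1 h4 h5 h2 h3).symm

theorem free_hl_zero (ℓ : Ph) (q : ND) (s : ℝ) :
    (KU.free s (hl 0 ℓ q)).1 = (KU.free q.1 ℓ).1 + (s - q.1) • q.2.1 := by
  rw [hl_zero]
  unfold KU.free
  simp only
  module

/-- The kinetic hitting line does not meet the other legs. -/
theorem ae_no_meet {t : ℝ} {x y : LG × ℝ × ℝ} (h : sepR t x y) (τ : Shape) :
    ∀ᵐ u : ND × PD τ ∂(nvol.prod (pvol τ)), u.1.1 < t → x.2.1 ≤ u.1.1 → u.1.1 ≤ x.2.2 →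
      ∀ s ∈ Icc y.2.1 (min y.2.2 t), (KU.free s y.1.1).1 ≠ (KU.free s (hl 0 x.1.1 u.1)).1 := by
  have hD : Measurable fun s : ℝ => (KU.free s y.1.1).1 - (KU.free s x.1.1).1 := by
    unfold KU.free
    fun_prop
  filter_upwards [ae_prod_time h τ, ae_not_aff y.1.1.2 hD τ] with u h1 h2 h3 h4 h5 s hs heq
  rw [free_hl_zero] at heq
  by_cases hsu : s = u.1.1
  · rw [hsu] at heq hs
    rw [sub_self, zero_smul, add_zero] at heq
    exact h1 h3 h4 h5 hs.1 (hs.2.trans (min_le_left _ _)) heq.symm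
  · refine h2 (mem_aff.2 ⟨(s - u.1.1)⁻¹, ?_⟩)
    have hne : s - u.1.1 ≠ 0 := sub_ne_zero.2 hsu
    have e1 : (KU.free s y.1.1).1 = (KU.free u.1.1 y.1.1).1 + (s - u.1.1) • y.1.1.2 := by
      unfold KU.free
      simp only
      module
    rw [e1] at heq
    have e2 : (KU.free u.1.1 y.1.1).1 - (KU.free u.1.1 x.1.1).1 =
        (s - u.1.1) • (u.1.2.1 - y.1.1.2) := by
      rw [smul_sub, sub_eq_sub_iff_add_eq_add, heq]
      abel
    rw [e2, smul_smul, inv_mul_cancel₀ hne, one_smul]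
    abel

/-! ### Uniform distance -/

theorem unif_pos {f : ℝ → E3} (hf : Continuous f) {a b : ℝ} (h : ∀ s ∈ Icc a b, f s ≠ 0) :
    ∃ η > 0, ∃ δ > 0, ∀ s ∈ Icc (a - η) (b + η), δ ≤ ‖f s‖ := by
  rcases lt_or_ge b a with hab | hab
  · refine ⟨(a - b) / 4, by linarith, 1, one_pos, fun s hs => ?_⟩
    exact absurd (hs.1.trans hs.2) (not_le.2 (by linarith))
  · have hU : IsOpen {s | f s ≠ 0} := isOpen_ne_fun hf continuous_const
    obtain ⟨η, hη, hsub⟩ := (isCompact_Icc (a := a) (b := b)).exists_cthickening_subset_open hU h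
    have hI : ∀ s ∈ Icc (a - η) (b + η), f s ≠ 0 := by
      intro s hs
      refine hsub (Metric.mem_cthickening_of_dist_le s (max a (min b s)) η _
        ⟨le_max_left _ _, max_le hab (min_le_left _ _)⟩ ?_)
      rw [Real.dist_eq, abs_le]
      rcases le_total s a with h1 | h1
      · rw [min_eq_right (h1.trans hab), max_eq_left h1]
        constructor <;> linarith [hs.1, hs.2]
      · rcases le_total s b with h2 | h2
        · rw [min_eq_right h2, max_eq_right h1, sub_self]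
          constructor <;> linarith
        · rw [min_eq_left h2, max_eq_right hab]
          constructor <;> linarith [hs.1, hs.2]
    obtain ⟨s₀, hs₀, hmin⟩ := (isCompact_Icc (a := a - η) (b := b + η)).exists_isMinOn
      (nonempty_Icc.2 (by linarith)) (hf.norm.continuousOn)
    exact ⟨η, hη, ‖f s₀‖, norm_pos_iff.2 (hI s₀ hs₀), fun s hs => hmin hs⟩

section Limits

variable {ι : Type*} {l : Filter ι} {εs : ι → ℝ}

/-- Two families of lines which do not meet at the limit. -/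
theorem eventually_apart (hε : Tendsto εs l (𝓝 0)) {Ys Rs : ι → E3} {y r v w : E3}
    (hY : Tendsto Ys l (𝓝 y)) (hR : Tendsto Rs l (𝓝 r)) {As Bs : ι → ℝ} {a b : ℝ}
    (hA : Tendsto As l (𝓝 a)) (hB : Tendsto Bs l (𝓝 b))
    (h : ∀ s ∈ Icc a b, (KU.free s (y, v)).1 ≠ (KU.free s (r, w)).1) :
    ∀ᶠ i in l, ∀ s ∈ Icc (As i) (Bs i),
      εs i < ‖(KU.free s (Ys i, v)).1 - (KU.free s (Rs i, w)).1‖ := by
  have hf : Continuous fun s : ℝ => (KU.free s (y, v)).1 - (KU.free s (r, w)).1 := by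
    unfold KU.free
    fun_prop
  obtain ⟨η, hη, δ, hδ, h1⟩ := unif_pos hf (a := a) (b := b) fun s hs => sub_ne_zero.2 (h s hs)
  have h2 : Tendsto (fun i => ‖(Ys i - y) - (Rs i - r)‖) l (𝓝 0) := by
    have h3 := ((hY.sub_const y).sub (hR.sub_const r)).norm
    rw [sub_self, sub_self, sub_self, norm_zero] at h3
    exact h3
  filter_upwards [hA.eventually (lt_mem_nhds (show a - η < a by linarith)),
    hB.eventually (gt_mem_nhds (show b < b + η by linarith)),
    hε.eventually (gt_mem_nhds (show (0 : ℝ) < δ / 2 by positivity)),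
    h2.eventually (gt_mem_nhds (show (0 : ℝ) < δ / 2 by positivity))] with i e1 e2 e3 e4 s hs
  have h3 := h1 s ⟨e1.le.trans hs.1, hs.2.trans e2.le⟩
  have h4 : (KU.free s (Ys i, v)).1 - (KU.free s (Rs i, w)).1 =
      ((KU.free s (y, v)).1 - (KU.free s (r, w)).1) + ((Ys i - y) - (Rs i - r)) := by
    unfold KU.free
    simp only
    abel
  have h5 := norm_sub_le ((KU.free s (Ys i, v)).1 - (KU.free s (Rs i, w)).1)
    ((Ys i - y) - (Rs i - r))
  rw [h4, add_sub_cancel_right] at h5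
  rw [h4]
  linarith

theorem tendsto_lat (hε : Tendsto εs l (𝓝 0)) (ℓ : LG) :
    Tendsto (fun i => (lat (εs i) ℓ).1) l (𝓝 ℓ.1.1) := by
  simp only [lat_fst]
  have h := (hε.smul_const ℓ.2).const_add ℓ.1.1
  rw [zero_smul, add_zero] at h
  exact h

/-- **A regular contact is eventually the only contact.** -/
theorem eventually_nice (hΦ : IsPotential Φ) (hε : Tendsto εs l (𝓝 0)) (F : List TG) (t : ℝ)
    (ho : OrdF F) (hsep : (flegs Φ F t).Pairwise (sepR t)) (k : KI F) (τ : Shape) :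
    ∀ᵐ x : ND × PD τ ∂(nvol.prod (pvol τ)),
      x.1.1 < t → (lgF Φ F t k).2.1 ≤ x.1.1 → x.1.1 ≤ (lgF Φ F t k).2.2 → good Φ τ x.1.2.1 x.2 →
      ∀ᶠ i in l, εs i ≠ 0 → niceZ Φ (εs i) (trees Φ (εs i) F) (fun k => (lgE Φ (εs i) F t k).1)
        (fun k => (lgE Φ (εs i) F t k).2.1) (fun k => (lgE Φ (εs i) F t k).2.2) k τ
        (ldEquiv τ (bk Φ (εs i) τ (hl (εs i) (lgE Φ (εs i) F t k).1 x.1) x.2)) := by
  set ℓ : LG := (lgF Φ F t k).1 with hℓ
  have hline : ∀ (i : ι) (k' : KI F), (lgE Φ (εs i) F t k').1 = lat (εs i) (lgF Φ F t k').1 :=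
    fun i k' => lgE_line t t F k'
  -- the hitting line
  have hroot : ∀ q : ND, Tendsto (fun i => (hl (εs i) (lat (εs i) ℓ) q).1) l
      (𝓝 (hl 0 ℓ.1 q).1) := fun q => tendsto_hl hε (v := ℓ.1.2) (tendsto_lat hε ℓ) q
  have hpos : ∀ (x : ND × PD τ) (j : Fin τ.card),
      Tendsto (fun i => (ldEquiv τ (bk Φ (εs i) τ (hl (εs i) (lat (εs i) ℓ) x.1) x.2) j).1) l
        (𝓝 (ldEquiv τ (bk Φ 0 τ (hl 0 ℓ.1 x.1) x.2) j).1) := fun x j =>
    tendsto_bk_fst hε τ x.2 (Ls := fun i => hl (εs i) (lat (εs i) ℓ) x.1) (L := hl 0 ℓ.1 x.1)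
      (fun i => by rw [hl_snd, hl_snd]) (hroot x.1) j
  -- the sources of the forest
  have hFpos : ∀ G ∈ F, ∀ j : Fin G.τ.card,
      Tendsto (fun i => (ldEquiv G.τ (bk Φ (εs i) G.τ (lat (εs i) G.ℓ) G.p) j).1) l
        (𝓝 (ldEquiv G.τ (bk Φ 0 G.τ G.ℓ.1 G.p) j).1) := fun G _ j =>
    tendsto_bk_fst hε G.τ G.p (Ls := fun i => lat (εs i) G.ℓ) (L := G.ℓ.1) (fun i => rfl)
      (tendsto_lat hε G.ℓ) j
  have hfar : ∀ᵐ x : ND × PD τ ∂(nvol.prod (pvol τ)), ∀ G ∈ F, ∀ j : Fin G.τ.card,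
      ∀ m : Fin τ.card, (ldEquiv τ (bk Φ 0 τ (hl 0 ℓ.1 x.1) x.2) m).1 ≠
        (ldEquiv G.τ (bk Φ 0 G.τ G.ℓ.1 G.p) j).1 := by
    have h1 : ∀ G ∈ {G | G ∈ F}, ∀ᵐ x : ND × PD τ ∂(nvol.prod (pvol τ)),
        ∀ j : Fin G.τ.card, ∀ m : Fin τ.card,
        (ldEquiv τ (bk Φ 0 τ (hl 0 ℓ.1 x.1) x.2) m).1 ≠
          (ldEquiv G.τ (bk Φ 0 G.τ G.ℓ.1 G.p) j).1 := fun G _ => by
      rw [ae_all_iff]
      exact fun j => ae_far hΦ τ ℓ.1 _
    exact (ae_ball_iff (List.finite_toSet F).countable).2 h1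
  have hmeet : ∀ᵐ x : ND × PD τ ∂(nvol.prod (pvol τ)), ∀ k' : KI F, k' ≠ k →
      x.1.1 < t → (lgF Φ F t k).2.1 ≤ x.1.1 → x.1.1 ≤ (lgF Φ F t k).2.2 →
      ∀ s ∈ Icc (lgF Φ F t k').2.1 (min (lgF Φ F t k').2.2 t),
        (KU.free s (lgF Φ F t k').1.1).1 ≠ (KU.free s (hl 0 ℓ.1 x.1)).1 := by
    rw [ae_all_iff]
    intro k'
    by_cases hk : k' = k
    · exact Eventually.of_forall fun x h => absurd hk h
    · have h1 := ae_no_meet (x := lgF Φ F t k) (y := lgF Φ F t k')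
        (pairwise_lgF (sepR_symm t) t F hsep k k' fun h => hk h.symm) τ
      filter_upwards [h1] with x hx _
      exact hx
  filter_upwards [ae_apt_hit hΦ τ, hfar, hmeet] with x h1 h2 h3 h4 h5 h6 hgood
  -- different leaves
  have e1 : ∀ᶠ i in l, ∀ m m' : Fin τ.card, m ≠ m' →
      εs i < ‖(ldEquiv τ (bk Φ (εs i) τ (hl (εs i) (lat (εs i) ℓ) x.1) x.2) m).1 -
        (ldEquiv τ (bk Φ (εs i) τ (hl (εs i) (lat (εs i) ℓ) x.1) x.2) m').1‖ := by
    rw [eventually_all]; intro m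
    rw [eventually_all]; intro m'
    by_cases hm : m = m'
    · exact Eventually.of_forall fun i h => absurd hm h
    · have h7 : (0 : ℝ) < ‖(ldEquiv τ (bk Φ 0 τ (hl 0 ℓ.1 x.1) x.2) m).1 -
          (ldEquiv τ (bk Φ 0 τ (hl 0 ℓ.1 x.1) x.2) m').1‖ := by
        rw [norm_pos_iff, sub_ne_zero, bk_zero_fst, bk_zero_fst, hl_snd]
        intro h8
        exact h1 m m' hm (add_right_cancel h8)
      filter_upwards [hε.eventually_lt ((hpos x m).sub (hpos x m')).norm h7] with i hi _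
      exact hi
  -- sources of the forest
  have e2 : ∀ᶠ i in l, ∀ G ∈ F, ∀ j : Fin G.τ.card, ∀ m : Fin τ.card,
      εs i < ‖(ldEquiv τ (bk Φ (εs i) τ (hl (εs i) (lat (εs i) ℓ) x.1) x.2) m).1 -
        (ldEquiv G.τ (bk Φ (εs i) G.τ (lat (εs i) G.ℓ) G.p) j).1‖ := by
    have h7 : ∀ G ∈ {G | G ∈ F}, ∀ᶠ i in l, ∀ j : Fin G.τ.card, ∀ m : Fin τ.card,
        εs i < ‖(ldEquiv τ (bk Φ (εs i) τ (hl (εs i) (lat (εs i) ℓ) x.1) x.2) m).1 -
        (ldEquiv G.τ (bk Φ (εs i) G.τ (lat (εs i) G.ℓ) G.p) j).1‖ := by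
      intro G hG
      rw [eventually_all]; intro j
      rw [eventually_all]; intro m
      have h8 : (0 : ℝ) < ‖(ldEquiv τ (bk Φ 0 τ (hl 0 ℓ.1 x.1) x.2) m).1 -
          (ldEquiv G.τ (bk Φ 0 G.τ G.ℓ.1 G.p) j).1‖ :=
        norm_pos_iff.2 (sub_ne_zero.2 (h2 G hG j m))
      exact hε.eventually_lt ((hpos x m).sub (hFpos G hG j)).norm h8
    exact (eventually_all_finite (List.finite_toSet F)).2 h7
  -- the other legs
  have e3 : ∀ᶠ i in l, ∀ k' : KI F, k' ≠ k →
      ∀ s ∈ Icc (lgE Φ (εs i) F t k').2.1 (lgE Φ (εs i) F t k').2.2,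
      εs i < ‖(KU.free s (lat (εs i) (lgF Φ F t k').1)).1 -
        (KU.free s (hl (εs i) (lat (εs i) ℓ) x.1)).1‖ := by
    rw [eventually_all]; intro k'
    by_cases hk : k' = k
    · exact Eventually.of_forall fun i h => absurd hk h
    · have h7 := tendsto_lgE (Φ := Φ) hε t F k'
      have h8 := lgE_zero (Φ := Φ) t F k' ho
      rw [h8.1, h8.2] at h7
      have h9 := eventually_apart hε (v := (lgF Φ F t k').1.1.2) (w := x.1.2.1)
        (tendsto_lat hε (lgF Φ F t k').1) (hroot x.1) h7.1 h7.2 (by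
          intro s hs
          have h10 := h3 k' hk h4 h5 h6 s hs
          have h11 : hl 0 ℓ.1 x.1 = ((hl 0 ℓ.1 x.1).1, x.1.2.1) := by
            ext1
            · rfl
            · exact hl_snd _ _ _
          rw [h11] at h10
          exact h10)
      filter_upwards [h9] with i hi _ s hs
      have h11 : hl (εs i) (lat (εs i) ℓ) x.1 =
          ((hl (εs i) (lat (εs i) ℓ) x.1).1, x.1.2.1) := by
        ext1
        · rfl
        · exact hl_snd _ _ _
      rw [h11]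
      exact hi s hs
  filter_upwards [e1, e2, e3] with i h7 h8 h9 hi0
  have hle : (lgE Φ (εs i) F t k).1 = lat (εs i) ℓ := hline i k
  refine ⟨⟨?_, ?_⟩, ?_⟩
  · intro m m' hm
    rw [hle]
    exact h7 m m' hm
  · intro m σ hσ
    rw [hle]
    obtain ⟨T, hT, hσT⟩ := hσ
    obtain ⟨G, hG, rfl⟩ := List.mem_map.1 hT
    rw [TG.tree_def, leaves_mkL] at hσT
    obtain ⟨z, ⟨j, rfl⟩, rfl⟩ := hσT
    exact h8 G hG j m
  · intro k' hk s hs
    simp only at hs ⊢
    rw [hle, ← mkL_eq_ord, ln_mkL_bk hΦ hi0 τ _ x.2 (by rw [hl_snd]; exact hgood), hline i k']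
    exact h9 k' hk s hs

end Limits

end Vale.Agent.P119.ML
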