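import Vale.Agent.P119.KT.Meet
import Vale.Agent.P119.ML.ConvNice

/-!
# P119, block ML (`helper860`): the legs of a generic forest are separated at `ε = 0`

* `allL_glegs`, `av_glegs`: the lines of the legs of a germ;
* `sepR_of_apart`: two trees which are apart;
* `pairwise_glegs`: one tree which does not meet itself;
* `pairwise_flegs`: a forest of such trees: the hypothesis `hsep` of `conv_forest`.
-/

open MeasureTheory Filter Topology Set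
open scoped ENNReal NNReal

noncomputable section

namespace Vale.Agent.P119.ML

open KU M KT CTree GC

variable {Φ : E3 → ℝ} {ε : ℝ}

/-- The times increase strictly: `ord0`. -/
theorem stm_le_of_bef {T : ℝ} (hT : 0 ≤ T) : ∀ (τ : Shape) (p : PD τ), Bef T τ p → stm τ p ≤ T
  | .leaf, _, _ => hT
  | .node _ _, _, h => h.1.le

theorem allL_glegs {Q : Ph → Prop} : ∀ (τ : Shape) (ℓ : LG) (p : PD τ) (h : ℝ),
    AllL Φ Q τ ℓ.1 p → ∀ x ∈ glegs Φ τ ℓ p h, Q x.1.1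
  | .leaf, ℓ, p, h, hA, x, hx => by
    have hx' : x = (ℓ, 0, h) := List.mem_singleton.1 hx
    rw [hx']
    exact hA
  | .node a b, ℓ, p, h, hA, x, hx => by
    have hx' : x ∈ glegs Φ a (inG1 Φ ℓ p.1) p.2.1 p.1.1 ++
      glegs Φ b (inG2 Φ ℓ p.1) p.2.2 p.1.1 ++ [(ℓ, p.1.1, h)] := hx
    rw [List.mem_append, List.mem_append] at hx'
    rcases hx' with (hx' | hx') | hx'
    · exact allL_glegs a (inG1 Φ ℓ p.1) p.2.1 p.1.1 hA.2.1 x hx'
    · exact allL_glegs b (inG2 Φ ℓ p.1) p.2.2 p.1.1 hA.2.2 x hx'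
    · rw [List.mem_singleton.1 hx']
      exact hA.1.1

theorem av_glegs {α : Ph} {T : ℝ} (τ : Shape) (ℓ : LG) (p : PD τ) (h : ℝ)
    (hA : Av Φ α T τ ℓ.1 p) : ∀ x ∈ glegs Φ τ ℓ p h, nm T α x.1.1 := fun x hx =>
  nm_comm.1 (allL_glegs τ ℓ p h hA.allL x hx)

/-- The legs end before the time `h`. -/
theorem glegs_end_le : ∀ (τ : Shape) (ℓ : LG) (p : PD τ) (h : ℝ), Ordr τ p → Bef h τ p →
    ∀ x ∈ glegs Φ τ ℓ p h, x.2.2 ≤ h
  | .leaf, ℓ, p, h, _, _, x, hx => by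
    have hx' : x = (ℓ, 0, h) := List.mem_singleton.1 hx
    rw [hx']
  | .node a b, ℓ, p, h, ho, hb, x, hx => by
    have hx' : x ∈ glegs Φ a (inG1 Φ ℓ p.1) p.2.1 p.1.1 ++
      glegs Φ b (inG2 Φ ℓ p.1) p.2.2 p.1.1 ++ [(ℓ, p.1.1, h)] := hx
    rw [List.mem_append, List.mem_append] at hx'
    rcases hx' with (hx' | hx') | hx'
    · exact (glegs_end_le a _ p.2.1 p.1.1 ho.2.1 ho.1.1 x hx').trans hb.1.le
    · exact (glegs_end_le b _ p.2.2 p.1.1 ho.2.2 ho.1.2 x hx').trans hb.1.le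
    · rw [List.mem_singleton.1 hx']

/-- The non-root legs end before the node. -/
theorem glegs_node_end {a b : Shape} {ℓ : LG} {p : PD (.node a b)} (ho : Ordr (.node a b) p) :
    (∀ x ∈ glegs Φ a (inG1 Φ ℓ p.1) p.2.1 p.1.1, x.2.2 ≤ p.1.1) ∧
      ∀ x ∈ glegs Φ b (inG2 Φ ℓ p.1) p.2.2 p.1.1, x.2.2 ≤ p.1.1 :=
  ⟨glegs_end_le a _ p.2.1 p.1.1 ho.2.1 ho.1.1, glegs_end_le b _ p.2.2 p.1.1 ho.2.2 ho.1.2⟩

theorem sepR_of_nm {t T : ℝ} {x y : LG × ℝ × ℝ} (h : nm T x.1.1 y.1.1)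
    (hT : x.2.2 ≤ T ∨ y.2.2 ≤ T ∨ t ≤ T) : sepR t x y := by
  unfold sepR
  have hne : ∀ᵐ s : ℝ, s ≠ T := by
    have := measure_singleton (μ := (volume : Measure ℝ)) T
    exact measure_eq_zero_iff_ae_notMem.1 this
  filter_upwards [hne] with s hs h1 h2 h3 h4 h5
  have h6 : s < T := by
    rcases hT with hT | hT | hT
    · exact lt_of_le_of_ne (h3.trans hT) hs
    · exact lt_of_le_of_ne (h5.trans hT) hs
    · exact h1.trans_le hT
  exact h s h6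

/-- Two legs which are active at disjoint times. -/
theorem sepR_of_le {t T : ℝ} {x y : LG × ℝ × ℝ} (hx : x.2.2 ≤ T) (hy : T ≤ y.2.1) :
    sepR t x y := by
  unfold sepR
  have hne : ∀ᵐ s : ℝ, s ≠ T := by
    have := measure_singleton (μ := (volume : Measure ℝ)) T
    exact measure_eq_zero_iff_ae_notMem.1 this
  filter_upwards [hne] with s hs h1 h2 h3 h4 h5
  exact absurd (le_antisymm (h3.trans hx) (hy.trans h4)) hs

/-- Two trees which are apart. -/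
theorem sepR_of_half {T h₁ h₂ t : ℝ} {τ₁ τ₂ : Shape} {ℓ₁ ℓ₂ : LG} {p₁ : PD τ₁} {p₂ : PD τ₂}
    (h : Half Φ T τ₁ ℓ₁.1 p₁ τ₂ ℓ₂.1 p₂)
    (hT : (∀ x ∈ glegs Φ τ₁ ℓ₁ p₁ h₁, x.2.2 ≤ T) ∨ t ≤ T) :
    ∀ x ∈ glegs Φ τ₁ ℓ₁ p₁ h₁, ∀ y ∈ glegs Φ τ₂ ℓ₂ p₂ h₂, sepR t x y := by
  intro x hx y hy
  have h1 := allL_glegs τ₁ ℓ₁ p₁ h₁ h x hx
  have h2 := av_glegs τ₂ ℓ₂ p₂ h₂ h1 y hy
  refine sepR_of_nm h2 ?_
  rcases hT with hT | hT
  · exact Or.inl (hT x hx)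
  · exact Or.inr (Or.inr hT)

/-- One tree which does not meet itself. -/
theorem pairwise_glegs (t : ℝ) : ∀ (τ : Shape) (ℓ : LG) (p : PD τ) (h : ℝ), Ordr τ p →
    Self Φ τ ℓ.1 p → (glegs Φ τ ℓ p h).Pairwise (sepR t)
  | .leaf, _, _, _, _, _ => List.pairwise_singleton _ _
  | .node a b, ℓ, p, h, ho, hs => by
    have e : glegs Φ (.node a b) ℓ p h = glegs Φ a (inG1 Φ ℓ p.1) p.2.1 p.1.1 ++
      glegs Φ b (inG2 Φ ℓ p.1) p.2.2 p.1.1 ++ [(ℓ, p.1.1, h)] := rfl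
    obtain ⟨ea, eb⟩ := glegs_node_end (Φ := Φ) (ℓ := ℓ) ho
    rw [e, List.pairwise_append, List.pairwise_append]
    refine ⟨⟨pairwise_glegs t a _ p.2.1 p.1.1 ho.2.1 hs.2.1,
      pairwise_glegs t b _ p.2.2 p.1.1 ho.2.2 hs.2.2, ?_⟩, List.pairwise_singleton _ _, ?_⟩
    · have h1 : Half Φ p.1.1 a (inG1 Φ ℓ p.1).1 p.2.1 b (inG2 Φ ℓ p.1).1 p.2.2 := hs.1.1
      exact sepR_of_half h1 (Or.inl ea)
    · intro x hx y hy
      rw [List.mem_singleton.1 hy]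
      rw [List.mem_append] at hx
      rcases hx with hx | hx
      · exact sepR_of_le (ea x hx) le_rfl
      · exact sepR_of_le (eb x hx) le_rfl

/-- **`hsep` for a generic forest.** -/
theorem pairwise_flegs (t : ℝ) : ∀ F : List TG, (∀ G ∈ F, Ordr G.τ G.p) →
    (∀ G ∈ F, Self Φ G.τ G.ℓ.1 G.p) →
    F.Pairwise (fun G G' => Half Φ t G.τ G.ℓ.1 G.p G'.τ G'.ℓ.1 G'.p) →
    (flegs Φ F t).Pairwise (sepR t)
  | [], _, _, _ => List.Pairwise.nil
  | G :: F, ho, hs, hp => by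
    have e : flegs Φ (G :: F) t = glegs Φ G.τ G.ℓ G.p t ++ flegs Φ F t := by
      unfold flegs
      rw [List.flatMap_cons]
      rfl
    rw [List.pairwise_cons] at hp
    rw [e, List.pairwise_append]
    refine ⟨pairwise_glegs t G.τ G.ℓ G.p t (ho G (by simp)) (hs G (by simp)),
      pairwise_flegs t F (fun G' h => ho G' (by simp [h])) (fun G' h => hs G' (by simp [h])) hp.2, ?_⟩
    intro x hx y hy
    unfold flegs at hy
    rw [List.mem_flatMap] at hy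
    obtain ⟨G', hG', hy⟩ := hy
    exact sepR_of_half (hp.1 G' hG') (Or.inr le_rfl) x hx y hy

end Vale.Agent.P119.ML
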