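import Vale.Agent.P119.ML.Sys
import Vale.Agent.P119.ML.GenSep
import Vale.Agent.P119.KT.GenHit

/-!
# P119, block ML (`helper860`): the generic forests of `KT.Gen` as a system for the hierarchy

* `GenN Φ L F t`: `KT.Gen` without the positivity of the time;
* `RelP_nonpos`: there is no related first hitter until a time `t ≤ 0`;
* `gsys`: the system, from the limit of the probability of related first hitters.
-/

open MeasureTheory Filter Topology Set
open scoped ENNReal NNReal

noncomputable section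

namespace Vale.Agent.P119.ML

open KU M CTree KT GC

variable {Φ : E3 → ℝ} {ε : ℝ} {L : ℕ} {f₀ : Ph → ℝ} {κ : ℝ}

/-- Generic forests, for all times. -/
def GenN (Φ : E3 → ℝ) (L : ℕ) (F : List TG) (t : ℝ) : Prop :=
  (∀ G ∈ F, GenG Φ L G) ∧ F.Pairwise (PairG Φ t)

theorem GenN.of_gen {F : List TG} {t : ℝ} (h : Gen Φ L F t) : GenN Φ L F t := ⟨h.one, h.two⟩

theorem GenN.gen {F : List TG} {t : ℝ} (h : GenN Φ L F t) (ht : 0 < t) : Gen Φ L F t :=
  ⟨ht, h.1, h.2⟩

theorem ext_leaf_of_nonpos (hΦ : IsPotential Φ) (hε : 0 < ε) {T : CTree} (h : ok Φ ε T)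
    (hT : ext Φ ε T ≤ 0) : ∃ σ, T = .leaf σ := by
  cases T with
  | leaf σ => exact ⟨σ, rfl⟩
  | node a b =>
    have h1 := (sig_nonneg hΦ hε h).trans_lt (sig_lt_ext hΦ hε h)
    exact absurd hT (not_le.2 h1)

/-- There is no related first hitter until a time `t ≤ 0`. -/
theorem not_relEv_of_nonpos (hΦ : IsPotential Φ) (hε : 0 < ε) {F : List CTree} {t : ℝ}
    (ht : t ≤ 0) {w : Finset Ph} {T' : CTree} : ¬RelEv Φ ε L F t w T' := by
  rintro ⟨⟨-, hok, hd, hf⟩, h | ⟨h, hs⟩⟩
  · exact absurd (ff_nonneg hΦ hε hok hf.1) (not_le.2 (h.trans_le ht))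
  · have hp := alive_pre hf.2.1
    have h0 : ff Φ ε F T' ≤ 0 := h.le.trans ht
    obtain ⟨σ, rfl⟩ := ext_leaf_of_nonpos hΦ hε hp.ok (hp.ext_le.trans h0)
    rw [Set.not_disjoint_iff] at hd
    obtain ⟨σ', h1, T, hT, h2⟩ := hd
    have e : σ' = σ := h1
    rw [e] at h2
    refine hs T hT ?_
    have key : ∀ T : CTree, σ ∈ T.leaves → CTree.leaf σ ∈ sbt T := by
      intro T
      induction T with
      | leaf σ₁ =>
        intro h3
        have e1 : σ = σ₁ := h3
        rw [e1]
        exact rfl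
      | node a b iha ihb =>
        intro h3
        rcases h3 with h3 | h3
        · exact Or.inr (Or.inl (iha h3))
        · exact Or.inr (Or.inr (ihb h3))
    exact key T h2

theorem RelP_nonpos (hΦ : IsPotential Φ) (hε : 0 < ε) {F : List CTree} {t : ℝ} (ht : t ≤ 0) :
    RelP Φ ε L f₀ F t = 0 := by
  unfold RelP
  rw [← lintegral_zero (μ := PP f₀ ε)]
  refine lintegral_congr fun c => ind_of_false ?_
  rintro ⟨T', hT'⟩
  exact not_relEv_of_nonpos hΦ hε ht hT'

theorem pairwise_sepR_genN {t : ℝ} : ∀ F : List TG, GenN Φ L F t →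
    (flegs Φ F t).Pairwise (sepR t)
  | [], _ => List.Pairwise.nil
  | G :: F, h => by
    obtain ⟨h1, h2⟩ := h
    have e : flegs Φ (G :: F) t = glegs Φ G.τ G.ℓ G.p t ++ flegs Φ F t := by
      unfold flegs
      rw [List.flatMap_cons]
      rfl
    rw [List.pairwise_cons] at h2
    rw [e, List.pairwise_append]
    have g := h1 G (by simp)
    refine ⟨pairwise_glegs t G.τ G.ℓ G.p t g.tord.ordr g.self,
      pairwise_sepR_genN F ⟨fun G' h => h1 G' (by simp [h]), h2.2⟩, ?_⟩
    intro x hx y hy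
    unfold flegs at hy
    rw [List.mem_flatMap] at hy
    obtain ⟨G', hG', hy⟩ := hy
    exact sepR_of_nm ((h2.1 G' hG').1.ll x hx y hy) (Or.inr (Or.inr le_rfl))

/-- **The generic forests as a system for the hierarchy.** -/
def gsys (hΦ : IsPotential Φ) (f₀ : Ph → ℝ) (L : ℕ)
    (hrel : ∀ (F : List TG) (t : ℝ), KT.Gen Φ L F t →
      Tendsto (fun ε => RelP Φ ε L f₀ (trees Φ ε F) t) (𝓝[>] 0) (𝓝 0)) : GSys Φ f₀ L where
  Gen := GenN Φ L
  perm := fun {F F' t} hp h =>
    ⟨fun G hG => h.1 G (hp.mem_iff.2 hG), (hp.pairwise_iff fun h => PairG.symm h).1 h.2⟩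
  sub := fun {F F' t} hs h => ⟨fun G hG => h.1 G (hs.subset hG), h.2.sublist hs⟩
  mono := fun {F s t} hst h => ⟨h.1, h.2.imp fun h => h.mono hst⟩
  depth := fun {F t} h G hG => (h.1 G hG).depth
  good := fun {F t} h G hG => (h.1 G hG).good
  okF := fun {F t} h => by
    have h1 : ∀ᶠ ε in 𝓝[>] (0 : ℝ), ∀ G ∈ F, ok Φ ε (G.tree Φ ε) :=
      (Filter.eventually_all_finite (List.finite_toSet F)).2 fun G hG => (h.1 G hG).ev_ok hΦ
    filter_upwards [h1] with ε h2 T hT
    obtain ⟨G, hG, rfl⟩ := mem_trees.1 hT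
    exact ⟨h2 G hG, by rw [TG.depth_tree]; exact (h.1 G hG).depth⟩
  sep := fun {F t} h => pairwise_sepR_genN F h
  rel := fun {F t} h => by
    rcases le_or_gt t 0 with ht | ht
    · refine Tendsto.congr' ?_ tendsto_const_nhds
      filter_upwards [self_mem_nhdsWithin] with ε hε
      exact (RelP_nonpos hΦ hε ht).symm
    · exact hrel F t (h.gen ht)
  att := fun {F t} h x hx τ hτ => by
    rcases le_or_gt t 0 with ht | ht
    · refine Eventually.of_forall fun y h1 h2 => ?_
      have h3 := ((le_max_right x.2.1 0).trans_lt h1).trans (h2.trans_le (min_le_right _ _))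
      exact absurd h3 (not_lt.2 ht)
    · filter_upwards [gen_hit hΦ (h.gen ht) hx (mem_shapes.1 hτ)] with y hy h1 h2 h3 h4 h5
      exact GenN.of_gen (hy h1 h2 h3 h4 h5)

end Vale.Agent.P119.ML
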