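import Vale.Agent.P119.ML.FH6

/-!
# P119, block ML (`helper388`): (S) and (D) with the probability of related first hitters

* `RelP`: the probability that there is a related first hitter;
* `surv_le'`, `le_surv'`, `Dp_le'`, `Dm_le'`.
-/

open MeasureTheory Filter Topology Set
open scoped ENNReal NNReal

noncomputable section

namespace Vale.Agent.P119.ML

open KU M CTree GC MM

variable {Φ : E3 → ℝ} {ε : ℝ} {L : ℕ} {f₀ : Ph → ℝ} {κ : ℝ}
variable {F : List CTree} {t₀ t : ℝ}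

/-- The probability that there is a related first hitter. -/
def RelP (Φ : E3 → ℝ) (ε : ℝ) (L : ℕ) (f₀ : Ph → ℝ) (F : List CTree) (t : ℝ) : ℝ≥0∞ :=
  ∫⁻ c, ind (∃ T', RelEv Φ ε L F t (pts c) T') ∂(PP f₀ ε)

section Meas

variable {X : Type*} [MeasurableSpace X] {Fs Gs : List (X → CTree)} {c : X → Conf Ph}

theorem measurableSet_relEx (hΦ : IsPotential Φ) (hε : 0 < ε) (hF : MF Fs) (hc : Measurable c)
    {t : X → ℝ} (ht : Measurable t) :
    MeasurableSet {x | ∃ T', RelEv Φ ε L (ev Fs x) (t x) (pts (c x)) T'} := by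
  have h2 := measurableSet_relEv (L := L) hΦ hε (hF.pull measurable_fst)
    (hc.comp (measurable_fst (α := X) (β := CTree))) (ht.comp measurable_fst) measurable_snd
  simp only [ev_pull, Function.comp_def] at h2
  have h3 := (RS.trees (RS.Wc hF hc)).measurableSet_exists h2
  convert h3 using 1
  ext x
  constructor
  · rintro ⟨T', hT'⟩
    exact ⟨T', firstHit_subset hT'.1.2.2.2, hT'⟩
  · rintro ⟨T', -, hT'⟩
    exact ⟨T', hT'⟩

theorem measurable_RelP (hΦ : IsPotential Φ) (hε : 0 < ε) [SFinite (PP f₀ ε)] (hF : MF Fs)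
    {t : X → ℝ} (ht : Measurable t) :
    Measurable fun x => RelP Φ ε L f₀ (ev Fs x) (t x) := by
  have h1 := measurableSet_relEx (L := L) hΦ hε (hF.pull (measurable_fst (α := X) (β := Conf Ph)))
    measurable_snd (ht.comp measurable_fst)
  simp only [ev_pull, Function.comp_def] at h1
  exact (measurable_ind h1).lintegral_prod_right'

end Meas

theorem measurable_relEx_pts (hΦ : IsPotential Φ) (hε : 0 < ε) (F : List CTree) (t : ℝ) :
    Measurable fun o : Conf Ph => ind (∃ T', RelEv Φ ε L F t (pts o) T') := by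
  have hm := measurableSet_relEx (L := L) hΦ hε (MF.cst (X := Conf Ph) F) measurable_id
    (measurable_const (a := t))
  simp only [ev_cst] at hm
  exact measurable_ind hm

theorem measurable_RelP_cons (hΦ : IsPotential Φ) (hε : 0 < ε) [SFinite (PP f₀ ε)] :
    Measurable fun T : CTree => RelP Φ ε L f₀ (T :: F) (ff Φ ε F T) := by
  have hFs : MF ((fun T : CTree => T) :: cst CTree F) := MF.cons measurable_id (MF.cst F)
  have h1 := measurable_ff hΦ hε.ne' (MF.cst (X := CTree) F) (measurable_id (α := CTree))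
  have h2 := measurable_RelP (L := L) (f₀ := f₀) hΦ hε hFs h1
  simp only [ev_cons, ev_cst] at h2
  exact h2

theorem RelP_le_one (hf : GoodDatum f₀ κ) : RelP Φ ε L f₀ F t ≤ 1 := by
  have := isProbability_PP (ε := ε) hf
  calc RelP Φ ε L f₀ F t ≤ ∫⁻ _ : Conf Ph, 1 ∂(PP f₀ ε) := lintegral_mono fun c => ind_le_one _
    _ = 1 := by rw [lintegral_one, measure_univ]

theorem surv_le_one (hf : GoodDatum f₀ κ) : surv Φ ε L f₀ F t ≤ 1 := by
  have := isProbability_PP (ε := ε) hf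
  calc surv Φ ε L f₀ F t ≤ ∫⁻ _ : Conf Ph, 1 ∂(PP f₀ ε) := lintegral_mono fun c => ind_le_one _
    _ = 1 := by rw [lintegral_one, measure_univ]

theorem ind_le_surv_pointwise' (hΦ : IsPotential Φ) (hε : 0 < ε) (w : Finset Ph) :
    ind (CmpF ε F w ∧ Unhit Φ ε L (Wc F w) F t₀) ≤
      ind (CmpF ε F w ∧ Unhit Φ ε L (Wc F w) F t) + ((∑' T, ind (Dis Φ ε L F t₀ t w T)) +
        ind (∃ T, RelEv Φ ε L F t w T)) := by
  by_cases h : CmpF ε F w ∧ OkF Φ ε L F
  · by_cases h0 : NoHit Φ ε L (Wc F w) F t₀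
    · by_cases h1 : NoHit Φ ε L (Wc F w) F t
      · rw [ind_of_true (P := CmpF ε F w ∧ Unhit Φ ε L (Wc F w) F t) ⟨h.1, h.2, h1⟩]
        exact (ind_le_one _).trans le_self_add
      · obtain ⟨T, hT⟩ := exists_firstHit hΦ hε Wc_finite h.2 h0 h1
        by_cases hd : Disjoint T.leaves (lvs F)
        · refine le_trans ?_ (le_add_left (le_add_right (ENNReal.le_tsum T)))
          rw [ind_of_true (P := Dis Φ ε L F t₀ t w T) ⟨h, hd, hT⟩]
          exact ind_le_one _
        · rw [ind_of_true (P := ∃ T, RelEv Φ ε L F t w T)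
            ⟨T, ⟨h.1, h.2, hd, hT.1⟩, Or.inl hT.2.2⟩]
          exact (ind_le_one _).trans (le_add_left le_add_self)
    · rw [ind_of_false fun h' => h0 h'.2.2]; exact zero_le
  · rw [ind_of_false fun h' => h ⟨h'.1, h'.2.1⟩]; exact zero_le

/-- **(S), upper bound for the loss.** -/
theorem surv_le' (hf : GoodDatum f₀ κ) (hΦ : IsPotential Φ) (hε : 0 < ε) (F : List CTree)
    (t₀ t : ℝ) :
    surv Φ ε L f₀ F t₀ ≤ surv Φ ε L f₀ F t +
      HI Φ ε L f₀ F t₀ t (fun T => surv Φ ε L f₀ (T :: F) (ff Φ ε F T)) +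
        RelP Φ ε L f₀ F t := by
  rw [← lintegral_dis hf hΦ hε, add_assoc]
  unfold surv RelP
  rw [← lintegral_add_left (measurable_disSum hΦ hε),
    ← lintegral_add_left (measurable_indUnhit hΦ hε F t)]
  exact lintegral_mono fun c => ind_le_surv_pointwise' hΦ hε (pts c)

theorem le_surv_pointwise' (hΦ : IsPotential Φ) (hε : 0 < ε) (ht : t₀ ≤ t) (w : Finset Ph) :
    ind (CmpF ε F w ∧ Unhit Φ ε L (Wc F w) F t) + ∑' T, ind (Dis Φ ε L F t₀ t w T) ≤
      ind (CmpF ε F w ∧ Unhit Φ ε L (Wc F w) F t₀) +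
        ∑' T, ind (∃ T', PairEv Φ ε L F t₀ t w T T') := by
  classical
  by_cases h : ∃ T, Dis Φ ε L F t₀ t w T
  · obtain ⟨T₁, hT₁⟩ := h
    have h1 : ¬(CmpF ε F w ∧ Unhit Φ ε L (Wc F w) F t) := fun h' =>
      not_noHit_of_firstHit hΦ hε hT₁.1.2 hT₁.2.2.1 hT₁.2.2.2.2 h'.2.2
    have h2 : CmpF ε F w ∧ Unhit Φ ε L (Wc F w) F t₀ :=
      ⟨hT₁.1.1, hT₁.1.2, noHit_of_firstHit hT₁.2.2.1 hT₁.2.2.2.1⟩
    rw [ind_of_false h1, ind_of_true h2, zero_add]
    have hle : ∀ T, ind (Dis Φ ε L F t₀ t w T) ≤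
        (if T = T₁ then 1 else 0) + ind (∃ T', PairEv Φ ε L F t₀ t w T T') := by
      intro T
      by_cases hT : T = T₁
      · rw [if_pos hT]
        exact (ind_le_one _).trans le_self_add
      · rw [if_neg hT, zero_add]
        exact ind_mono fun h3 => ⟨T₁, fun h => hT h.symm, h3, hT₁⟩
    refine (ENNReal.tsum_le_tsum hle).trans ?_
    rw [ENNReal.tsum_add, tsum_ite_eq]
  · have e : ∀ T, ind (Dis Φ ε L F t₀ t w T) = 0 := fun T => ind_of_false fun h' => h ⟨T, h'⟩
    simp only [e, tsum_zero, add_zero]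
    refine le_trans (ind_mono ?_) le_self_add
    exact fun h' => ⟨h'.1, h'.2.mono ht⟩

theorem ind_pair' (hΦ : IsPotential Φ) (hε : 0 < ε) (w : Finset Ph) (T : CTree) :
    ind (∃ T', PairEv Φ ε L F t₀ t w T T') =
      ind (T.leaves ⊆ world (w : Set Ph) ∧ CmpF ε F w) * (Kfh Φ ε L F t₀ t T (rem w T) *
        ind (∃ T', Sec Φ ε L F t₀ t T (rem w T) T')) := by
  rw [← mul_assoc, ← ind_dis hΦ hε]
  by_cases h : Dis Φ ε L F t₀ t w T
  · rw [ind_of_true h, one_mul]
    have h1 : T.leaves ⊆ world (w : Set Ph) :=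
      subset_world_of_disjoint (firstHit_subset h.2.2.1) h.2.1
    refine ind_congr (exists_congr fun T' => ?_)
    unfold Sec PairEv
    rw [← Wc_rem h1]
    constructor
    · rintro ⟨h2, h3, h4⟩
      exact ⟨h2, h4.2.1, ⟨h4.1.2, h4.2.2.1⟩, h4.2.2.2⟩
    · rintro ⟨h2, h3, h4, h5⟩
      exact ⟨h2, h, h.1, h3, h4.2, h5⟩
  · rw [ind_of_false h, zero_mul]
    exact ind_of_false fun h' => h h'.choose_spec.2.1

theorem measurable_secEx (hΦ : IsPotential Φ) (hε : 0 < ε) :
    Measurable fun p : CTree × Conf Ph => ind (∃ T', Sec Φ ε L F t₀ t p.1 (pts p.2) T') := by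
  have h0 : Measurable fun p : CTree × Conf Ph => p.1 := measurable_fst
  have hFs : MF ((fun p : CTree × Conf Ph => p.1) :: cst (CTree × Conf Ph) F) :=
    MF.cons h0 (MF.cst F)
  have hW := RS.Wc hFs (measurable_snd (α := CTree) (β := Conf Ph))
  simp only [ev_cons, ev_cst] at hW
  have h1 : MeasurableSet {q : (CTree × Conf Ph) × CTree |
      Sec Φ ε L F t₀ t q.1.1 (pts q.1.2) q.2} := by
    have hFq := MF.cst (X := (CTree × Conf Ph) × CTree) F
    have h2 : MeasurableSet {q : (CTree × Conf Ph) × CTree | q.2 ≠ q.1.1} :=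
      (measurableSet_eq_fun measurable_snd (measurable_fst.comp measurable_fst)).compl
    have h3 := (RS.leaves (measurable_snd (α := CTree × Conf Ph) (β := CTree))).measurableSet_disjoint
      (RS.lvs hFq)
    have h4 := measurableSet_firstHit hΦ hε hFq
      (hW.comp (measurable_fst (α := CTree × Conf Ph) (β := CTree))) measurable_snd (L := L)
    have h5 := measurable_ff hΦ hε.ne' hFq (measurable_snd (α := CTree × Conf Ph) (β := CTree))
    have h6 := (measurableSet_le (measurable_const (a := t₀)) h5).inter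
      (measurableSet_lt h5 (measurable_const (a := t)))
    simp only [ev_cst] at h3 h4 h6
    refine (h2.inter (h3.inter (h4.inter h6))).congr ?_
    ext q
    simp only [mem_inter_iff, mem_ofPred_eq, Sec]
  refine measurable_ind ?_
  convert (RS.trees hW).measurableSet_exists h1 using 1
  ext p
  constructor
  · rintro ⟨T', hT'⟩
    exact ⟨T', (alive_pre hT'.2.2.1.2.2.1).sub, hT'⟩
  · rintro ⟨T', -, hT'⟩
    exact ⟨T', hT'⟩

/-- **The expected number of disjoint first hitters which are not the only one.** -/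
theorem lintegral_pairs_le' (hf : GoodDatum f₀ κ) (hΦ : IsPotential Φ) (hε : 0 < ε) :
    ∫⁻ c, ∑' T, ind (∃ T', PairEv Φ ε L F t₀ t (pts c) T T') ∂(PP f₀ ε) ≤
      HI Φ ε L f₀ F t₀ t (fun T => RelP Φ ε L f₀ (T :: F) (ff Φ ε F T)) +
        Tie Φ ε L f₀ F t₀ t := by
  have := isProbability_PP (ε := ε) hf
  have h1 := extract_forest (Φ := Φ) (L := L) hf hε F
    (K := fun T w => Kfh Φ ε L F t₀ t T w * ind (∃ T', Sec Φ ε L F t₀ t T w T'))
    (fun T w h => Kfh_ne_zero (left_ne_zero_of_mul h))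
    ((measurable_Kfh hΦ hε).mul (measurable_secEx hΦ hε))
  simp only [← ind_pair' hΦ hε] at h1
  rw [h1]
  unfold Tie
  rw [← HI_add hΦ hε (measurable_RelP_cons hΦ hε)]
  unfold HI
  refine Finset.sum_le_sum fun τ _ => lintegral_mono fun z => ?_
  set T := τ.ord z with hT
  by_cases hok : ok Φ ε T ∧ HitC Φ ε F t₀ t T
  swap
  · have e : ∀ c : Conf Ph, ind (CmpF ε (T :: F) (pts c)) * (Kfh Φ ε L F t₀ t T (pts c) *
        ind (∃ T', Sec Φ ε L F t₀ t T (pts c) T')) = 0 := by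
      intro c
      have : Kfh Φ ε L F t₀ t T (pts c) = 0 := by
        by_contra hne
        exact hok ⟨(Kfh_ne_zero hne).1, ind_ne_zero.1 (left_ne_zero_of_mul hne)⟩
      rw [this, zero_mul, mul_zero]
    simp only [e, lintegral_zero, mul_zero]
    exact zero_le
  obtain ⟨hok, hC⟩ := hok
  have hev : ind (CmpZ ε F z) ≤ ind (HitEv Φ ε F t₀ t z T) :=
    ind_mono fun h => ⟨⟨h, hok, hC.1⟩, hC.2⟩
  refine mul_le_mul' hev ?_
  -- the independent second hitters
  have h2 := extract_forest (Φ := Φ) (L := L) hf hε F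
    (K := fun T' _ => ind ((ok Φ ε T' ∧ T'.depth ≤ L) ∧ HitC Φ ε F t₀ t T' ∧
      ff Φ ε F T' = ff Φ ε F T)) (fun T' w h => (ind_ne_zero.1 h).1) (by
      refine measurable_ind ?_
      have m0 : Measurable fun p : CTree × Conf Ph => p.1 := measurable_fst
      have hFq := MF.cst (X := CTree × Conf Ph) F
      have m1 := (measurableSet_tree_ok hΦ hε.ne' m0).inter
        (meas_depth m0 (measurableSet_Iic (a := L)))
      have m2 := measurableSet_hitC hΦ hε hFq m0 t₀ t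
      have m3 := measurableSet_eq_fun (measurable_ff hΦ hε.ne' hFq m0)
        (measurable_const (a := ff Φ ε F T))
      simp only [ev_cst] at m2 m3
      exact m1.inter (m2.inter m3))
  have h3 : ∀ c : Conf Ph, ind (CmpF ε (T :: F) (pts c)) * (Kfh Φ ε L F t₀ t T (pts c) *
        ind (∃ T', Sec Φ ε L F t₀ t T (pts c) T')) ≤
      ind (∃ T', RelEv Φ ε L (T :: F) (ff Φ ε F T) (pts c) T') +
        ∑' T', ind (T'.leaves ⊆ world (pts c : Set Ph) ∧ CmpF ε F (pts c)) *
          ind ((ok Φ ε T' ∧ T'.depth ≤ L) ∧ HitC Φ ε F t₀ t T' ∧ ff Φ ε F T' = ff Φ ε F T) := by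
    intro c
    by_cases h4 : (CmpF ε (T :: F) (pts c) ∧
        Unhit Φ ε L (Wc (T :: F) (pts c)) (T :: F) (ff Φ ε F T)) ∧
          ∃ T', Sec Φ ε L F t₀ t T (pts c) T'
    · obtain ⟨⟨h4, h5⟩, T', h6⟩ := h4
      have h7 : ind (CmpF ε (T :: F) (pts c)) * (Kfh Φ ε L F t₀ t T (pts c) *
          ind (∃ T', Sec Φ ε L F t₀ t T (pts c) T')) ≤ 1 := by
        unfold Kfh
        rw [← ind_and, ← ind_and, ← ind_and]
        exact ind_le_one _
      refine h7.trans ?_
      rcases sec_cases hΦ hε h4 hC.1 h5 h6 with h8 | ⟨h8, h9⟩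
      · rw [ind_of_true (P := ∃ T', RelEv Φ ε L (T :: F) (ff Φ ε F T) (pts c) T') ⟨T', h8⟩]
        exact le_self_add
      · refine le_trans ?_ (le_add_left (ENNReal.le_tsum T'))
        rw [ind_of_true h8, ind_of_true h9, one_mul]
    · have h5 : ind (CmpF ε (T :: F) (pts c)) * (Kfh Φ ε L F t₀ t T (pts c) *
          ind (∃ T', Sec Φ ε L F t₀ t T (pts c) T')) = 0 := by
        unfold Kfh
        rw [← ind_and, ← ind_and, ← ind_and]
        exact ind_of_false fun h' => h4 ⟨⟨h'.1, h'.2.1.2⟩, h'.2.2⟩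
      rw [h5]; exact zero_le
  refine (lintegral_mono h3).trans ?_
  refine (le_of_eq (lintegral_add_left (measurable_relEx_pts hΦ hε _ _) _)).trans ?_
  refine add_le_add le_rfl ?_
  rw [h2]
  refine Finset.sum_le_sum fun τ' _ => lintegral_mono fun z' => ?_
  have h6 : ∫⁻ c, ind (CmpF ε (τ'.ord z' :: F) (pts c)) *
      ind ((ok Φ ε (τ'.ord z') ∧ (τ'.ord z').depth ≤ L) ∧ HitC Φ ε F t₀ t (τ'.ord z') ∧
        ff Φ ε F (τ'.ord z') = ff Φ ε F T) ∂(PP f₀ ε) ≤
      ind ((ok Φ ε (τ'.ord z') ∧ (τ'.ord z').depth ≤ L) ∧ HitC Φ ε F t₀ t (τ'.ord z') ∧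
        ff Φ ε F (τ'.ord z') = ff Φ ε F T) := by
    calc _ ≤ ∫⁻ _ : Conf Ph, ind ((ok Φ ε (τ'.ord z') ∧ (τ'.ord z').depth ≤ L) ∧
          HitC Φ ε F t₀ t (τ'.ord z') ∧ ff Φ ε F (τ'.ord z') = ff Φ ε F T) ∂(PP f₀ ε) :=
          lintegral_mono fun c => (mul_le_mul_left (ind_le_one _) _).trans (one_mul _).le
      _ = _ := by rw [lintegral_const, measure_univ, mul_one]
  refine (mul_le_mul_right h6 _).trans ?_
  rw [← ind_and, ← ind_and]
  refine ind_mono ?_
  rintro ⟨h7, ⟨h8, -⟩, h9, h10⟩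
  exact ⟨⟨⟨h7, h8, h9.1⟩, h9.2⟩, h10⟩

/-- **(S), lower bound for the loss.** -/
theorem le_surv' (hf : GoodDatum f₀ κ) (hΦ : IsPotential Φ) (hε : 0 < ε) (F : List CTree)
    (ht : t₀ ≤ t) :
    surv Φ ε L f₀ F t +
        HI Φ ε L f₀ F t₀ t (fun T => surv Φ ε L f₀ (T :: F) (ff Φ ε F T)) ≤
      surv Φ ε L f₀ F t₀ + (HI Φ ε L f₀ F t₀ t (fun T => RelP Φ ε L f₀ (T :: F) (ff Φ ε F T)) +
        Tie Φ ε L f₀ F t₀ t) := by
  rw [← lintegral_dis hf hΦ hε]
  refine le_trans ?_ (add_le_add le_rfl (lintegral_pairs_le' hf hΦ hε))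
  unfold surv
  rw [← lintegral_add_left (measurable_indUnhit hΦ hε F t),
    ← lintegral_add_left (measurable_indUnhit hΦ hε F t₀)]
  exact lintegral_mono fun c => le_surv_pointwise' hΦ hε ht (pts c)

/-- **(D), first inequality.** -/
theorem Dp_le' (hf : GoodDatum f₀ κ) (hΦ : IsPotential Φ) (hε : 0 < ε) (A C : List CTree)
    (c : CTree) (t : ℝ) : Dp Φ ε L f₀ A C c t ≤ RelP Φ ε L f₀ (c :: C) t +
      HI Φ ε L f₀ [c] 0 t (fun T' => Dm Φ ε L f₀ A (c :: C) T' (ff Φ ε [c] T')) := by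
  have m0 : Measurable fun p : CTree × Conf Ph => p.1 := measurable_fst
  have hE := measurableSet_DmEv (L := L) hΦ hε (MF.cst (X := CTree × Conf Ph) A)
    (MF.cst (X := CTree × Conf Ph) (c :: C)) m0 measurable_snd
    (measurable_ff hΦ hε.ne' (MF.cst (X := CTree × Conf Ph) [c]) m0)
  simp only [ev_cst] at hE
  have h1 := extract_two hf hΦ hε (A := A) (C := C) (c := c) (t := t)
    (E := fun T w => DmEv Φ ε L A (c :: C) T (ff Φ ε [c] T) w) (fun T w h => ok_of_DmEv h) hE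
  simp only [Dm_eq]
  refine le_trans ?_ (add_le_add le_rfl h1)
  rw [Dp_eq]
  unfold RelP
  rw [← lintegral_add_left (measurable_relEx_pts hΦ hε (c :: C) t)]
  refine lintegral_mono fun o => ?_
  rw [← ind_and]
  by_cases h : CmpF ε (A ++ c :: C) (pts o) ∧ DpEv Φ ε L A C c t (pts o)
  · rw [ind_of_true h]
    obtain ⟨T', h2 | h2⟩ := DpEv_cases hΦ hε h.1 h.2
    · rw [ind_of_true (P := ∃ T', RelEv Φ ε L (c :: C) t (pts o) T') ⟨T', h2⟩]
      exact le_self_add
    · refine le_trans ?_ (le_add_left (ENNReal.le_tsum T'))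
      rw [ind_of_true h2]
  · rw [ind_of_false h]; exact zero_le

/-- **(D), second inequality.** -/
theorem Dm_le' (hf : GoodDatum f₀ κ) (hΦ : IsPotential Φ) (hε : 0 < ε) (A C : List CTree)
    (c : CTree) (t : ℝ) : Dm Φ ε L f₀ A C c t ≤ RelP Φ ε L f₀ (A ++ c :: C) t +
      HI Φ ε L f₀ [c] 0 t (fun T' => Dp Φ ε L f₀ A (c :: C) T' (ff Φ ε [c] T')) := by
  have m0 : Measurable fun p : CTree × Conf Ph => p.1 := measurable_fst
  have hE := measurableSet_DpEv (L := L) hΦ hε (MF.cst (X := CTree × Conf Ph) A)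
    (MF.cst (X := CTree × Conf Ph) (c :: C)) m0 measurable_snd
    (measurable_ff hΦ hε.ne' (MF.cst (X := CTree × Conf Ph) [c]) m0)
  simp only [ev_cst] at hE
  have h1 := extract_two hf hΦ hε (A := A) (C := C) (c := c) (t := t)
    (E := fun T w => DpEv Φ ε L A (c :: C) T (ff Φ ε [c] T) w) (fun T w h => ok_of_DpEv h) hE
  simp only [Dp_eq]
  refine le_trans ?_ (add_le_add le_rfl h1)
  rw [Dm_eq]
  unfold RelP
  rw [← lintegral_add_left (measurable_relEx_pts hΦ hε (A ++ c :: C) t)]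
  refine lintegral_mono fun o => ?_
  rw [← ind_and]
  by_cases h : CmpF ε (A ++ c :: C) (pts o) ∧ DmEv Φ ε L A C c t (pts o)
  · rw [ind_of_true h]
    obtain ⟨T', h2 | h2⟩ := DmEv_cases hΦ hε h.1 h.2
    · rw [ind_of_true (P := ∃ T', RelEv Φ ε L (A ++ c :: C) t (pts o) T') ⟨T', h2⟩]
      exact le_self_add
    · refine le_trans ?_ (le_add_left (ENNReal.le_tsum T'))
      rw [ind_of_true h2]
  · rw [ind_of_false h]; exact zero_le

end Vale.Agent.P119.ML
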