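import Mathlib

/-!
# Abstract hierarchy estimate

`Σ'` is a type of (convergent sequences of) forests, `D n σ t ∈ [0,1]` the defect of the `n`-th
survival probability at time `t`, `att σ q` the forest `σ` with a tree attached at time `tm q`,
`W σ` the measure of the hit parameters.  The defects vanish in the limit, for all times.
-/

open MeasureTheory Filter Topology Set
open scoped ENNReal NNReal

noncomputable section

namespace Vale.Agent.P119.ML

/-- The hypotheses of the hierarchy estimate. -/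
structure Hier (S : Type*) (P : Type*) [MeasurableSpace P] where
  /-- time horizon of a forest -/
  hor : S → ℝ
  /-- size of a forest (number of lines and sum of the velocities) -/
  a : S → ℝ
  /-- defects -/
  D : ℕ → S → ℝ → ℝ≥0∞
  /-- attach a tree -/
  att : S → P → S
  /-- time of the attachment -/
  tm : P → ℝ
  /-- measure of the hit parameters -/
  W : S → Measure P
  /-- the constant -/
  C : ℝ
  a_nonneg : ∀ σ, 0 ≤ a σ
  C_nonneg : 0 ≤ C
  D_le : ∀ n σ t, D n σ t ≤ 1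
  meas_tm : Measurable tm
  meas : ∀ n σ, Measurable fun q => D n (att σ q) (tm q)
  hor_att : ∀ σ, ∀ᵐ q ∂(W σ), tm q ≤ hor (att σ q)
  step : ∀ σ t, 0 ≤ t → t ≤ hor σ → ∃ r : ℕ → ℝ≥0∞, Tendsto r atTop (𝓝 0) ∧
    ∀ n, D n σ t ≤ ∫⁻ q in {q | 0 ≤ tm q ∧ tm q < t}, D n (att σ q) (tm q) ∂(W σ) + r n
  weight : ∀ σ t₀ t, 0 ≤ t₀ → t₀ ≤ t → t ≤ hor σ → ∀ l ∈ Icc (0 : ℝ) 1, ∀ g : ℝ → ℝ≥0∞,
    Measurable g →
    ∫⁻ q in {q | t₀ ≤ tm q ∧ tm q < t}, g (tm q) * ENNReal.ofReal (Real.exp (l * a (att σ q)))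
        ∂(W σ) ≤
      ENNReal.ofReal (C * a σ * Real.exp (l * a σ)) * ∫⁻ s in Ico t₀ t, g s

namespace Hier

variable {S P : Type*} [MeasurableSpace P] (H : Hier S P)

theorem measurableSet_slab (t₀ t : ℝ) : MeasurableSet {q : P | t₀ ≤ H.tm q ∧ H.tm q < t} :=
  (measurableSet_le measurable_const H.meas_tm).inter
    (measurableSet_lt H.meas_tm measurable_const)

theorem W_lt_top {σ : S} {t₀ t : ℝ} (h0 : 0 ≤ t₀) (ht : t₀ ≤ t) (hh : t ≤ H.hor σ) :
    H.W σ {q | t₀ ≤ H.tm q ∧ H.tm q < t} < ∞ := by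
  have h := H.weight σ t₀ t h0 ht hh 0 ⟨le_rfl, zero_le_one⟩ (fun _ => 1) measurable_const
  simp only [zero_mul, Real.exp_zero, ENNReal.ofReal_one, mul_one, lintegral_one,
    Measure.restrict_apply_univ] at h
  refine h.trans_lt ?_
  rw [Real.volume_Ico]
  exact ENNReal.mul_lt_top ENNReal.ofReal_lt_top ENNReal.ofReal_lt_top

/-- The limsup of the defect. -/
def L (σ : S) (t : ℝ) : ℝ≥0∞ := limsup (fun n => H.D n σ t) atTop

theorem L_le_one (σ : S) (t : ℝ) : H.L σ t ≤ 1 := by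
  refine limsup_le_of_le (by isBoundedDefault) ?_
  exact Eventually.of_forall fun n => H.D_le n σ t

/-- One step of the iteration. -/
theorem L_step {σ : S} {t : ℝ} (ht : 0 ≤ t) (hh : t ≤ H.hor σ) :
    H.L σ t ≤ ∫⁻ q in {q | 0 ≤ H.tm q ∧ H.tm q < t}, H.L (H.att σ q) (H.tm q) ∂(H.W σ) := by
  obtain ⟨r, hr, hD⟩ := H.step σ t ht hh
  have hfin : (∫⁻ _ in {q : P | 0 ≤ H.tm q ∧ H.tm q < t}, 1 ∂(H.W σ)) ≠ ∞ := by
    rw [lintegral_one, Measure.restrict_apply_univ]
    exact (H.W_lt_top le_rfl ht hh).ne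
  have hf := limsup_lintegral_le (μ := (H.W σ).restrict {q | 0 ≤ H.tm q ∧ H.tm q < t})
    (f := fun n q => H.D n (H.att σ q) (H.tm q)) (fun _ => 1) (fun n => H.meas n σ)
    (fun n => Eventually.of_forall fun q => H.D_le n _ _) hfin
  calc H.L σ t ≤ limsup (fun n =>
        ∫⁻ q in {q | 0 ≤ H.tm q ∧ H.tm q < t}, H.D n (H.att σ q) (H.tm q) ∂(H.W σ) + r n) atTop :=
        limsup_le_limsup (Eventually.of_forall hD)
    _ = limsup (fun n =>
        ∫⁻ q in {q | 0 ≤ H.tm q ∧ H.tm q < t}, H.D n (H.att σ q) (H.tm q) ∂(H.W σ)) atTop :=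
        ENNReal.limsup_add_of_right_tendsto_zero hr _
    _ ≤ _ := hf

/-- One step, when the limit vanishes before `t₀`. -/
theorem L_step' {t₀ : ℝ} (hz : ∀ σ t, 0 ≤ t → t ≤ t₀ → t ≤ H.hor σ → H.L σ t = 0)
    {σ : S} {t : ℝ} (h0 : 0 ≤ t₀) (ht : t₀ ≤ t) (hh : t ≤ H.hor σ) :
    H.L σ t ≤ ∫⁻ q in {q | t₀ ≤ H.tm q ∧ H.tm q < t}, H.L (H.att σ q) (H.tm q) ∂(H.W σ) := by
  refine (H.L_step (h0.trans ht) hh).trans ?_
  rw [← lintegral_indicator (H.measurableSet_slab 0 t),
    ← lintegral_indicator (H.measurableSet_slab t₀ t)]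
  refine lintegral_mono_ae ?_
  filter_upwards [H.hor_att σ] with q hq
  by_cases h1 : 0 ≤ H.tm q ∧ H.tm q < t
  · by_cases h2 : t₀ ≤ H.tm q
    · rw [indicator_of_mem (by exact h1), indicator_of_mem (by exact ⟨h2, h1.2⟩)]
    · rw [indicator_of_mem (by exact h1), hz _ _ h1.1 (not_le.1 h2).le hq]
      exact zero_le
  · rw [indicator_of_notMem (by exact h1)]
    exact zero_le

/-- The bound after `i` of `m` steps. -/
def bnd (C : ℝ) (m i : ℕ) (τ a : ℝ) : ℝ :=
  (C * m) ^ i * τ ^ i / i.factorial * Real.exp ((i / m : ℝ) * a)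

theorem L_iter {t₀ : ℝ} (h0 : 0 ≤ t₀)
    (hz : ∀ σ t, 0 ≤ t → t ≤ t₀ → t ≤ H.hor σ → H.L σ t = 0) {m : ℕ}
    (hm : 0 < m) (i : ℕ) (hi : i ≤ m) : ∀ σ t, t₀ ≤ t → t ≤ H.hor σ →
    H.L σ t ≤ ENNReal.ofReal (bnd H.C m i (t - t₀) (H.a σ)) := by
  induction i with
  | zero =>
    intro σ t _ _
    simp only [bnd, pow_zero, Nat.factorial_zero, Nat.cast_one, Nat.cast_zero, zero_div, zero_mul,
      Real.exp_zero, mul_one, div_one, ENNReal.ofReal_one]
    exact H.L_le_one σ t
  | succ i ih =>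
    intro σ t ht hh
    have hm0 : (0 : ℝ) < m := by exact_mod_cast hm
    have ih := ih (by omega)
    have hl : (i / m : ℝ) ∈ Icc (0 : ℝ) 1 := by
      refine ⟨by positivity, ?_⟩
      rw [div_le_one hm0]
      exact_mod_cast (by omega : i ≤ m)
    set g : ℝ → ℝ≥0∞ := fun s => ENNReal.ofReal ((H.C * m) ^ i * (s - t₀) ^ i / i.factorial)
      with hg
    have hgm : Measurable g := by
      rw [hg]; fun_prop
    refine (H.L_step' hz h0 ht hh).trans ?_
    have h1 : ∫⁻ q in {q | t₀ ≤ H.tm q ∧ H.tm q < t}, H.L (H.att σ q) (H.tm q) ∂(H.W σ) ≤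
        ∫⁻ q in {q | t₀ ≤ H.tm q ∧ H.tm q < t},
          g (H.tm q) * ENNReal.ofReal (Real.exp ((i / m : ℝ) * H.a (H.att σ q))) ∂(H.W σ) := by
      refine lintegral_mono_ae ?_
      have hae : ∀ᵐ q ∂((H.W σ).restrict {q | t₀ ≤ H.tm q ∧ H.tm q < t}),
          H.tm q ≤ H.hor (H.att σ q) := ae_restrict_of_ae (H.hor_att σ)
      filter_upwards [hae, ae_restrict_mem (H.measurableSet_slab t₀ t)] with q hq hq2
      refine (ih _ _ hq2.1 hq).trans (le_of_eq ?_)
      rw [bnd, hg]
      rw [ENNReal.ofReal_mul]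
      have : 0 ≤ H.tm q - t₀ := by linarith [hq2.1]
      have := H.C_nonneg
      positivity
    refine h1.trans ((H.weight σ t₀ t h0 ht hh _ hl g hgm).trans ?_)
    have hτ : 0 ≤ t - t₀ := by linarith
    have hint : ∫⁻ s in Ico t₀ t, g s =
        ENNReal.ofReal ((H.C * m) ^ i * (t - t₀) ^ (i + 1) / (i.factorial * (i + 1))) := by
      rw [hg, setLIntegral_congr Ico_ae_eq_Ioc, ← ofReal_integral_eq_lintegral_ofReal]
      · congr 1
        rw [← intervalIntegral.integral_of_le ht]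
        have e : ∀ s, (H.C * m) ^ i * (s - t₀) ^ i / (i.factorial : ℝ) =
            ((H.C * m) ^ i / i.factorial) * (s - t₀) ^ i := fun s => by ring
        simp_rw [e]
        rw [intervalIntegral.integral_const_mul,
          intervalIntegral.integral_comp_sub_right (fun s => s ^ i) t₀, integral_pow]
        simp only [sub_self, ne_eq, Nat.add_eq_zero_iff, one_ne_zero, and_false, not_false_eq_true,
          zero_pow, sub_zero]
        field_simp
      · have : Continuous fun s => (H.C * m) ^ i * (s - t₀) ^ i / (i.factorial : ℝ) := by fun_prop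
        exact (this.integrableOn_Icc).mono_set Ioc_subset_Icc_self
      · refine (ae_restrict_mem measurableSet_Ioc).mono fun s hs => ?_
        have : 0 ≤ s - t₀ := by linarith [hs.1]
        have := H.C_nonneg
        positivity
    rw [hint, ← ENNReal.ofReal_mul (by
      have := H.C_nonneg; have := H.a_nonneg σ; positivity)]
    refine ENNReal.ofReal_le_ofReal ?_
    rw [bnd]
    have ha := H.a_nonneg σ
    have hC := H.C_nonneg
    have hexp : H.a σ ≤ m * Real.exp (H.a σ / m) := by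
      have := Real.add_one_le_exp (H.a σ / m)
      have h2 : H.a σ / m ≤ Real.exp (H.a σ / m) := by linarith
      rw [div_le_iff₀ hm0] at h2
      linarith
    have e1 : Real.exp (((i + 1 : ℕ) / m : ℝ) * H.a σ) =
        Real.exp ((i / m : ℝ) * H.a σ) * Real.exp (H.a σ / m) := by
      rw [← Real.exp_add]; congr 1; push_cast; ring
    rw [e1, Nat.factorial_succ]
    push_cast
    have hfac : (0 : ℝ) < i.factorial := by positivity
    have hE := Real.exp_pos ((i / m : ℝ) * H.a σ)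
    calc H.C * H.a σ * Real.exp ((i / m : ℝ) * H.a σ) *
          ((H.C * m) ^ i * (t - t₀) ^ (i + 1) / (i.factorial * (i + 1)))
        ≤ H.C * (m * Real.exp (H.a σ / m)) * Real.exp ((i / m : ℝ) * H.a σ) *
          ((H.C * m) ^ i * (t - t₀) ^ (i + 1) / (i.factorial * (i + 1))) := by
          gcongr
      _ = _ := by
          field_simp
          ring

theorem window {t₀ h : ℝ} (h0 : 0 ≤ t₀)
    (hz : ∀ σ t, 0 ≤ t → t ≤ t₀ → t ≤ H.hor σ → H.L σ t = 0)
    (hh0 : 0 ≤ h) (hh : H.C * Real.exp 1 * h ≤ 1 / 2) :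
    ∀ σ t, t₀ ≤ t → t ≤ t₀ + h → t ≤ H.hor σ → H.L σ t = 0 := by
  intro σ t ht htw hσ
  have hC := H.C_nonneg
  have key : ∀ m : ℕ, 0 < m → H.L σ t ≤ ENNReal.ofReal ((1 / 2) ^ m * Real.exp (H.a σ)) := by
    intro m hm
    have hm0 : (0 : ℝ) < m := by exact_mod_cast hm
    refine (H.L_iter h0 hz hm m le_rfl σ t ht hσ).trans (ENNReal.ofReal_le_ofReal ?_)
    rw [bnd, div_self hm0.ne', one_mul]
    gcongr
    have hτ0 : 0 ≤ t - t₀ := by linarith
    have h1 : (m : ℝ) ^ m / m.factorial ≤ Real.exp 1 ^ m := by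
      rw [← Real.exp_nat_mul, mul_one]
      exact Real.pow_div_factorial_le_exp _ hm0.le _
    calc (H.C * m) ^ m * (t - t₀) ^ m / m.factorial
        = (H.C * (t - t₀)) ^ m * ((m : ℝ) ^ m / m.factorial) := by
          rw [mul_pow, mul_pow]; ring
      _ ≤ (H.C * h) ^ m * Real.exp 1 ^ m := by
          gcongr
          linarith
      _ = (H.C * Real.exp 1 * h) ^ m := by rw [← mul_pow]; ring
      _ ≤ (1 / 2) ^ m := by gcongr
  have hlim : Tendsto (fun m : ℕ => ENNReal.ofReal ((1 / 2) ^ m * Real.exp (H.a σ))) atTop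
      (𝓝 0) := by
    have : Tendsto (fun m : ℕ => (1 / 2 : ℝ) ^ m * Real.exp (H.a σ)) atTop
        (𝓝 (0 * Real.exp (H.a σ))) :=
      (tendsto_pow_atTop_nhds_zero_of_lt_one (by norm_num) (by norm_num)).mul_const _
    rw [zero_mul] at this
    simpa using ENNReal.tendsto_ofReal this
  refine le_antisymm (ge_of_tendsto hlim ?_) bot_le
  filter_upwards [eventually_gt_atTop 0] with m hm using key m hm

/-- **Hierarchy estimate**: the defects vanish in the limit for all times. -/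
theorem main (σ : S) {t : ℝ} (ht : 0 ≤ t) (hσ : t ≤ H.hor σ) :
    Tendsto (fun n => H.D n σ t) atTop (𝓝 0) := by
  have hC := H.C_nonneg
  set h : ℝ := 1 / (2 * (H.C * Real.exp 1 + 1)) with hh
  have hpos : 0 < H.C * Real.exp 1 + 1 := by positivity
  have hh0 : 0 < h := by positivity
  have hh1 : H.C * Real.exp 1 * h ≤ 1 / 2 := by
    rw [hh, mul_one_div, div_le_div_iff₀ (by positivity) (by norm_num)]
    linarith
  have key : ∀ k : ℕ, ∀ σ t, 0 ≤ t → t ≤ k * h → t ≤ H.hor σ → H.L σ t = 0 := by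
    intro k
    induction k with
    | zero =>
      intro σ t h1 h2 h3
      have h4 : t = 0 := by
        simp only [Nat.cast_zero, zero_mul] at h2; linarith
      subst h4
      refine le_antisymm ((H.L_step le_rfl h3).trans (le_of_eq ?_)) bot_le
      have h5 : {q : P | 0 ≤ H.tm q ∧ H.tm q < 0} = ∅ := by
        ext q
        simp only [mem_ofPred_eq, mem_empty_iff_false, iff_false, not_and, not_lt]
        exact fun h => h
      rw [h5, Measure.restrict_empty, lintegral_zero_measure]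
    | succ k ih =>
      intro σ t h1 h2 h3
      rcases le_total t (k * h) with h4 | h4
      · exact ih σ t h1 h4 h3
      · have hk : (0 : ℝ) ≤ k * h := by positivity
        refine H.window hk ih hh0.le hh1 σ t h4 ?_ h3
        push_cast at h2
        linarith
  obtain ⟨k, hk⟩ := exists_nat_ge (t / h)
  have hk' : t ≤ k * h := by rwa [div_le_iff₀ hh0] at hk
  exact tendsto_of_le_liminf_of_limsup_le bot_le (le_of_eq (key k σ t ht hk' hσ))

end Hier

end Vale.Agent.P119.ML
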