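import Vale.Agent.P119.ML.LimEq
import Vale.Agent.P119.ML.FH7
import Vale.Agent.P119.ML.Hier

/-!
# P119, block ML (`helper388`): generic forests, tools for the hierarchy

* `GSys Φ f₀ L`: the properties of generic forests which the hierarchy uses;
* `ae_WF`: properties of almost all attachments;
* `conv0`: convergence of the hit integral to the integral over the attachments;
* `rel_att`, `hi_rel`, `tie_zero`: the errors vanish.
-/

open MeasureTheory Filter Topology Set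
open scoped ENNReal NNReal

noncomputable section

namespace Vale.Agent.P119.ML

open KU M CTree KT KE GC MM

/-- The properties of generic forests which the hierarchy uses. -/
structure GSys (Φ : E3 → ℝ) (f₀ : Ph → ℝ) (L : ℕ) where
  /-- generic until the time `t` -/
  Gen : List TG → ℝ → Prop
  perm : ∀ {F F' : List TG} {t : ℝ}, F.Perm F' → Gen F t → Gen F' t
  sub : ∀ {F F' : List TG} {t : ℝ}, F.Sublist F' → Gen F' t → Gen F t
  mono : ∀ {F : List TG} {s t : ℝ}, s ≤ t → Gen F t → Gen F s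
  depth : ∀ {F : List TG} {t : ℝ}, Gen F t → ∀ G ∈ F, G.τ.depth ≤ L
  good : ∀ {F : List TG} {t : ℝ}, Gen F t → GoodF Φ F
  okF : ∀ {F : List TG} {t : ℝ}, Gen F t → ∀ᶠ ε in 𝓝[>] (0 : ℝ), OkF Φ ε L (trees Φ ε F)
  sep : ∀ {F : List TG} {t : ℝ}, Gen F t → (flegs Φ F t).Pairwise (sepR t)
  rel : ∀ {F : List TG} {t : ℝ}, Gen F t →
    Tendsto (fun ε => RelP Φ ε L f₀ (trees Φ ε F) t) (𝓝[>] 0) (𝓝 0)
  att : ∀ {F : List TG} {t : ℝ}, Gen F t → ∀ x ∈ flegs Φ F t, ∀ τ ∈ shapes L,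
    ∀ᵐ y ∂(nvol.prod (pvol τ)), max x.2.1 0 < y.1.1 → y.1.1 < min x.2.2 t →
      KT.good Φ τ y.1.2.1 y.2 → tok Φ 0 τ y.1.2.1 y.2 → ex 0 τ y.1.2.1 y.2 ≤ y.1.1 →
      Gen (TG.hit x.1 τ y.1 y.2 :: F) y.1.1

/-! ### Almost all attachments -/

theorem measurableEmbedding_mkAP (τ : Shape) (ℓ : LG) :
    MeasurableEmbedding fun y : ND × PD τ => (⟨τ, ℓ, y⟩ : AP) := by
  classical
  refine ⟨?_, measurable_mkAP τ ℓ, ?_⟩
  · intro y y' h
    have h1 := Sigma.mk.inj h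
    have h2 := eq_of_heq h1.2
    exact (Prod.ext_iff.1 h2).2
  · intro s hs
    refine MeasurableSpace.measurableSet_iInf.2 fun τ' => ?_
    change MeasurableSet (Sigma.mk τ' ⁻¹' ((fun y : ND × PD τ => (⟨τ, ℓ, y⟩ : AP)) '' s))
    by_cases h : τ' = τ
    · subst h
      have h1 : Sigma.mk τ' ⁻¹' ((fun y : ND × PD τ' => (⟨τ', ℓ, y⟩ : AP)) '' s) = {ℓ} ×ˢ s := by
        ext x
        constructor
        · rintro ⟨y, hy, hxy⟩
          have h2 := eq_of_heq (Sigma.mk.inj hxy).2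
          rw [← h2]
          exact ⟨rfl, hy⟩
        · rintro ⟨h2, h3⟩
          refine ⟨x.2, h3, ?_⟩
          have h4 : x.1 = ℓ := h2
          change (⟨τ', ℓ, x.2⟩ : AP) = ⟨τ', x⟩
          rw [← h4]
      rw [h1]
      exact (measurableSet_singleton ℓ).prod hs
    · have h1 : Sigma.mk τ' ⁻¹' ((fun y : ND × PD τ => (⟨τ, ℓ, y⟩ : AP)) '' s) = ∅ := by
        ext x
        simp only [mem_preimage, mem_image, mem_empty_iff_false, iff_false, not_exists, not_and]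
        intro y _ hxy
        exact h (Sigma.mk.inj hxy).1.symm
      rw [h1]
      exact MeasurableSet.empty

variable {Φ : E3 → ℝ} {g : Ph → ℝ≥0∞} {L : ℕ}

theorem ae_wleg (hΦ : IsPotential Φ) (hg : Measurable g) (ℓ : LG) (a b : ℝ) {P : AP → Prop}
    (h : ∀ τ ∈ shapes L, ∀ᵐ y ∂(nvol.prod (pvol τ)), regw g Φ 0 τ ℓ.1 a b y ≠ 0 → P ⟨τ, ℓ, y⟩) :
    ∀ᵐ q ∂(wleg g Φ L ℓ a b), P q := by
  unfold wleg
  refine Finset.sum_induction _ (fun μ : Measure AP => ∀ᵐ q ∂μ, P q)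
    (fun μ ν h1 h2 => ae_add_measure_iff.2 ⟨h1, h2⟩) (by simp) fun τ hτ => ?_
  rw [(measurableEmbedding_mkAP τ ℓ).ae_map_iff,
    ae_withDensity_iff (measurable_regw hg hΦ 0 τ ℓ.1 a b)]
  exact h τ hτ

theorem ae_WF (hΦ : IsPotential Φ) (hg : Measurable g) (F : List TG) (h : ℝ) {P : AP → Prop}
    (hP : ∀ x ∈ flegs Φ F h, ∀ τ ∈ shapes L, ∀ᵐ y ∂(nvol.prod (pvol τ)),
      regw g Φ 0 τ x.1.1 (max x.2.1 0) (min x.2.2 h) y ≠ 0 → P ⟨τ, x.1, y⟩) :
    ∀ᵐ q ∂(WF g Φ L F h), P q := by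
  unfold WF
  revert hP
  induction flegs Φ F h with
  | nil => intro _; simp
  | cons x l ih =>
    intro hP
    rw [List.map_cons, List.sum_cons, ae_add_measure_iff]
    exact ⟨ae_wleg hΦ hg _ _ _ (hP x List.mem_cons_self),
      ih fun y hy => hP y (List.mem_cons_of_mem _ hy)⟩

theorem regw_ne_zero {τ : Shape} {ℓ : Ph} {a b : ℝ} {y : ND × PD τ}
    (h : regw g Φ 0 τ ℓ a b y ≠ 0) : KT.good Φ τ y.1.2.1 y.2 ∧ tok Φ 0 τ y.1.2.1 y.2 ∧
      ex 0 τ y.1.2.1 y.2 ≤ y.1.1 ∧ a ≤ y.1.1 ∧ y.1.1 < b := by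
  unfold regw at h
  have h1 := right_ne_zero_of_mul h
  have h2 := left_ne_zero_of_mul h1
  have h3 := right_ne_zero_of_mul h1
  refine ⟨(wt_ne_zero_iff τ _ _).1 h2, ?_⟩
  by_contra hc
  exact h3 (indicator_of_notMem (by exact hc) _)

/-- Almost all attachments to a generic forest are generic. -/
theorem GSys.ae_att {f₀ : Ph → ℝ} (S : GSys Φ f₀ L) (hΦ : IsPotential Φ) (hg : Measurable g)
    {F : List TG} {h : ℝ} (hF : S.Gen F h) :
    ∀ᵐ q ∂(WF g Φ L F h), S.Gen (q.tg :: F) q.tm ∧ q.tm < h := by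
  refine ae_WF hΦ hg F h fun x hx τ hτ => ?_
  filter_upwards [S.att hF x hx τ hτ, ae_time_ne (ν := pvol τ) (c := fun _ => max x.2.1 0)
    measurable_const] with y h1 h2 h3
  obtain ⟨h4, h5, h6, h7, h8⟩ := regw_ne_zero h3
  exact ⟨h1 (lt_of_le_of_ne h7 (Ne.symm h2)) h8 h4 h5 h6, h8.trans_le (min_le_right _ _)⟩

/-! ### Measurability of the attached tree -/

theorem measurable_tree_AP (hΦ : IsPotential Φ) (ε : ℝ) :
    Measurable fun q : AP => q.tg.tree Φ ε :=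
  measurable_of_sigma fun τ => (measurable_tree_germ hΦ ε τ).comp
    ((measurable_hG'.comp (by fun_prop : Measurable fun x : LG × (ND × PD τ) =>
      (x.1, x.2.1))).prodMk (by fun_prop : Measurable fun x : LG × (ND × PD τ) => x.2.2))

end Vale.Agent.P119.ML
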