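import Vale.Agent.P119.ML.Two
import Vale.Agent.P119.ML.Sys

/-!
# P119, block ML (`helper755`): two separate worlds, the limit

* `WF_slab_lt_top`, `mainF_eq_WF`; `hi_zero`: a hit integral vanishes if the integrand vanishes for
  almost all attachments;
* `DLim`: the input (D); `ej_zero`, `es_zero`, **`surv2_lim`**.
-/

open MeasureTheory Filter Topology Set
open scoped ENNReal NNReal

noncomputable section

namespace Vale.Agent.P119.ML

open KU M CTree KT KE GC MM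

variable {Φ : E3 → ℝ} {f₀ : Ph → ℝ} {L : ℕ}

/-- `MainF` as an integral over the attachments. -/
theorem mainF_eq_WF (hΦ : IsPotential Φ) (hf : Measurable f₀) (F : List TG) (t ε : ℝ)
    {H : CTree → ℝ → ℝ≥0∞} (hH : Measurable fun p : CTree × ℝ => H p.1 p.2) :
    MainF Φ f₀ L F 0 t ε H =
      ∫⁻ q in {q : AP | 0 ≤ q.tm ∧ q.tm < t}, H (q.tg.tree Φ ε) q.tm ∂(WF (fh f₀) Φ L F t) := by
  have hφ : Measurable fun q : AP => H (q.tg.tree Φ ε) q.tm :=
    hH.comp ((measurable_tree_AP hΦ ε).prodMk AP.measurable_tm)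
  rw [lintegral_WF_slab hΦ (measurable_fh hf) F le_rfl le_rfl hφ]
  rfl

theorem sum_ne_top {α : Type*} (l : List α) (φ : α → ℝ≥0∞) (h : ∀ x ∈ l, φ x ≠ ∞) :
    (l.map φ).sum ≠ ∞ := by
  induction l with
  | nil => simp
  | cons x l ih =>
    rw [List.map_cons, List.sum_cons]
    exact ENNReal.add_ne_top.2 ⟨h x List.mem_cons_self,
      ih fun y hy => h y (List.mem_cons_of_mem _ hy)⟩

theorem WF_slab_ne_top (hΦ : IsPotential Φ) (hfm : Measurable f₀) {b M₀ : ℝ} (hb : 0 < b)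
    (hM : 0 ≤ M₀) (hf : ∀ z, f₀ z ≤ M₀ * Real.exp (-b * ‖z.2‖ ^ 2)) (F : List TG) (t : ℝ) :
    ∫⁻ _ in {q : AP | 0 ≤ q.tm ∧ q.tm < t}, 1 ∂(WF (fh f₀) Φ L F t) ≠ ∞ := by
  rw [lintegral_WF_slab hΦ (measurable_fh hfm) F le_rfl le_rfl measurable_const]
  refine sum_ne_top _ _ fun x _ => ?_
  refine (ENNReal.sum_lt_top.2 fun τ _ => ?_).ne
  simp only [mul_one]
  exact (lintegral_regw_ne_top hΦ hb hM hf τ x.1.1 _ _).lt_top

/-- The attachments to a part of a forest are attachments to the forest. -/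
theorem WF_append (g : Ph → ℝ≥0∞) (F G : List TG) (h : ℝ) :
    WF g Φ L (F ++ G) h = WF g Φ L F h + WF g Φ L G h := by
  have h1 : flegs Φ (F ++ G) h = flegs Φ F h ++ flegs Φ G h := List.flatMap_append
  unfold WF
  rw [h1, List.map_append, List.sum_append]

section lim

variable {ι : Type*} {l : Filter ι} [l.NeBot] [l.IsCountablyGenerated] {εs : ι → ℝ} {κ b M₀ : ℝ}

/-- **A hit integral vanishes** if the integrand vanishes for almost all attachments. -/
theorem hi_zero (S : GSys Φ f₀ L) (hΦ : IsPotential Φ) (hg : GoodDatum f₀ κ)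
    (hc : Continuous f₀) (hb : 0 < b) (hM : 0 ≤ M₀)
    (hf : ∀ z, f₀ z ≤ M₀ * Real.exp (-b * ‖z.2‖ ^ 2)) (hε : Tendsto εs l (𝓝[>] 0)) {F : List TG}
    {t : ℝ} (hF : S.Gen F t) {D : ι → CTree → ℝ → ℝ≥0∞}
    (hm : ∀ᶠ i in l, Measurable fun p : CTree × ℝ => D i p.1 p.2) (h1 : ∀ i T s, D i T s ≤ 1)
    (h0 : ∀ᵐ q ∂(WF (fh f₀) Φ L F t), 0 ≤ q.tm → q.tm < t →
      Tendsto (fun i => D i (q.tg.tree Φ (εs i)) q.tm) l (𝓝 0)) :
    Tendsto (fun i => HI Φ (εs i) L f₀ (trees Φ (εs i) F) 0 t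
      (fun T' => D i T' (ff Φ (εs i) (trees Φ (εs i) F) T'))) l (𝓝 0) := by
  have hε0 : Tendsto εs l (𝓝 0) := hε.mono_right nhdsWithin_le_nhds
  have hpos : ∀ᶠ i in l, 0 < εs i := hε.eventually self_mem_nhdsWithin
  obtain ⟨r, hr, hconv⟩ := conv_forest hΦ hg hc hb hM hf L hε0 hpos F (S.good hF)
    (hε.eventually (S.okF hF)) 0 t (S.sep hF)
  have key : Tendsto (fun i => ∫⁻ q in {q : AP | 0 ≤ q.tm ∧ q.tm < t},
      D i (q.tg.tree Φ (εs i)) q.tm ∂(WF (fh f₀) Φ L F t)) l (𝓝 0) := by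
    have e : (0 : ℝ≥0∞) = ∫⁻ q in {q : AP | 0 ≤ q.tm ∧ q.tm < t}, 0 ∂(WF (fh f₀) Φ L F t) := by
      rw [lintegral_zero]
    rw [e]
    refine tendsto_lintegral_filter_of_dominated_convergence (fun _ => 1) ?_
      (Eventually.of_forall fun i => Eventually.of_forall fun q => h1 i _ _)
      (WF_slab_ne_top hΦ hg.meas hb hM hf F t) ?_
    · filter_upwards [hm] with i hi
      exact hi.comp ((measurable_tree_AP hΦ (εs i)).prodMk AP.measurable_tm)
    · rw [ae_restrict_iff' (measurableSet_slabAP 0 t)]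
      filter_upwards [h0] with q hq h2
      exact hq h2.1 h2.2
  have hsum := key.add hr
  rw [add_zero] at hsum
  refine tendsto_of_tendsto_of_tendsto_of_le_of_le' tendsto_const_nhds hsum
    (Eventually.of_forall fun _ => zero_le) ?_
  filter_upwards [hconv, hm] with i hi hmi
  have h2 := (hi (D i) hmi (h1 i)).1
  rwa [mainF_eq_WF hΦ hg.meas F t (εs i) hmi] at h2

omit [l.NeBot] [l.IsCountablyGenerated] in
theorem Dp_le_one_hit (hg : GoodDatum f₀ κ) {ε : ℝ} (A C : List CTree) (c : CTree) (t : ℝ) :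
    Dp Φ ε L f₀ A C c t ≤ 1 := by
  have := isProbability_PP (ε := ε) hg
  calc Dp Φ ε L f₀ A C c t ≤ ∫⁻ _ : Conf Ph, 1 ∂(PP f₀ ε) := lintegral_mono fun c => ind_le_one _
    _ = 1 := by rw [lintegral_one, measure_univ]

omit [l.NeBot] [l.IsCountablyGenerated] in
theorem Dm_le_one_hit (hg : GoodDatum f₀ κ) {ε : ℝ} (A C : List CTree) (c : CTree) (t : ℝ) :
    Dm Φ ε L f₀ A C c t ≤ 1 := by
  have := isProbability_PP (ε := ε) hg
  calc Dm Φ ε L f₀ A C c t ≤ ∫⁻ _ : Conf Ph, 1 ∂(PP f₀ ε) := lintegral_mono fun c => ind_le_one _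
    _ = 1 := by rw [lintegral_one, measure_univ]

theorem measurable_Dp_hit (hg : GoodDatum f₀ κ) (hΦ : IsPotential Φ) {ε : ℝ} (hε : 0 < ε)
    (A C : List CTree) : Measurable fun p : CTree × ℝ => Dp Φ ε L f₀ A C p.1 p.2 := by
  have := isProbability_PP (ε := ε) hg
  have h := measurable_Dp (L := L) (f₀ := f₀) hΦ hε (MF.cst (X := CTree × ℝ) A)
    (MF.cst (X := CTree × ℝ) C) measurable_fst measurable_snd
  simp only [ev_cst] at h
  exact h

theorem measurable_Dm_hit (hg : GoodDatum f₀ κ) (hΦ : IsPotential Φ) {ε : ℝ} (hε : 0 < ε)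
    (A C : List CTree) : Measurable fun p : CTree × ℝ => Dm Φ ε L f₀ A C p.1 p.2 := by
  have := isProbability_PP (ε := ε) hg
  have h := measurable_Dm (L := L) (f₀ := f₀) hΦ hε (MF.cst (X := CTree × ℝ) A)
    (MF.cst (X := CTree × ℝ) C) measurable_fst measurable_snd
  simp only [ev_cst] at h
  exact h

/-- The input (D): the two-world defects of generic forests vanish. -/
def DLim (S : GSys Φ f₀ L) (l : Filter ι) (εs : ι → ℝ) (T : ℝ) : Prop :=
  ∀ (A C : List TG) (c : TG) (t : ℝ), S.Gen (A ++ c :: C) t → 0 ≤ t → t ≤ T →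
    Tendsto (fun i => Dp Φ (εs i) L f₀ (trees Φ (εs i) A) (trees Φ (εs i) C)
      (c.tree Φ (εs i)) t) l (𝓝 0) ∧
    Tendsto (fun i => Dm Φ (εs i) L f₀ (trees Φ (εs i) A) (trees Φ (εs i) C)
      (c.tree Φ (εs i)) t) l (𝓝 0)

omit [l.NeBot] [l.IsCountablyGenerated] in
/-- Almost all attachments to `H`, in the presence of `A`. -/
theorem ae_att_part (S : GSys Φ f₀ L) (hΦ : IsPotential Φ) (hfm : Measurable f₀)
    {A H : List TG} {t : ℝ} (hF : S.Gen (A ++ H) t) :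
    ∀ᵐ q ∂(WF (fh f₀) Φ L H t), S.Gen (A ++ q.tg :: H) q.tm := by
  have h1 := S.ae_att hΦ (measurable_fh hfm) hF
  rw [WF_append, ae_add_measure_iff] at h1
  filter_upwards [h1.2] with q hq
  exact S.perm List.perm_middle.symm hq.1

/-- **Unhit in the joint world, but not alone**: the error vanishes. -/
theorem ej_zero (S : GSys Φ f₀ L) (hΦ : IsPotential Φ) (hg : GoodDatum f₀ κ)
    (hc : Continuous f₀) (hb : 0 < b) (hM : 0 ≤ M₀)
    (hf : ∀ z, f₀ z ≤ M₀ * Real.exp (-b * ‖z.2‖ ^ 2)) (hε : Tendsto εs l (𝓝[>] 0)) {T : ℝ}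
    (hD : DLim S l εs T) {A H : List TG} {t : ℝ} (hF : S.Gen (A ++ H) t) (hT : t ≤ T) :
    Tendsto (fun i => Ej Φ (εs i) L f₀ (trees Φ (εs i) A) (trees Φ (εs i) H) t) l (𝓝 0) := by
  have hpos : ∀ᶠ i in l, 0 < εs i := hε.eventually self_mem_nhdsWithin
  have hH : S.Gen H t := S.sub (List.sublist_append_right A H) hF
  have h1 : Tendsto (fun i => RelP Φ (εs i) L f₀ (trees Φ (εs i) H) t) l (𝓝 0) :=
    (S.rel hH).comp hε
  have h2 := hi_zero S hΦ hg hc hb hM hf hε hH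
    (D := fun i T' s => Dm Φ (εs i) L f₀ (trees Φ (εs i) A) (trees Φ (εs i) H) T' s)
    (by filter_upwards [hpos] with i hi using measurable_Dm_hit hg hΦ hi _ _)
    (fun i T' s => Dm_le_one_hit hg _ _ _ _) (by
      filter_upwards [ae_att_part S hΦ hg.meas hF] with q hq h3 h4
      exact (hD A H q.tg q.tm hq h3 (h4.le.trans hT)).2)
  have h3 := h1.add h2
  rw [add_zero] at h3
  exact h3

/-- **Unhit in both worlds, but hit in the joint world**: the error vanishes. -/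
theorem es_zero (S : GSys Φ f₀ L) (hΦ : IsPotential Φ) (hg : GoodDatum f₀ κ)
    (hc : Continuous f₀) (hb : 0 < b) (hM : 0 ≤ M₀)
    (hf : ∀ z, f₀ z ≤ M₀ * Real.exp (-b * ‖z.2‖ ^ 2)) (hε : Tendsto εs l (𝓝[>] 0)) {T : ℝ}
    (hD : DLim S l εs T) {F G : List TG} {t : ℝ} (hF : S.Gen (F ++ G) t) (hT : t ≤ T) :
    Tendsto (fun i => Es Φ (εs i) L f₀ (trees Φ (εs i) F) (trees Φ (εs i) G) t) l (𝓝 0) := by
  have hpos : ∀ᶠ i in l, 0 < εs i := hε.eventually self_mem_nhdsWithin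
  have hFG : S.Gen (G ++ F) t := S.perm List.perm_append_comm hF
  have h1 : Tendsto (fun i => RelP Φ (εs i) L f₀ (trees Φ (εs i) F ++ trees Φ (εs i) G) t) l
      (𝓝 0) := by
    have h := (S.rel hF).comp hε
    simp only [Function.comp_def, trees_append] at h
    exact h
  have key : ∀ A H : List TG, S.Gen (A ++ H) t → Tendsto (fun i =>
      HI Φ (εs i) L f₀ (trees Φ (εs i) H) 0 t (fun T' =>
        Dp Φ (εs i) L f₀ (trees Φ (εs i) A) (trees Φ (εs i) H) T'
          (ff Φ (εs i) (trees Φ (εs i) H) T'))) l (𝓝 0) := by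
    intro A H hAH
    exact hi_zero S hΦ hg hc hb hM hf hε (S.sub (List.sublist_append_right A H) hAH)
      (D := fun i T' s => Dp Φ (εs i) L f₀ (trees Φ (εs i) A) (trees Φ (εs i) H) T' s)
      (by filter_upwards [hpos] with i hi using measurable_Dp_hit hg hΦ hi _ _)
      (fun i T' s => Dp_le_one_hit hg _ _ _ _) (by
        filter_upwards [ae_att_part S hΦ hg.meas hAH] with q hq h3 h4
        exact (hD A H q.tg q.tm hq h3 (h4.le.trans hT)).1)
  have h3 := h1.add ((key F G hF).add (key G F hFG))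
  rw [add_zero, add_zero] at h3
  exact h3

/-- **Two separate worlds.** The probability that both forests are unhit in their own worlds has the
same limit as the joint survival. -/
theorem surv2_lim (S : GSys Φ f₀ L) (hΦ : IsPotential Φ) (hg : GoodDatum f₀ κ)
    (hc : Continuous f₀) (hb : 0 < b) (hM : 0 ≤ M₀)
    (hf : ∀ z, f₀ z ≤ M₀ * Real.exp (-b * ‖z.2‖ ^ 2)) (hε : Tendsto εs l (𝓝[>] 0)) {T : ℝ}
    (hD : DLim S l εs T) {F G : List TG} {t : ℝ} (hF : S.Gen (F ++ G) t) (hT : t ≤ T)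
    {s : ℝ≥0∞} (hS : Tendsto (fun i => surv Φ (εs i) L f₀ (trees Φ (εs i) (F ++ G)) t) l (𝓝 s)) :
    Tendsto (fun i => surv2 Φ (εs i) L f₀ (trees Φ (εs i) F) (trees Φ (εs i) G) t) l (𝓝 s) := by
  have hpos : ∀ᶠ i in l, 0 < εs i := hε.eventually self_mem_nhdsWithin
  have hFG : S.Gen (G ++ F) t := S.perm List.perm_append_comm hF
  have e1 := (ej_zero S hΦ hg hc hb hM hf hε hD hFG hT).add
    (ej_zero S hΦ hg hc hb hM hf hε hD hF hT)
  rw [add_zero] at e1
  have e2 := es_zero S hΦ hg hc hb hM hf hε hD hF hT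
  simp only [trees_append] at hS
  have e3 := ENNReal.Tendsto.sub hS e1 (Or.inr ENNReal.zero_ne_top)
  rw [tsub_zero] at e3
  have e4 := hS.add e2
  rw [add_zero] at e4
  refine tendsto_of_tendsto_of_tendsto_of_le_of_le' e3 e4 ?_ ?_
  · filter_upwards [hpos] with i hi
    rw [tsub_le_iff_right]
    exact joint_le hg hΦ hi _ _ t
  · filter_upwards [hpos] with i hi
    exact sep_le hg hΦ hi _ _ t

end lim

end Vale.Agent.P119.ML
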