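import Vale.Agent.P119.ML.SysD
import Vale.Agent.P119.ML.TwoLim
import Vale.Agent.P119.ML.GSysInst

/-!
# P119, block ML (`helper388`): **the exports of the hierarchy, along `ε → 0+`**

* `tendsto_nhdsGT`: from sequences to the filter `𝓝[>] 0`;
* `Std`: the standing hypotheses;
* **`Std.surv`**: the survival probability of a generic forest tends to `sv`;
* **`Std.dLim`**: the two-world defects of generic forests vanish (`DLim`);
* **`Std.surv2`**: two generic forests in separate worlds are independent in the limit;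
* `Std.ej`, `Std.es`: the error terms vanish;
* `sv_ordd`, `sv_gen`: the limit in terms of the weights `legW`.
-/

open MeasureTheory Filter Topology Set
open scoped ENNReal NNReal

noncomputable section

namespace Vale.Agent.P119.ML

open KU M CTree KT KE GC MM

/-- From sequences to the filter `𝓝[>] 0`. -/
theorem tendsto_nhdsGT {X : Type*} {l : Filter X} {u : ℝ → X}
    (h : ∀ εs : ℕ → ℝ, (∀ n, 0 < εs n) → Tendsto εs atTop (𝓝 0) →
      Tendsto (fun n => u (εs n)) atTop l) : Tendsto u (𝓝[>] 0) l := by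
  refine tendsto_of_seq_tendsto fun x hx => ?_
  have hpos : ∀ᶠ n in atTop, 0 < x n := hx.eventually self_mem_nhdsWithin
  have h0 : Tendsto x atTop (𝓝 0) := hx.mono_right nhdsWithin_le_nhds
  obtain ⟨N, hN⟩ := eventually_atTop.1 hpos
  have h1 := h (fun n => x (n + N)) (fun n => hN _ (Nat.le_add_left N n))
    (h0.comp (tendsto_add_atTop_nat N))
  exact (tendsto_add_atTop_iff_nat (f := fun n => u (x n)) N).1 h1

variable {Φ : E3 → ℝ} {hΦ : IsPotential Φ} {f₀ : Ph → ℝ}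
  {m₀ : Measurable fun p : E3 × E3 => K1.f0hat f₀ p.1 p.2} {T : ℝ} {f : ℝ → Ph → ℝ}

/-- The standing hypotheses. -/
structure Std (K : KinFamily hΦ f₀ m₀ T f) (κ : ℝ) (L : ℕ) : Prop where
  datum : GoodDatum f₀ κ
  cont : Continuous f₀
  depth : K.L₀ ≤ L + 1
  time : 0 ≤ T

variable {K : KinFamily hΦ f₀ m₀ T f} {κ : ℝ} {L : ℕ}

theorem Std.hyp (st : Std K κ L) {εs : ℕ → ℝ} (h : ∀ n, 0 < εs n)
    (h0 : Tendsto εs atTop (𝓝 0)) : Hyp K κ L εs :=
  ⟨st.datum, st.cont, st.depth, st.time, h, h0⟩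

theorem tendsto_idGT : Tendsto (fun ε : ℝ => ε) (𝓝[>] 0) (𝓝[>] 0) := tendsto_id

/-- **Survival of a generic forest.** -/
theorem Std.surv (st : Std K κ L) (S : GSys Φ f₀ L) {F : List TG} {t : ℝ} (hF : S.Gen F t)
    (h0 : 0 ≤ t) (hT : t ≤ T) :
    Tendsto (fun ε => ML.surv Φ ε L f₀ (trees Φ ε F) t) (𝓝[>] 0) (𝓝 (sv (rt K L) Φ F t)) :=
  tendsto_nhdsGT fun _ h h' => (st.hyp h h').surv_tendsto S hF h0 hT

/-- **The two-world defects of generic forests vanish.** -/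
theorem Std.dLim (st : Std K κ L) (S : GSys Φ f₀ L) : DLim S (𝓝[>] 0) (fun ε => ε) T := by
  intro A C c t hF h0 hT
  exact ⟨tendsto_nhdsGT (u := fun ε => Dp Φ ε L f₀ (trees Φ ε A) (trees Φ ε C) (c.tree Φ ε) t)
      fun _ h h' => (st.hyp h h').Dp_tendsto S hF h0 hT,
    tendsto_nhdsGT (u := fun ε => Dm Φ ε L f₀ (trees Φ ε A) (trees Φ ε C) (c.tree Φ ε) t)
      fun _ h h' => (st.hyp h h').Dm_tendsto S hF h0 hT⟩

/-- The error of the joint world vanishes. -/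
theorem Std.ej (st : Std K κ L) (S : GSys Φ f₀ L) {A H : List TG} {t : ℝ}
    (hF : S.Gen (A ++ H) t) (hT : t ≤ T) :
    Tendsto (fun ε => Ej Φ ε L f₀ (trees Φ ε A) (trees Φ ε H) t) (𝓝[>] 0) (𝓝 0) :=
  ej_zero S hΦ st.datum st.cont K.b0 K.M0 (f0_bound K) tendsto_idGT (st.dLim S) hF hT

/-- The error of the separate worlds vanishes. -/
theorem Std.es (st : Std K κ L) (S : GSys Φ f₀ L) {F G : List TG} {t : ℝ}
    (hF : S.Gen (F ++ G) t) (hT : t ≤ T) :
    Tendsto (fun ε => Es Φ ε L f₀ (trees Φ ε F) (trees Φ ε G) t) (𝓝[>] 0) (𝓝 0) :=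
  es_zero S hΦ st.datum st.cont K.b0 K.M0 (f0_bound K) tendsto_idGT (st.dLim S) hF hT

/-- **Two generic forests in separate worlds.** -/
theorem Std.surv2 (st : Std K κ L) (S : GSys Φ f₀ L) {F G : List TG} {t : ℝ}
    (hF : S.Gen (F ++ G) t) (h0 : 0 ≤ t) (hT : t ≤ T) :
    Tendsto (fun ε => ML.surv2 Φ ε L f₀ (trees Φ ε F) (trees Φ ε G) t) (𝓝[>] 0)
      (𝓝 (sv (rt K L) Φ F t * sv (rt K L) Φ G t)) := by
  rw [← sv_append hΦ (measurable_rt K L)]
  exact surv2_lim S hΦ st.datum st.cont K.b0 K.M0 (f0_bound K) tendsto_idGT (st.dLim S) hF hT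
    (st.surv S hF h0 hT)

/-! ### The limit in terms of the weights -/

theorem ordd_of_tord : ∀ (τ : Shape) (p : PD τ) (t : ℝ), Tord τ p → stm τ p ≤ t → ordd τ t p
  | .leaf, _, _, _, _ => trivial
  | .node a b, p, t, h, ht => by
    obtain ⟨⟨ha, hb⟩, h1, h2⟩ := h
    exact ⟨⟨(KT.stm_nonneg a p.2.1 ha).trans_lt h1, ht⟩,
      ordd_of_tord a p.2.1 p.1.1 ha h1.le, ordd_of_tord b p.2.2 p.1.1 hb h2.le⟩

theorem sv_prod (hΦ : IsPotential Φ) {R : Ph → ℝ → ℝ≥0∞}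
    (hR : Measurable fun x : Ph × ℝ => R x.1 x.2) (F : List TG) (t : ℝ) :
    sv R Φ F t = (F.map fun G => sv R Φ [G] t).prod := by
  induction F with
  | nil => rw [sv_nil, List.map_nil, List.prod_nil]
  | cons G F ih => rw [sv_cons hΦ hR, ih, List.map_cons, List.prod_cons]

/-- The limit in terms of the weights. -/
theorem sv_ordd (F : List TG) {t : ℝ} (ht : 0 ≤ t) (ho : ∀ G ∈ F, ordd G.τ t G.p) :
    sv (rt K L) Φ F t = (F.map fun G => legW Φ (K.leg L) G.τ t G.ℓ.1 G.p).prod := by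
  rw [sv_prod hΦ (measurable_rt K L)]
  congr 1
  refine List.map_congr_left fun G hG => ?_
  rw [sv_singleton (measurable_rt K L) G ht (ho G hG), leg_eq]

/-- The limit in terms of the weights, for generic forests. -/
theorem sv_gen (F : List TG) {t : ℝ} (ht : 0 ≤ t) (hF : ∀ G ∈ F, GenG Φ L G)
    (hs : ∀ G ∈ F, stm G.τ G.p ≤ t) :
    sv (rt K L) Φ F t = (F.map fun G => legW Φ (K.leg L) G.τ t G.ℓ.1 G.p).prod :=
  sv_ordd F ht fun G hG => ordd_of_tord G.τ G.p t (hF G hG).tord (hs G hG)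

/-! ### The system of generic forests -/

/-- Related hits of generic forests are negligible (`KT/RelZero`). -/
def RelZ (Φ : E3 → ℝ) (f₀ : Ph → ℝ) (L : ℕ) : Prop :=
  ∀ (F : List TG) (t : ℝ), KT.Gen Φ L F t →
    Tendsto (fun ε => RelP Φ ε L f₀ (trees Φ ε F) t) (𝓝[>] 0) (𝓝 0)

/-- **Survival of a generic forest.** -/
theorem Std.gen_surv (st : Std K κ L) (hrel : RelZ Φ f₀ L) {F : List TG} {t : ℝ}
    (hF : KT.Gen Φ L F t) (hs : ∀ G ∈ F, stm G.τ G.p ≤ t) (hT : t ≤ T) :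
    Tendsto (fun ε => ML.surv Φ ε L f₀ (trees Φ ε F) t) (𝓝[>] 0)
      (𝓝 (F.map fun G => legW Φ (K.leg L) G.τ t G.ℓ.1 G.p).prod) := by
  rw [← sv_gen F hF.pos.le hF.one hs]
  exact st.surv (gsys hΦ f₀ L hrel) (GenN.of_gen hF) hF.pos.le hT

/-- **Two generic forests in separate worlds.** -/
theorem Std.gen_surv2 (st : Std K κ L) (hrel : RelZ Φ f₀ L) {F G : List TG} {t : ℝ}
    (hF : KT.Gen Φ L (F ++ G) t) (hs : ∀ H ∈ F ++ G, stm H.τ H.p ≤ t) (hT : t ≤ T) :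
    Tendsto (fun ε => ML.surv2 Φ ε L f₀ (trees Φ ε F) (trees Φ ε G) t) (𝓝[>] 0)
      (𝓝 ((F.map fun G => legW Φ (K.leg L) G.τ t G.ℓ.1 G.p).prod *
        (G.map fun G => legW Φ (K.leg L) G.τ t G.ℓ.1 G.p).prod)) := by
  rw [← sv_gen F hF.pos.le (fun H h => hF.one H (List.mem_append_left _ h))
      fun H h => hs H (List.mem_append_left _ h),
    ← sv_gen G hF.pos.le (fun H h => hF.one H (List.mem_append_right _ h))
      fun H h => hs H (List.mem_append_right _ h)]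
  exact st.surv2 (gsys hΦ f₀ L hrel) (GenN.of_gen hF) hF.pos.le hT

/-- **The two-world defects of generic forests vanish.** -/
theorem Std.gen_D (st : Std K κ L) (hrel : RelZ Φ f₀ L) {A C : List TG} {c : TG} {t : ℝ}
    (hF : KT.Gen Φ L (A ++ c :: C) t) (hT : t ≤ T) :
    Tendsto (fun ε => Dp Φ ε L f₀ (trees Φ ε A) (trees Φ ε C) (c.tree Φ ε) t) (𝓝[>] 0) (𝓝 0) ∧
    Tendsto (fun ε => Dm Φ ε L f₀ (trees Φ ε A) (trees Φ ε C) (c.tree Φ ε) t) (𝓝[>] 0) (𝓝 0) :=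
  st.dLim (gsys hΦ f₀ L hrel) A C c t (GenN.of_gen hF) hF.pos.le hT

end Vale.Agent.P119.ML
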