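import Vale.Agent.P119.ML.InNdLim

/-!
# P119, block ML (In-nd, `helper67`): **the input In-nd of CAP0**

* `inNd_of`: `InNd Φ f₀ L Tm K.nn K.b` from the second moment inputs `NdIn` (export of `helper388`
  for the germs `[gA, gB]` and genericity of pairs of nodes, `helper256`).
-/

open MeasureTheory Filter Topology Set
open scoped ENNReal NNReal

noncomputable section

namespace Vale.Agent.P119.Cap

open KU M KT ML KE

variable {Φ : E3 → ℝ} {ε : ℝ} {f₀ : Ph → ℝ} {a b : Shape} {L : ℕ} {Tm : ℝ}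

theorem measurable_Mab (hΦ : IsPotential Φ) {g : Ph → ℝ≥0∞} (hg : Measurable g)
    {lg : ℝ → ℝ → Ph → ℝ≥0∞} (ml : Measurable fun x : ℝ × ℝ × Ph => lg x.1 x.2.1 x.2.2)
    (a b : Shape) : Measurable (Mab Φ g lg a b) := by
  have hgx : Measurable fun z : (Ph × ℝ) × XP a b => ((z.1.1, (z.1.2, z.2)) :
      Ph × (ℝ × XP a b)) := by fun_prop
  have h1 : Measurable fun z : (Ph × ℝ) × XP a b => nW g Φ 0 a b z.1.2 z.1.1 z.2 *
      S2 Φ lg a b z.1.2 z.1 z.2 :=
    ((measurable_nW hΦ hg 0 a b).comp hgx).mul (measurable_S20 hΦ ml a b)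
  exact h1.lintegral_prod_right'

section kin

variable {hΦ : IsPotential Φ} {m₀ : Measurable fun p : E3 × E3 => K1.f0hat f₀ p.1 p.2} {T : ℝ}
  {f : ℝ → Ph → ℝ} (K : KinFamily hΦ f₀ m₀ T f)

theorem lgOk_leg {L : ℕ} (hL : K.L₀ ≤ L + 1) (hT : Tm ≤ T) : LgOk (K.leg L) Tm where
  meas := measurable_leg K L
  le_one := fun s t l => K.leg_le_one L s t l
  cont := fun l _ _ hs ht => tendsto_leg K hL l hs (ht.trans hT)

/-- The pointwise bound of the excess of the density. -/
theorem excess_le {L : ℕ} (hL : K.L₀ ≤ L + 1) (hTm : Tm ≤ T) {d : ℕ} (hdL : d ≤ L) (k : ℕ)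
    (ε : ℝ) (c : GC.Conf Ph) {t : ℝ} (ht : t ∈ Icc 0 Tm) (l : Ph) :
    pw k l.2 * (Nd Φ f₀ L Tm d ε c t l - gv (K.nn d) K.b l.2) ≤
      ∑ a ∈ shapes (L - 1), ∑ b ∈ shapes (L - 1), (if max a.depth b.depth + 1 = d then
        pw k l.2 * (Nab Φ f₀ L Tm a b ε c t l - Mab Φ (fh f₀) (K.leg L) a b (l, t)) else 0) := by
  have h1 := kin_nd_le K hL hdL (t := t) ⟨ht.1, ht.2.trans hTm⟩ l
  have h2 : Nd Φ f₀ L Tm d ε c t l - gv (K.nn d) K.b l.2 ≤
      ∑ a ∈ shapes (L - 1), ∑ b ∈ shapes (L - 1), (if max a.depth b.depth + 1 = d then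
        (Nab Φ f₀ L Tm a b ε c t l - Mab Φ (fh f₀) (K.leg L) a b (l, t)) else 0) := by
    rw [tsub_le_iff_right]
    refine le_trans ?_ (add_le_add le_rfl h1)
    rw [← Finset.sum_add_distrib]
    unfold Nd
    refine Finset.sum_le_sum fun a _ => ?_
    rw [← Finset.sum_add_distrib]
    refine Finset.sum_le_sum fun b _ => ?_
    by_cases h : max a.depth b.depth + 1 = d
    · rw [if_pos h, if_pos h, if_pos h]
      exact le_tsub_add
    · rw [if_neg h, if_neg h, if_neg h, add_zero]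
  refine (mul_le_mul' le_rfl h2).trans (le_of_eq ?_)
  rw [Finset.mul_sum]
  refine Finset.sum_congr rfl fun a _ => ?_
  rw [Finset.mul_sum]
  refine Finset.sum_congr rfl fun b _ => ?_
  by_cases h : max a.depth b.depth + 1 = d
  · rw [if_pos h, if_pos h]
  · rw [if_neg h, if_neg h, mul_zero]

/-- **The input In-nd of CAP0.** -/
theorem inNd_of {κ : ℝ≥0} {β' : ℝ} (hgd : GoodDatum f₀ κ) (hd : IsDatum β' f₀) {L : ℕ}
    (hL : K.L₀ ≤ L + 1) (hT : 0 ≤ Tm) (hTm : Tm ≤ T)
    (hN : ∀ a b : Shape, a.depth < L → b.depth < L → NdIn Φ f₀ L Tm (K.leg L) a b) :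
    InNd Φ f₀ L Tm K.nn K.b := by
  have hg := gd_of_kin hΦ hd K
  have hf : Measurable f₀ := hd.contDiff.continuous.measurable
  have hl := lgOk_leg K hL hTm (Tm := Tm)
  intro d hd1 hdL
  refine ⟨fun ε c t l => Nd Φ f₀ L Tm d ε c t l, fun ε hε => measurable_Nd hΦ hε hf L Tm d,
    fun ε hε c F hF => ndens_le hΦ hε hf hd1 hdL c hF, fun k => tendsto_of_posF ?_⟩
  have hsum : Tendsto (fun i : Ioi (0 : ℝ) => ∑ a ∈ shapes (L - 1), ∑ b ∈ shapes (L - 1),
      (if max a.depth b.depth + 1 = d then ∫⁻ c, ∫⁻ q, pw k q.1.2 *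
        (Nab Φ f₀ L Tm a b i.1 c q.2 q.1 - Mab Φ (fh f₀) (K.leg L) a b q) ∂(qvol Tm)
          ∂(GC.PP f₀ i.1) else 0)) posF
      (𝓝 (∑ _a ∈ shapes (L - 1), ∑ _b ∈ shapes (L - 1), 0)) := by
    refine tendsto_finsetSum _ fun a ha => tendsto_finsetSum _ fun b hb => ?_
    by_cases h : max a.depth b.depth + 1 = d
    · simp only [if_pos h]
      have ha' : a.depth < L := by
        have := le_max_left a.depth b.depth
        omega
      have hb' : b.depth < L := by
        have := le_max_right a.depth b.depth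
        omega
      exact tendsto_Jab hΦ hgd hg k hT hl (hN a b ha' hb')
    · simp only [if_neg h]
      exact tendsto_const_nhds
  simp only [Finset.sum_const_zero] at hsum
  refine tendsto_of_tendsto_of_tendsto_of_le_of_le tendsto_const_nhds hsum (fun _ => zero_le)
    fun i => ?_
  have hmq : ∀ (c : GC.Conf Ph) (a b : Shape), Measurable fun q : Ph × ℝ =>
      (if max a.depth b.depth + 1 = d then pw k q.1.2 *
        (Nab Φ f₀ L Tm a b i.1 c q.2 q.1 - Mab Φ (fh f₀) (K.leg L) a b q) else 0) := by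
    intro c a b
    by_cases h : max a.depth b.depth + 1 = d
    · simp only [if_pos h]
      have h1 : Measurable fun q : Ph × ℝ => Nab Φ f₀ L Tm a b i.1 c q.2 q.1 :=
        (measurable_Nab hΦ i.2 hf L Tm a b).comp
          (by fun_prop : Measurable fun q : Ph × ℝ => (c, q.2, q.1))
      exact ((measurable_cpw k).comp (by fun_prop : Measurable fun q : Ph × ℝ => q.1.2)).mul
        (h1.sub (measurable_Mab hΦ hg.meas hl.meas a b))
    · simp only [if_neg h]
      exact measurable_const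
  have hmcq : ∀ (a b : Shape), Measurable fun z : GC.Conf Ph × (Ph × ℝ) =>
      (if max a.depth b.depth + 1 = d then pw k z.2.1.2 *
        (Nab Φ f₀ L Tm a b i.1 z.1 z.2.2 z.2.1 - Mab Φ (fh f₀) (K.leg L) a b z.2) else 0) := by
    intro a b
    by_cases h : max a.depth b.depth + 1 = d
    · simp only [if_pos h]
      have h1 : Measurable fun z : GC.Conf Ph × (Ph × ℝ) =>
          Nab Φ f₀ L Tm a b i.1 z.1 z.2.2 z.2.1 :=
        (measurable_Nab hΦ i.2 hf L Tm a b).comp
          (by fun_prop : Measurable fun z : GC.Conf Ph × (Ph × ℝ) => (z.1, z.2.2, z.2.1))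
      exact ((measurable_cpw k).comp
        (by fun_prop : Measurable fun z : GC.Conf Ph × (Ph × ℝ) => z.2.1.2)).mul
        (h1.sub ((measurable_Mab hΦ hg.meas hl.meas a b).comp measurable_snd))
    · simp only [if_neg h]
      exact measurable_const
  have hc : ∀ c : GC.Conf Ph, ∫⁻ l, ∫⁻ t in Icc 0 Tm,
      pw k l.2 * (Nd Φ f₀ L Tm d i.1 c t l - gv (K.nn d) K.b l.2) ≤
      ∑ a ∈ shapes (L - 1), ∑ b ∈ shapes (L - 1), ∫⁻ q,
      (if max a.depth b.depth + 1 = d then pw k q.1.2 *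
        (Nab Φ f₀ L Tm a b i.1 c q.2 q.1 - Mab Φ (fh f₀) (K.leg L) a b q) else 0)
          ∂(qvol Tm) := by
    intro c
    have h1 : ∫⁻ l, ∫⁻ t in Icc 0 Tm,
        pw k l.2 * (Nd Φ f₀ L Tm d i.1 c t l - gv (K.nn d) K.b l.2) ≤
        ∫⁻ l, ∫⁻ t in Icc 0 Tm, ∑ a ∈ shapes (L - 1), ∑ b ∈ shapes (L - 1),
        (if max a.depth b.depth + 1 = d then
        pw k l.2 * (Nab Φ f₀ L Tm a b i.1 c t l - Mab Φ (fh f₀) (K.leg L) a b (l, t)) else 0) :=
      lintegral_mono fun l => setLIntegral_mono' measurableSet_Icc fun t ht =>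
        excess_le K hL hTm hdL k i.1 c ht l
    refine h1.trans (le_of_eq ?_)
    have hm : Measurable fun q : Ph × ℝ => ∑ a ∈ shapes (L - 1), ∑ b ∈ shapes (L - 1),
        (if max a.depth b.depth + 1 = d then
        pw k q.1.2 * (Nab Φ f₀ L Tm a b i.1 c q.2 q.1 -
          Mab Φ (fh f₀) (K.leg L) a b q) else 0) :=
      Finset.measurable_fun_sum _ fun a _ => Finset.measurable_fun_sum _ fun b _ => hmq c a b
    have h2 := lintegral_prod (μ := (volume : Measure Ph)) (ν := volume.restrict (Icc 0 Tm)) _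
      hm.aemeasurable
    refine h2.symm.trans ?_
    rw [lintegral_finsetSum _ fun a _ => Finset.measurable_fun_sum _ fun b _ => hmq c a b]
    exact Finset.sum_congr rfl fun a _ => lintegral_finsetSum _ fun b _ => hmq c a b
  refine (lintegral_mono hc).trans (le_of_eq ?_)
  have hmc : ∀ a b : Shape, Measurable fun c : GC.Conf Ph => ∫⁻ q,
      (if max a.depth b.depth + 1 = d then pw k q.1.2 *
        (Nab Φ f₀ L Tm a b i.1 c q.2 q.1 - Mab Φ (fh f₀) (K.leg L) a b q) else 0)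
          ∂(qvol Tm) := fun a b => (hmcq a b).lintegral_prod_right'
  rw [lintegral_finsetSum _ fun a _ => Finset.measurable_fun_sum _ fun b _ => hmc a b]
  refine Finset.sum_congr rfl fun a _ => ?_
  rw [lintegral_finsetSum _ fun b _ => hmc a b]
  refine Finset.sum_congr rfl fun b _ => ?_
  by_cases h : max a.depth b.depth + 1 = d
  · simp only [if_pos h]
  · simp only [if_neg h, lintegral_zero]

end kin

end Vale.Agent.P119.Cap
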