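import Vale.Agent.P119.ML.InI1c
import Vale.Agent.P119.ML.InNdMain

/-!
# P119, block ML (In-I1, `helper667`): **the input In-I1 of CAP0**

* `inI1_of_sl`: `InI1 Φ f₀ L Tm` from the survival limit of one generic germ (`SL1`) and from the
  decoupling of two generic germs (`DpLim`).
-/

open MeasureTheory Filter Topology Set
open scoped ENNReal NNReal

noncomputable section

namespace Vale.Agent.P119.Cap

open KU M KT ML GC

variable {Φ : E3 → ℝ} {hΦ : IsPotential Φ} {f₀ : Ph → ℝ}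
  {m₀ : Measurable fun p : E3 × E3 => K1.f0hat f₀ p.1 p.2} {T : ℝ} {f : ℝ → Ph → ℝ}
  (K : KE.KinFamily hΦ f₀ m₀ T f)

theorem survLim_of_sl1 {L : ℕ} {Tm : ℝ} (hTm : Tm ≤ T) (H : SL1 K L) :
    SurvLim Φ f₀ L Tm (K.leg L) := fun G t hG h1 h2 => H G t hG h1 (h2.trans hTm)

/-- **The input In-I1 of CAP0.** -/
theorem inI1_of_sl {κ β' : ℝ} (hgd : GoodDatum f₀ κ) (hd : IsDatum β' f₀) {L : ℕ}
    (hL : K.L₀ ≤ L + 1) {Tm : ℝ} (hT : 0 ≤ Tm) (hTm : Tm ≤ T) (H1 : SL1 K L)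
    (H2 : DpLim Φ f₀ L Tm) : InI1 Φ f₀ L Tm :=
  inI1_of_gen hΦ hgd hd.contDiff.continuous.measurable (gd_of_kin hΦ hd K) hT
    (fun s t l => K.leg_le_one L s t l) (fun l _ _ hs ht => tendsto_leg K hL l hs (ht.trans hTm))
    (survLim_of_sl1 K hTm H1) H2

end Vale.Agent.P119.Cap
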