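import Vale.Agent.P119.ML.Lim

/-!
# P119, block ML (`helper388`): the rate of the hits of a line in the kinetic gas of M-trees

* `rt K L l r`: the collision rate of the line `l` at the time `r` (truncated depth `L`);
* `leg_eq`: `K.leg L` is the weight of the legs with the rate `rt`;
* `hit_rate`: the regular hits of a line, weighted by the survival of the hitter, have the rate
  `rt`.
-/

open MeasureTheory Filter Topology Set
open scoped ENNReal NNReal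

noncomputable section

namespace Vale.Agent.P119.ML

open KU M CTree KT KE

variable {Φ : E3 → ℝ} {hΦ : IsPotential Φ} {f₀ : Ph → ℝ}
  {m₀ : Measurable fun p : E3 × E3 => K1.f0hat f₀ p.1 p.2} {T : ℝ} {f : ℝ → Ph → ℝ}
  (K : KinFamily hΦ f₀ m₀ T f)

/-- The collision rate of the line `l` at the time `r`. -/
def rt (L : ℕ) (l : Ph) (r : ℝ) : ℝ≥0∞ :=
  (K1.collOf hΦ).nu ((K.u (L + 1)).1 r (l.1 + r • l.2)) l.2

theorem measurable_rt (L : ℕ) : Measurable fun x : Ph × ℝ => rt K L x.1 x.2 := by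
  unfold rt
  exact (K1.collOf hΦ).measurable_nu (α := Ph × ℝ)
    (h := fun q => (K.u (L + 1)).1 q.1.2 (q.1.1.1 + q.1.2 • q.1.1.2) q.2)
    (w := fun q => q.1.2) ((K.u (L + 1)).2.comp (by fun_prop) (by fun_prop) (by fun_prop))
    (by fun_prop)

theorem leg_eq (L : ℕ) : K.leg L = lgR (rt K L) := by
  funext s t l
  unfold KinFamily.leg dlg Coll.damp Coll.dampArg lgR rt
  congr 1
  refine lintegral_congr fun r => ?_
  have e : l.1 + t • l.2 - (t - r) • l.2 = l.1 + r • l.2 := by module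
  rw [e]

theorem rt_le {L : ℕ} (hL : K.L₀ ≤ L + 1) (l : Ph) {r : ℝ} (hr : r ∈ Icc 0 T) :
    rt K L l r ≤ ENNReal.ofReal (K.M * ((K1.collOf hΦ).R K.b * (1 + ‖l.2‖))) :=
  ((K1.collOf hΦ).nu_mono (fun w => K.u_le hL hr _ w) l.2).trans
    ((K1.collOf hΦ).nu_gs K.M0 K.b0 l.2)

theorem volume_ball_E2 : (volume : Measure E2) {b | ‖b‖ < 1} = ENNReal.ofReal K1.disk := by
  have h1 := lintegral_fr (V := K1.e0) K1.e0_ne (F := fun _ => 1) measurable_const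
  rw [setLIntegral_const, one_mul, lintegral_const, one_mul] at h1
  rw [h1, K1.ofReal_disk]
  have e : kappa K1.e0 = (μHE[2] : Measure E3).restrict (K1.disc K1.e0) :=
    kappa_eq_hausdorff K1.e0_ne
  rw [e]
  rfl

theorem leafW_eq (g : Ph → ℝ≥0∞) : ∀ (τ : Shape) (z : LD τ), leafW g τ z = lprod g τ z
  | .leaf, _ => rfl
  | .node a b, z => by
    change leafW g a z.1 * leafW g b z.2 = lprod g a z.1 * lprod g b z.2
    rw [leafW_eq g a, leafW_eq g b]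

theorem stm_nonneg : ∀ (τ : Shape) (v : E3) (p : PD τ), tok Φ 0 τ v p → 0 ≤ stm τ p
  | .leaf, _, _, _ => le_rfl
  | .node a b, v, p, h => by
    have h1 := stm_nonneg a _ _ h.1.1
    have h2 := h.2.1
    rw [ex_zero, zero_mul, add_zero] at h2
    exact h1.trans h2.le

/-- The order of the node times. -/
theorem ordd_iff : ∀ (τ : Shape) (v : E3) (p : PD τ) (t : ℝ), gent τ p → 0 ≤ t →
    (ordd τ t p ↔ tok Φ 0 τ v p ∧ ex 0 τ v p ≤ t)
  | .leaf, _, _, t, _, ht => by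
    constructor
    · exact fun _ => ⟨trivial, ht⟩
    · exact fun _ => trivial
  | .node a b, v, p, t, hg, ht => by
    obtain ⟨⟨g1, g2⟩, g3, g4⟩ := hg
    rw [ex_zero]
    constructor
    · rintro ⟨⟨h1, h2⟩, h3, h4⟩
      have h5 := (ordd_iff a (inVel Φ v p.1).1 p.2.1 p.1.1 g3 h1.le).1 h3
      have h6 := (ordd_iff b (inVel Φ v p.1).2 p.2.2 p.1.1 g4 h1.le).1 h4
      have h7 := h5.2
      have h8 := h6.2
      rw [ex_zero] at h7 h8
      refine ⟨⟨⟨h5.1, h6.1⟩, ?_, ?_⟩, h2⟩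
      · rw [ex_zero, zero_mul, add_zero]
        exact lt_of_le_of_ne h7 g1
      · rw [ex_zero, zero_mul, add_zero]
        exact lt_of_le_of_ne h8 g2
    · rintro ⟨⟨⟨h1, h2⟩, h3, h4⟩, h5⟩
      rw [ex_zero, zero_mul, add_zero] at h3 h4
      have h6 : 0 < p.1.1 := (stm_nonneg a _ _ h1).trans_lt h3
      refine ⟨⟨h6, h5⟩, ?_, ?_⟩
      · refine (ordd_iff a (inVel Φ v p.1).1 p.2.1 p.1.1 g3 h6.le).2 ⟨h1, ?_⟩
        rw [ex_zero]; exact h3.le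
      · refine (ordd_iff b (inVel Φ v p.1).2 p.2.2 p.1.1 g4 h6.le).2 ⟨h2, ?_⟩
        rw [ex_zero]; exact h4.le

theorem hl_lineAt (ℓ : Ph) (q : ND) : hl 0 ℓ q = lineAt q.1 (ℓ.1 + q.1 • ℓ.2) q.2.1 := by
  rw [hl_zero_apply]
  unfold lineAt
  ext1
  · simp only; module
  · rfl

/-- The initial density. -/
def g₀ (f₀ : Ph → ℝ) (z : Ph) : ℝ≥0∞ := ENNReal.ofReal (f₀ z)

/-- The density of the regular hits, weighted by the survival of the hitter. -/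
theorem regw_mul_sv {L : ℕ} (ℓ : LG) {a b : ℝ} (ha : 0 ≤ a) (τ : Shape) (y : ND × PD τ)
    (hy : gent τ y.2) (φ : ℝ → ℝ≥0∞) :
    regw (g₀ f₀) Φ 0 τ ℓ.1 a b y *
        (sv (rt K L) Φ [TG.hit ℓ τ y.1 y.2] y.1.1 * φ y.1.1) =
      ((Ico a b).indicator φ y.1.1 * ‖ℓ.1.2 - y.1.2.1‖ₑ) *
        kw Φ (K.leg L) (fun z => K1.f0hat f₀ z.1 z.2) τ y.1.1
          (lineAt y.1.1 (ℓ.1.1 + y.1.1 • ℓ.1.2) y.1.2.1) y.2 := by
  classical
  rw [kw_eq, ← hl_lineAt]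
  unfold regw
  by_cases hs : y.1.1 ∈ Ico a b
  · have h0 : 0 ≤ y.1.1 := ha.trans hs.1
    rw [indicator_of_mem hs, hl_snd]
    by_cases ho : ordd τ y.1.1 y.2
    · have h1 := (ordd_iff (Φ := Φ) τ y.1.2.1 y.2 y.1.1 hy h0).1 ho
      rw [indicator_of_mem (show y ∈ regset Φ 0 τ a b from ⟨h1.1, h1.2, hs.1, hs.2⟩), if_pos ho,
        one_mul, sv_singleton (measurable_rt K L) _ h0 ho, leafW_eq, ← leg_eq]
      have e : (TG.hit ℓ τ y.1 y.2).ℓ.1 = hl 0 ℓ.1 y.1 := rfl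
      rw [e]
      change ‖ℓ.1.2 - y.1.2.1‖ₑ * (KT.wt Φ τ y.1.2.1 y.2 * lprod (g₀ f₀) τ (bk Φ 0 τ (hl 0 ℓ.1 y.1) y.2)) *
        (legW Φ (K.leg L) τ y.1.1 (hl 0 ℓ.1 y.1) y.2 * φ y.1.1) =
        (φ y.1.1 * ‖ℓ.1.2 - y.1.2.1‖ₑ) * (KT.wt Φ τ y.1.2.1 y.2 *
          (lprod (g₀ f₀) τ (bk Φ 0 τ (hl 0 ℓ.1 y.1) y.2) *
          legW Φ (K.leg L) τ y.1.1 (hl 0 ℓ.1 y.1) y.2))
      ring
    · have h1 : y ∉ regset Φ 0 τ a b := fun h =>
        ho ((ordd_iff (Φ := Φ) τ y.1.2.1 y.2 y.1.1 hy h0).2 ⟨h.1, h.2.1⟩)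
      rw [indicator_of_notMem h1, if_neg ho, mul_zero, mul_zero, zero_mul, zero_mul, mul_zero]
  · have h1 : y ∉ regset Φ 0 τ a b := fun h => hs h.2.2
    rw [indicator_of_notMem h1, indicator_of_notMem hs, mul_zero, mul_zero, zero_mul, zero_mul,
      zero_mul]

/-- **The rate of the hits of a line.** -/
theorem hit_rate {L : ℕ} (hL : K.L₀ ≤ L + 1) (ℓ : LG) {a b : ℝ} (ha : 0 ≤ a) (hb : b ≤ T)
    {φ : ℝ → ℝ≥0∞} (hφ : Measurable φ) :
    ∑ τ ∈ shapes L, ∫⁻ y, regw (g₀ f₀) Φ 0 τ ℓ.1 a b y *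
        (sv (rt K L) Φ [TG.hit ℓ τ y.1 y.2] y.1.1 * φ y.1.1) ∂(nvol.prod (pvol τ)) =
      ∫⁻ s in Ico a b, rt K L ℓ.1 s * φ s := by
  have mlg : Measurable fun x : ℝ × ℝ × Ph => K.leg L x.1 x.2.1 x.2.2 :=
    measurable_dlg _ (K.u (L + 1)).2
  set F₀ : Ph → ℝ≥0∞ := fun z => K1.f0hat f₀ z.1 z.2 with hF₀
  have mF : Measurable F₀ := m₀
  set A : ND → ℝ≥0∞ := fun q => (Ico a b).indicator φ q.1 * ‖ℓ.1.2 - q.2.1‖ₑ with hA
  have mA : Measurable A := by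
    have h1 : Measurable fun q : ND => (Ico a b).indicator φ q.1 :=
      (hφ.indicator measurableSet_Ico).comp measurable_fst
    exact h1.mul (by fun_prop)
  have mline : Measurable fun q : ND => lineAt q.1 (ℓ.1.1 + q.1 • ℓ.1.2) q.2.1 := by
    unfold lineAt
    fun_prop
  have mkd : ∀ τ : Shape, Measurable fun q : ND =>
      K.kd L τ q.1 (lineAt q.1 (ℓ.1.1 + q.1 • ℓ.1.2) q.2.1) := fun τ =>
    (measurable_kd hΦ mlg mF τ).comp (measurable_fst.prodMk mline)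
  -- one shape
  have h1 : ∀ τ : Shape, ∫⁻ y, regw (g₀ f₀) Φ 0 τ ℓ.1 a b y *
        (sv (rt K L) Φ [TG.hit ℓ τ y.1 y.2] y.1.1 * φ y.1.1) ∂(nvol.prod (pvol τ)) =
      ∫⁻ q, A q * K.kd L τ q.1 (lineAt q.1 (ℓ.1.1 + q.1 • ℓ.1.2) q.2.1) ∂nvol := by
    intro τ
    have h2 : ∀ᵐ y ∂(nvol.prod (pvol τ)), gent τ y.2 :=
      Measure.quasiMeasurePreserving_snd.ae (ae_gent τ)
    have h3 : ∀ᵐ y ∂(nvol.prod (pvol τ)), regw (g₀ f₀) Φ 0 τ ℓ.1 a b y *
        (sv (rt K L) Φ [TG.hit ℓ τ y.1 y.2] y.1.1 * φ y.1.1) =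
        A y.1 * kw Φ (K.leg L) F₀ τ y.1.1 (lineAt y.1.1 (ℓ.1.1 + y.1.1 • ℓ.1.2) y.1.2.1) y.2 := by
      filter_upwards [h2] with y hy
      exact regw_mul_sv K ℓ ha τ y hy φ
    rw [lintegral_congr_ae h3]
    have m1 : Measurable fun y : ND × PD τ =>
        kw Φ (K.leg L) F₀ τ y.1.1 (lineAt y.1.1 (ℓ.1.1 + y.1.1 • ℓ.1.2) y.1.2.1) y.2 :=
      (measurable_kw hΦ mlg mF τ).comp ((measurable_fst.comp measurable_fst).prodMk
        ((mline.comp measurable_fst).prodMk measurable_snd))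
    have m3 : Measurable fun y : ND × PD τ => A y.1 *
        kw Φ (K.leg L) F₀ τ y.1.1 (lineAt y.1.1 (ℓ.1.1 + y.1.1 • ℓ.1.2) y.1.2.1) y.2 :=
      (mA.comp measurable_fst).mul m1
    rw [lintegral_prod _ m3.aemeasurable]
    refine lintegral_congr fun q => ?_
    have m2 : Measurable fun p : PD τ =>
        kw Φ (K.leg L) F₀ τ q.1 (lineAt q.1 (ℓ.1.1 + q.1 • ℓ.1.2) q.2.1) p :=
      m1.comp (measurable_const.prodMk measurable_id : Measurable fun p : PD τ => (q, p))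
    exact lintegral_const_mul (μ := pvol τ) (A q) m2
  simp only [h1]
  have mAk : ∀ τ : Shape, Measurable fun q : ND =>
      A q * K.kd L τ q.1 (lineAt q.1 (ℓ.1.1 + q.1 • ℓ.1.2) q.2.1) := fun τ => mA.mul (mkd τ)
  rw [← lintegral_finsetSum _ fun τ _ => mAk τ]
  -- the sum of the densities
  have h2 : ∀ q : ND, ∑ τ ∈ shapes L,
      A q * K.kd L τ q.1 (lineAt q.1 (ℓ.1.1 + q.1 • ℓ.1.2) q.2.1) =
      A q * (K.u (L + 1)).1 q.1 (ℓ.1.1 + q.1 • ℓ.1.2) q.2.1 := by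
    intro q
    rw [← Finset.mul_sum]
    by_cases hq : q.1 ∈ Ico a b
    · rw [K.sum_kd_self hL ⟨ha.trans hq.1, hq.2.le.trans hb⟩]
      unfold lineAt
      simp only
      rw [sub_add_cancel]
    · have : A q = 0 := by
        rw [hA]
        simp only
        rw [indicator_of_notMem hq, zero_mul]
      rw [this, zero_mul, zero_mul]
  have mu : Measurable fun q : ND => (K.u (L + 1)).1 q.1 (ℓ.1.1 + q.1 • ℓ.1.2) q.2.1 :=
    (K.u (L + 1)).2.comp (by fun_prop) (by fun_prop) (by fun_prop)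
  have mAu : Measurable fun q : ND => A q * (K.u (L + 1)).1 q.1 (ℓ.1.1 + q.1 • ℓ.1.2) q.2.1 :=
    mA.mul mu
  rw [lintegral_congr h2, lintegral_nvol mAu, ← lintegral_indicator measurableSet_Ico]
  refine lintegral_congr fun s => ?_
  have mus : Measurable fun w : E3 => (K.u (L + 1)).1 s (ℓ.1.1 + s • ℓ.1.2) w :=
    (K.u (L + 1)).2.comp (by fun_prop) (by fun_prop) (by fun_prop)
  have h3 : ∀ w : E3, ∫⁻ b' in {b : E2 | ‖b‖ < 1}, A (s, w, b') *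
      (K.u (L + 1)).1 s (ℓ.1.1 + s • ℓ.1.2) w =
      (Ico a b).indicator φ s * ((K1.collOf hΦ).k ℓ.1.2 w *
        (K.u (L + 1)).1 s (ℓ.1.1 + s • ℓ.1.2) w) := by
    intro w
    have e : ∀ b' : E2, A (s, w, b') * (K.u (L + 1)).1 s (ℓ.1.1 + s • ℓ.1.2) w =
      (Ico a b).indicator φ s * ‖ℓ.1.2 - w‖ₑ * (K.u (L + 1)).1 s (ℓ.1.1 + s • ℓ.1.2) w :=
      fun _ => rfl
    simp only [e]
    rw [setLIntegral_const, volume_ball_E2]
    change _ = (Ico a b).indicator φ s * (ENNReal.ofReal K1.disk * ‖ℓ.1.2 - w‖ₑ *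
      (K.u (L + 1)).1 s (ℓ.1.1 + s • ℓ.1.2) w)
    ring
  have h4 : ∫⁻ w : E3, ∫⁻ b' in {b : E2 | ‖b‖ < 1}, A (s, w, b') *
      (K.u (L + 1)).1 s (ℓ.1.1 + s • ℓ.1.2) w =
      (Ico a b).indicator φ s * rt K L ℓ.1 s := by
    rw [lintegral_congr h3, lintegral_const_mul]
    · rfl
    · exact ((K1.collOf hΦ).measurable_k measurable_const measurable_id).mul mus
  refine h4.trans ?_
  by_cases hs : s ∈ Ico a b
  · rw [indicator_of_mem hs, indicator_of_mem hs, mul_comm]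
  · rw [indicator_of_notMem hs, indicator_of_notMem hs, zero_mul]

end Vale.Agent.P119.ML
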