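import Vale.Agent.P119.ML.FH7

/-!
# P119, block ML (`helper755`): two separate worlds at fixed `ε`

* `chF`: the forest is compatible and unhit until `t`;
* `joint_cases`: unhit in the joint world, hit in its own world;
* `sep_cases`: unhit in the two worlds, hit in the joint world;
* `extract_gen`: extraction of the first hitter;
* `joint_le`, `sep_le`: the comparison of the joint survival with the product.
-/

open MeasureTheory Filter Topology Set
open scoped ENNReal NNReal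

noncomputable section

namespace Vale.Agent.P119.ML

open KU M CTree GC MM

variable {Φ : E3 → ℝ} {ε : ℝ} {L : ℕ} {f₀ : Ph → ℝ} {κ : ℝ}

/-- The forest is compatible with the configuration and unhit until `t`. -/
def ChF (Φ : E3 → ℝ) (ε : ℝ) (L : ℕ) (F : List CTree) (t : ℝ) (w : Finset Ph) : Prop :=
  CmpF ε F w ∧ Unhit Φ ε L (Wc F w) F t

/-- The event of the first hitters, `Dm`. -/
def HmEv (Φ : E3 → ℝ) (ε : ℝ) (L : ℕ) (A H : List CTree) (t : ℝ) (w : Finset Ph) (T' : CTree) :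
    Prop :=
  (T'.leaves ⊆ world (w : Set Ph) ∧ CmpF ε (A ++ H) w) ∧
    HitC Φ ε H 0 t T' ∧ DmEv Φ ε L A H T' (ff Φ ε H T') (rem w T')

/-- The event of the first hitters, `Dp`. -/
def HpEv (Φ : E3 → ℝ) (ε : ℝ) (L : ℕ) (A H : List CTree) (t : ℝ) (w : Finset Ph) (T' : CTree) :
    Prop :=
  (T'.leaves ⊆ world (w : Set Ph) ∧ CmpF ε (A ++ H) w) ∧
    HitC Φ ε H 0 t T' ∧ DpEv Φ ε L A H T' (ff Φ ε H T') (rem w T')

theorem cmpF_append {F G : List CTree} {w : Finset Ph} :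
    CmpF ε (F ++ G) w ↔ CmpF ε F w ∧ CmpF ε G w := by
  unfold CmpF
  rw [lvs_append]
  constructor
  · exact fun h => ⟨fun z hz σ hσ => h z hz σ (Or.inl hσ), fun z hz σ hσ => h z hz σ (Or.inr hσ)⟩
  · rintro ⟨h1, h2⟩ z hz σ (hσ | hσ)
    · exact h1 z hz σ hσ
    · exact h2 z hz σ hσ

/-- The forest `H` is unhit in the joint world but hit in its own world. -/
theorem joint_cases (hΦ : IsPotential Φ) (hε : 0 < ε) {A H : List CTree} {t : ℝ}
    {w : Finset Ph} (hJ : ChF Φ ε L (A ++ H) t w) (hn : ¬ChF Φ ε L H t w) :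
    ∃ T', RelEv Φ ε L H t w T' ∨ HmEv Φ ε L A H t w T' := by
  obtain ⟨hcmp, hJ⟩ := hJ
  have hcH : CmpF ε H w := (cmpF_append.1 hcmp).2
  obtain ⟨hJA, hJH⟩ := unhit_append.1 hJ
  have hok : OkF Φ ε L H := hJH.1
  have hno : ¬NoHit Φ ε L (Wc H w) H t := fun h => hn ⟨hcH, hok, h⟩
  set W1 := Wc (A ++ H) w with hW1
  set W2 := Wc H w with hW2
  have hf1 : W1.Finite := Wc_finite
  have hf2 : W2.Finite := Wc_finite
  obtain ⟨T', hfh, h4, h5⟩ := exists_firstHit hΦ hε hf2 hok (noHit_zero hΦ hε hok) hno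
  refine ⟨T', ?_⟩
  set s := ff Φ ε H T' with hs
  have ha := hfh.2.1
  have hmem := ff_mem hΦ hε hok hfh.1
  by_cases hd : Disjoint T'.leaves (lvs H)
  · right
    have hsub := subset_world_of_disjoint (alive_pre ha).sub hd
    have e2 : Wc (T' :: H) (rem w T') = W2 := (Wc_rem hsub).symm
    have e1 : Wc (A ++ T' :: H) (rem w T') = W1 := by
      rw [Wc_congr (lvs_middle A H T'), ← Wc_rem hsub]
    refine ⟨⟨hsub, hcmp⟩, ⟨hfh.1, h4, h5⟩, ?_, ?_, ?_⟩
    · rw [e2]
      exact unhit_cons_of_alive hΦ hε hf2 ha ⟨hok, hfh.2.2⟩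
    · rw [e1]
      exact hJ.mono h5.le
    · rw [e1]
      intro hno1
      have ha1 : alive Φ ε L W1 T' s := by
        refine (alive_iff_noHit hΦ hε hf1).2 ⟨⟨hsub.trans subset_union_left, (alive_pre ha).ok,
          (alive_pre ha).depth, (alive_pre ha).ext_le⟩, hno1⟩
      obtain ⟨S, hS, hh⟩ := hmem
      exact hJH.2 S hS T' s h5 hh ha1
  · left
    exact ⟨⟨hcH, hok, hd, hfh⟩, Or.inl h5⟩

/-- Both forests are unhit in their own worlds, but hit in the joint world. -/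
theorem sep_cases (hΦ : IsPotential Φ) (hε : 0 < ε) {F G : List CTree} {t : ℝ}
    {w : Finset Ph} (hF : ChF Φ ε L F t w) (hG : ChF Φ ε L G t w)
    (hn : ¬ChF Φ ε L (F ++ G) t w) :
    ∃ T', RelEv Φ ε L (F ++ G) t w T' ∨ HpEv Φ ε L F G t w T' ∨ HpEv Φ ε L G F t w T' := by
  obtain ⟨hcF, hF⟩ := hF
  obtain ⟨hcG, hG⟩ := hG
  have hcmp : CmpF ε (F ++ G) w := cmpF_append.2 ⟨hcF, hcG⟩
  have hok : OkF Φ ε L (F ++ G) := okF_append.2 ⟨hF.1, hG.1⟩
  have hno : ¬NoHit Φ ε L (Wc (F ++ G) w) (F ++ G) t := fun h => hn ⟨hcmp, hok, h⟩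
  set W := Wc (F ++ G) w with hW
  have hf : W.Finite := Wc_finite
  obtain ⟨T', hfh, h4, h5⟩ := exists_firstHit hΦ hε hf hok (noHit_zero hΦ hε hok) hno
  refine ⟨T', ?_⟩
  set s := ff Φ ε (F ++ G) T' with hs
  have ha := hfh.2.1
  have hmem := ff_mem hΦ hε hok hfh.1
  by_cases hd : Disjoint T'.leaves (lvs (F ++ G))
  swap
  · left
    exact ⟨⟨hcmp, hok, hd, hfh⟩, Or.inl h5⟩
  right
  have hsub := subset_world_of_disjoint (alive_pre ha).sub hd
  have hU : Unhit Φ ε L W (F ++ G) s := ⟨hok, hfh.2.2⟩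
  have key : ∀ A C : List CTree, Wc (A ++ C) w = W → Unhit Φ ε L W (A ++ C) s →
      CmpF ε (A ++ C) w → Unhit Φ ε L (Wc C w) C t → s ∈ conF Φ ε C T' →
      (∀ r ∈ conF Φ ε C T', s ≤ r) → HpEv Φ ε L A C t w T' := by
    intro A C hWe hU hcmp hC hmem hle
    have hff : ff Φ ε C T' = s := le_antisymm (ff_le hΦ hε hC.1 hmem)
      (hle _ (ff_mem hΦ hε hC.1 ⟨s, hmem⟩))
    have hf2 : (Wc C w).Finite := Wc_finite
    have e2 : Wc (T' :: C) (rem w T') = Wc C w := (Wc_rem hsub).symm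
    have e1 : Wc (A ++ T' :: C) (rem w T') = W := by
      rw [Wc_congr (lvs_middle A C T'), ← Wc_rem hsub, hWe]
    refine ⟨⟨hsub, hcmp⟩, ⟨⟨s, hmem⟩, by rw [hff]; exact h4, by rw [hff]; exact h5⟩, ?_, ?_, ?_⟩
    · rw [e1, hff]
      have h8 := unhit_append.1 hU
      exact unhit_append.2 ⟨h8.1, unhit_cons_of_alive hΦ hε hf ha h8.2⟩
    · rw [e2, hff]
      exact hC.mono h5.le
    · rw [e2, hff]
      intro hno1
      have ha1 : alive Φ ε L (Wc C w) T' s := by
        refine (alive_iff_noHit hΦ hε hf2).2 ⟨⟨hsub.trans subset_union_left, (alive_pre ha).ok,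
          (alive_pre ha).depth, (alive_pre ha).ext_le⟩, hno1⟩
      obtain ⟨S, hS, hh⟩ := hmem
      exact hC.2 S hS T' s h5 hh ha1
  have hle : ∀ r ∈ conF Φ ε (F ++ G) T', s ≤ r := fun r hr => ff_le hΦ hε hok hr
  obtain ⟨S, hS, hh⟩ := hmem
  rcases List.mem_append.1 hS with hS | hS
  · right
    have hsw : lvs (G ++ F) = lvs (F ++ G) := by rw [lvs_append, lvs_append, union_comm]
    refine key G F (Wc_congr hsw w) ?_ ?_ hF ⟨S, hS, hh⟩ fun r hr => hle r
      (conF_mono (fun T hT => List.mem_append_left _ hT) hr)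
    · have h8 := unhit_append.1 hU
      exact unhit_append.2 ⟨h8.2, h8.1⟩
    · exact cmpF_append.2 ⟨hcG, hcF⟩
  · left
    exact key F G rfl hU hcmp hG ⟨S, hS, hh⟩ fun r hr => hle r
      (conF_mono (fun T hT => List.mem_append_right _ hT) hr)

/-! ### Measurability -/

theorem hmEv_iff {A H : List CTree} {t : ℝ} {w : Finset Ph} {T' : CTree} :
    HmEv Φ ε L A H t w T' ↔ (T'.leaves ⊆ world (w : Set Ph) ∧ CmpF ε (A ++ H) w) ∧
      HitC Φ ε H 0 t T' ∧ (Unhit Φ ε L (Wc H w) (T' :: H) (ff Φ ε H T') ∧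
        Unhit Φ ε L (Wc (A ++ H) w) (A ++ H) (ff Φ ε H T') ∧
        ¬NoHit Φ ε L (Wc (A ++ H) w) [T'] (ff Φ ε H T')) := by
  unfold HmEv DmEv
  refine and_congr_right fun h => and_congr_right fun _ => ?_
  have e2 : Wc (T' :: H) (rem w T') = Wc H w := (Wc_rem h.1).symm
  have e1 : Wc (A ++ T' :: H) (rem w T') = Wc (A ++ H) w := by
    rw [Wc_congr (lvs_middle A H T'), ← Wc_rem h.1]
  rw [e1, e2]

theorem hpEv_iff {A H : List CTree} {t : ℝ} {w : Finset Ph} {T' : CTree} :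
    HpEv Φ ε L A H t w T' ↔ (T'.leaves ⊆ world (w : Set Ph) ∧ CmpF ε (A ++ H) w) ∧
      HitC Φ ε H 0 t T' ∧ (Unhit Φ ε L (Wc (A ++ H) w) (A ++ T' :: H) (ff Φ ε H T') ∧
        Unhit Φ ε L (Wc H w) H (ff Φ ε H T') ∧
        ¬NoHit Φ ε L (Wc H w) [T'] (ff Φ ε H T')) := by
  unfold HpEv DpEv
  refine and_congr_right fun h => and_congr_right fun _ => ?_
  have e2 : Wc (T' :: H) (rem w T') = Wc H w := (Wc_rem h.1).symm
  have e1 : Wc (A ++ T' :: H) (rem w T') = Wc (A ++ H) w := by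
    rw [Wc_congr (lvs_middle A H T'), ← Wc_rem h.1]
  rw [e1, e2]

section Meas

theorem measurableSet_base2 (hΦ : IsPotential Φ) (hε : 0 < ε) (A H : List CTree) (t : ℝ) :
    MeasurableSet {q : Conf Ph × CTree | (q.2.leaves ⊆ world (pts q.1 : Set Ph) ∧
      CmpF ε (A ++ H) (pts q.1)) ∧ HitC Φ ε H 0 t q.2} := by
  have m1 : Measurable fun q : Conf Ph × CTree => q.1 := measurable_fst
  have m2 : Measurable fun q : Conf Ph × CTree => q.2 := measurable_snd
  have h1 := (RS.leaves m2).measurableSet_subset (RS.world_pts m1)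
  have h2 := measurableSet_cmpF (ε := ε) (MF.cst (X := Conf Ph × CTree) (A ++ H)) m1
  have h3 := measurableSet_hitC hΦ hε (MF.cst (X := Conf Ph × CTree) H) m2 0 t
  simp only [ev_cst] at h2 h3
  exact (h1.inter h2).inter h3

theorem measurableSet_hmEv (hΦ : IsPotential Φ) (hε : 0 < ε) (A H : List CTree) (t : ℝ) :
    MeasurableSet {q : Conf Ph × CTree | HmEv Φ ε L A H t (pts q.1) q.2} := by
  have m1 : Measurable fun q : Conf Ph × CTree => q.1 := measurable_fst
  have m2 : Measurable fun q : Conf Ph × CTree => q.2 := measurable_snd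
  have hH := MF.cst (X := Conf Ph × CTree) H
  have hA := MF.cst (X := Conf Ph × CTree) A
  have hT := MF.cons m2 (MF.nil (X := Conf Ph × CTree))
  have hs := measurable_ff hΦ hε.ne' hH m2
  have h0 := measurableSet_base2 hΦ hε A H t
  have h1 := measurableSet_unhit hΦ hε (MF.cons m2 hH) (RS.Wc hH m1) hs (L := L)
  have h2 := measurableSet_unhit hΦ hε (hA.append hH) (RS.Wc (hA.append hH) m1) hs (L := L)
  have h3 := measurableSet_unhit hΦ hε hT (RS.Wc (hA.append hH) m1) hs (L := L)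
  simp only [ev_cons, ev_append, ev_cst] at h1 h2 h3
  refine (h0.inter (h1.inter (h2.inter h3.compl))).congr ?_
  ext q
  have e : ev ([] : List (Conf Ph × CTree → CTree)) q = [] := rfl
  simp only [mem_inter_iff, mem_compl_iff, mem_ofPred_eq, hmEv_iff, e]
  constructor
  · rintro ⟨⟨h4, h5⟩, h6, h7, h8⟩
    refine ⟨h4, h5, h6, h7, fun h9 => h8 ⟨?_, h9⟩⟩
    intro T hT
    rw [List.mem_singleton] at hT
    rw [hT]
    exact h6.1 q.2 (by simp)
  · rintro ⟨h4, h5, h6, h7, h8⟩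
    exact ⟨⟨h4, h5⟩, h6, h7, fun h9 => h8 h9.2⟩

theorem measurableSet_hpEv (hΦ : IsPotential Φ) (hε : 0 < ε) (A H : List CTree) (t : ℝ) :
    MeasurableSet {q : Conf Ph × CTree | HpEv Φ ε L A H t (pts q.1) q.2} := by
  have m1 : Measurable fun q : Conf Ph × CTree => q.1 := measurable_fst
  have m2 : Measurable fun q : Conf Ph × CTree => q.2 := measurable_snd
  have hH := MF.cst (X := Conf Ph × CTree) H
  have hA := MF.cst (X := Conf Ph × CTree) A
  have hT := MF.cons m2 (MF.nil (X := Conf Ph × CTree))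
  have hs := measurable_ff hΦ hε.ne' hH m2
  have h0 := measurableSet_base2 hΦ hε A H t
  have h1 := measurableSet_unhit hΦ hε (hA.append (MF.cons m2 hH)) (RS.Wc (hA.append hH) m1) hs
    (L := L)
  have h2 := measurableSet_unhit hΦ hε hH (RS.Wc hH m1) hs (L := L)
  have h3 := measurableSet_unhit hΦ hε hT (RS.Wc hH m1) hs (L := L)
  simp only [ev_cons, ev_append, ev_cst] at h1 h2 h3
  refine (h0.inter (h1.inter (h2.inter h3.compl))).congr ?_
  ext q
  have e : ev ([] : List (Conf Ph × CTree → CTree)) q = [] := rfl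
  simp only [mem_inter_iff, mem_compl_iff, mem_ofPred_eq, hpEv_iff, e]
  constructor
  · rintro ⟨⟨h4, h5⟩, h6, h7, h8⟩
    refine ⟨h4, h5, h6, h7, fun h9 => h8 ⟨?_, h9⟩⟩
    intro T hT
    rw [List.mem_singleton] at hT
    rw [hT]
    exact h6.1 q.2 (by simp)
  · rintro ⟨h4, h5, h6, h7, h8⟩
    exact ⟨⟨h4, h5⟩, h6, h7, fun h9 => h8 h9.2⟩

theorem measurable_hmSum (hΦ : IsPotential Φ) (hε : 0 < ε) (A H : List CTree) (t : ℝ) :
    Measurable fun c : Conf Ph => ∑' T', ind (HmEv Φ ε L A H t (pts c) T') :=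
  (RS.trees (RS.world_pts measurable_id)).measurable_tsum_of_support
    (F := fun q : Conf Ph × CTree => ind (HmEv Φ ε L A H t (pts q.1) q.2))
    (measurable_ind (measurableSet_hmEv hΦ hε A H t))
    fun _ _ hT => (ind_ne_zero.1 hT).1.1

theorem measurable_hpSum (hΦ : IsPotential Φ) (hε : 0 < ε) (A H : List CTree) (t : ℝ) :
    Measurable fun c : Conf Ph => ∑' T', ind (HpEv Φ ε L A H t (pts c) T') :=
  (RS.trees (RS.world_pts measurable_id)).measurable_tsum_of_support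
    (F := fun q : Conf Ph × CTree => ind (HpEv Φ ε L A H t (pts q.1) q.2))
    (measurable_ind (measurableSet_hpEv hΦ hε A H t))
    fun _ _ hT => (ind_ne_zero.1 hT).1.1

end Meas

/-! ### Extraction -/

/-- The extraction of the first hitter of `H`, in the presence of `A`. -/
theorem extract_gen (hf : GoodDatum f₀ κ) (hΦ : IsPotential Φ) (hε : 0 < ε)
    {A H : List CTree} {t : ℝ} {E : CTree → Finset Ph → Prop}
    (hE0 : ∀ T w, E T w → ok Φ ε T ∧ T.depth ≤ L)
    (hE : MeasurableSet {p : CTree × Conf Ph | E p.1 (pts p.2)}) :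
    ∫⁻ o, ∑' T', ind ((T'.leaves ⊆ world (pts o : Set Ph) ∧ CmpF ε (A ++ H) (pts o)) ∧
        HitC Φ ε H 0 t T' ∧ E T' (rem (pts o) T')) ∂(PP f₀ ε) ≤
      HI Φ ε L f₀ H 0 t (fun T' =>
        ∫⁻ o, ind (CmpF ε (A ++ T' :: H) (pts o)) * ind (E T' (pts o)) ∂(PP f₀ ε)) := by
  have h1 := extract_forest (Φ := Φ) (L := L) hf hε (A ++ H)
    (K := fun T' w => ind (HitC Φ ε H 0 t T' ∧ E T' w))
    (fun T w h => hE0 T w (ind_ne_zero.1 h).2) (by
      have m0 : Measurable fun p : CTree × Conf Ph => p.1 := measurable_fst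
      have m1 := measurableSet_hitC hΦ hε (MF.cst (X := CTree × Conf Ph) H) m0 0 t
      simp only [ev_cst] at m1
      exact measurable_ind (m1.inter hE))
  simp only [← ind_and] at h1
  rw [h1]
  unfold HI
  refine Finset.sum_le_sum fun τ _ => lintegral_mono fun z => ?_
  set T := τ.ord z with hT
  by_cases hh : ok Φ ε T ∧ HitC Φ ε H 0 t T
  swap
  · have e : ∀ o : Conf Ph, ind (CmpF ε (T :: (A ++ H)) (pts o) ∧
        HitC Φ ε H 0 t T ∧ E T (pts o)) = 0 := fun o =>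
      ind_of_false fun h' => hh ⟨(hE0 _ _ h'.2.2).1, h'.2.1⟩
    simp only [e, lintegral_zero, mul_zero]
    exact zero_le
  refine mul_le_mul' (ind_mono fun h => ?_) ?_
  · refine ⟨⟨fun i σ hσ => h i σ ?_, hh.1, hh.2.1⟩, hh.2.2⟩
    rw [lvs_append]
    exact Or.inr hσ
  · refine lintegral_mono fun o => ?_
    rw [← ind_and]
    refine ind_mono fun h => ⟨?_, h.2.2⟩
    exact (cmpF_congr (lvs_middle A H T)).2 h.1

theorem lintegral_hm_le (hf : GoodDatum f₀ κ) (hΦ : IsPotential Φ) (hε : 0 < ε)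
    (A H : List CTree) (t : ℝ) :
    ∫⁻ o, ∑' T', ind (HmEv Φ ε L A H t (pts o) T') ∂(PP f₀ ε) ≤
      HI Φ ε L f₀ H 0 t (fun T' => Dm Φ ε L f₀ A H T' (ff Φ ε H T')) := by
  have m0 : Measurable fun p : CTree × Conf Ph => p.1 := measurable_fst
  have hE := measurableSet_DmEv (L := L) hΦ hε (MF.cst (X := CTree × Conf Ph) A)
    (MF.cst (X := CTree × Conf Ph) H) m0 measurable_snd
    (measurable_ff hΦ hε.ne' (MF.cst (X := CTree × Conf Ph) H) m0)
  simp only [ev_cst] at hE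
  have h1 := extract_gen hf hΦ hε (A := A) (H := H) (t := t)
    (E := fun T w => DmEv Φ ε L A H T (ff Φ ε H T) w) (fun T w h => ok_of_DmEv h) hE
  simp only [Dm_eq]
  exact h1

theorem lintegral_hp_le (hf : GoodDatum f₀ κ) (hΦ : IsPotential Φ) (hε : 0 < ε)
    (A H : List CTree) (t : ℝ) :
    ∫⁻ o, ∑' T', ind (HpEv Φ ε L A H t (pts o) T') ∂(PP f₀ ε) ≤
      HI Φ ε L f₀ H 0 t (fun T' => Dp Φ ε L f₀ A H T' (ff Φ ε H T')) := by
  have m0 : Measurable fun p : CTree × Conf Ph => p.1 := measurable_fst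
  have hE := measurableSet_DpEv (L := L) hΦ hε (MF.cst (X := CTree × Conf Ph) A)
    (MF.cst (X := CTree × Conf Ph) H) m0 measurable_snd
    (measurable_ff hΦ hε.ne' (MF.cst (X := CTree × Conf Ph) H) m0)
  simp only [ev_cst] at hE
  have h1 := extract_gen hf hΦ hε (A := A) (H := H) (t := t)
    (E := fun T w => DpEv Φ ε L A H T (ff Φ ε H T) w) (fun T w h => ok_of_DpEv h) hE
  simp only [Dp_eq]
  exact h1

/-! ### The comparison -/

theorem chF_swap {F G : List CTree} {t : ℝ} {w : Finset Ph} :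
    ChF Φ ε L (F ++ G) t w ↔ ChF Φ ε L (G ++ F) t w := by
  have h : lvs (F ++ G) = lvs (G ++ F) := by rw [lvs_append, lvs_append, union_comm]
  unfold ChF
  rw [cmpF_congr h, Wc_congr h, unhit_append, unhit_append, and_comm (a := Unhit Φ ε L _ F t)]

theorem measurable_chF (hΦ : IsPotential Φ) (hε : 0 < ε) (F : List CTree) (t : ℝ) :
    Measurable fun c : Conf Ph => ind (ChF Φ ε L F t (pts c)) := measurable_indUnhit hΦ hε F t

/-- The probability that both forests are unhit in their own worlds. -/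
def surv2 (Φ : E3 → ℝ) (ε : ℝ) (L : ℕ) (f₀ : Ph → ℝ) (F G : List CTree) (t : ℝ) : ℝ≥0∞ :=
  ∫⁻ c, ind (ChF Φ ε L F t (pts c)) * ind (ChF Φ ε L G t (pts c)) ∂(PP f₀ ε)

/-- The error for one forest. -/
def Ej (Φ : E3 → ℝ) (ε : ℝ) (L : ℕ) (f₀ : Ph → ℝ) (A H : List CTree) (t : ℝ) : ℝ≥0∞ :=
  RelP Φ ε L f₀ H t + HI Φ ε L f₀ H 0 t (fun T' => Dm Φ ε L f₀ A H T' (ff Φ ε H T'))

/-- The error of the product. -/
def Es (Φ : E3 → ℝ) (ε : ℝ) (L : ℕ) (f₀ : Ph → ℝ) (F G : List CTree) (t : ℝ) : ℝ≥0∞ :=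
  RelP Φ ε L f₀ (F ++ G) t + (HI Φ ε L f₀ G 0 t (fun T' => Dp Φ ε L f₀ F G T' (ff Φ ε G T')) +
    HI Φ ε L f₀ F 0 t (fun T' => Dp Φ ε L f₀ G F T' (ff Φ ε F T')))

/-- Unhit in the joint world but not alone. -/
theorem lintegral_joint_le (hf : GoodDatum f₀ κ) (hΦ : IsPotential Φ) (hε : 0 < ε)
    (A H : List CTree) (t : ℝ) :
    ∫⁻ c, ind (ChF Φ ε L (A ++ H) t (pts c) ∧ ¬ChF Φ ε L H t (pts c)) ∂(PP f₀ ε) ≤
      Ej Φ ε L f₀ A H t := by
  refine le_trans ?_ (add_le_add le_rfl (lintegral_hm_le hf hΦ hε A H t))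
  unfold RelP
  rw [← lintegral_add_left (measurable_relEx_pts hΦ hε H t)]
  refine lintegral_mono fun c => ?_
  by_cases h : ChF Φ ε L (A ++ H) t (pts c) ∧ ¬ChF Φ ε L H t (pts c)
  swap
  · rw [ind_of_false h]; exact zero_le
  rw [ind_of_true h]
  obtain ⟨T', h1 | h1⟩ := joint_cases hΦ hε h.1 h.2
  · rw [ind_of_true (P := ∃ T', RelEv Φ ε L H t (pts c) T') ⟨T', h1⟩]
    exact le_self_add
  · refine le_trans ?_ (le_add_left (ENNReal.le_tsum T'))
    rw [ind_of_true h1]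

/-- **The joint survival is at most the product**, up to the errors. -/
theorem joint_le (hf : GoodDatum f₀ κ) (hΦ : IsPotential Φ) (hε : 0 < ε)
    (F G : List CTree) (t : ℝ) :
    surv Φ ε L f₀ (F ++ G) t ≤ surv2 Φ ε L f₀ F G t +
      (Ej Φ ε L f₀ G F t + Ej Φ ε L f₀ F G t) := by
  refine le_trans ?_ (add_le_add le_rfl (add_le_add (lintegral_joint_le hf hΦ hε G F t)
    (lintegral_joint_le hf hΦ hε F G t)))
  have m1 := measurable_chF (L := L) hΦ hε F t
  have m2 := measurable_chF (L := L) hΦ hε G t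
  have hset : ∀ F : List CTree, MeasurableSet {c : Conf Ph | ChF Φ ε L F t (pts c)} := by
    intro F
    have h := measurable_chF (L := L) hΦ hε F t (measurableSet_singleton (1 : ℝ≥0∞))
    refine h.congr ?_
    ext c
    simp only [mem_preimage, mem_singleton_iff, mem_ofPred_eq]
    constructor
    · intro h1
      exact ind_ne_zero.1 (by rw [h1]; exact one_ne_zero)
    · exact fun h1 => ind_of_true h1
  have m3 : Measurable fun c : Conf Ph =>
      ind (ChF Φ ε L (G ++ F) t (pts c) ∧ ¬ChF Φ ε L F t (pts c)) :=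
    measurable_ind ((hset (G ++ F)).inter (hset F).compl)
  have m4 : Measurable fun c : Conf Ph =>
      ind (ChF Φ ε L F t (pts c)) * ind (ChF Φ ε L G t (pts c)) := m1.mul m2
  unfold surv surv2
  rw [← lintegral_add_left m3, ← lintegral_add_left m4]
  refine lintegral_mono fun c => ?_
  by_cases h : ChF Φ ε L (F ++ G) t (pts c)
  swap
  · refine le_trans (le_of_eq ?_) zero_le
    exact ind_of_false h
  by_cases hF : ChF Φ ε L F t (pts c)
  · by_cases hG : ChF Φ ε L G t (pts c)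
    · refine le_trans ?_ (le_add_right le_rfl)
      rw [ind_of_true hF, ind_of_true hG, one_mul]
      exact ind_le_one _
    · refine le_trans ?_ (le_add_left (le_add_left le_rfl))
      rw [ind_of_true (P := ChF Φ ε L (F ++ G) t (pts c) ∧ ¬ChF Φ ε L G t (pts c)) ⟨h, hG⟩]
      exact ind_le_one _
  · refine le_trans ?_ (le_add_left (le_add_right le_rfl))
    rw [ind_of_true (P := ChF Φ ε L (G ++ F) t (pts c) ∧ ¬ChF Φ ε L F t (pts c))
      ⟨chF_swap.1 h, hF⟩]
    exact ind_le_one _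

/-- **The product is at most the joint survival**, up to the errors. -/
theorem sep_le (hf : GoodDatum f₀ κ) (hΦ : IsPotential Φ) (hε : 0 < ε)
    (F G : List CTree) (t : ℝ) :
    surv2 Φ ε L f₀ F G t ≤ surv Φ ε L f₀ (F ++ G) t + Es Φ ε L f₀ F G t := by
  unfold Es
  refine le_trans ?_ (add_le_add le_rfl (add_le_add le_rfl (add_le_add
    (lintegral_hp_le hf hΦ hε F G t) (lintegral_hp_le hf hΦ hε G F t))))
  unfold surv surv2 RelP
  rw [← lintegral_add_left (measurable_hpSum hΦ hε F G t),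
    ← lintegral_add_left (measurable_relEx_pts hΦ hε (F ++ G) t),
    ← lintegral_add_left (measurable_indUnhit hΦ hε (F ++ G) t)]
  refine lintegral_mono fun c => ?_
  rw [← ind_and]
  by_cases h : ChF Φ ε L F t (pts c) ∧ ChF Φ ε L G t (pts c)
  swap
  · rw [ind_of_false h]; exact zero_le
  rw [ind_of_true h]
  by_cases hJ : ChF Φ ε L (F ++ G) t (pts c)
  · refine le_add_right (le_of_eq ?_)
    exact (ind_of_true hJ).symm
  obtain ⟨T', h1 | h1 | h1⟩ := sep_cases hΦ hε h.1 h.2 hJ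
  · refine le_add_left (le_add_right (le_of_eq ?_))
    rw [ind_of_true (P := ∃ T', RelEv Φ ε L (F ++ G) t (pts c) T') ⟨T', h1⟩]
  · refine le_add_left (le_add_left (le_add_right (le_trans ?_ (ENNReal.le_tsum T'))))
    rw [ind_of_true h1]
  · refine le_add_left (le_add_left (le_add_left (le_trans ?_ (ENNReal.le_tsum T'))))
    rw [ind_of_true h1]

end Vale.Agent.P119.ML
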