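import Vale.Agent.P119.ML.NdGen
import Vale.Agent.P119.ML.Two
import Vale.Agent.P119.ML.Rate
import Vale.Agent.P119.GC.Cmp

/-!
# P119, block ML (`helper67`): the forms of the survival limits

* `lintegral_not_cmpF`, `tendsto_not_cmpF`: the forest is compatible with the gas with probability
  tending to one;
* `chF`: compatible and unhit; `sv_of_approx`, `sv_of_chF`, `sv_of_joint`: the conversion to `Sv`;
* `svF_eq_sv`: the limit in the notation of the hierarchy.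
-/

open MeasureTheory Filter Topology Set
open scoped ENNReal NNReal

noncomputable section

namespace Vale.Agent.P119.Cap

open KU M KT ML KE GC

variable {Φ : E3 → ℝ} {ε : ℝ} {f₀ : Ph → ℝ} {L : ℕ} {κ : ℝ}

/-! ### Compatibility -/

theorem measurable_notCmpF (F : List CTree) :
    Measurable fun c : Conf Ph => ind (¬CmpF ε F (pts c)) := by
  have hFs := MF.cst (X := Conf Ph) F
  have h2 := measurableSet_cmpF (ε := ε) hFs measurable_id
  simp only [ev_cst] at h2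
  exact measurable_ind h2.compl

theorem not_cmpF_tree_le (h : GoodDatum f₀ κ) (hε : 0 < ε) (G : TG) :
    ∫⁻ c, ind (¬CmpF ε [G.tree Φ ε] (pts c)) ∂(PP f₀ ε) ≤
      G.τ.card * ENNReal.ofReal (κ * ε) := by
  have h1 : G.tree Φ ε = G.τ.ord (ldEquiv G.τ (bk Φ ε G.τ (lat ε G.ℓ) G.p)) := by
    rw [TG.tree_def, mkL_eq_ord]
  have h2 : ∀ c : Conf Ph, ind (¬CmpF ε [G.tree Φ ε] (pts c)) =
      {c : Conf Ph | ¬Cmp (Cx ε) (ldEquiv G.τ (bk Φ ε G.τ (lat ε G.ℓ) G.p))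
        (pts c)}.indicator (fun _ => (1 : ℝ≥0∞)) c := by
    intro c
    rw [h1, cmpF_ord]
    by_cases hc : Cmp (Cx ε) (ldEquiv G.τ (bk Φ ε G.τ (lat ε G.ℓ) G.p)) (pts c)
    · rw [ind_of_false (not_not.2 hc), indicator_of_notMem (by exact not_not.2 hc)]
    · rw [ind_of_true hc, indicator_of_mem (by exact hc)]
  simp only [h2]
  refine (lintegral_indicator_one_le _).trans ?_
  exact prob_not_cmp_le h hε _

theorem lintegral_not_cmpF (h : GoodDatum f₀ κ) (hε : 0 < ε) (F : List TG) :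
    ∫⁻ c, ind (¬CmpF ε (trees Φ ε F) (pts c)) ∂(PP f₀ ε) ≤
      ((F.map fun G => G.τ.card).sum : ℕ) * ENNReal.ofReal (κ * ε) := by
  induction F with
  | nil =>
    have h1 : ∀ c : Conf Ph, ind (¬CmpF ε (trees Φ ε []) (pts c)) = 0 := by
      intro c
      refine ind_of_false (not_not.2 fun z _ σ hσ => ?_)
      exact absurd hσ (by simp [trees, lvs_nil])
    simp only [h1, lintegral_zero]
    exact zero_le
  | cons G F ih =>
    have h1 : ∀ c : Conf Ph, ind (¬CmpF ε (trees Φ ε (G :: F)) (pts c)) ≤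
        ind (¬CmpF ε [G.tree Φ ε] (pts c)) + ind (¬CmpF ε (trees Φ ε F) (pts c)) := by
      intro c
      rw [trees_cons, cmpF_cons]
      by_cases h2 : CmpF ε [G.tree Φ ε] (pts c)
      · by_cases h3 : CmpF ε (trees Φ ε F) (pts c)
        · rw [ind_of_false (not_not.2 ⟨h2, h3⟩)]
          exact zero_le
        · rw [ind_of_true (P := ¬CmpF ε (trees Φ ε F) (pts c)) h3]
          exact (ind_le_one _).trans le_add_self
      · rw [ind_of_true (P := ¬CmpF ε [G.tree Φ ε] (pts c)) h2]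
        exact (ind_le_one _).trans le_self_add
    refine (lintegral_mono h1).trans ?_
    rw [lintegral_add_left (measurable_notCmpF _)]
    refine (add_le_add (not_cmpF_tree_le h hε G) ih).trans (le_of_eq ?_)
    rw [List.map_cons, List.sum_cons]
    push_cast
    rw [add_mul]

theorem tendsto_not_cmpF (h : GoodDatum f₀ κ) (F : List TG) :
    Tendsto (fun ε => ∫⁻ c, ind (¬CmpF ε (trees Φ ε F) (pts c)) ∂(PP f₀ ε)) (𝓝[>] 0) (𝓝 0) := by
  have h1 : Tendsto (fun ε : ℝ => ((F.map fun G => G.τ.card).sum : ℕ) *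
      ENNReal.ofReal (κ * ε)) (𝓝[>] 0) (𝓝 0) := by
    have h2 : Tendsto (fun ε : ℝ => ENNReal.ofReal (κ * ε)) (𝓝[>] 0) (𝓝 0) := by
      have h3 : Tendsto (fun ε : ℝ => κ * ε) (𝓝[>] 0) (𝓝 (κ * 0)) :=
        (tendsto_id.mono_left nhdsWithin_le_nhds).const_mul κ
      rw [mul_zero] at h3
      have h4 := ENNReal.tendsto_ofReal h3
      rwa [ENNReal.ofReal_zero] at h4
    have h5 := ENNReal.Tendsto.const_mul (a := (((F.map fun G => G.τ.card).sum : ℕ) : ℝ≥0∞)) h2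
      (Or.inr (ENNReal.natCast_ne_top _))
    rwa [mul_zero] at h5
  refine tendsto_of_tendsto_of_tendsto_of_le_of_le' tendsto_const_nhds h1
    (Eventually.of_forall fun _ => zero_le) ?_
  filter_upwards [self_mem_nhdsWithin] with ε hε
  exact lintegral_not_cmpF h hε F

/-! ### Conversions -/

/-- The forest is compatible with the gas and unhit until `t`. -/
def chF (Φ : E3 → ℝ) (L : ℕ) (F : List TG) (t ε : ℝ) (c : Conf Ph) : ℝ≥0∞ :=
  ind (CmpF ε (trees Φ ε F) (pts c) ∧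
    Unhit Φ ε L (Wc (trees Φ ε F) (pts c)) (trees Φ ε F) t)

theorem chF_le_uh (F : List TG) (t ε : ℝ) (c : Conf Ph) : chF Φ L F t ε c ≤ uh Φ ε L F t c :=
  ind_mono fun h => h.2

theorem trees_append' (F₁ F₂ : List TG) :
    trees Φ ε (F₁ ++ F₂) = trees Φ ε F₁ ++ trees Φ ε F₂ := List.map_append

theorem cmpF_app {F₁ F₂ : List CTree} {w : Finset Ph} :
    CmpF ε (F₁ ++ F₂) w ↔ CmpF ε F₁ w ∧ CmpF ε F₂ w := by
  induction F₁ with
  | nil =>
    rw [List.nil_append]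
    exact ⟨fun h => ⟨fun z _ σ hσ => absurd hσ (by simp [lvs_nil]), h⟩, fun h => h.2⟩
  | cons T F₁ ih =>
    rw [List.cons_append, cmpF_cons, ih, cmpF_cons (F := F₁), and_assoc]

/-- The general conversion. -/
theorem sv_of_approx (h : GoodDatum f₀ κ) {F₁ F₂ : List TG} {t : ℝ} {lg : ℝ → ℝ → Ph → ℝ≥0∞}
    {Y : ℝ → Conf Ph → ℝ≥0∞}
    (H : Tendsto (fun ε => ∫⁻ c, Y ε c ∂(PP f₀ ε)) (𝓝[>] 0)
      (𝓝 (svF Φ lg F₁ t * svF Φ lg F₂ t)))
    (h1 : ∀ᶠ ε in 𝓝[>] (0 : ℝ), ∀ c, Y ε c ≤ uh Φ ε L F₁ t c * uh Φ ε L F₂ t c)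
    (h2 : ∀ᶠ ε in 𝓝[>] (0 : ℝ), ∀ c, uh Φ ε L F₁ t c * uh Φ ε L F₂ t c ≤
      Y ε c + ind (¬CmpF ε (trees Φ ε (F₁ ++ F₂)) (pts c))) : Sv Φ f₀ L lg F₁ F₂ t := by
  have h3 := H.add (tendsto_not_cmpF (Φ := Φ) h (F₁ ++ F₂))
  rw [add_zero] at h3
  refine tendsto_of_tendsto_of_tendsto_of_le_of_le' H h3 ?_ ?_
  · filter_upwards [h1] with ε h4
    exact lintegral_mono fun c => h4 c
  · filter_upwards [h2] with ε h4
    refine (lintegral_mono fun c => h4 c).trans ?_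
    rw [lintegral_add_right _ (measurable_notCmpF _)]

/-- **Two separate worlds**, with compatibility. -/
theorem sv_of_chF (h : GoodDatum f₀ κ) {F₁ F₂ : List TG} {t : ℝ} {lg : ℝ → ℝ → Ph → ℝ≥0∞}
    (H : Tendsto (fun ε => ∫⁻ c, chF Φ L F₁ t ε c * chF Φ L F₂ t ε c ∂(PP f₀ ε)) (𝓝[>] 0)
      (𝓝 (svF Φ lg F₁ t * svF Φ lg F₂ t))) : Sv Φ f₀ L lg F₁ F₂ t := by
  refine sv_of_approx h H (Eventually.of_forall fun ε c => mul_le_mul' (chF_le_uh _ _ _ _)
    (chF_le_uh _ _ _ _)) (Eventually.of_forall fun ε c => ?_)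
  rw [trees_append', cmpF_app]
  by_cases h1 : CmpF ε (trees Φ ε F₁) (pts c) ∧ CmpF ε (trees Φ ε F₂) (pts c)
  · refine le_trans (le_of_eq ?_) le_self_add
    unfold chF uh
    congr 1
    · exact ind_congr ⟨fun h => ⟨h1.1, h⟩, fun h => h.2⟩
    · exact ind_congr ⟨fun h => ⟨h1.2, h⟩, fun h => h.2⟩
  · rw [ind_of_true (P := ¬(CmpF ε (trees Φ ε F₁) (pts c) ∧ CmpF ε (trees Φ ε F₂) (pts c))) h1]
    refine le_trans ?_ le_add_self
    exact (mul_le_mul' (ind_le_one _) (ind_le_one _)).trans (le_of_eq (mul_one 1))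

/-- One indicator for the two worlds. -/
theorem sv_of_joint (h : GoodDatum f₀ κ) {F₁ F₂ : List TG} {t : ℝ} {lg : ℝ → ℝ → Ph → ℝ≥0∞}
    (H : Tendsto (fun ε => ∫⁻ c, ind (CmpF ε (trees Φ ε (F₁ ++ F₂)) (pts c) ∧
      Unhit Φ ε L (Wc (trees Φ ε F₁) (pts c)) (trees Φ ε F₁) t ∧
      Unhit Φ ε L (Wc (trees Φ ε F₂) (pts c)) (trees Φ ε F₂) t) ∂(PP f₀ ε)) (𝓝[>] 0)
      (𝓝 (svF Φ lg F₁ t * svF Φ lg F₂ t))) : Sv Φ f₀ L lg F₁ F₂ t := by
  refine sv_of_approx h H (Eventually.of_forall fun ε c => ?_)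
    (Eventually.of_forall fun ε c => ?_)
  · unfold uh
    by_cases h1 : Unhit Φ ε L (Wc (trees Φ ε F₁) (pts c)) (trees Φ ε F₁) t ∧
      Unhit Φ ε L (Wc (trees Φ ε F₂) (pts c)) (trees Φ ε F₂) t
    · rw [ind_of_true h1.1, ind_of_true h1.2, mul_one]
      exact ind_le_one _
    · rw [ind_of_false fun h2 => h1 h2.2]
      exact zero_le
  · unfold uh
    by_cases h0 : CmpF ε (trees Φ ε (F₁ ++ F₂)) (pts c)
    · refine le_trans ?_ le_self_add
      by_cases h1 : Unhit Φ ε L (Wc (trees Φ ε F₁) (pts c)) (trees Φ ε F₁) t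
      · by_cases h2 : Unhit Φ ε L (Wc (trees Φ ε F₂) (pts c)) (trees Φ ε F₂) t
        · rw [ind_of_true h1, ind_of_true h2, mul_one,
            ind_of_true (P := CmpF ε (trees Φ ε (F₁ ++ F₂)) (pts c) ∧
              Unhit Φ ε L (Wc (trees Φ ε F₁) (pts c)) (trees Φ ε F₁) t ∧
              Unhit Φ ε L (Wc (trees Φ ε F₂) (pts c)) (trees Φ ε F₂) t) ⟨h0, h1, h2⟩]
        · rw [ind_of_false h2, mul_zero]; exact zero_le
      · rw [ind_of_false h1, zero_mul]; exact zero_le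
    · rw [ind_of_true h0]
      refine le_trans ?_ le_add_self
      exact (mul_le_mul' (ind_le_one _) (ind_le_one _)).trans (le_of_eq (mul_one 1))

/-! ### The limit in the notation of the hierarchy -/

theorem svF_eq_sv {hΦ : IsPotential Φ} {m₀ : Measurable fun p : E3 × E3 => K1.f0hat f₀ p.1 p.2}
    {T : ℝ} {f : ℝ → Ph → ℝ} (K : KinFamily hΦ f₀ m₀ T f) (L : ℕ) {t : ℝ} (ht : 0 ≤ t) :
    ∀ F : List TG, (∀ G ∈ F, Tord G.τ G.p) → (∀ G ∈ F, stm G.τ G.p < t) →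
      svF Φ (K.leg L) F t = sv (rt K L) Φ F t
  | [], _, _ => by rw [svF_nil, sv_nil]
  | G :: F, h1, h2 => by
    have hR := measurable_rt K L
    rw [sv_cons hΦ hR, ← svF_eq_sv K L ht F (fun G hG => h1 G (List.mem_cons_of_mem _ hG))
      (fun G hG => h2 G (List.mem_cons_of_mem _ hG))]
    have ho : ordd G.τ t G.p := Cap.ordd_of_tok G.τ G.ℓ.1.2 G.p t
      ((tok_zero_iff (Φ := Φ) _ _ _).2 (h1 G List.mem_cons_self)) (h2 G List.mem_cons_self).le
    rw [sv_singleton hR G ht ho, ← leg_eq]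
    unfold svF
    rw [List.map_cons, List.prod_cons]

/-- **The input of In-nd and of In-R** from the limits of the hierarchy for generic forests. -/
theorem svAll_of {hΦ : IsPotential Φ} {m₀ : Measurable fun p : E3 × E3 => K1.f0hat f₀ p.1 p.2}
    {T : ℝ} {f : ℝ → Ph → ℝ} (K : KinFamily hΦ f₀ m₀ T f) (hg : GoodDatum f₀ κ) {L : ℕ}
    (H : ∀ (F₁ F₂ : List TG) (t : ℝ), Gen Φ L (F₁ ++ F₂) t → t ≤ T →
      Tendsto (fun ε => ∫⁻ c, ind (CmpF ε (trees Φ ε (F₁ ++ F₂)) (pts c) ∧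
        Unhit Φ ε L (Wc (trees Φ ε F₁) (pts c)) (trees Φ ε F₁) t ∧
        Unhit Φ ε L (Wc (trees Φ ε F₂) (pts c)) (trees Φ ε F₂) t) ∂(PP f₀ ε)) (𝓝[>] 0)
        (𝓝 (sv (rt K L) Φ F₁ t * sv (rt K L) Φ F₂ t))) :
    SvAll Φ f₀ L T (K.leg L) := by
  intro F₁ F₂ t h1 h2 h3
  refine sv_of_joint hg ?_
  have h4 := h1.pos.le
  rw [svF_eq_sv K L h4 F₁ (fun G hG => (h1.one G (List.mem_append_left _ hG)).tord)
      (fun G hG => h2 G (List.mem_append_left _ hG)),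
    svF_eq_sv K L h4 F₂ (fun G hG => (h1.one G (List.mem_append_right _ hG)).tord)
      (fun G hG => h2 G (List.mem_append_right _ hG))]
  exact H F₁ F₂ t h1 h3

/-- **The input of In-nd** from the limits of `surv2` for generic forests. -/
theorem svAll_of_surv2 {hΦ : IsPotential Φ}
    {m₀ : Measurable fun p : E3 × E3 => K1.f0hat f₀ p.1 p.2}
    {T : ℝ} {f : ℝ → Ph → ℝ} (K : KinFamily hΦ f₀ m₀ T f) (hg : GoodDatum f₀ κ) {L : ℕ}
    (H : ∀ (F₁ F₂ : List TG) (t : ℝ), Gen Φ L (F₁ ++ F₂) t → t ≤ T →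
      Tendsto (fun ε => surv2 Φ ε L f₀ (trees Φ ε F₁) (trees Φ ε F₂) t) (𝓝[>] 0)
        (𝓝 (sv (rt K L) Φ F₁ t * sv (rt K L) Φ F₂ t))) :
    SvAll Φ f₀ L T (K.leg L) := by
  intro F₁ F₂ t h1 h2 h3
  refine sv_of_chF hg ?_
  have h4 := h1.pos.le
  rw [svF_eq_sv K L h4 F₁ (fun G hG => (h1.one G (List.mem_append_left _ hG)).tord)
      (fun G hG => h2 G (List.mem_append_left _ hG)),
    svF_eq_sv K L h4 F₂ (fun G hG => (h1.one G (List.mem_append_right _ hG)).tord)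
      (fun G hG => h2 G (List.mem_append_right _ hG))]
  exact H F₁ F₂ t h1 h3

/-- **The inputs of In-R** from the same limits. -/
theorem sl1_of_surv {hΦ : IsPotential Φ}
    {m₀ : Measurable fun p : E3 × E3 => K1.f0hat f₀ p.1 p.2}
    {T : ℝ} {f : ℝ → Ph → ℝ} (K : KinFamily hΦ f₀ m₀ T f) {L : ℕ}
    (H : ∀ (F : List TG) (t : ℝ), Gen Φ L F t → t ≤ T →
      Tendsto (fun ε => surv Φ ε L f₀ (trees Φ ε F) t) (𝓝[>] 0)
        (𝓝 (sv (rt K L) Φ F t))) : SL1 K L := by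
  intro G t h1 h2 h3
  have h4 := svF_eq_sv K L h1.pos.le [G] (fun G' hG => (h1.one G' hG).tord)
    (fun G' hG => by rw [List.mem_singleton.1 hG]; exact h2)
  have h5 : svF Φ (K.leg L) [G] t = KE.legW Φ (K.leg L) G.τ t G.ℓ.1 G.p := by
    unfold svF
    rw [List.map_singleton, List.prod_singleton]
  rw [← h5, h4]
  exact H [G] t h1 h3

theorem sl2_of_surv2 {hΦ : IsPotential Φ}
    {m₀ : Measurable fun p : E3 × E3 => K1.f0hat f₀ p.1 p.2}
    {T : ℝ} {f : ℝ → Ph → ℝ} (K : KinFamily hΦ f₀ m₀ T f) {L : ℕ}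
    (H : ∀ (F₁ F₂ : List TG) (t : ℝ), Gen Φ L (F₁ ++ F₂) t → t ≤ T →
      Tendsto (fun ε => surv2 Φ ε L f₀ (trees Φ ε F₁) (trees Φ ε F₂) t) (𝓝[>] 0)
        (𝓝 (sv (rt K L) Φ F₁ t * sv (rt K L) Φ F₂ t))) : SL2 K L := by
  intro G G' t h1 h2 h2' h3
  have e : ∀ G : TG, svF Φ (K.leg L) [G] t = KE.legW Φ (K.leg L) G.τ t G.ℓ.1 G.p := by
    intro G
    unfold svF
    rw [List.map_singleton, List.prod_singleton]
  have h4 := svF_eq_sv K L h1.pos.le [G]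
    (fun G₁ hG => (h1.one G₁ (by rw [List.mem_singleton.1 hG]; simp)).tord)
    (fun G₁ hG => by rw [List.mem_singleton.1 hG]; exact h2)
  have h5 := svF_eq_sv K L h1.pos.le [G']
    (fun G₁ hG => (h1.one G₁ (by rw [List.mem_singleton.1 hG]; simp)).tord)
    (fun G₁ hG => by rw [List.mem_singleton.1 hG]; exact h2')
  rw [← e G, ← e G', h4, h5]
  exact H [G] [G'] t h1 h3

end Vale.Agent.P119.Cap
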