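import Vale.Agent.P119.ML.InRGen
import Vale.Agent.P119.ML.SvConv
import Vale.Agent.P119.ML.InI1Main
import Vale.Agent.P119.ML.Exp

/-!
# P119, block ML (`helper755`): **the inputs In-I1, In-nd, In-R of CAP0**

* `ExLim`: the three limits of the hierarchy (survival, survival of two worlds, defect);
* `ExLim.i1`, `ExLim.nd`, `ExLim.r`: the three inputs;
* **`ev_i1`, `ev_nd`, `ev_r`**: the three inputs for large depth, from `RelZ`.
-/

open MeasureTheory Filter Topology Set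
open scoped ENNReal NNReal

noncomputable section

namespace Vale.Agent.P119.Cap

open KU M CTree ML KT KE MM GC
open Vale.Agent.P119.M (Shape)

variable {Φ : E3 → ℝ} {hΦ : IsPotential Φ} {f₀ : Ph → ℝ}
  {m₀ : Measurable fun p : E3 × E3 => K1.f0hat f₀ p.1 p.2} {T κ β' : ℝ} {f : ℝ → Ph → ℝ}

/-- The three limits of the hierarchy. -/
structure ExLim (K : KE.KinFamily hΦ f₀ m₀ T f) (L : ℕ) : Prop where
  s : ∀ (F : List TG) (t : ℝ), Gen Φ L F t → t ≤ T →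
    Tendsto (fun ε => surv Φ ε L f₀ (trees Φ ε F) t) (𝓝[>] 0) (𝓝 (sv (rt K L) Φ F t))
  s2 : ∀ (F₁ F₂ : List TG) (t : ℝ), Gen Φ L (F₁ ++ F₂) t → t ≤ T →
    Tendsto (fun ε => surv2 Φ ε L f₀ (trees Φ ε F₁) (trees Φ ε F₂) t) (𝓝[>] 0)
      (𝓝 (sv (rt K L) Φ F₁ t * sv (rt K L) Φ F₂ t))
  d : ∀ (A C : List TG) (c : TG) (t : ℝ), Gen Φ L (A ++ c :: C) t → t ≤ T →
    Tendsto (fun ε => Dp Φ ε L f₀ (trees Φ ε A) (trees Φ ε C) (c.tree Φ ε) t) (𝓝[>] 0) (𝓝 0)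

variable {K : KE.KinFamily hΦ f₀ m₀ T f} {L : ℕ}

theorem ExLim.r (H : ExLim K L) (hg : GoodDatum f₀ κ) (hd : IsDatum β' f₀)
    (hL : K.L₀ ≤ L + 1) (hT : 0 ≤ T) : InR Φ f₀ L T K.rr :=
  inR_of_sl K hg (gd_of_kin hΦ hd K) hT hL hT le_rfl (sl1_of_surv K H.s) (sl2_of_surv2 K H.s2)

theorem ExLim.nd (H : ExLim K L) (hg : GoodDatum f₀ κ) (hd : IsDatum β' f₀)
    (hL : K.L₀ ≤ L + 1) (hT : 0 ≤ T) : InNd Φ f₀ L T K.nn K.b :=
  inNd_of_sv K (κ := ⟨κ, hg.κ_nonneg⟩) hg hd hL hT le_rfl (svAll_of_surv2 K hg H.s2)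

theorem ExLim.i1 (H : ExLim K L) (hg : GoodDatum f₀ κ) (hd : IsDatum β' f₀)
    (hL : K.L₀ ≤ L + 1) (hT : 0 ≤ T) : InI1 Φ f₀ L T :=
  inI1_of_sl K hg hd hL hT le_rfl (sl1_of_surv K H.s)
    fun G G' t hG _ _ ht => H.d [G] [] G' t hG ht

/-- The three limits, from the limit of the probability of related hits. -/
theorem exLim_of_relZ (hg : GoodDatum f₀ κ) (hd : IsDatum β' f₀) (hL : K.L₀ ≤ L + 1)
    (hT : 0 ≤ T) (hrel : RelZ Φ f₀ L) : ExLim K L := by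
  have st : Std K κ L := ⟨hg, hd.contDiff.continuous, hL, hT⟩
  exact ⟨fun F t hF ht => st.surv (gsys hΦ f₀ L hrel) (GenN.of_gen hF) hF.pos.le ht,
    fun F₁ F₂ t hF ht => st.surv2 (gsys hΦ f₀ L hrel) (GenN.of_gen hF) hF.pos.le ht,
    fun A C c t hF ht => (st.gen_D hrel hF ht).1⟩

theorem ev_depth (K : KE.KinFamily hΦ f₀ m₀ T f) : ∀ᶠ L : ℕ in atTop, K.L₀ ≤ L + 1 := by
  filter_upwards [eventually_ge_atTop K.L₀] with L hL
  omega

variable (K)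

include K in
/-- **The input In-I1.** -/
theorem ev_i1 (hg : GoodDatum f₀ κ) (hd : IsDatum β' f₀) (hT : 0 ≤ T)
    (hrel : ∀ L, RelZ Φ f₀ L) : ∀ᶠ L in atTop, InI1 Φ f₀ L T := by
  filter_upwards [ev_depth K] with L hL
  exact (exLim_of_relZ (K := K) hg hd hL hT (hrel L)).i1 hg hd hL hT

/-- **The input In-nd.** -/
theorem ev_nd (hg : GoodDatum f₀ κ) (hd : IsDatum β' f₀) (hT : 0 ≤ T)
    (hrel : ∀ L, RelZ Φ f₀ L) : ∀ᶠ L in atTop, InNd Φ f₀ L T K.nn K.b := by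
  filter_upwards [ev_depth K] with L hL
  exact (exLim_of_relZ (K := K) hg hd hL hT (hrel L)).nd hg hd hL hT

/-- **The input In-R.** -/
theorem ev_r (hg : GoodDatum f₀ κ) (hd : IsDatum β' f₀) (hT : 0 ≤ T)
    (hrel : ∀ L, RelZ Φ f₀ L) : ∀ᶠ L in atTop, InR Φ f₀ L T K.rr := by
  filter_upwards [ev_depth K] with L hL
  exact (exLim_of_relZ (K := K) hg hd hL hT (hrel L)).r hg hd hL hT

end Vale.Agent.P119.Cap
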