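import Vale.Agent.P119.ML.Crude
import Vale.Agent.P119.PB.Op1

/-!
# P119: crude bound for the number of trees with polynomial weights (`helper758`)

The velocity moments of the root lines of the trees of depth `≤ L`: if the law `f₀` has a Gaussian
bound and finite velocity moments then
`∫_{ok T, ext T ≤ T₀} (1 + |v_T|²)^k d tree ≤ μ C`, with a constant which does not depend on `ε`
(`tree_poly_le`).  Also: `fluxTime_sepT`, the flux formula for the separation time.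
-/

open MeasureTheory Set Filter Topology Metric ProbabilityTheory
open scoped ENNReal

namespace Vale.Agent.P119.ML

open KU FL M PB.CT CTree

variable {Φ : E3 → ℝ} {ε : ℝ}

/-! ### The flux formula for the separation time -/

theorem sepT_partner (hΦ : IsPotential Φ) (hε : ε ≠ 0) (l : Ph) {u : E3} (hu : l.2 - u ≠ 0) (s : ℝ)
    (ρ : E3) : sepT Φ ε (l, KU.partner ε l u s ρ) = s + ε * tout Φ (ρ, l.2 - u) := by
  unfold sepT
  rw [rel_partner hε, tout_free hΦ (p := (ρ, l.2 - u)) hu]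
  field_simp
  ring

theorem sepT_swap (hΦ : IsPotential Φ) (q : Ph × Ph) : sepT Φ ε q.swap = sepT Φ ε q :=
  M.sepT_swap hΦ q

theorem fluxTime_sepT (hΦ : IsPotential Φ) (hε : 0 < ε) : PB.FluxTime ε (sepT Φ ε) := by
  refine ⟨measurable_sepT hΦ, M.sepT_swap hΦ, fun l G hG => ?_⟩
  have hm : Measurable fun l' : Ph => G (sepT Φ ε (l, l')) l'.2 :=
    hG.comp (((measurable_sepT hΦ).comp (measurable_const.prodMk measurable_id)).prodMk
      measurable_snd)
  rw [lintegral_partner hε l hm]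
  congr 1
  have hGm : Measurable fun u : E3 => ∫⁻ τ, G τ u := by
    have h : Measurable fun q : E3 × ℝ => G q.2 q.1 := hG.comp measurable_swap
    exact h.lintegral_prod_right'
  have hGm3 : Measurable fun u : E3 => ‖l.2 - u‖ₑ * ∫⁻ τ, G τ u :=
    (by fun_prop : Measurable fun u : E3 => ‖l.2 - u‖ₑ).mul hGm
  rw [← lintegral_const_mul _ hGm3]
  refine lintegral_congr fun u => ?_
  rcases eq_or_ne (l.2 - u) 0 with h0 | h0
  · rw [h0]; simp
  have h1 : ∀ s : ℝ, ∫⁻ ρ, G (sepT Φ ε (l, KU.partner ε l u s ρ)) (KU.partner ε l u s ρ).2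
      ∂(kappa (l.2 - u)) = ∫⁻ ρ, G (s + ε * tout Φ (ρ, l.2 - u)) u ∂(kappa (l.2 - u)) := by
    intro s
    refine lintegral_congr fun ρ => ?_
    rw [sepT_partner hΦ hε.ne' l h0 s ρ]
    rfl
  simp_rw [h1]
  have hGm2 : Measurable fun q : ℝ × E3 => G (q.1 + ε * tout Φ (q.2, l.2 - u)) u := by
    refine hG.comp (Measurable.prodMk ?_ measurable_const)
    exact measurable_fst.add (((measurable_tout hΦ).comp
      (measurable_snd.prodMk measurable_const)).const_mul ε)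
  rw [lintegral_lintegral_swap hGm2.aemeasurable]
  have h2 : ∀ ρ : E3, ∫⁻ s : ℝ, G (s + ε * tout Φ (ρ, l.2 - u)) u = ∫⁻ τ, G τ u := by
    intro ρ
    exact lintegral_add_right_eq_self (fun τ => G τ u) _
  simp_rw [h2]
  rw [lintegral_const, kappa_univ h0]
  ring

/-! ### Polynomial weights -/

/-- Polynomial weight. -/
noncomputable def pw (k : ℕ) (v : E3) : ℝ≥0∞ := ENNReal.ofReal ((1 + ‖v‖ ^ 2) ^ k)

theorem measurable_pw (k : ℕ) : Measurable (pw k) := by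
  unfold pw
  fun_prop

theorem pw_ne_top {k : ℕ} {v : E3} : pw k v ≠ ∞ := ENNReal.ofReal_ne_top

theorem pw_zero (v : E3) : pw 0 v = 1 := by
  unfold pw
  rw [pow_zero, ENNReal.ofReal_one]

theorem pw_mul (k l : ℕ) (v : E3) : pw k v * pw l v = pw (k + l) v := by
  unfold pw
  rw [← ENNReal.ofReal_mul (by positivity), pow_add]

theorem pw_mono {k l : ℕ} (h : k ≤ l) (v : E3) : pw k v ≤ pw l v := by
  unfold pw
  apply ENNReal.ofReal_le_ofReal
  apply pow_le_pow_right₀ _ h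
  nlinarith [sq_nonneg ‖v‖]

theorem one_le_pw (k : ℕ) (v : E3) : 1 ≤ pw k v := by
  rw [← pw_zero v]
  exact pw_mono (Nat.zero_le k) v

theorem one_add_norm_le_pw (v : E3) : ENNReal.ofReal (1 + ‖v‖) ≤ 2 * pw 1 v := by
  unfold pw
  have h2 : (2 : ℝ≥0∞) = ENNReal.ofReal (2 : ℝ) := by simp
  calc ENNReal.ofReal (1 + ‖v‖) ≤ ENNReal.ofReal (2 * (1 + ‖v‖ ^ 2) ^ 1) := by
        apply ENNReal.ofReal_le_ofReal
        nlinarith [sq_nonneg (‖v‖ - 1), norm_nonneg v]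
    _ = ENNReal.ofReal 2 * ENNReal.ofReal ((1 + ‖v‖ ^ 2) ^ 1) := ENNReal.ofReal_mul (by norm_num)
    _ = _ := congrArg (· * _) h2.symm

/-- The outgoing weight is at most the product of the incoming weights. -/
theorem pw_sc2_le (hΦ : IsPotential Φ) (hε : ε ≠ 0) (k : ℕ) (q : Ph × Ph) :
    pw k (sc2 Φ ε q).1.2 ≤ pw k q.1.2 * pw k q.2.2 := by
  unfold pw
  rw [← ENNReal.ofReal_mul (by positivity), ← mul_pow]
  apply ENNReal.ofReal_le_ofReal
  apply pow_le_pow_left₀ (by positivity)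
  have h := energy_sc2 hΦ hε q
  have h1 := sq_nonneg ‖(sc2 Φ ε q).2.2‖
  have h2 : 0 ≤ ‖q.1.2‖ ^ 2 * ‖q.2.2‖ ^ 2 := by positivity
  nlinarith

theorem poly_le_exp (k : ℕ) {c : ℝ} (hc : 0 < c) : ∃ C : ℝ, 0 ≤ C ∧ ∀ x : ℝ, 0 ≤ x →
    (1 + x) ^ k ≤ C * Real.exp (c * x) := by
  refine ⟨k.factorial * (1 / c) ^ k * Real.exp c, by positivity, fun x hx => ?_⟩
  have h1 := Real.pow_div_factorial_le_exp (c * (1 + x)) (by positivity) k
  rw [div_le_iff₀ (by positivity), mul_pow] at h1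
  have h2 : Real.exp (c * (1 + x)) = Real.exp c * Real.exp (c * x) := by
    rw [← Real.exp_add]
    congr 1
    ring
  have h3 : (1 + x) ^ k = (1 / c) ^ k * (c ^ k * (1 + x) ^ k) := by
    rw [← mul_assoc, ← mul_pow, one_div, inv_mul_cancel₀ hc.ne', one_pow, one_mul]
  rw [h3]
  calc (1 / c) ^ k * (c ^ k * (1 + x) ^ k) ≤ (1 / c) ^ k * (Real.exp (c * (1 + x)) * k.factorial) := by
        gcongr
    _ = _ := by rw [h2]; ring

theorem pw_mul_g1_le (k : ℕ) {b : ℝ} (hb : 0 < b) : ∃ C : ℝ≥0∞, C ≠ ∞ ∧ ∀ v : E3,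
    pw k v * g1 b v ≤ C * g1 (b / 2) v := by
  obtain ⟨C, hC, h⟩ := poly_le_exp k (half_pos hb)
  refine ⟨ENNReal.ofReal C, ENNReal.ofReal_ne_top, fun v => ?_⟩
  unfold pw g1
  rw [← ENNReal.ofReal_mul (by positivity), ← ENNReal.ofReal_mul hC]
  apply ENNReal.ofReal_le_ofReal
  have h1 := h (‖v‖ ^ 2) (sq_nonneg _)
  calc (1 + ‖v‖ ^ 2) ^ k * Real.exp (-b * ‖v‖ ^ 2)
      ≤ C * Real.exp (b / 2 * ‖v‖ ^ 2) * Real.exp (-b * ‖v‖ ^ 2) := by gcongr
    _ = C * Real.exp (-(b / 2) * ‖v‖ ^ 2) := by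
        rw [mul_assoc, ← Real.exp_add]
        congr 2
        ring

/-! ### The node step -/

theorem okF_const_mul {T₀ : ℝ} (c : ℝ≥0∞) (F : ℝ → Ph → ℝ≥0∞) (T : CTree) :
    okF Φ ε T₀ (fun s l => c * F s l) T = c * okF Φ ε T₀ F T := by
  unfold okF
  by_cases h : T ∈ {T : CTree | ok Φ ε T ∧ ext Φ ε T ≤ T₀}
  · rw [indicator_of_mem h, indicator_of_mem h]
  · rw [indicator_of_notMem h, indicator_of_notMem h, mul_zero]

theorem lam_const_mul {T₀ : ℝ} (ν : Measure Ph) (τ : Shape) {c : ℝ≥0∞} (hc : c ≠ ∞)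
    (F : ℝ → Ph → ℝ≥0∞) :
    lam Φ ε T₀ ν τ (fun s l => c * F s l) = c * lam Φ ε T₀ ν τ F := by
  unfold lam
  rw [← lintegral_const_mul' _ _ hc]
  exact lintegral_congr fun z => okF_const_mul c F _

/-- The flux of the Gaussian partners of a line, with polynomial weights. -/
theorem pairF_poly_le (hΦ : IsPotential Φ) {b T₀ : ℝ} (hb : 0 < b) (k : ℕ) :
    ∃ C : ℝ≥0∞, C ≠ ∞ ∧ ∀ ε : ℝ, 0 < ε → ∀ x : Ph,
      ∫⁻ y : Ph, g1 b y.2 * pairF Φ ε T₀ (fun _ l => pw k l.2) (x, y) ≤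
        ENNReal.ofReal (ε ^ 2) * C * pw (k + 1) x.2 := by
  obtain ⟨C, hC, h⟩ := pw_mul_g1_le k hb
  have hb2 : 0 < b / 2 := half_pos hb
  refine ⟨C * (ENNReal.ofReal Real.pi * I0 (b / 2)) * (2 * ENNReal.ofReal T₀), ?_,
    fun ε hε x => ?_⟩
  · exact ENNReal.mul_ne_top (ENNReal.mul_ne_top hC (ENNReal.mul_ne_top ENNReal.ofReal_ne_top
      (I0_ne_top hb2))) (ENNReal.mul_ne_top ENNReal.ofNat_ne_top ENNReal.ofReal_ne_top)
  have hg : Measurable ((Icc 0 T₀).indicator (1 : ℝ → ℝ≥0∞)) :=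
    measurable_one.indicator measurableSet_Icc
  have hfl := PB.flux_inner (fluxTime_sepT hΦ hε) hb2 le_rfl x hg
  have hm : MeasurableSet {l' : Ph | Meets ε (x, l')} := measurable_prodMk_left measurableSet_meets
  have hI : ∫⁻ τ, (Icc 0 T₀).indicator (1 : ℝ → ℝ≥0∞) τ = ENNReal.ofReal T₀ := by
    rw [lintegral_indicator_one measurableSet_Icc, Real.volume_Icc, sub_zero]
  rw [hI] at hfl
  have hpt : ∀ y : Ph, g1 b y.2 * pairF Φ ε T₀ (fun _ l => pw k l.2) (x, y) ≤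
      pw k x.2 * C * {l' : Ph | Meets ε (x, l')}.indicator
        (fun y => PB.gw (b / 2) y.2 * (Icc 0 T₀).indicator (1 : ℝ → ℝ≥0∞) (sepT Φ ε (x, y))) y := by
    intro y
    unfold pairF
    by_cases h1 : Meets ε (x, y)
    · rw [indicator_of_mem (show (x, y) ∈ {q : Ph × Ph | Meets ε q} from h1),
        indicator_of_mem (show y ∈ {l' : Ph | Meets ε (x, l')} from h1)]
      by_cases h2 : sepT Φ ε (x, y) ∈ Icc 0 T₀
      · rw [indicator_of_mem h2, indicator_of_mem h2, Pi.one_apply, mul_one]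
        calc g1 b y.2 * pw k (sc2 Φ ε (x, y)).1.2
            ≤ g1 b y.2 * (pw k x.2 * pw k y.2) := by
              gcongr
              exact pw_sc2_le hΦ hε.ne' k (x, y)
          _ = pw k x.2 * (pw k y.2 * g1 b y.2) := by ring
          _ ≤ pw k x.2 * (C * g1 (b / 2) y.2) := mul_le_mul' le_rfl (h y.2)
          _ = _ := by rw [mul_assoc]; rfl
      · rw [indicator_of_notMem h2, mul_zero]
        exact zero_le
    · rw [indicator_of_notMem (show (x, y) ∉ {q : Ph × Ph | Meets ε q} from h1), mul_zero]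
      exact zero_le
  calc ∫⁻ y : Ph, g1 b y.2 * pairF Φ ε T₀ (fun _ l => pw k l.2) (x, y)
      ≤ ∫⁻ y : Ph, pw k x.2 * C * {l' : Ph | Meets ε (x, l')}.indicator
        (fun y => PB.gw (b / 2) y.2 * (Icc 0 T₀).indicator (1 : ℝ → ℝ≥0∞) (sepT Φ ε (x, y))) y :=
        lintegral_mono hpt
    _ = pw k x.2 * C * ∫⁻ y in {l' : Ph | Meets ε (x, l')},
        PB.gw (b / 2) y.2 * (Icc 0 T₀).indicator (1 : ℝ → ℝ≥0∞) (sepT Φ ε (x, y)) := by
        rw [lintegral_const_mul' _ _ (ENNReal.mul_ne_top pw_ne_top hC), lintegral_indicator hm]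
    _ ≤ pw k x.2 * C * (ENNReal.ofReal (ε ^ 2) * (ENNReal.ofReal Real.pi * I0 (b / 2)) *
        (ENNReal.ofReal (1 + ‖x.2‖) * ENNReal.ofReal T₀)) := by gcongr
    _ ≤ pw k x.2 * C * (ENNReal.ofReal (ε ^ 2) * (ENNReal.ofReal Real.pi * I0 (b / 2)) *
        ((2 * pw 1 x.2) * ENNReal.ofReal T₀)) := by
        gcongr
        exact one_add_norm_le_pw _
    _ = ENNReal.ofReal (ε ^ 2) * (C * (ENNReal.ofReal Real.pi * I0 (b / 2)) *
        (2 * ENNReal.ofReal T₀)) * (pw k x.2 * pw 1 x.2) := by ring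
    _ = _ := by rw [pw_mul]

/-- **The velocity moments of the root line for a shape.** -/
theorem lam_poly_le (hΦ : IsPotential Φ) {f₀ : Ph → ℝ} {κ b T₀ M₀ : ℝ} (hg : GoodDatum f₀ κ)
    (hb : 0 < b) (hT : 0 ≤ T₀) (hM : 0 ≤ M₀) (hf : ∀ z, f₀ z ≤ M₀ * Real.exp (-b * ‖z.2‖ ^ 2))
    (hmom : ∀ k : ℕ, ∫⁻ z, pw k z.2 ∂(law f₀) ≠ ∞) (τ : Shape) :
    ∀ k : ℕ, ∃ C : ℝ≥0∞, C ≠ ∞ ∧ ∀ ε : ℝ, 0 < ε →
      lam Φ ε T₀ (GC.inten f₀ ε) τ (fun _ l => pw k l.2) ≤ muE ε * C := by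
  induction τ with
  | leaf =>
    intro k
    refine ⟨∫⁻ z, pw k z.2 ∂(law f₀), hmom k, fun ε hε => ?_⟩
    have hfin : IsFiniteMeasure (GC.inten f₀ ε) := GC.isFiniteMeasure_inten hg
    have hm : Measurable fun q : ℝ × Ph => (fun (_ : ℝ) (l : Ph) => pw k l.2) q.1 q.2 :=
      (measurable_pw k).comp measurable_snd.snd
    rw [lam_leaf hΦ hε.ne' hT _ hm]
    unfold GC.inten
    rw [lintegral_smul_measure, smul_eq_mul]
    exact le_of_eq rfl
  | node a b' iha _ =>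
    intro k
    obtain ⟨Cb, hCb, hcr⟩ := crude (T₀ := T₀) hΦ hb hT M₀ b'
    obtain ⟨Cp, hCp, hp⟩ := pairF_poly_le (T₀ := T₀) hΦ (half_pos hb) k
    obtain ⟨Ca, hCa, ha⟩ := iha (k + 1)
    refine ⟨Cb * ENNReal.ofReal (1 + T₀) * Cp * Ca, ?_, fun ε hε => ?_⟩
    · exact ENNReal.mul_ne_top (ENNReal.mul_ne_top (ENNReal.mul_ne_top hCb ENNReal.ofReal_ne_top)
        hCp) hCa
    have hfin : IsFiniteMeasure (GC.inten f₀ ε) := GC.isFiniteMeasure_inten hg
    have hm : Measurable fun q : ℝ × Ph => (fun (_ : ℝ) (l : Ph) => pw k l.2) q.1 q.2 :=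
      (measurable_pw k).comp measurable_snd.snd
    have hPm := measurable_pairF (F := fun (_ : ℝ) (l : Ph) => pw k l.2) hΦ hε.ne' T₀ hm
    have hin : ∀ x : Ph, lam Φ ε T₀ (GC.inten f₀ ε) b'
        (fun _ y => pairF Φ ε T₀ (fun _ l => pw k l.2) (x, y)) ≤
        Cb * ENNReal.ofReal (1 + T₀) * Cp * pw (k + 1) x.2 := by
      intro x
      have hG : Measurable fun y : Ph => pairF Φ ε T₀ (fun _ l => pw k l.2) (x, y) :=
        hPm.comp (measurable_const.prodMk measurable_id)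
      have h1 := hcr ε hε (GC.inten f₀ ε) inferInstance (inten_le hM hf ε)
        (fun _ y => pairF Φ ε T₀ (fun _ l => pw k l.2) (x, y)) (hG.comp measurable_snd)
      have h2 : (if b'.depth = 0 then
          ∫⁻ l : Ph, g1 (b / 2) l.2 * pairF Φ ε T₀ (fun _ l => pw k l.2) (x, l) else
          ∫⁻ _s in Icc 0 T₀, ∫⁻ l : Ph, g1 (b / 2) l.2 *
            pairF Φ ε T₀ (fun _ l => pw k l.2) (x, l)) ≤
          bnd (b / 2) T₀ (fun _ y => pairF Φ ε T₀ (fun _ l => pw k l.2) (x, y)) := by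
        unfold bnd
        split_ifs
        · exact le_add_right le_rfl
        · exact le_add_left le_rfl
      rw [bnd_const hT] at h2
      calc lam Φ ε T₀ (GC.inten f₀ ε) b'
            (fun _ y => pairF Φ ε T₀ (fun _ l => pw k l.2) (x, y))
          ≤ muE ε * Cb * (ENNReal.ofReal (1 + T₀) * ∫⁻ l : Ph, g1 (b / 2) l.2 *
            pairF Φ ε T₀ (fun _ l => pw k l.2) (x, l)) := h1.trans (by gcongr)
        _ ≤ muE ε * Cb * (ENNReal.ofReal (1 + T₀) *
            (ENNReal.ofReal (ε ^ 2) * Cp * pw (k + 1) x.2)) := by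
            gcongr
            exact hp ε hε x
        _ = (muE ε * ENNReal.ofReal (ε ^ 2)) * (Cb * ENNReal.ofReal (1 + T₀) * Cp *
            pw (k + 1) x.2) := by ring
        _ = _ := by rw [muE_mul hε, one_mul]
    calc lam Φ ε T₀ (GC.inten f₀ ε) (Shape.node a b') (fun _ l => pw k l.2)
        ≤ lam Φ ε T₀ (GC.inten f₀ ε) a (fun _ x => lam Φ ε T₀ (GC.inten f₀ ε) b'
          (fun _ y => pairF Φ ε T₀ (fun _ l => pw k l.2) (x, y))) :=
          lam_node_le hΦ hε (GC.inten f₀ ε) a b' hm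
      _ ≤ lam Φ ε T₀ (GC.inten f₀ ε) a
          (fun _ x => Cb * ENNReal.ofReal (1 + T₀) * Cp * pw (k + 1) x.2) :=
          lam_mono a _ fun _ x => hin x
      _ = Cb * ENNReal.ofReal (1 + T₀) * Cp *
          lam Φ ε T₀ (GC.inten f₀ ε) a (fun _ x => pw (k + 1) x.2) :=
          lam_const_mul _ a (ENNReal.mul_ne_top (ENNReal.mul_ne_top hCb ENNReal.ofReal_ne_top)
            hCp) _
      _ ≤ Cb * ENNReal.ofReal (1 + T₀) * Cp * (muE ε * Ca) := by
          gcongr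
          exact ha ε hε
      _ = _ := by ring

/-- **The velocity moments of the root lines of the trees of depth `≤ L`.** -/
theorem tree_poly_le (hΦ : IsPotential Φ) {f₀ : Ph → ℝ} {κ b T₀ M₀ : ℝ} (hg : GoodDatum f₀ κ)
    (hb : 0 < b) (hT : 0 ≤ T₀) (hM : 0 ≤ M₀) (hf : ∀ z, f₀ z ≤ M₀ * Real.exp (-b * ‖z.2‖ ^ 2))
    (hmom : ∀ k : ℕ, ∫⁻ z, pw k z.2 ∂(law f₀) ≠ ∞) (L k : ℕ) :
    ∃ C : ℝ≥0∞, C ≠ ∞ ∧ ∀ ε : ℝ, 0 < ε →
      ∫⁻ T in {T | ok Φ ε T ∧ ext Φ ε T ≤ T₀}, pw k (ln Φ ε T).2 ∂(tree (GC.inten f₀ ε) L) ≤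
        muE ε * C := by
  choose C hC h using fun τ : Shape => lam_poly_le hΦ hg hb hT hM hf hmom τ k
  refine ⟨∑ τ ∈ shapes L, C τ, ENNReal.sum_ne_top.2 fun τ _ => hC τ, fun ε hε => ?_⟩
  have hfin : IsFiniteMeasure (GC.inten f₀ ε) := GC.isFiniteMeasure_inten hg
  have hok : MeasurableSet {T | ok Φ ε T ∧ ext Φ ε T ≤ T₀} :=
    (measurableSet_ok hΦ hε.ne').inter
      (measurableSet_le (measurable_ext hΦ hε.ne') measurable_const)
  have hFr : Measurable fun T : CTree => pw k (ln Φ ε T).2 :=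
    (measurable_pw k).comp (measurable_ln hΦ hε.ne').snd
  rw [← lintegral_indicator hok, lintegral_tree L (hFr.indicator hok), Finset.mul_sum]
  refine Finset.sum_le_sum fun τ _ => ?_
  exact h τ ε hε

/-- The velocity moments from the integrability in `x`. -/
theorem lintegral_pw_law_ne_top {f₀ : Ph → ℝ} (hm : Measurable f₀) {M b : ℝ} (hb : 0 < b)
    (hx : ∀ v : E3, ∫⁻ x : E3, ENNReal.ofReal (f₀ (x, v)) ≤
      ENNReal.ofReal (M * Real.exp (-b * ‖v‖ ^ 2))) (k : ℕ) :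
    ∫⁻ z, pw k z.2 ∂(law f₀) ≠ ∞ := by
  obtain ⟨C, hC, h⟩ := pw_mul_g1_le k hb
  have hmf : Measurable fun z : Ph => ENNReal.ofReal (f₀ z) := hm.ennreal_ofReal
  have hmp : Measurable fun z : Ph => pw k z.2 := (measurable_pw k).comp measurable_snd
  have h1 : ∫⁻ z, pw k z.2 ∂(law f₀) =
      ∫⁻ v : E3, ∫⁻ x : E3, ENNReal.ofReal (f₀ (x, v)) * pw k v := by
    unfold law
    rw [lintegral_withDensity_eq_lintegral_mul _ hmf hmp, Measure.volume_eq_prod,
      lintegral_prod_symm _ (hmf.mul hmp).aemeasurable]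
    rfl
  have h2 : ∫⁻ v : E3, ∫⁻ x : E3, ENNReal.ofReal (f₀ (x, v)) * pw k v ≤
      ENNReal.ofReal |M| * C * ∫⁻ v : E3, g1 (b / 2) v := by
    rw [← lintegral_const_mul' _ _ (ENNReal.mul_ne_top ENNReal.ofReal_ne_top hC)]
    refine lintegral_mono fun v => ?_
    simp only
    rw [lintegral_mul_const' _ _ pw_ne_top]
    calc (∫⁻ x : E3, ENNReal.ofReal (f₀ (x, v))) * pw k v
        ≤ ENNReal.ofReal (M * Real.exp (-b * ‖v‖ ^ 2)) * pw k v := by
          gcongr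
          exact hx v
      _ ≤ ENNReal.ofReal (|M| * Real.exp (-b * ‖v‖ ^ 2)) * pw k v := by
          gcongr
          exact le_abs_self M
      _ = ENNReal.ofReal |M| * (pw k v * g1 b v) := by
          rw [ENNReal.ofReal_mul (abs_nonneg M)]
          unfold g1
          ring
      _ ≤ ENNReal.ofReal |M| * (C * g1 (b / 2) v) := mul_le_mul' le_rfl (h v)
      _ = _ := by ring
  rw [h1]
  refine ne_top_of_le_ne_top ?_ h2
  refine ENNReal.mul_ne_top (ENNReal.mul_ne_top ENNReal.ofReal_ne_top hC) ?_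
  have h3 := integrable_gauss (half_pos hb)
  unfold g1
  rw [← ofReal_integral_eq_lintegral_ofReal h3
    (Eventually.of_forall fun v => (Real.exp_pos _).le)]
  exact ENNReal.ofReal_ne_top

end Vale.Agent.P119.ML
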