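import Vale.Agent.P119.PB.TreeMeas
import Vale.Agent.P119.GC.Phase

/-!
# P119, block ML (CAP0, `helper667`): definitions and inputs of CAP0

`AL Φ ε L Tm w` = the trees `T` that are alive in `world w ∪ leaves T` at the time `ext T ≤ Tm`.
The inputs `InI1`, `InNd`, `InR` are consumed by `Cap.cap0`; they do not mention any representation
of the densities.
-/

open MeasureTheory Filter Topology Set
open scoped ENNReal NNReal

noncomputable section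

namespace Vale.Agent.P119.Cap

open KU M

/-- The trees alive at the end of their last collision, in `world w ∪ leaves T`. -/
def AL (Φ : E3 → ℝ) (ε : ℝ) (L : ℕ) (Tm : ℝ) (w : Set Ph) : Set CTree :=
  {T | alive Φ ε L (world w ∪ T.leaves) T (CTree.ext Φ ε T) ∧ CTree.ext Φ ε T ≤ Tm}

/-- The last node is nondegenerate: the root leaves it with a velocity which is not one of the two
incoming velocities. -/
def nondeg (Φ : E3 → ℝ) (ε : ℝ) : CTree → Prop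
  | .leaf _ => False
  | .node A B => (CTree.ln Φ ε (.node A B)).2 ≠ (CTree.ln Φ ε A).2 ∧
      (CTree.ln Φ ε (.node A B)).2 ≠ (CTree.ln Φ ε B).2

/-- `T` is alive in `world w ∪ leaves T` at the time `t`. -/
def ALt (Φ : E3 → ℝ) (ε : ℝ) (L : ℕ) (w : Set Ph) (T : CTree) (t : ℝ) : Prop :=
  alive Φ ε L (world w ∪ T.leaves) T t

/-- The coincidence (I1): a subtree of the last node is not alive alone at the time of the
collision. -/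
def I1 (Φ : E3 → ℝ) (ε : ℝ) (L : ℕ) (Tm : ℝ) (w : Set Ph) : Set CTree :=
  {T | T ∈ AL Φ ε L Tm w ∧ ∃ A B, T = .node A B ∧
    ¬(ALt Φ ε L w A (CTree.sig Φ ε T) ∧ ALt Φ ε L w B (CTree.sig Φ ε T))}

/-- Gaussian weight `n (1 + |v|) e^{-b |v|²}`. -/
def gv (n b : ℝ) (v : E3) : ℝ≥0∞ := ENNReal.ofReal (n * ((1 + ‖v‖) * Real.exp (-b * ‖v‖ ^ 2)))

/-- Polynomial weight. -/
def pw (q : ℕ) (v : E3) : ℝ≥0∞ := ENNReal.ofReal ((1 + ‖v‖) ^ q)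

/-- Input (I1), owner `helper67`. -/
def InI1 (Φ : E3 → ℝ) (f₀ : Ph → ℝ) (L : ℕ) (Tm : ℝ) : Prop :=
  ∀ q : ℕ, Tendsto (fun ε => (ENNReal.ofReal (mu ε))⁻¹ * ∫⁻ c,
    ∫⁻ T in I1 Φ ε L Tm (GC.pts c : Set Ph), pw q (CTree.ln Φ ε T).2 ∂(tree (GC.inten f₀ ε) L)
      ∂(GC.PP f₀ ε)) (𝓝[>] 0) (𝓝 0)

/-- Input (In-nd), owner `helper67`: the law of `(ext T, ln T)` of the nondegenerate alive trees of
depth `d` has a density, up to an error, bounded by `n d (1 + |v|) e^{-b |v|²}`. -/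
def InNd (Φ : E3 → ℝ) (f₀ : Ph → ℝ) (L : ℕ) (Tm : ℝ) (n : ℕ → ℝ) (b₀ : ℝ) : Prop :=
  ∀ d, 1 ≤ d → d ≤ L → ∃ N : ℝ → GC.Conf Ph → ℝ → Ph → ℝ≥0∞,
    (∀ ε, 0 < ε → Measurable fun p : GC.Conf Ph × ℝ × Ph => N ε p.1 p.2.1 p.2.2) ∧
    (∀ ε, 0 < ε → ∀ c, ∀ F : ℝ → Ph → ℝ≥0∞, Measurable (Function.uncurry F) →
      ∫⁻ T in {T | T ∈ AL Φ ε L Tm (GC.pts c : Set Ph) ∧ T.depth = d ∧ nondeg Φ ε T},
        F (CTree.ext Φ ε T) (CTree.ln Φ ε T) ∂(tree (GC.inten f₀ ε) L) ≤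
      ENNReal.ofReal (mu ε) * ∫⁻ l, ∫⁻ b in Icc 0 Tm, N ε c b l * F b l) ∧
    ∀ q : ℕ, Tendsto (fun ε => ∫⁻ c, (∫⁻ l, ∫⁻ b in Icc 0 Tm,
      pw q l.2 * (N ε c b l - gv (n d) b₀ l.2)) ∂(GC.PP f₀ ε)) (𝓝[>] 0) (𝓝 0)

/-- The pair of lines, the free line first (`k = true`) or second. -/
def prt (k : Bool) (l l' : Ph) : Ph × Ph := if k then (l, l') else (l', l)

/-- The pairs (free line `l`, partner tree `T`) which collide in `[0, Tm]` after the end of the last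
collision of `T`, in such a way that the first particle leaves with the velocity of `l`. -/
def dgSet (Φ : E3 → ℝ) (ε Tm : ℝ) (k : Bool) : Set (Ph × CTree) :=
  {p | Meets ε (prt k p.1 (CTree.ln Φ ε p.2)) ∧
    Exits Φ (rel ε (prt k p.1 (CTree.ln Φ ε p.2))) ∧
    CTree.ext Φ ε p.2 < hitT ε (prt k p.1 (CTree.ln Φ ε p.2)) ∧
    sepT Φ ε (prt k p.1 (CTree.ln Φ ε p.2)) ≤ Tm ∧
    (sc2 Φ ε (prt k p.1 (CTree.ln Φ ε p.2))).1.2 = p.1.2}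

/-- Input (In-R), owner `helper755`: the rate of degenerate collisions of a free line (Lebesgue
measure in `l`) with the trees of depth `j` that are alive at the time of the collision. -/
def InR (Φ : E3 → ℝ) (f₀ : Ph → ℝ) (L : ℕ) (Tm : ℝ) (r : ℕ → ℝ) : Prop :=
  ∀ j, j ≤ L → ∀ k : Bool, ∃ R : ℝ → GC.Conf Ph → ℝ → Ph → ℝ≥0∞,
    (∀ ε, 0 < ε → Measurable fun p : GC.Conf Ph × ℝ × Ph => R ε p.1 p.2.1 p.2.2) ∧
    (∀ ε, 0 < ε → ∀ c, ∀ F : ℝ → Ph → ℝ≥0∞, Measurable (Function.uncurry F) →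
      ∫⁻ l : Ph, ∫⁻ T in {T | ALt Φ ε L (GC.pts c : Set Ph) T
          (hitT ε (prt k l (CTree.ln Φ ε T))) ∧ T.depth = j ∧ (l, T) ∈ dgSet Φ ε Tm k}, F (sepT Φ ε (prt k l (CTree.ln Φ ε T)))
            (sc2 Φ ε (prt k l (CTree.ln Φ ε T))).1 ∂(tree (GC.inten f₀ ε) L) ≤
      ∫⁻ l, ∫⁻ b in Icc 0 Tm, R ε c b l * F b l) ∧
    ∀ c₀ : ℝ, 0 < c₀ → Tendsto (fun ε => ∫⁻ c, (∫⁻ l : Ph, ∫⁻ b in Icc 0 Tm,
      ENNReal.ofReal (Real.exp (-c₀ * ‖l.2‖ ^ 2)) *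
        (R ε c b l - ENNReal.ofReal (r j * (1 + ‖l.2‖)))) ∂(GC.PP f₀ ε)) (𝓝[>] 0) (𝓝 0)

end Vale.Agent.P119.Cap
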