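import Mathlib

/-!
# P119, block ML (CAP0, `helper667`): the numerical part, kernels with density
-/

open MeasureTheory Filter Topology Set ProbabilityTheory
open scoped ENNReal NNReal

noncomputable section

namespace Vale.Agent.P119.Cap

/-! ### Densities with values in `[0, ∞]` -/

theorem sum_min_one (x : ℝ≥0∞) (N : ℕ) :
    ∑ n ∈ Finset.range N, min 1 (x - n) = min (N : ℝ≥0∞) x := by
  induction N with
  | zero => simp
  | succ N ih =>
    rw [Finset.sum_range_succ, ih]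
    rcases le_total (N : ℝ≥0∞) x with h | h
    · rw [min_eq_left h]
      have h1 : x = N + (x - N) := (add_tsub_cancel_of_le h).symm
      rw [Nat.cast_add, Nat.cast_one]
      conv_rhs => rw [h1]
      rw [← min_add_add_left]
    · rw [min_eq_right h, tsub_eq_zero_of_le h, min_eq_right zero_le_one, add_zero]
      refine (min_eq_right (h.trans ?_)).symm
      exact_mod_cast Nat.le_succ N

theorem tsum_min_one (x : ℝ≥0∞) : ∑' n : ℕ, min 1 (x - n) = x := by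
  rw [ENNReal.tsum_eq_iSup_nat]
  simp only [sum_min_one]
  refine le_antisymm (iSup_le fun N => min_le_right _ _) ?_
  refine le_of_forall_lt fun y hy => ?_
  obtain ⟨N, hN⟩ := ENNReal.exists_nat_gt (hy.trans_le le_top).ne
  rw [lt_iSup_iff]
  exact ⟨N, lt_min hN hy⟩

/-- The kernel with density `f` with respect to `κ`, for every measurable `f`. -/
def densK {α β : Type*} [MeasurableSpace α] [MeasurableSpace β] (κ : Kernel α β)
    [IsSFiniteKernel κ] (f : α → β → ℝ≥0∞) : Kernel α β :=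
  Kernel.sum fun n : ℕ => Kernel.withDensity κ fun a b => min 1 (f a b - n)

instance instSFiniteDensK {α β : Type*} [MeasurableSpace α] [MeasurableSpace β] (κ : Kernel α β)
    [IsSFiniteKernel κ] (f : α → β → ℝ≥0∞) : IsSFiniteKernel (densK κ f) := by
  unfold densK
  have h : ∀ n : ℕ, IsSFiniteKernel (Kernel.withDensity κ fun a b => min 1 (f a b - n)) := fun n =>
    Kernel.IsSFiniteKernel.withDensity _ fun a b =>
      ((min_le_left _ _).trans_lt ENNReal.one_lt_top).ne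
  exact Kernel.isSFiniteKernel_sum

theorem lintegral_densK {α β : Type*} [MeasurableSpace α] [MeasurableSpace β] (κ : Kernel α β)
    [IsSFiniteKernel κ] {f : α → β → ℝ≥0∞} (hf : Measurable (Function.uncurry f)) (a : α)
    {g : β → ℝ≥0∞} (hg : Measurable g) :
    ∫⁻ b, g b ∂(densK κ f a) = ∫⁻ b, f a b * g b ∂(κ a) := by
  have hfn : ∀ n : ℕ, Measurable (Function.uncurry fun a b => min 1 (f a b - n)) := fun n =>
    measurable_const.min (hf.sub_const _)
  unfold densK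
  rw [Kernel.sum_apply, lintegral_sum_measure]
  have h1 : ∀ n : ℕ, ∫⁻ b, g b ∂(Kernel.withDensity κ (fun a b => min 1 (f a b - n)) a) =
      ∫⁻ b, min 1 (f a b - n) * g b ∂(κ a) := fun n =>
    Kernel.lintegral_withDensity κ (hfn n) a hg
  simp only [h1]
  rw [← lintegral_tsum]
  · refine lintegral_congr fun b => ?_
    rw [ENNReal.tsum_mul_right, tsum_min_one]
  · intro n
    have h2 : Measurable fun b => min 1 (f a b - n) := (hfn n).comp measurable_prodMk_left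
    exact (h2.mul hg).aemeasurable

/-! ### The constants -/

/-- The pairs of depths of the subtrees of a node of depth `d`. -/
def prs (d : ℕ) : Finset (ℕ × ℕ) :=
  (Finset.range d ×ˢ Finset.range d).filter fun p => max p.1 p.2 + 1 = d

theorem mem_prs {d : ℕ} {p : ℕ × ℕ} : p ∈ prs d ↔ max p.1 p.2 + 1 = d := by
  unfold prs
  rw [Finset.mem_filter, Finset.mem_product, Finset.mem_range, Finset.mem_range]
  constructor
  · exact fun h => h.2
  · intro h
    refine ⟨⟨?_, ?_⟩, h⟩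
    · have := le_max_left p.1 p.2
      omega
    · have := le_max_right p.1 p.2
      omega

theorem sum_half_le (d : ℕ) : ∑ j ∈ Finset.range d, (1 / 2 : ℝ) ^ j ≤ 2 := by
  have h := summable_geometric_of_lt_one (by norm_num : (0 : ℝ) ≤ 1 / 2) (by norm_num)
  have h1 := h.sum_le_tsum (Finset.range d) (fun i _ => by positivity)
  rw [tsum_geometric_of_lt_one (by norm_num) (by norm_num)] at h1
  norm_num at h1 ⊢
  exact h1

theorem sum_prs_le {A B : ℝ} (hA : 2 ≤ A) {r : ℕ → ℝ} (hr : ∀ j, 0 ≤ r j)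
    (hB : ∀ j, (2 * A) ^ j * r j ≤ B) {d : ℕ} (hd : 1 ≤ d) :
    ∑ p ∈ prs d, r p.2 * A⁻¹ ^ p.1 ≤ 4 * B * A * A⁻¹ ^ d := by
  have hA0 : 0 < A := by linarith
  have hB0 : 0 ≤ B := le_trans (by have := hr 0; positivity) (hB 0)
  obtain ⟨e, rfl⟩ : ∃ e, d = e + 1 := ⟨d - 1, by omega⟩
  have hAe : A * A⁻¹ ^ (e + 1) = A⁻¹ ^ e := by
    rw [pow_succ]
    field_simp
  have hrj : ∀ j, r j ≤ B * (1 / 2) ^ j * A⁻¹ ^ j := by
    intro j
    have h1 := hB j
    rw [mul_pow] at h1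
    have h2 : (0 : ℝ) < 2 ^ j * A ^ j := by positivity
    calc r j = (2 ^ j * A ^ j * r j) * ((1 / 2) ^ j * A⁻¹ ^ j) := by
          rw [one_div, inv_pow, inv_pow]
          field_simp
      _ ≤ B * ((1 / 2) ^ j * A⁻¹ ^ j) := by gcongr
      _ = _ := by ring
  have hA1 : A⁻¹ ≤ 1 / 2 := by
    rw [inv_le_comm₀ hA0 (by norm_num)]
    norm_num
    exact hA
  have hAi0 : 0 ≤ A⁻¹ := by positivity
  have hA11 : A⁻¹ ≤ 1 := hA1.trans (by norm_num)
  have hterm : ∀ p ∈ prs (e + 1), r p.2 * A⁻¹ ^ p.1 ≤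
      B * A⁻¹ ^ e * ((if p.1 = e then (1 / 2 : ℝ) ^ p.2 else 0) +
        (if p.2 = e then (1 / 2 : ℝ) ^ p.1 else 0)) := by
    intro p hp
    have hm : max p.1 p.2 = e := by
      have := mem_prs.1 hp
      omega
    have h1 : r p.2 * A⁻¹ ^ p.1 ≤ B * (1 / 2) ^ p.2 * A⁻¹ ^ p.2 * A⁻¹ ^ p.1 := by
      have := hrj p.2
      gcongr
    refine h1.trans ?_
    rcases le_total p.2 p.1 with h | h
    · have h2 : p.1 = e := by rw [max_eq_left h] at hm; exact hm
      rw [if_pos h2, ← h2]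
      have h3 : A⁻¹ ^ p.2 ≤ 1 := pow_le_one₀ hAi0 hA11
      have h4 : (0 : ℝ) ≤ if p.2 = p.1 then (1 / 2 : ℝ) ^ p.1 else 0 := by positivity
      calc B * (1 / 2) ^ p.2 * A⁻¹ ^ p.2 * A⁻¹ ^ p.1 ≤ B * (1 / 2) ^ p.2 * 1 * A⁻¹ ^ p.1 := by
            gcongr
        _ = B * A⁻¹ ^ p.1 * ((1 / 2) ^ p.2 + 0) := by ring
        _ ≤ _ := by gcongr
    · have h2 : p.2 = e := by rw [max_eq_right h] at hm; exact hm
      rw [if_pos h2, ← h2]
      have h3 : A⁻¹ ^ p.1 ≤ (1 / 2) ^ p.1 := pow_le_pow_left₀ hAi0 hA1 _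
      have h4 : (0 : ℝ) ≤ if p.1 = p.2 then (1 / 2 : ℝ) ^ p.2 else 0 := by positivity
      have h5 : (1 / 2 : ℝ) ^ p.2 ≤ 1 := pow_le_one₀ (by norm_num) (by norm_num)
      calc B * (1 / 2) ^ p.2 * A⁻¹ ^ p.2 * A⁻¹ ^ p.1 ≤ B * 1 * A⁻¹ ^ p.2 * (1 / 2) ^ p.1 := by
            gcongr
        _ = B * A⁻¹ ^ p.2 * (0 + (1 / 2) ^ p.1) := by ring
        _ ≤ _ := by gcongr
  have hsum : ∑ p ∈ prs (e + 1), ((if p.1 = e then (1 / 2 : ℝ) ^ p.2 else 0) +
        (if p.2 = e then (1 / 2 : ℝ) ^ p.1 else 0)) ≤ 4 := by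
    have h1 : ∑ p ∈ prs (e + 1), ((if p.1 = e then (1 / 2 : ℝ) ^ p.2 else 0) +
        (if p.2 = e then (1 / 2 : ℝ) ^ p.1 else 0)) ≤
        ∑ p ∈ Finset.range (e + 1) ×ˢ Finset.range (e + 1),
          ((if p.1 = e then (1 / 2 : ℝ) ^ p.2 else 0) +
          (if p.2 = e then (1 / 2 : ℝ) ^ p.1 else 0)) := by
      refine Finset.sum_le_sum_of_subset_of_nonneg (Finset.filter_subset _ _) fun p _ _ => ?_
      positivity
    refine h1.trans ?_
    rw [Finset.sum_add_distrib, Finset.sum_product, Finset.sum_product_right]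
    have h2 : ∑ x ∈ Finset.range (e + 1), ∑ y ∈ Finset.range (e + 1),
        (if x = e then (1 / 2 : ℝ) ^ y else 0) ≤ 2 := by
      rw [Finset.sum_eq_single e]
      · simp only [if_true]
        exact sum_half_le _
      · intro b _ hb
        simp [hb]
      · intro h
        exact absurd (Finset.mem_range.2 (Nat.lt_succ_self e)) h
    have h3 : ∑ y ∈ Finset.range (e + 1), ∑ x ∈ Finset.range (e + 1),
        (if y = e then (1 / 2 : ℝ) ^ x else 0) ≤ 2 := h2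
    linarith
  calc ∑ p ∈ prs (e + 1), r p.2 * A⁻¹ ^ p.1
      ≤ ∑ p ∈ prs (e + 1), B * A⁻¹ ^ e * ((if p.1 = e then (1 / 2 : ℝ) ^ p.2 else 0) +
        (if p.2 = e then (1 / 2 : ℝ) ^ p.1 else 0)) := Finset.sum_le_sum hterm
    _ = B * A⁻¹ ^ e * ∑ p ∈ prs (e + 1), ((if p.1 = e then (1 / 2 : ℝ) ^ p.2 else 0) +
        (if p.2 = e then (1 / 2 : ℝ) ^ p.1 else 0)) := by rw [Finset.mul_sum]
    _ ≤ B * A⁻¹ ^ e * 4 := by gcongr
    _ = 4 * B * A * A⁻¹ ^ (e + 1) := by rw [mul_assoc (4 * B), hAe]; ring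

/-- The constants `K`, `C` of the supersolution. -/
theorem exists_consts {A : ℝ} (hA : 2 ≤ A) {n r : ℕ → ℝ} (hr : ∀ j, 0 ≤ r j)
    (hnS : ∃ B, ∀ d, A ^ d * n d ≤ B) (hrS : ∃ B, ∀ j, (2 * A) ^ j * r j ≤ B) (M₀ : ℝ) :
    ∃ K C : ℝ, 1 ≤ K ∧ 0 ≤ C ∧ M₀ ≤ C / K ∧ ∀ d, 1 ≤ d →
      n d + 2 * ∑ p ∈ prs d, r p.2 * (C / K * A⁻¹ ^ p.1) ≤ C * A⁻¹ ^ d := by
  obtain ⟨Bn, hBn⟩ := hnS
  obtain ⟨Br, hBr⟩ := hrS
  have hA0 : 0 < A := by linarith
  have hBr0 : 0 ≤ Br := le_trans (by have := hr 0; positivity) (hBr 0)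
  set K : ℝ := 16 * A * Br + 1 with hK
  have hK1 : 1 ≤ K := by
    have : 0 ≤ 16 * A * Br := by positivity
    linarith
  have hK0 : 0 < K := by linarith
  set C : ℝ := max (max (M₀ * K) (2 * Bn)) 0 with hC
  have hC0 : 0 ≤ C := le_max_right _ _
  have hC1 : M₀ * K ≤ C := (le_max_left _ _).trans (le_max_left _ _)
  have hC2 : 2 * Bn ≤ C := (le_max_right _ _).trans (le_max_left _ _)
  refine ⟨K, C, hK1, hC0, by rw [le_div_iff₀ hK0]; exact hC1, fun d hd => ?_⟩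
  have h1 : n d ≤ C / 2 * A⁻¹ ^ d := by
    have h2 := hBn d
    have h3 : (0 : ℝ) < A ^ d := by positivity
    rw [inv_pow, ← div_eq_mul_inv, le_div_iff₀ h3]
    linarith
  have h2 : ∑ p ∈ prs d, r p.2 * (C / K * A⁻¹ ^ p.1) =
      C / K * ∑ p ∈ prs d, r p.2 * A⁻¹ ^ p.1 := by
    rw [Finset.mul_sum]
    exact Finset.sum_congr rfl fun p _ => by ring
  have h3 := sum_prs_le hA hr hBr hd
  have h4 : 2 * (C / K * ∑ p ∈ prs d, r p.2 * A⁻¹ ^ p.1) ≤ C / 2 * A⁻¹ ^ d := by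
    calc 2 * (C / K * ∑ p ∈ prs d, r p.2 * A⁻¹ ^ p.1)
        ≤ 2 * (C / K * (4 * Br * A * A⁻¹ ^ d)) := by gcongr
      _ = C * (8 * A * Br / K) * A⁻¹ ^ d := by ring
      _ ≤ C * (1 / 2) * A⁻¹ ^ d := by
          have : 8 * A * Br / K ≤ 1 / 2 := by
            rw [div_le_div_iff₀ hK0 (by norm_num)]
            linarith
          gcongr
      _ = _ := by ring
  rw [h2]
  linarith

end Vale.Agent.P119.Cap
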