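import Vale.Agent.P119.M.Live

/-!
# P119, block ML: classification of the first contacts (`helper456`)

* `legs Φ ε T t`: the free pieces of the histories of `T` up to the time `t` (line, beginning, end);
* `wins Φ ε T`: the collisions of `T` (pair of lines, beginning, end);
* `hit_cases`: every hit of `T` by `T'` is a contact with a leg or happens during a collision;
* `first_hit_cases`: the first hit is regular (at the entrance time `hitT` of a pair of lines, in the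
  interior of the activity interval), or grazing, or `T'` is born in contact, or it happens at the
  beginning of a leg, or during a collision;
* `hit_of_leg`: a contact with a leg is a hit.
-/

open MeasureTheory Filter Topology Set
open scoped ENNReal NNReal

noncomputable section

namespace Vale.Agent.P119.ML

open KU M M.CTree

variable {Φ : E3 → ℝ} {ε : ℝ}

/-! ### Two free lines -/

/-- At a contact of two free lines which were not in contact just before, the distance is `ε` and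
does not increase. -/
theorem first_ctc {p q : Ph} {s : ℝ} (hc : Ctc ε (free s p) (free s q))
    (h : ∃ᶠ r in 𝓝[<] s, ¬Ctc ε (free r p) (free r q)) :
    ‖(free s p).1 - (free s q).1‖ = ε ∧
      (inner ℝ ((free s p).1 - (free s q).1) ((free s p).2 - (free s q).2) : ℝ) ≤ 0 := by
  have h1 : ε ≤ ‖(free s p).1 - (free s q).1‖ := by
    by_contra hcon
    have h2 : ∀ᶠ r in 𝓝[<] s, ‖(free r p).1 - (free r q).1‖ < ε := by
      have h3 : Continuous fun r => ‖(free r p).1 - (free r q).1‖ := by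
        unfold free
        fun_prop
      exact nhdsWithin_le_nhds (h3.continuousAt.eventually (gt_mem_nhds (not_le.1 hcon)))
    exact h (h2.mono fun r hr => not_not.2 (ctc_of_lt hr))
  have h2 := le_antisymm hc.1 h1
  exact ⟨h2, not_lt.1 fun h3 => hc.2 ⟨h2, h3⟩⟩

/-- A non-grazing entrance is at the time `hitT`. -/
theorem meets_of_entrance (hε : 0 < ε) {p q : Ph} {s : ℝ}
    (h1 : ‖(free s p).1 - (free s q).1‖ = ε)
    (h2 : (inner ℝ ((free s p).1 - (free s q).1) ((free s p).2 - (free s q).2) : ℝ) < 0) :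
    Meets ε (p, q) ∧ hitT ε (p, q) = s := by
  have h3 := dist_lines_sq hε (p, q) s
  have h4 := inner_free (rel ε (p, q)) (s / ε)
  rw [← rel_free hε.ne'] at h4
  have h5 : (rel ε (free s p, free s q)).1 = ε⁻¹ • ((free s p).1 - (free s q).1) := rfl
  have h6 : (rel ε (free s p, free s q)).2 = (free s p).2 - (free s q).2 := rfl
  simp only at h3 h4
  rw [h5, h6, real_inner_smul_left] at h4
  have hi : 0 < ε⁻¹ := inv_pos.2 hε
  set V : E3 := (rel ε (p, q)).2 with hV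
  set c : ℝ := crd (rel ε (p, q)) + s / ε with hc
  have h7 : c * ‖V‖ ^ 2 < 0 := by
    rw [← h4]
    exact mul_neg_of_pos_of_neg hi h2
  have hV0 : V ≠ 0 := by
    intro h0
    rw [h0, norm_zero] at h7
    norm_num at h7
  have hVn : 0 < ‖V‖ ^ 2 := by
    have := norm_pos_iff.2 hV0
    positivity
  have hcn : c < 0 := by
    by_contra hcon
    have := mul_nonneg (not_lt.1 hcon) hVn.le
    linarith
  have h8 : ‖perp (rel ε (p, q))‖ ^ 2 + c ^ 2 * ‖V‖ ^ 2 = 1 := by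
    rw [h1] at h3
    have hε2 : ε ^ 2 ≠ 0 := by positivity
    have := mul_left_cancel₀ hε2 ((mul_one (ε ^ 2)).trans h3)
    exact this.symm
  have h9 : ‖perp (rel ε (p, q))‖ < 1 := by
    have : 0 < c ^ 2 * ‖V‖ ^ 2 := mul_pos (by nlinarith) hVn
    have h10 : ‖perp (rel ε (p, q))‖ ^ 2 < 1 := by linarith
    nlinarith [norm_nonneg (perp (rel ε (p, q)))]
  refine ⟨⟨hV0, h9⟩, ?_⟩
  have h10 := half_sq hV0 h9.le
  have h11 : (half (rel ε (p, q))) ^ 2 = c ^ 2 := by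
    have : (half (rel ε (p, q))) ^ 2 * ‖V‖ ^ 2 = c ^ 2 * ‖V‖ ^ 2 := by
      rw [h10]; linarith
    exact mul_right_cancel₀ hVn.ne' this
  have h12 : half (rel ε (p, q)) = -c := by
    have h13 := half_nonneg (rel ε (p, q))
    have h14 : (half (rel ε (p, q)) - -c) * (half (rel ε (p, q)) + -c) = 0 := by ring_nf; linarith
    rcases mul_eq_zero.1 h14 with h15 | h15
    · linarith
    · linarith
  unfold hitT tin
  rw [h12, hc]
  field_simp
  ring

/-! ### Legs and windows -/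

/-- The free pieces of the histories of `T` up to the time `t`. -/
def legs (Φ : E3 → ℝ) (ε : ℝ) : CTree → ℝ → List (Ph × ℝ × ℝ)
  | leaf σ, t => [(σ.2.1, σ.1, t)]
  | node a b, t => legs Φ ε a (min t (sig Φ ε (node a b))) ++
      legs Φ ε b (min t (sig Φ ε (node a b))) ++ [(ln Φ ε (node a b), ext Φ ε (node a b), t)]

/-- The collisions of `T`. -/
def wins (Φ : E3 → ℝ) (ε : ℝ) : CTree → List ((Ph × Ph) × ℝ × ℝ)
  | leaf _ => []
  | node a b => wins Φ ε a ++ wins Φ ε b ++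
      [((ln Φ ε a, ln Φ ε b), sig Φ ε (node a b), ext Φ ε (node a b))]

theorem mem_legs_node {a b : CTree} {t : ℝ} {l : Ph × ℝ × ℝ} : l ∈ legs Φ ε (node a b) t ↔
    l ∈ legs Φ ε a (min t (sig Φ ε (node a b))) ∨ l ∈ legs Φ ε b (min t (sig Φ ε (node a b))) ∨
      l = (ln Φ ε (node a b), ext Φ ε (node a b), t) := by
  change l ∈ legs Φ ε a _ ++ legs Φ ε b _ ++ [_] ↔ _
  rw [List.mem_append, List.mem_append, List.mem_singleton, or_assoc]

theorem mem_wins_node {a b : CTree} {w : (Ph × Ph) × ℝ × ℝ} : w ∈ wins Φ ε (node a b) ↔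
    w ∈ wins Φ ε a ∨ w ∈ wins Φ ε b ∨
      w = ((ln Φ ε a, ln Φ ε b), sig Φ ε (node a b), ext Φ ε (node a b)) := by
  change w ∈ wins Φ ε a ++ wins Φ ε b ++ [_] ↔ _
  rw [List.mem_append, List.mem_append, List.mem_singleton, or_assoc]

/-- The end of a leg is at most `t`. -/
theorem end_le {T : CTree} {t : ℝ} {l : Ph × ℝ × ℝ} (h : l ∈ legs Φ ε T t) : l.2.2 ≤ t := by
  induction T generalizing t with
  | leaf σ =>
    rw [List.mem_singleton.1 h]
  | node a b iha ihb =>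
    rcases mem_legs_node.1 h with h | h | h
    · exact (iha h).trans (min_le_left _ _)
    · exact (ihb h).trans (min_le_left _ _)
    · rw [h]

/-- **The hits**: contacts with a leg, or with a pair during a collision. -/
theorem hit_cases (hΦ : IsPotential Φ) (hε : 0 < ε) {T T' : CTree} (hT : ok Φ ε T) {s t : ℝ}
    (h : hit Φ ε T T' s) (hst : s ≤ t) :
    (∃ l ∈ legs Φ ε T t, l.2.1 ≤ s ∧ s ≤ l.2.2 ∧ Ctc ε (free s l.1) (free s (ln Φ ε T'))) ∨
      ∃ w ∈ wins Φ ε T, w.2.1 ≤ s ∧ s < w.2.2 ∧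
        (Ctc ε (pairLine Φ ε w.1 s).1 (free s (ln Φ ε T')) ∨
          Ctc ε (pairLine Φ ε w.1 s).2 (free s (ln Φ ε T'))) := by
  induction T generalizing t with
  | leaf σ =>
    exact Or.inl ⟨_, List.mem_singleton_self _, h.1, hst, h.2.2.2⟩
  | node a b iha ihb =>
    rcases h with ⟨h1, ⟨h2, -⟩ | ⟨h2, -⟩⟩ | ⟨h1, h2, h3, h4⟩
    · rcases iha hT.1 h2 (le_min hst h1) with ⟨l, h3, h4⟩ | ⟨w, h3, h4⟩
      · exact Or.inl ⟨l, mem_legs_node.2 (Or.inl h3), h4⟩
      · exact Or.inr ⟨w, mem_wins_node.2 (Or.inl h3), h4⟩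
    · rcases ihb hT.2.1 h2 (le_min hst h1) with ⟨l, h3, h4⟩ | ⟨w, h3, h4⟩
      · exact Or.inl ⟨l, mem_legs_node.2 (Or.inr (Or.inl h3)), h4⟩
      · exact Or.inr ⟨w, mem_wins_node.2 (Or.inr (Or.inl h3)), h4⟩
    · by_cases h5 : s < ext Φ ε (node a b)
      · refine Or.inr ⟨_, mem_wins_node.2 (Or.inr (Or.inr rfl)), h1, h5, ?_⟩
        exact h4.imp id fun h => h.2
      · rw [not_lt] at h5
        refine Or.inl ⟨_, mem_legs_node.2 (Or.inr (Or.inr rfl)), h5, hst, ?_⟩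
        rcases h4 with h4 | h4
        · rw [pairLine_after hΦ hε hT.2.2.2.2.1 hT.2.2.2.1.2.le h5] at h4
          exact h4
        · exact absurd h4.1 (not_lt.2 h5)

/-- **A contact with a leg is a hit.** -/
theorem hit_of_leg (hΦ : IsPotential Φ) (hε : 0 < ε) {T T' : CTree} (hT : ok Φ ε T)
    (hd : Disjoint T.leaves T'.leaves) {s t : ℝ} {l : Ph × ℝ × ℝ} (hl : l ∈ legs Φ ε T t)
    (h1 : l.2.1 ≤ s) (h2 : s ≤ l.2.2) (h3 : ext Φ ε T' ≤ s)
    (h4 : Ctc ε (free s l.1) (free s (ln Φ ε T'))) : hit Φ ε T T' s := by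
  induction T generalizing t with
  | leaf σ =>
    rw [List.mem_singleton.1 hl] at h1 h4
    exact ⟨h1, h3, disjoint_singleton_left.1 hd, h4⟩
  | node a b iha ihb =>
    have hda : Disjoint a.leaves T'.leaves := hd.mono_left subset_union_left
    have hdb : Disjoint b.leaves T'.leaves := hd.mono_left subset_union_right
    rcases mem_legs_node.1 hl with hl | hl | hl
    · have h5 := end_le hl
      refine Or.inl ⟨h2.trans (h5.trans (min_le_right _ _)), Or.inl ⟨iha hT.1 hda hl, ?_⟩⟩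
      rintro ⟨rfl, -⟩
      exact T'.not_disjoint_self hdb
    · have h5 := end_le hl
      refine Or.inl ⟨h2.trans (h5.trans (min_le_right _ _)), Or.inr ⟨ihb hT.2.1 hdb hl, ?_⟩⟩
      rintro ⟨rfl, -⟩
      exact T'.not_disjoint_self hda
    · rw [hl] at h1 h4
      exact (hit_after hΦ hε hT h1).2 ⟨h3, hd, h4⟩

/-- A contact with a pair during a collision is a hit. -/
theorem hit_of_win (hΦ : IsPotential Φ) (hε : 0 < ε) {T T' : CTree} (hT : ok Φ ε T)
    (hd : Disjoint T.leaves T'.leaves) {s : ℝ} {w : (Ph × Ph) × ℝ × ℝ} (hw : w ∈ wins Φ ε T)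
    (h1 : w.2.1 ≤ s) (h2 : s < w.2.2) (h3 : ext Φ ε T' ≤ s)
    (h4 : Ctc ε (pairLine Φ ε w.1 s).1 (free s (ln Φ ε T')) ∨
      Ctc ε (pairLine Φ ε w.1 s).2 (free s (ln Φ ε T'))) : hit Φ ε T T' s := by
  have key : ∀ {T : CTree}, ok Φ ε T → ∀ {w : (Ph × Ph) × ℝ × ℝ}, w ∈ wins Φ ε T →
      w.2.2 ≤ ext Φ ε T := by
    intro T
    induction T with
    | leaf σ => exact fun _ w hw => absurd hw (by simp [wins])
    | node a b iha ihb =>
      intro hT w hw
      have hse := sig_lt_ext hΦ hε hT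
      rcases mem_wins_node.1 hw with hw | hw | hw
      · exact ((iha hT.1 hw).trans_lt hT.2.2.2.2.2.1).le.trans hse.le
      · exact ((ihb hT.2.1 hw).trans_lt hT.2.2.2.2.2.2).le.trans hse.le
      · rw [hw]
  induction T with
  | leaf σ => exact absurd hw (by simp [wins])
  | node a b iha ihb =>
    have hda : Disjoint a.leaves T'.leaves := hd.mono_left subset_union_left
    have hdb : Disjoint b.leaves T'.leaves := hd.mono_left subset_union_right
    rcases mem_wins_node.1 hw with hw | hw | hw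
    · have h5 : s ≤ sig Φ ε (node a b) := (h2.trans_le (key hT.1 hw)).le.trans
        hT.2.2.2.2.2.1.le
      refine Or.inl ⟨h5, Or.inl ⟨iha hT.1 hda hw, ?_⟩⟩
      rintro ⟨rfl, -⟩
      exact T'.not_disjoint_self hdb
    · have h5 : s ≤ sig Φ ε (node a b) := (h2.trans_le (key hT.2.1 hw)).le.trans
        hT.2.2.2.2.2.2.le
      refine Or.inl ⟨h5, Or.inr ⟨ihb hT.2.1 hdb hw, ?_⟩⟩
      rintro ⟨rfl, -⟩
      exact T'.not_disjoint_self hda
    · rw [hw] at h1 h2 h4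
      exact Or.inr ⟨h1, h3, hd, h4.imp id fun h => ⟨h2, h⟩⟩

/-- **Classification of the first hits.** -/
theorem first_hit_cases (hΦ : IsPotential Φ) (hε : 0 < ε) {T T' : CTree} (hT : ok Φ ε T)
    (hd : Disjoint T.leaves T'.leaves) {s t : ℝ} (h : hit Φ ε T T' s)
    (hfirst : ∀ r < s, ¬hit Φ ε T T' r) (hst : s ≤ t) :
    (∃ l ∈ legs Φ ε T t, l.2.1 < s ∧ s ≤ l.2.2 ∧ ext Φ ε T' < s ∧ Meets ε (l.1, ln Φ ε T') ∧
      hitT ε (l.1, ln Φ ε T') = s) ∨
    (∃ l ∈ legs Φ ε T t, l.2.1 < s ∧ s ≤ l.2.2 ∧ ext Φ ε T' < s ∧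
      ‖(free s l.1).1 - (free s (ln Φ ε T')).1‖ = ε ∧
      (inner ℝ ((free s l.1).1 - (free s (ln Φ ε T')).1)
        ((free s l.1).2 - (free s (ln Φ ε T')).2) : ℝ) = 0) ∨
    (∃ l ∈ legs Φ ε T t, l.2.1 ≤ s ∧ s ≤ l.2.2 ∧ s = ext Φ ε T' ∧
      Ctc ε (free s l.1) (free s (ln Φ ε T'))) ∨
    (∃ l ∈ legs Φ ε T t, s = l.2.1 ∧ ext Φ ε T' ≤ s ∧
      Ctc ε (free s l.1) (free s (ln Φ ε T'))) ∨
    ∃ w ∈ wins Φ ε T, w.2.1 ≤ s ∧ s < w.2.2 ∧ ext Φ ε T' ≤ s ∧
      (Ctc ε (pairLine Φ ε w.1 s).1 (free s (ln Φ ε T')) ∨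
        Ctc ε (pairLine Φ ε w.1 s).2 (free s (ln Φ ε T'))) := by
  have hext := hit_ext_le h
  rcases hit_cases hΦ hε hT h hst with ⟨l, h1, h2, h3, h4⟩ | ⟨w, h1, h2, h3, h4⟩
  swap
  · exact Or.inr (Or.inr (Or.inr (Or.inr ⟨w, h1, h2, h3, hext, h4⟩)))
  rcases h2.lt_or_eq with h5 | h5
  swap
  · exact Or.inr (Or.inr (Or.inr (Or.inl ⟨l, h1, h5.symm, hext, h4⟩)))
  rcases hext.lt_or_eq with h6 | h6
  swap
  · exact Or.inr (Or.inr (Or.inl ⟨l, h1, h2, h3, h6.symm, h4⟩))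
  have h7 : ∀ᶠ r in 𝓝[<] s, ¬Ctc ε (free r l.1) (free r (ln Φ ε T')) := by
    filter_upwards [Ioo_mem_nhdsLT (max_lt h5 h6)] with r hr hc
    exact hfirst r hr.2 (hit_of_leg hΦ hε hT hd h1 ((le_max_left _ _).trans hr.1.le)
      (hr.2.le.trans h3) ((le_max_right _ _).trans hr.1.le) hc)
  obtain ⟨h8, h9⟩ := first_ctc h4 h7.frequently
  rcases h9.lt_or_eq with h10 | h10
  · obtain ⟨h11, h12⟩ := meets_of_entrance hε h8 h10
    exact Or.inl ⟨l, h1, h5, h3, h6, h11, h12⟩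
  · exact Or.inr (Or.inl ⟨l, h1, h5, h3, h6, h8, h10⟩)

/-- A regular contact is a hit. -/
theorem hit_of_regular (hΦ : IsPotential Φ) (hε : 0 < ε) {T T' : CTree} (hT : ok Φ ε T)
    (hd : Disjoint T.leaves T'.leaves) {t : ℝ} {l : Ph × ℝ × ℝ} (hl : l ∈ legs Φ ε T t)
    (hm : Meets ε (l.1, ln Φ ε T')) (h1 : l.2.1 ≤ hitT ε (l.1, ln Φ ε T'))
    (h2 : hitT ε (l.1, ln Φ ε T') ≤ l.2.2) (h3 : ext Φ ε T' ≤ hitT ε (l.1, ln Φ ε T')) :
    hit Φ ε T T' (hitT ε (l.1, ln Φ ε T')) :=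
  hit_of_leg hΦ hε hT hd hl h1 h2 h3 (ctc_hitT hε hm)

end Vale.Agent.P119.ML
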