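import Vale.Agent.P119.ML.FM
import Vale.Agent.P119.GC.Cmp

/-!
# P119, block ML (`helper388`): extraction of the first hitters

* `CmpF`, `Wc`, `surv`, `Rel`, `Dp`, `Dm`;
* `gnz_tree` (extraction of a tree), `HI` (hit integral).
-/

open MeasureTheory Filter Topology Set
open scoped ENNReal NNReal

noncomputable section

namespace Vale.Agent.P119.ML

open KU M CTree GC MM

/-- The sources of the forest are compatible with the configuration. -/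
def CmpF (ε : ℝ) (F : List CTree) (w : Finset Ph) : Prop :=
  ∀ z ∈ w, ∀ σ ∈ lvs F, ε < ‖z.1 - σ.2.1.1‖

/-- The points of `z` are compatible with the sources of the forest. -/
def CmpZ (ε : ℝ) (F : List CTree) {n : ℕ} (z : Fin n → Ph) : Prop :=
  ∀ i, ∀ σ ∈ lvs F, ε < ‖(z i).1 - σ.2.1.1‖

/-- The world of a configuration and a forest. -/
def Wc (F : List CTree) (w : Finset Ph) : Set Src := world (w : Set Ph) ∪ lvs F

/-- The subtrees. -/
def sbt : CTree → Set CTree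
  | .leaf σ => {.leaf σ}
  | .node a b => {.node a b} ∪ (sbt a ∪ sbt b)

variable (Φ : E3 → ℝ) (ε : ℝ) (L : ℕ) (f₀ : Ph → ℝ)

/-- The survival probability of a forest. -/
def surv (F : List CTree) (t : ℝ) : ℝ≥0∞ :=
  ∫⁻ c, ind (CmpF ε F (pts c) ∧ Unhit Φ ε L (Wc F (pts c)) F t) ∂(PP f₀ ε)

/-- `T'` is a related first hitter of `F` until `t`. -/
def RelEv (F : List CTree) (t : ℝ) (w : Finset Ph) (T' : CTree) : Prop :=
  (CmpF ε F w ∧ OkF Φ ε L F ∧ ¬Disjoint T'.leaves (lvs F) ∧ FirstHit Φ ε L (Wc F w) F T') ∧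
    (ff Φ ε F T' < t ∨ (ff Φ ε F T' = t ∧ ∀ T ∈ F, T' ∉ sbt T))

/-- The expected number of related first hitters. -/
def Rel (F : List CTree) (t : ℝ) : ℝ≥0∞ :=
  ∫⁻ c, ∑' T', ind (RelEv Φ ε L F t (pts c) T') ∂(PP f₀ ε)

/-- The worlds `w ∪ A ∪ c ∪ C` and `w ∪ c ∪ C`: everything is unhit in the first one, `c` is hit in
the second one. -/
def Dp (A C : List CTree) (c : CTree) (t : ℝ) : ℝ≥0∞ :=
  ∫⁻ o, ind (CmpF ε (A ++ c :: C) (pts o) ∧
    Unhit Φ ε L (Wc (A ++ c :: C) (pts o)) (A ++ c :: C) t ∧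
    Unhit Φ ε L (Wc (c :: C) (pts o)) C t ∧ ¬NoHit Φ ε L (Wc (c :: C) (pts o)) [c] t) ∂(PP f₀ ε)

/-- The worlds `w ∪ A ∪ c ∪ C` and `w ∪ c ∪ C`: everything is unhit in the second one, `c` is hit in
the first one. -/
def Dm (A C : List CTree) (c : CTree) (t : ℝ) : ℝ≥0∞ :=
  ∫⁻ o, ind (CmpF ε (A ++ c :: C) (pts o) ∧ Unhit Φ ε L (Wc (c :: C) (pts o)) (c :: C) t ∧
    Unhit Φ ε L (Wc (A ++ c :: C) (pts o)) (A ++ C) t ∧
    ¬NoHit Φ ε L (Wc (A ++ c :: C) (pts o)) [c] t) ∂(PP f₀ ε)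

/-- The condition for a hitter `T'` with ordinary leaves `z`: first contact in `[t₀, t)`. -/
def HitEv (F : List CTree) (t₀ t : ℝ) {n : ℕ} (z : Fin n → Ph) (T' : CTree) : Prop :=
  (CmpZ ε F z ∧ ok Φ ε T' ∧ (conF Φ ε F T').Nonempty) ∧ t₀ ≤ ff Φ ε F T' ∧ ff Φ ε F T' < t

/-- The hit integral. -/
def HI (F : List CTree) (t₀ t : ℝ) (H : CTree → ℝ≥0∞) : ℝ≥0∞ :=
  ∑ τ ∈ shapes L, ∫⁻ z in {z | PW (Cx ε) z},
    ind (HitEv Φ ε F t₀ t z (τ.ord z)) * H (τ.ord z) ∂(Measure.pi fun _ : Fin τ.card => inten f₀ ε)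

variable {Φ ε L f₀}

theorem cmpF_cons {T : CTree} {F : List CTree} {w : Finset Ph} :
    CmpF ε (T :: F) w ↔ CmpF ε [T] w ∧ CmpF ε F w := by
  unfold CmpF
  rw [lvs_cons, lvs_cons, lvs_nil, union_empty]
  constructor
  · exact fun h => ⟨fun z hz σ hσ => h z hz σ (Or.inl hσ), fun z hz σ hσ => h z hz σ (Or.inr hσ)⟩
  · rintro ⟨h1, h2⟩ z hz σ (hσ | hσ)
    · exact h1 z hz σ hσ
    · exact h2 z hz σ hσ

theorem cmpF_mono {F G : List CTree} (h : lvs F ⊆ lvs G) {w : Finset Ph} (hG : CmpF ε G w) :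
    CmpF ε F w := fun z hz σ hσ => hG z hz σ (h hσ)

theorem mem_leaves_ord {τ : Shape} {z : Fin τ.card → Ph} {σ : Src} :
    σ ∈ (τ.ord z).leaves ↔ ∃ i, σ = src (z i) := by
  rw [Shape.leaves_ord]
  constructor
  · rintro ⟨x, ⟨i, rfl⟩, rfl⟩; exact ⟨i, rfl⟩
  · rintro ⟨i, rfl⟩; exact ⟨z i, ⟨i, rfl⟩, rfl⟩

/-- Compatibility with an ordinary tree. -/
theorem cmpF_ord {τ : Shape} {z : Fin τ.card → Ph} {w : Finset Ph} :
    CmpF ε [τ.ord z] w ↔ Cmp (Cx ε) z w := by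
  unfold CmpF Cmp Cx
  rw [lvs_cons, lvs_nil, union_empty]
  constructor
  · intro h i x hx
    have := h x hx (src (z i)) (mem_leaves_ord.2 ⟨i, rfl⟩)
    rw [norm_sub_rev]
    exact this
  · intro h x hx σ hσ
    obtain ⟨i, rfl⟩ := mem_leaves_ord.1 hσ
    have := h i x hx
    rw [norm_sub_rev] at this
    exact this

end Vale.Agent.P119.ML
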