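import Vale.Agent.P119.KT.HitLine
import Vale.Agent.P119.PB.TreeMeas

/-!
# P119, block ML (`helper388`): germs of trees

* `LG`: lines depending affinely on `ε`; `lat ε ℓ` the line at `ε`; `inG1`, `inG2`, `exG`, `hG` the
  incoming lines, the exhaust and the hitting line (`inLines_lat`, `exLine_lat`, `hl_lat`);
* `TG` (shape, root line, backward parameters), `TG.tree Φ ε`, `glegs` (line, birth, end);
* `trees Φ ε F`, the forest at `ε`; `TG.hit` the attached tree (the contact time is exactly `q.1`).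
-/

open MeasureTheory Filter Topology Set
open scoped ENNReal NNReal

noncomputable section

namespace Vale.Agent.P119.ML

open KU M CTree KT

/-- A line depending affinely on `ε`: the line at `0` and the displacement. -/
abbrev LG := Ph × E3

/-- The line at `ε`. -/
def lat (ε : ℝ) (ℓ : LG) : Ph := (ℓ.1.1 + ε • ℓ.2, ℓ.1.2)

/-- The first incoming line. -/
def inG1 (Φ : E3 → ℝ) (ℓ : LG) (q : ND) : LG :=
  ((inLines Φ 0 ℓ.1 q).1, ℓ.2 + (1 / 2 : ℝ) • ((inRel Φ ℓ.1.2 q).1 - (outRel ℓ.1.2 q).1))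

/-- The second incoming line. -/
def inG2 (Φ : E3 → ℝ) (ℓ : LG) (q : ND) : LG :=
  ((inLines Φ 0 ℓ.1 q).2, ℓ.2 - (1 / 2 : ℝ) • ((inRel Φ ℓ.1.2 q).1 + (outRel ℓ.1.2 q).1))

/-- The exhaust. -/
def exG (ℓ : LG) (q : ND) : LG := (exLine 0 ℓ.1 q, ℓ.2 - (outRel ℓ.1.2 q).1)

/-- The line which comes into contact with `ℓ` at the time `q.1`. -/
def hG (ℓ : LG) (q : ND) : LG :=
  (hl 0 ℓ.1 q, ℓ.2 + (half (outRel ℓ.1.2 q) • (ℓ.1.2 - q.2.1) - (outRel ℓ.1.2 q).1))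

/-- The germ of a tree: shape, root line, backward parameters. -/
structure TG where
  /-- the shape -/
  τ : Shape
  /-- the root line -/
  ℓ : LG
  /-- the backward parameters -/
  p : PD τ

variable {Φ : E3 → ℝ} {ε : ℝ}

theorem lat_snd (ε : ℝ) (ℓ : LG) : (lat ε ℓ).2 = ℓ.1.2 := rfl

theorem lat_fst (ε : ℝ) (ℓ : LG) : (lat ε ℓ).1 = ℓ.1.1 + ε • ℓ.2 := rfl

theorem lat_zero (ℓ : LG) : lat 0 ℓ = ℓ.1 := by
  unfold lat; rw [zero_smul, add_zero]

theorem inLines_lat (ε : ℝ) (ℓ : LG) (q : ND) :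
    inLines Φ ε (lat ε ℓ) q = (lat ε (inG1 Φ ℓ q), lat ε (inG2 Φ ℓ q)) := by
  unfold lat inG1 inG2
  simp only [inLines_def]
  ext1
  · ext1
    · simp only; module
    · rfl
  · ext1
    · simp only; module
    · rfl

theorem exLine_lat (ε : ℝ) (ℓ : LG) (q : ND) : exLine ε (lat ε ℓ) q = lat ε (exG ℓ q) := by
  unfold lat exG
  simp only [exLine_def]
  ext1
  · simp only; module
  · rfl

theorem hl_lat (ε : ℝ) (ℓ : LG) (q : ND) : hl ε (lat ε ℓ) q = lat ε (hG ℓ q) := by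
  ext1
  · rw [hl_fst, lat_fst, lat_fst, lat_snd]
    unfold hG
    rw [hl_fst]
    module
  · rw [hl_snd, lat_snd]
    unfold hG
    simp only
    rw [hl_snd]

theorem hG_snd (ℓ : LG) (q : ND) : (hG ℓ q).1.2 = q.2.1 := by
  unfold hG
  simp only
  rw [hl_snd]

theorem inG1_snd (ℓ : LG) (q : ND) : (inG1 Φ ℓ q).1.2 = (inVel Φ ℓ.1.2 q).1 := by
  unfold inG1
  simp only
  rw [inLines_def]

theorem inG2_snd (ℓ : LG) (q : ND) : (inG2 Φ ℓ q).1.2 = (inVel Φ ℓ.1.2 q).2 := by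
  unfold inG2
  simp only
  rw [inLines_def]

/-- The leaf data at `ε`. -/
def TG.ld (Φ : E3 → ℝ) (ε : ℝ) (G : TG) : LD G.τ := bk Φ ε G.τ (lat ε G.ℓ) G.p

/-- The tree at `ε`. -/
def TG.tree (Φ : E3 → ℝ) (ε : ℝ) (G : TG) : CTree := mkL G.τ (G.ld Φ ε)

/-- The tree which hits the line `ℓ` at the time `q.1`. -/
def TG.hit (ℓ : LG) (τ : Shape) (q : ND) (p : PD τ) : TG := ⟨τ, hG ℓ q, p⟩

theorem TG.tree_def (G : TG) : G.tree Φ ε = mkL G.τ (bk Φ ε G.τ (lat ε G.ℓ) G.p) := rfl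

theorem TG.tree_leaf (ℓ : LG) (p : PD .leaf) :
    (⟨.leaf, ℓ, p⟩ : TG).tree Φ ε = .leaf (src (lat ε ℓ)) := rfl

theorem TG.tree_node (a b : Shape) (ℓ : LG) (p : PD (.node a b)) :
    (⟨.node a b, ℓ, p⟩ : TG).tree Φ ε =
      .node ((⟨a, inG1 Φ ℓ p.1, p.2.1⟩ : TG).tree Φ ε)
        ((⟨b, inG2 Φ ℓ p.1, p.2.2⟩ : TG).tree Φ ε) := by
  have h : (⟨.node a b, ℓ, p⟩ : TG).tree Φ ε =
      .node (mkL a (bk Φ ε a (inLines Φ ε (lat ε ℓ) p.1).1 p.2.1))
        (mkL b (bk Φ ε b (inLines Φ ε (lat ε ℓ) p.1).2 p.2.2)) := rfl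
  rw [h, inLines_lat]
  rfl

theorem TG.tree_hit (ℓ : LG) (τ : Shape) (q : ND) (p : PD τ) :
    (TG.hit ℓ τ q p).tree Φ ε = mkL τ (bk Φ ε τ (hl ε (lat ε ℓ) q) p) := by
  rw [hl_lat]; rfl

theorem TG.depth_tree (G : TG) : (G.tree Φ ε).depth = G.τ.depth := by
  rw [TG.tree_def, mkL_eq_ord, Shape.depth_ord]

theorem TG.ln_tree (hΦ : IsPotential Φ) (hε : ε ≠ 0) (G : TG)
    (hG : good Φ G.τ G.ℓ.1.2 G.p) : ln Φ ε (G.tree Φ ε) = lat ε G.ℓ :=
  ln_mkL_bk hΦ hε G.τ (lat ε G.ℓ) G.p hG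

/-- The legs of a germ until the time `h`: the line, its birth and its end. -/
def glegs (Φ : E3 → ℝ) : (τ : Shape) → LG → PD τ → ℝ → List (LG × ℝ × ℝ)
  | .leaf, ℓ, _, h => [(ℓ, 0, h)]
  | .node a b, ℓ, p, h => glegs Φ a (inG1 Φ ℓ p.1) p.2.1 p.1.1 ++
      glegs Φ b (inG2 Φ ℓ p.1) p.2.2 p.1.1 ++ [(ℓ, p.1.1, h)]

/-- The legs of a germ. -/
def TG.legs (Φ : E3 → ℝ) (G : TG) (h : ℝ) : List (LG × ℝ × ℝ) := glegs Φ G.τ G.ℓ G.p h

/-- The forest at `ε`. -/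
def trees (Φ : E3 → ℝ) (ε : ℝ) (F : List TG) : List CTree := F.map fun G => G.tree Φ ε

/-- The legs of a forest. -/
def flegs (Φ : E3 → ℝ) (F : List TG) (h : ℝ) : List (LG × ℝ × ℝ) :=
  F.flatMap fun G => G.legs Φ h

theorem trees_cons (G : TG) (F : List TG) :
    trees Φ ε (G :: F) = G.tree Φ ε :: trees Φ ε F := rfl

theorem trees_append (F F' : List TG) :
    trees Φ ε (F ++ F') = trees Φ ε F ++ trees Φ ε F' := List.map_append

/-! ### Measurability -/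

theorem measurable_lat (ε : ℝ) : Measurable (lat ε) := by unfold lat; fun_prop

theorem measurable_mkL_germ : ∀ τ : Shape, Measurable (mkL τ) := fun τ => by
  have h : mkL τ = fun z => τ.ord (ldEquiv τ z) := funext fun z => mkL_eq_ord τ z
  rw [h]
  exact (measurable_ord τ).comp (ldEquiv τ).measurable

theorem measurable_tree_germ (hΦ : IsPotential Φ) (ε : ℝ) (τ : Shape) :
    Measurable fun x : LG × PD τ => (⟨τ, x.1, x.2⟩ : TG).tree Φ ε := by
  have h1 : Measurable fun x : LG × PD τ => (lat ε x.1, x.2) :=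
    ((measurable_lat ε).comp measurable_fst).prodMk measurable_snd
  exact (measurable_mkL_germ τ).comp ((measurable_bk hΦ ε τ).comp h1)

theorem measurable_hG (ℓ : LG) : Measurable (hG ℓ) := by
  have h1 : Measurable fun q : ND => outRel ℓ.1.2 q :=
    measurable_outRel.comp (measurable_const.prodMk measurable_id)
  have h2 : Measurable fun q : ND => half (outRel ℓ.1.2 q) := measurable_half.comp h1
  have h3 : Measurable fun q : ND => ℓ.1.2 - q.2.1 := by fun_prop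
  exact (measurable_hl 0 ℓ.1).prodMk (measurable_const.add ((h2.smul h3).sub h1.fst))

theorem measurable_tree_hit (hΦ : IsPotential Φ) (ε : ℝ) (ℓ : LG) (τ : Shape) :
    Measurable fun x : ND × PD τ => (TG.hit ℓ τ x.1 x.2).tree Φ ε :=
  (measurable_tree_germ hΦ ε τ).comp
    (((measurable_hG ℓ).comp measurable_fst).prodMk measurable_snd)

end Vale.Agent.P119.ML
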