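import Vale.Agent.P119.ML.IrrMass
import Vale.Agent.P119.KT.Energy

/-!
# P119, block ML/CONV: the constant of the irregular contacts of a germ (`helper576`)

`irrC_bk`: for a tree in backward parameters the constant `irrC` does not depend on `ε`.
-/

open MeasureTheory Set Filter Topology Metric ProbabilityTheory
open scoped ENNReal

noncomputable section

namespace Vale.Agent.P119.ML

open KU M M.CTree KT

variable {Φ : E3 → ℝ} {ε : ℝ}

/-- The constant of the irregular contacts in the backward parameters. -/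
def irrP (Φ : E3 → ℝ) : (τ : Shape) → E3 → PD τ → ℝ
  | .leaf, _, _ => 2
  | .node a b, v, p => irrP Φ a (inVel Φ v p.1).1 p.2.1 + irrP Φ b (inVel Φ v p.1).2 p.2.2 +
      (2 + (2 + |half (outRel v p.1) - tin (inRel Φ v p.1)| *
        (1 + ‖(2 : ℝ)⁻¹ • (v + p.1.2.1)‖)) ^ 3)

theorem irrC_leaf (σ : Src) (t : ℝ) : irrC Φ ε (leaf σ) t = 2 := by
  unfold irrC legs wins
  simp

theorem irrC_node (a b : CTree) (t : ℝ) : irrC Φ ε (node a b) t =
    irrC Φ ε a (min t (sig Φ ε (node a b))) + irrC Φ ε b (min t (sig Φ ε (node a b))) +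
      (2 + winK ε ((ln Φ ε a, ln Φ ε b), sig Φ ε (node a b), ext Φ ε (node a b)) ^ 3) := by
  have h1 : legs Φ ε (node a b) t = legs Φ ε a (min t (sig Φ ε (node a b))) ++
      legs Φ ε b (min t (sig Φ ε (node a b))) ++ [(ln Φ ε (node a b), ext Φ ε (node a b), t)] := rfl
  have h2 : wins Φ ε (node a b) = wins Φ ε a ++ wins Φ ε b ++
      [((ln Φ ε a, ln Φ ε b), sig Φ ε (node a b), ext Φ ε (node a b))] := rfl
  unfold irrC
  rw [h1, h2]
  simp only [List.length_append, List.length_singleton, List.map_append, List.sum_append,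
    List.map_cons, List.map_nil, List.sum_cons, List.sum_nil, add_zero]
  push_cast
  ring

/-- **The constant of a germ does not depend on `ε`, nor on the horizon.** -/
theorem irrC_bk (hΦ : IsPotential Φ) (hε : ε ≠ 0) : ∀ (τ : Shape) (L : Ph) (p : PD τ) (t : ℝ),
    good Φ τ L.2 p → irrC Φ ε (mkL τ (bk Φ ε τ L p)) t = irrP Φ τ L.2 p
  | .leaf, _, _, t, _ => irrC_leaf _ t
  | .node a b, L, p, t, h => by
    obtain ⟨h1, h2, h3⟩ := h
    have hv := inLines_vel (Φ := Φ) ε L p.1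
    have ga : good Φ a (inLines Φ ε L p.1).1.2 p.2.1 := by rw [hv.1]; exact h2
    have gb : good Φ b (inLines Φ ε L p.1).2.2 p.2.2 := by rw [hv.2]; exact h3
    have ha := fun t => irrC_bk hΦ hε a _ _ t ga
    have hb := fun t => irrC_bk hΦ hε b _ _ t gb
    have la := ln_mkL_bk hΦ hε a _ _ ga
    have lb := ln_mkL_bk hΦ hε b _ _ gb
    rw [hv.1] at ha
    rw [hv.2] at hb
    change irrC Φ ε (node (mkL a (bk Φ ε a (inLines Φ ε L p.1).1 p.2.1))
      (mkL b (bk Φ ε b (inLines Φ ε L p.1).2 p.2.2))) t = _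
    rw [irrC_node, ha, hb]
    change _ = irrP Φ a (inVel Φ L.2 p.1).1 p.2.1 + irrP Φ b (inVel Φ L.2 p.1).2 p.2.2 +
      (2 + (2 + |half (outRel L.2 p.1) - tin (inRel Φ L.2 p.1)| *
        (1 + ‖(2 : ℝ)⁻¹ • (L.2 + p.1.2.1)‖)) ^ 3)
    congr 3
    unfold winK
    simp only
    change 2 + |(sepT Φ ε (ln Φ ε (mkL a (bk Φ ε a (inLines Φ ε L p.1).1 p.2.1)),
      ln Φ ε (mkL b (bk Φ ε b (inLines Φ ε L p.1).2 p.2.2))) -
      hitT ε (ln Φ ε (mkL a (bk Φ ε a (inLines Φ ε L p.1).1 p.2.1)),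
      ln Φ ε (mkL b (bk Φ ε b (inLines Φ ε L p.1).2 p.2.2)))) / ε| *
      (1 + ‖(com (ln Φ ε (mkL a (bk Φ ε a (inLines Φ ε L p.1).1 p.2.1)),
      ln Φ ε (mkL b (bk Φ ε b (inLines Φ ε L p.1).2 p.2.2)))).2‖) = _
    rw [la, lb, show ((inLines Φ ε L p.1).1, (inLines Φ ε L p.1).2) = inLines Φ ε L p.1 from rfl,
      sepT_inLines hΦ hε h1, hitT_inLines hΦ hε h1]
    have h4 : (com (inLines Φ ε L p.1)).2 = (2 : ℝ)⁻¹ • (L.2 + p.1.2.1) := by
      unfold com
      simp only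
      rw [hv.1, hv.2, inVel_sum]
    rw [h4]
    congr 3
    field_simp
    ring

end Vale.Agent.P119.ML
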