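import Vale.Agent.P119.ML.CapDef
import Vale.Agent.P119.ML.CapNum
import Vale.Agent.P119.MM.Stat

/-!
# P119, block ML (CAP0, `helper667`): the splitting at the last node
-/

open MeasureTheory Filter Topology Set
open scoped ENNReal NNReal

noncomputable section

namespace Vale.Agent.P119.Cap

open KU M

variable {Φ : E3 → ℝ} {ε : ℝ} {L : ℕ} {Tm : ℝ} {f₀ : Ph → ℝ}

theorem measurableSet_ALt {X : Type*} [MeasurableSpace X] (hΦ : IsPotential Φ) (hε : 0 < ε)
    {c : X → GC.Conf Ph} (hc : Measurable c) {T : X → CTree} (hT : Measurable T) {t : X → ℝ}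
    (ht : Measurable t) : MeasurableSet {x | ALt Φ ε L (GC.pts (c x) : Set Ph) (T x) (t x)} :=
  MM.measurableSet_tree_alive hΦ hε ((MM.RS.world_pts hc).union_leaves hT) hT ht

theorem measurableSet_AL {X : Type*} [MeasurableSpace X] (hΦ : IsPotential Φ) (hε : 0 < ε)
    {c : X → GC.Conf Ph} (hc : Measurable c) {T : X → CTree} (hT : Measurable T) :
    MeasurableSet {x | T x ∈ AL Φ ε L Tm (GC.pts (c x) : Set Ph)} :=
  (measurableSet_ALt hΦ hε hc hT ((measurable_ext hΦ hε.ne').comp hT)).inter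
    (measurableSet_le ((measurable_ext hΦ hε.ne').comp hT) measurable_const)

theorem AL_ok {w : Set Ph} {T : CTree} (h : T ∈ AL Φ ε L Tm w) : CTree.ok Φ ε T :=
  (alive_pre h.1).ok

theorem AL_depth {w : Set Ph} {T : CTree} (h : T ∈ AL Φ ε L Tm w) : T.depth ≤ L :=
  (alive_pre h.1).depth

theorem AL_of_ALt {w : Set Ph} {T : CTree} {t : ℝ}
    (h : ALt Φ ε L w T t) (ht : CTree.ext Φ ε T ≤ Tm) : T ∈ AL Φ ε L Tm w :=
  ⟨alive_anti h (alive_pre h).ext_le le_rfl, ht⟩

/-- Partner trees of the free line `l`. -/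
def PS (Φ : E3 → ℝ) (ε : ℝ) (L : ℕ) (Tm : ℝ) (w : Set Ph) (j : ℕ) (k : Bool) (l : Ph) : Set CTree :=
  {T | ALt Φ ε L w T (hitT ε (prt k l (CTree.ln Φ ε T))) ∧ T.depth = j ∧
    (l, T) ∈ dgSet Φ ε Tm k}

theorem measurable_prt (k : Bool) : Measurable fun q : Ph × Ph => prt k q.1 q.2 := by
  cases k
  · exact measurable_snd.prodMk measurable_fst
  · exact measurable_fst.prodMk measurable_snd

theorem measurable_prtT (hΦ : IsPotential Φ) (hε : ε ≠ 0) (k : Bool) :
    Measurable fun p : Ph × CTree => prt k p.1 (CTree.ln Φ ε p.2) :=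
  (measurable_prt k).comp (measurable_fst.prodMk ((measurable_ln hΦ hε).comp measurable_snd))

theorem measurableSet_dgSet (hΦ : IsPotential Φ) (hε : ε ≠ 0) (k : Bool) :
    MeasurableSet (dgSet Φ ε Tm k) := by
  have hp := measurable_prtT (Φ := Φ) (ε := ε) hΦ hε k
  have h1 : MeasurableSet {p : Ph × CTree | Meets ε (prt k p.1 (CTree.ln Φ ε p.2))} :=
    hp measurableSet_meets
  have h2 : MeasurableSet {p : Ph × CTree | Exits Φ (rel ε (prt k p.1 (CTree.ln Φ ε p.2)))} :=
    ((continuous_rel.measurable).comp hp) (measurableSet_exits hΦ)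
  have h3 : MeasurableSet {p : Ph × CTree | CTree.ext Φ ε p.2 <
      hitT ε (prt k p.1 (CTree.ln Φ ε p.2))} :=
    measurableSet_lt ((measurable_ext hΦ hε).comp measurable_snd) (measurable_hitT.comp hp)
  have h4 : MeasurableSet {p : Ph × CTree | sepT Φ ε (prt k p.1 (CTree.ln Φ ε p.2)) ≤ Tm} :=
    measurableSet_le ((measurable_sepT hΦ).comp hp) measurable_const
  have h5 : MeasurableSet {p : Ph × CTree | (sc2 Φ ε (prt k p.1 (CTree.ln Φ ε p.2))).1.2 =
      p.1.2} :=
    measurableSet_eq_fun ((((measurable_sc2 hΦ hε).comp hp).fst).snd)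
      (measurable_snd.comp measurable_fst)
  exact h1.inter (h2.inter (h3.inter (h4.inter h5)))

theorem measurableSet_PS {X : Type*} [MeasurableSpace X] (hΦ : IsPotential Φ) (hε : 0 < ε)
    {c : X → GC.Conf Ph} (hc : Measurable c) {l : X → Ph} (hl : Measurable l) {T : X → CTree}
    (hT : Measurable T) (j : ℕ) (k : Bool) :
    MeasurableSet {x | T x ∈ PS Φ ε L Tm (GC.pts (c x) : Set Ph) j k (l x)} := by
  have hp : Measurable fun x => prt k (l x) (CTree.ln Φ ε (T x)) :=
    (measurable_prtT hΦ hε.ne' k).comp (hl.prodMk hT)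
  have h1 := measurableSet_ALt (L := L) hΦ hε hc hT (measurable_hitT (ε := ε).comp hp)
  have h2 : MeasurableSet {x | (T x).depth = j} :=
    (measurable_depth.comp hT) (measurableSet_singleton j)
  have h3 : MeasurableSet {x | (l x, T x) ∈ dgSet Φ ε Tm k} :=
    (hl.prodMk hT) (measurableSet_dgSet hΦ hε.ne' k)
  exact h1.inter (h2.inter h3)

/-- The integral over the partner trees. -/
def Gk (Φ : E3 → ℝ) (ε : ℝ) (L : ℕ) (Tm : ℝ) (f₀ : Ph → ℝ) (F : ℝ → Ph → ℝ≥0∞) (w : Set Ph)
    (j : ℕ) (k : Bool) (s : ℝ) (l : Ph) : ℝ≥0∞ :=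
  ∫⁻ T in PS Φ ε L Tm w j k l, {T | s < hitT ε (prt k l (CTree.ln Φ ε T))}.indicator
    (fun T => F (sepT Φ ε (prt k l (CTree.ln Φ ε T))) (sc2 Φ ε (prt k l (CTree.ln Φ ε T))).1) T
    ∂(tree (GC.inten f₀ ε) L)

/-- Pairs (carrier, partner). -/
def QS (Φ : E3 → ℝ) (ε : ℝ) (L : ℕ) (Tm : ℝ) (w : Set Ph) (p : ℕ × ℕ) (k : Bool) :
    Set (CTree × CTree) :=
  {x | (x.1 ∈ AL Φ ε L Tm w ∧ x.1.depth = p.1) ∧ x.2 ∈ PS Φ ε L Tm w p.2 k (CTree.ln Φ ε x.1) ∧
    CTree.ext Φ ε x.1 < hitT ε (prt k (CTree.ln Φ ε x.1) (CTree.ln Φ ε x.2))}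

/-- The function of the pair. -/
def HF (Φ : E3 → ℝ) (ε : ℝ) (F : ℝ → Ph → ℝ≥0∞) (k : Bool) (x : CTree × CTree) : ℝ≥0∞ :=
  F (sepT Φ ε (prt k (CTree.ln Φ ε x.1) (CTree.ln Φ ε x.2)))
    (sc2 Φ ε (prt k (CTree.ln Φ ε x.1) (CTree.ln Φ ε x.2))).1

theorem prs_swap {d : ℕ} {p : ℕ × ℕ} (h : p ∈ prs d) : p.swap ∈ prs d := by
  rw [mem_prs] at h ⊢
  rw [Prod.fst_swap, Prod.snd_swap, max_comm]
  exact h

theorem node_mem (hΦ : IsPotential Φ) (hε : 0 < ε) {w : Set Ph} {A B : CTree} {d : ℕ}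
    (h : CTree.node A B ∈ AL Φ ε L Tm w) (hd : (CTree.node A B).depth = d)
    (hI : CTree.node A B ∉ I1 Φ ε L Tm w) (hn : ¬nondeg Φ ε (CTree.node A B)) :
    ∃ p ∈ prs d, (A, B) ∈ QS Φ ε L Tm w p true ∨ (B, A) ∈ QS Φ ε L Tm w p false := by
  have hok := AL_ok h
  have hAB : ALt Φ ε L w A (CTree.sig Φ ε (CTree.node A B)) ∧
      ALt Φ ε L w B (CTree.sig Φ ε (CTree.node A B)) := by
    by_contra hcon
    exact hI ⟨h, A, B, rfl, hcon⟩
  have hse : CTree.sig Φ ε (CTree.node A B) < CTree.ext Φ ε (CTree.node A B) :=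
    sig_lt_ext hΦ hε hok
  have hA : A ∈ AL Φ ε L Tm w := AL_of_ALt hAB.1 ((alive_pre hAB.1).ext_le.trans
    (hse.le.trans h.2))
  have hB : B ∈ AL Φ ε L Tm w := AL_of_ALt hAB.2 ((alive_pre hAB.2).ext_le.trans
    (hse.le.trans h.2))
  have hn' : (CTree.ln Φ ε (CTree.node A B)).2 = (CTree.ln Φ ε A).2 ∨
      (CTree.ln Φ ε (CTree.node A B)).2 = (CTree.ln Φ ε B).2 := by
    by_contra hcon
    rw [not_or] at hcon
    exact hn hcon
  rcases hn' with hn' | hn'
  · refine ⟨(A.depth, B.depth), mem_prs.2 (show max A.depth B.depth + 1 = d from hd),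
      Or.inl ?_⟩
    exact ⟨⟨hA, rfl⟩, ⟨hAB.2, rfl, hok.2.2.2.1, hok.2.2.2.2.1, hok.2.2.2.2.2.2, h.2, hn'⟩,
      hok.2.2.2.2.2.1⟩
  · refine ⟨(B.depth, A.depth), prs_swap (p := (A.depth, B.depth))
      (mem_prs.2 (show max A.depth B.depth + 1 = d from hd)), Or.inr ?_⟩
    exact ⟨⟨hB, rfl⟩, ⟨hAB.1, rfl, hok.2.2.2.1, hok.2.2.2.2.1, hok.2.2.2.2.2.1, h.2, hn'⟩,
      hok.2.2.2.2.2.2⟩

theorem measurableSet_QS {X : Type*} [MeasurableSpace X] (hΦ : IsPotential Φ) (hε : 0 < ε)
    {c : X → GC.Conf Ph} (hc : Measurable c) {x : X → CTree × CTree} (hx : Measurable x)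
    (p : ℕ × ℕ) (k : Bool) :
    MeasurableSet {y | x y ∈ QS Φ ε L Tm (GC.pts (c y) : Set Ph) p k} := by
  have h1 := measurableSet_AL (L := L) (Tm := Tm) hΦ hε hc hx.fst
  have h2 : MeasurableSet {y | (x y).1.depth = p.1} :=
    (measurable_depth.comp hx.fst) (measurableSet_singleton p.1)
  have h3 := measurableSet_PS (L := L) (Tm := Tm) hΦ hε hc ((measurable_ln hΦ hε.ne').comp hx.fst)
    hx.snd p.2 k
  have h4 : MeasurableSet {y | CTree.ext Φ ε (x y).1 <
      hitT ε (prt k (CTree.ln Φ ε (x y).1) (CTree.ln Φ ε (x y).2))} :=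
    measurableSet_lt ((measurable_ext hΦ hε.ne').comp hx.fst)
      (measurable_hitT.comp ((measurable_prtT hΦ hε.ne' k).comp
        (((measurable_ln hΦ hε.ne').comp hx.fst).prodMk hx.snd)))
  exact (h1.inter h2).inter (h3.inter h4)

theorem measurable_HF (hΦ : IsPotential Φ) (hε : ε ≠ 0) {F : ℝ → Ph → ℝ≥0∞}
    (hF : Measurable (Function.uncurry F)) (k : Bool) : Measurable (HF Φ ε F k) := by
  have hp : Measurable fun x : CTree × CTree => prt k (CTree.ln Φ ε x.1) (CTree.ln Φ ε x.2) :=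
    (measurable_prtT hΦ hε k).comp (((measurable_ln hΦ hε).comp measurable_fst).prodMk
      measurable_snd)
  exact hF.comp (((measurable_sepT hΦ).comp hp).prodMk ((measurable_sc2 hΦ hε).comp hp).fst)

theorem lintegral_QS (hΦ : IsPotential Φ) (hε : 0 < ε) (c : GC.Conf Ph) {F : ℝ → Ph → ℝ≥0∞}
    (p : ℕ × ℕ) (k : Bool) :
    ∫⁻ M, ∫⁻ P, (QS Φ ε L Tm (GC.pts c : Set Ph) p k).indicator (HF Φ ε F k) (M, P)
      ∂(tree (GC.inten f₀ ε) L) ∂(tree (GC.inten f₀ ε) L) =
    ∫⁻ M in {M | M ∈ AL Φ ε L Tm (GC.pts c : Set Ph) ∧ M.depth = p.1},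
      Gk Φ ε L Tm f₀ F (GC.pts c : Set Ph) p.2 k (CTree.ext Φ ε M) (CTree.ln Φ ε M)
      ∂(tree (GC.inten f₀ ε) L) := by
  have hS : MeasurableSet {M : CTree | M ∈ AL Φ ε L Tm (GC.pts c : Set Ph) ∧ M.depth = p.1} :=
    (measurableSet_AL (c := fun _ : CTree => c) (T := id) hΦ hε measurable_const
      measurable_id).inter (measurable_depth (measurableSet_singleton p.1))
  rw [← lintegral_indicator hS]
  refine lintegral_congr fun M => ?_
  by_cases hM : M ∈ {M : CTree | M ∈ AL Φ ε L Tm (GC.pts c : Set Ph) ∧ M.depth = p.1}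
  · rw [indicator_of_mem hM]
    unfold Gk
    have hPS : MeasurableSet (PS Φ ε L Tm (GC.pts c : Set Ph) p.2 k (CTree.ln Φ ε M)) :=
      measurableSet_PS (c := fun _ : CTree => c) (l := fun _ => CTree.ln Φ ε M) (T := id) hΦ hε
        measurable_const measurable_const measurable_id p.2 k
    rw [← lintegral_indicator hPS]
    refine lintegral_congr fun P => ?_
    by_cases hP : P ∈ PS Φ ε L Tm (GC.pts c : Set Ph) p.2 k (CTree.ln Φ ε M)
    · rw [indicator_of_mem hP]
      by_cases hh : CTree.ext Φ ε M < hitT ε (prt k (CTree.ln Φ ε M) (CTree.ln Φ ε P))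
      · rw [indicator_of_mem (show P ∈ {T | CTree.ext Φ ε M <
          hitT ε (prt k (CTree.ln Φ ε M) (CTree.ln Φ ε T))} from hh),
          indicator_of_mem (show (M, P) ∈ QS Φ ε L Tm (GC.pts c : Set Ph) p k from ⟨hM, hP, hh⟩)]
        rfl
      · rw [indicator_of_notMem (show P ∉ {T | CTree.ext Φ ε M <
          hitT ε (prt k (CTree.ln Φ ε M) (CTree.ln Φ ε T))} from hh),
          indicator_of_notMem (fun h => hh h.2.2)]
    · rw [indicator_of_notMem hP, indicator_of_notMem (fun h => hP h.2.1)]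
  · rw [indicator_of_notMem hM]
    have h0 : ∀ P, (QS Φ ε L Tm (GC.pts c : Set Ph) p k).indicator (HF Φ ε F k) (M, P) = 0 :=
      fun P => indicator_of_notMem (fun h => hM h.1) _
    simp only [h0, lintegral_zero]

/-- Measurability of a function of the two subtrees of a node, with a parameter. -/
theorem measurable_cases_param {X β : Type*} [MeasurableSpace X] [MeasurableSpace β]
    {f : X × CTree → β} {g : X × (CTree × CTree) → β} {h : X × Src → β} (hg : Measurable g)
    (hh : Measurable h) (h0 : ∀ x σ, f (x, CTree.leaf σ) = h (x, σ))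
    (h1 : ∀ x a b, f (x, CTree.node a b) = g (x, (a, b))) : Measurable f := by
  rw [measurable_prod_ctree]
  intro τ
  cases τ with
  | leaf =>
    have : (fun p : X × (Fin Shape.leaf.card → Src) => f (p.1, Shape.mk Shape.leaf p.2)) =
        fun p => h (p.1, p.2 ⟨0, one_pos⟩) := funext fun p => h0 _ _
    rw [this]
    exact hh.comp (measurable_fst.prodMk ((measurable_pi_apply _).comp measurable_snd))
  | node a b =>
    have e : (fun p : X × (Fin (Shape.node a b).card → Src) =>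
        f (p.1, Shape.mk (Shape.node a b) p.2)) =
        fun p => g (p.1, (Shape.mk a fun i => p.2 (Fin.castAdd b.card i),
          Shape.mk b fun i => p.2 (Fin.natAdd a.card i))) := funext fun p => h1 _ _ _
    rw [e]
    refine hg.comp (measurable_fst.prodMk (Measurable.prodMk ?_ ?_))
    · exact (measurable_smk a).comp (measurable_pi_iff.2 fun i =>
        (measurable_pi_apply _).comp measurable_snd)
    · exact (measurable_smk b).comp (measurable_pi_iff.2 fun i =>
        (measurable_pi_apply _).comp measurable_snd)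

theorem measurableSet_nondeg (hΦ : IsPotential Φ) (hε : ε ≠ 0) :
    MeasurableSet {T | nondeg Φ ε T} := by
  have hl := measurable_ln (Φ := Φ) (ε := ε) hΦ hε
  have h : Measurable fun T => nondeg Φ ε T := by
    refine measurable_cases (g := fun q : CTree × CTree =>
      (CTree.ln Φ ε (.node q.1 q.2)).2 ≠ (CTree.ln Φ ε q.1).2 ∧
      (CTree.ln Φ ε (.node q.1 q.2)).2 ≠ (CTree.ln Φ ε q.2).2) (h := fun _ => False) ?_
      measurable_const (fun _ => rfl) (fun _ _ => rfl)
    have hn : Measurable fun q : CTree × CTree => (CTree.ln Φ ε (.node q.1 q.2)).2 :=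
      (hl.comp measurable_node).snd
    have h1 : MeasurableSet {q : CTree × CTree | (CTree.ln Φ ε (.node q.1 q.2)).2 =
        (CTree.ln Φ ε q.1).2} := measurableSet_eq_fun hn (hl.comp measurable_fst).snd
    have h2 : MeasurableSet {q : CTree × CTree | (CTree.ln Φ ε (.node q.1 q.2)).2 =
        (CTree.ln Φ ε q.2).2} := measurableSet_eq_fun hn (hl.comp measurable_snd).snd
    exact measurableSet_setOfPred.1 (h1.compl.inter h2.compl)
  exact measurableSet_setOfPred.2 h

theorem measurableSet_I1 {X : Type*} [MeasurableSpace X] (hΦ : IsPotential Φ) (hε : 0 < ε)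
    {c : X → GC.Conf Ph} (hc : Measurable c) {T : X → CTree} (hT : Measurable T) :
    MeasurableSet {x | T x ∈ I1 Φ ε L Tm (GC.pts (c x) : Set Ph)} := by
  have h1 := measurableSet_AL (L := L) (Tm := Tm) hΦ hε hc hT
  have h2 : Measurable fun p : X × CTree => ∃ A B, p.2 = CTree.node A B ∧
      ¬(ALt Φ ε L (GC.pts (c p.1) : Set Ph) A (CTree.sig Φ ε p.2) ∧
        ALt Φ ε L (GC.pts (c p.1) : Set Ph) B (CTree.sig Φ ε p.2)) := by
    refine measurable_cases_param (g := fun p : X × (CTree × CTree) =>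
      ¬(ALt Φ ε L (GC.pts (c p.1) : Set Ph) p.2.1 (CTree.sig Φ ε (CTree.node p.2.1 p.2.2)) ∧
        ALt Φ ε L (GC.pts (c p.1) : Set Ph) p.2.2 (CTree.sig Φ ε (CTree.node p.2.1 p.2.2))))
      (h := fun _ => False) ?_ measurable_const ?_ ?_
    · have hs : Measurable fun p : X × (CTree × CTree) =>
          CTree.sig Φ ε (CTree.node p.2.1 p.2.2) :=
        (measurable_sig hΦ hε.ne').comp (measurable_node.comp measurable_snd)
      have h3 := measurableSet_ALt (L := L) hΦ hε
        (hc.comp (measurable_fst (α := X) (β := CTree × CTree)))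
        (measurable_fst.comp measurable_snd) hs
      have h4 := measurableSet_ALt (L := L) hΦ hε
        (hc.comp (measurable_fst (α := X) (β := CTree × CTree)))
        (measurable_snd.comp measurable_snd) hs
      exact measurableSet_setOfPred.1 (h3.inter h4).compl
    · intro x σ
      refine propext ⟨?_, fun h => h.elim⟩
      rintro ⟨A, B, h, -⟩
      exact absurd h (by rintro ⟨⟩)
    · intro x a b
      refine propext ⟨?_, fun h => ⟨a, b, rfl, h⟩⟩
      rintro ⟨A, B, h, h'⟩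
      obtain ⟨rfl, rfl⟩ := CTree.node.inj h
      exact h'
  have h3 : MeasurableSet {x | ∃ A B, T x = CTree.node A B ∧
      ¬(ALt Φ ε L (GC.pts (c x) : Set Ph) A (CTree.sig Φ ε (T x)) ∧
        ALt Φ ε L (GC.pts (c x) : Set Ph) B (CTree.sig Φ ε (T x)))} :=
    measurableSet_setOfPred.2 (h2.comp (measurable_id.prodMk hT))
  exact h1.inter h3

/-- **The splitting at the last node.** -/
theorem split (hΦ : IsPotential Φ) (hε : 0 < ε) [IsFiniteMeasure (GC.inten f₀ ε)]
    (c : GC.Conf Ph) {F : ℝ → Ph → ℝ≥0∞} (hF : Measurable (Function.uncurry F)) {d : ℕ}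
    (hd : 1 ≤ d) (hdL : d ≤ L) :
    ∫⁻ T in {T | T ∈ AL Φ ε L Tm (GC.pts c : Set Ph) ∧ T.depth = d},
      F (CTree.ext Φ ε T) (CTree.ln Φ ε T) ∂(tree (GC.inten f₀ ε) L) ≤
    (∫⁻ T in {T | T ∈ I1 Φ ε L Tm (GC.pts c : Set Ph) ∧ T.depth = d},
      F (CTree.ext Φ ε T) (CTree.ln Φ ε T) ∂(tree (GC.inten f₀ ε) L)) +
    (∫⁻ T in {T | T ∈ AL Φ ε L Tm (GC.pts c : Set Ph) ∧ T.depth = d ∧ nondeg Φ ε T},
      F (CTree.ext Φ ε T) (CTree.ln Φ ε T) ∂(tree (GC.inten f₀ ε) L)) +
    ∑ p ∈ prs d, ∑ k : Bool, ∫⁻ M in {M | M ∈ AL Φ ε L Tm (GC.pts c : Set Ph) ∧ M.depth = p.1},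
      Gk Φ ε L Tm f₀ F (GC.pts c : Set Ph) p.2 k (CTree.ext Φ ε M) (CTree.ln Φ ε M)
      ∂(tree (GC.inten f₀ ε) L) := by
  classical
  set w : Set Ph := (GC.pts c : Set Ph) with hw
  set ν := tree (GC.inten f₀ ε) L with hν
  set Fr : CTree → ℝ≥0∞ := fun T => F (CTree.ext Φ ε T) (CTree.ln Φ ε T) with hFr
  have hFrm : Measurable Fr :=
    hF.comp ((measurable_ext hΦ hε.ne').prodMk (measurable_ln hΦ hε.ne'))
  set S0 : Set CTree := {T | T ∈ AL Φ ε L Tm w ∧ T.depth = d} with hS0
  set S1 : Set CTree := {T | T ∈ I1 Φ ε L Tm w ∧ T.depth = d} with hS1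
  set S2 : Set CTree := {T | T ∈ AL Φ ε L Tm w ∧ T.depth = d ∧ nondeg Φ ε T} with hS2
  have hdm : MeasurableSet {T : CTree | T.depth = d} :=
    measurable_depth (measurableSet_singleton d)
  have hm0 : MeasurableSet S0 := (measurableSet_AL (c := fun _ : CTree => c) (T := id) hΦ hε
    measurable_const measurable_id).inter hdm
  have hm1 : MeasurableSet S1 := (measurableSet_I1 (c := fun _ : CTree => c) (T := id) hΦ hε
    measurable_const measurable_id).inter hdm
  have hm2 : MeasurableSet S2 := (measurableSet_AL (c := fun _ : CTree => c) (T := id) hΦ hε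
    measurable_const measurable_id).inter (hdm.inter (measurableSet_nondeg hΦ hε.ne'))
  have hm3 : MeasurableSet ((S0 \ S1) \ S2) := (hm0.diff hm1).diff hm2
  -- pointwise
  have hpt : ∀ T, S0.indicator Fr T ≤ S1.indicator Fr T + S2.indicator Fr T +
      ((S0 \ S1) \ S2).indicator Fr T := by
    intro T
    by_cases h0 : T ∈ S0
    · by_cases h1 : T ∈ S1
      · rw [indicator_of_mem h0, indicator_of_mem h1, add_assoc]
        exact le_self_add
      · by_cases h2 : T ∈ S2
        · rw [indicator_of_mem h0, indicator_of_mem h2, add_comm (S1.indicator Fr T), add_assoc]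
          exact le_self_add
        · rw [indicator_of_mem h0, indicator_of_mem (show T ∈ (S0 \ S1) \ S2 from ⟨⟨h0, h1⟩, h2⟩)]
          exact le_add_self
    · rw [indicator_of_notMem h0]
      exact zero_le
  have h1 : ∫⁻ T in S0, Fr T ∂ν ≤ (∫⁻ T in S1, Fr T ∂ν) + (∫⁻ T in S2, Fr T ∂ν) +
      ∫⁻ T, ((S0 \ S1) \ S2).indicator Fr T ∂ν := by
    have hadd : Measurable fun T => S1.indicator Fr T + S2.indicator Fr T :=
      (hFrm.indicator hm1).add (hFrm.indicator hm2)
    rw [← lintegral_indicator hm0, ← lintegral_indicator hm1, ← lintegral_indicator hm2,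
      ← lintegral_add_left (hFrm.indicator hm1), ← lintegral_add_left hadd]
    exact lintegral_mono hpt
  refine h1.trans (add_le_add le_rfl ?_)
  -- the degenerate nodes
  obtain ⟨L', rfl⟩ : ∃ L', L = L' + 1 := ⟨L - 1, by omega⟩
  have hG : Measurable (((S0 \ S1) \ S2).indicator Fr) := hFrm.indicator hm3
  have hmono : tree (GC.inten f₀ ε) L' ≤ ν := tree_mono (Nat.le_succ L')
  set J : Bool → ℕ × ℕ → CTree → CTree → ℝ≥0∞ := fun k p M P =>
    (QS Φ ε (L' + 1) Tm w p k).indicator (HF Φ ε F k) (M, P) with hJ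
  have hJm : ∀ k p, Measurable fun x : CTree × CTree => J k p x.1 x.2 := by
    intro k p
    have h2 : MeasurableSet (QS Φ ε (L' + 1) Tm w p k) :=
      measurableSet_QS (c := fun _ : CTree × CTree => c) (x := id) hΦ hε measurable_const
        measurable_id p k
    exact (measurable_HF hΦ hε.ne' hF k).indicator h2
  have h2 : ∫⁻ T, ((S0 \ S1) \ S2).indicator Fr T ∂ν ≤
      ∫⁻ A, ∫⁻ B, ∑ p ∈ prs d, (J true p A B + J false p B A) ∂ν ∂ν := by
    rw [hν, lintegral_tree_succ L' hG]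
    have h3 : ∀ z, ((S0 \ S1) \ S2).indicator Fr (CTree.leaf (src z)) = 0 := by
      intro z
      refine indicator_of_notMem (fun h => ?_) _
      have h4 : (CTree.leaf (src z)).depth = d := h.1.1.2
      have h5 : (CTree.leaf (src z)).depth = 0 := rfl
      omega
    simp only [h3, lintegral_zero, zero_add]
    refine (lintegral_mono fun A => lintegral_mono fun B => ?_ :
      _ ≤ ∫⁻ A, ∫⁻ B, ∑ p ∈ prs d, (J true p A B + J false p B A)
        ∂(tree (GC.inten f₀ ε) L') ∂(tree (GC.inten f₀ ε) L')).trans ?_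
    · by_cases h : CTree.node A B ∈ (S0 \ S1) \ S2
      · rw [indicator_of_mem h]
        obtain ⟨⟨h4, h5⟩, h6⟩ := h
        obtain ⟨p, hp, h7⟩ := node_mem hΦ hε h4.1 h4.2 (fun h' => h5 ⟨h', h4.2⟩)
          (fun h' => h6 ⟨h4.1, h4.2, h'⟩)
        refine le_trans ?_ (Finset.single_le_sum (f := fun p => J true p A B + J false p B A)
          (fun _ _ => zero_le) hp)
        rcases h7 with h7 | h7
        · have h8 : J true p A B = Fr (CTree.node A B) := by
            simp only [hJ]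
            rw [indicator_of_mem h7]
            rfl
          simp only [h8]
          exact le_self_add
        · have h8 : J false p B A = Fr (CTree.node A B) := by
            simp only [hJ]
            rw [indicator_of_mem h7]
            rfl
          simp only [h8]
          exact le_add_self
      · rw [indicator_of_notMem h]
        exact zero_le
    · exact (lintegral_mono fun A => lintegral_mono' hmono le_rfl).trans
        (lintegral_mono' hmono le_rfl)
  refine h2.trans (le_of_eq ?_)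
  have hsw : ∀ p, ∫⁻ A, ∫⁻ B, J false p B A ∂ν ∂ν = ∫⁻ M, ∫⁻ P, J false p M P ∂ν ∂ν := by
    intro p
    rw [lintegral_lintegral_swap]
    exact ((hJm false p).comp measurable_swap).aemeasurable
  have hsum : ∀ p, ∫⁻ A, ∫⁻ B, (J true p A B + J false p B A) ∂ν ∂ν =
      ∑ k : Bool, ∫⁻ M, ∫⁻ P, J k p M P ∂ν ∂ν := by
    intro p
    rw [Fintype.sum_bool, ← hsw p, ← lintegral_add_left (hJm true p).lintegral_prod_right']
    refine lintegral_congr fun A => ?_
    exact lintegral_add_left ((hJm true p).comp measurable_prodMk_left) _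
  have hJs : ∀ p, Measurable fun x : CTree × CTree => J true p x.1 x.2 + J false p x.2 x.1 :=
    fun p => (hJm true p).add ((hJm false p).comp measurable_swap)
  have h3 : ∫⁻ A, ∫⁻ B, ∑ p ∈ prs d, (J true p A B + J false p B A) ∂ν ∂ν =
      ∑ p ∈ prs d, ∫⁻ A, ∫⁻ B, (J true p A B + J false p B A) ∂ν ∂ν := by
    rw [← lintegral_finsetSum _ fun p _ => (hJs p).lintegral_prod_right']
    refine lintegral_congr fun A => ?_
    exact lintegral_finsetSum _ fun p _ => (hJs p).comp measurable_prodMk_left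
  rw [h3]
  refine Finset.sum_congr rfl fun p _ => ?_
  rw [hsum p]
  refine Finset.sum_congr rfl fun k _ => ?_
  exact lintegral_QS hΦ hε c p k

end Vale.Agent.P119.Cap
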