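import Vale.Agent.P119.ML.Out
import Vale.Agent.P119.PB.CMtime
import Vale.Agent.P119.PB.TreeMeas
import Vale.Agent.P119.GC.Phase

/-!
# P119, block ML/CAP0: crude bound for the law of the root line of a tree (`helper776`)

`lam`: the law of `(ext T, ln T)` for `T = τ.ord z`, leaves independent with intensity `ν`, on
`ok T`, `ext T ≤ T₀`.  `crude`: it is at most `μ C_τ e^{-b|v|²/2} (δ₀ + 1_{[0,T₀]} ds) dl` if
`ν ≤ μ M e^{-b|v|²} dz`, uniformly in `ε`.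
-/

open MeasureTheory Set Filter Topology Metric ProbabilityTheory
open scoped ENNReal

namespace Vale.Agent.P119.ML

open KU FL M PB.CT CTree

variable {Φ : E3 → ℝ} {ε : ℝ}

/-! ### The exponents -/

/-- Decreasing exponents between `b` and `b / 2`. -/
noncomputable def bd (b : ℝ) (d : ℕ) : ℝ := b * (1 / 2 + (1 / 2) ^ (d + 1))

theorem bd_zero (b : ℝ) : bd b 0 = b := by unfold bd; ring

theorem bd_succ (b : ℝ) (d : ℕ) : bd b d - b / (2 * ((2 ^ (d + 1) : ℕ) : ℝ)) = bd b (d + 1) := by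
  unfold bd
  have h1 : ((1 : ℝ) / 2) ^ (d + 1) = 1 / 2 ^ (d + 1) := by rw [div_pow, one_pow]
  have h2 : ((1 : ℝ) / 2) ^ (d + 1 + 1) = 1 / 2 ^ (d + 1) / 2 := by
    rw [pow_succ ((1 : ℝ) / 2) (d + 1), h1]; ring
  rw [h1, h2]
  push_cast
  field_simp
  ring

theorem half_le_bd {b : ℝ} (hb : 0 < b) (d : ℕ) : b / 2 ≤ bd b d := by
  unfold bd
  have : 0 < b * (1 / 2) ^ (d + 1) := by positivity
  linarith

theorem bd_anti {b : ℝ} (hb : 0 < b) {d d' : ℕ} (h : d ≤ d') : bd b d' ≤ bd b d := by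
  unfold bd
  have : ((1 : ℝ) / 2) ^ (d' + 1) ≤ (1 / 2) ^ (d + 1) :=
    pow_le_pow_of_le_one (by norm_num) (by norm_num) (by omega)
  gcongr

theorem g1_anti {b b' : ℝ} (h : b' ≤ b) (v : E3) : g1 b v ≤ g1 b' v := by
  unfold g1
  apply ENNReal.ofReal_le_ofReal
  apply Real.exp_le_exp.2
  nlinarith [sq_nonneg ‖v‖]

/-! ### The law of the root line -/

/-- The part of `F` on `ok` trees which exit before `T₀`. -/
noncomputable def okF (Φ : E3 → ℝ) (ε T₀ : ℝ) (F : ℝ → Ph → ℝ≥0∞) (T : CTree) : ℝ≥0∞ :=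
  {T : CTree | ok Φ ε T ∧ ext Φ ε T ≤ T₀}.indicator (fun T => F (ext Φ ε T) (ln Φ ε T)) T

/-- The law of the exit time and of the root line for the shape `τ`. -/
noncomputable def lam (Φ : E3 → ℝ) (ε T₀ : ℝ) (ν : Measure Ph) (τ : Shape)
    (F : ℝ → Ph → ℝ≥0∞) : ℝ≥0∞ :=
  ∫⁻ z, okF Φ ε T₀ F (τ.ord z) ∂(Measure.pi fun _ : Fin τ.card => ν)

theorem okF_mem {T₀ : ℝ} (F : ℝ → Ph → ℝ≥0∞) {T : CTree} (h : ok Φ ε T) (h' : ext Φ ε T ≤ T₀) :
    okF Φ ε T₀ F T = F (ext Φ ε T) (ln Φ ε T) :=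
  indicator_of_mem (show T ∈ {T : CTree | ok Φ ε T ∧ ext Φ ε T ≤ T₀} from ⟨h, h'⟩) _

theorem okF_notMem {T₀ : ℝ} (F : ℝ → Ph → ℝ≥0∞) {T : CTree} (h : ¬(ok Φ ε T ∧ ext Φ ε T ≤ T₀)) :
    okF Φ ε T₀ F T = 0 :=
  indicator_of_notMem (show T ∉ {T : CTree | ok Φ ε T ∧ ext Φ ε T ≤ T₀} from h) _

theorem measurable_okF (hΦ : IsPotential Φ) (hε : ε ≠ 0) (T₀ : ℝ) {F : ℝ → Ph → ℝ≥0∞}
    (hF : Measurable fun q : ℝ × Ph => F q.1 q.2) : Measurable (okF Φ ε T₀ F) := by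
  unfold okF
  refine Measurable.indicator (hF.comp ((measurable_ext hΦ hε).prodMk (measurable_ln hΦ hε))) ?_
  exact (measurableSet_ok hΦ hε).inter
    (measurableSet_le (measurable_ext hΦ hε) measurable_const)

theorem okF_prod_measurable (hΦ : IsPotential Φ) (hε : ε ≠ 0) (T₀ : ℝ) {X : Type*}
    [MeasurableSpace X] {F : X → ℝ → Ph → ℝ≥0∞}
    (hF : Measurable fun q : X × ℝ × Ph => F q.1 q.2.1 q.2.2) :
    Measurable fun q : X × CTree => okF Φ ε T₀ (F q.1) q.2 := by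
  have h1 : (fun q : X × CTree => okF Φ ε T₀ (F q.1) q.2) =
      {q : X × CTree | ok Φ ε q.2 ∧ ext Φ ε q.2 ≤ T₀}.indicator
        (fun q => F q.1 (ext Φ ε q.2) (ln Φ ε q.2)) := by
    funext q
    unfold okF
    by_cases h : ok Φ ε q.2 ∧ ext Φ ε q.2 ≤ T₀
    · rw [indicator_of_mem (show q.2 ∈ {T : CTree | ok Φ ε T ∧ ext Φ ε T ≤ T₀} from h),
        indicator_of_mem (show q ∈ {q : X × CTree | ok Φ ε q.2 ∧ ext Φ ε q.2 ≤ T₀} from h)]
    · rw [indicator_of_notMem (show q.2 ∉ {T : CTree | ok Φ ε T ∧ ext Φ ε T ≤ T₀} from h),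
        indicator_of_notMem (show q ∉ {q : X × CTree | ok Φ ε q.2 ∧ ext Φ ε q.2 ≤ T₀} from h)]
  rw [h1]
  refine Measurable.indicator ?_ ?_
  · exact hF.comp (measurable_fst.prodMk (((measurable_ext hΦ hε).comp measurable_snd).prodMk
      ((measurable_ln hΦ hε).comp measurable_snd)))
  · exact (measurable_snd (measurableSet_ok hΦ hε)).inter
      (measurableSet_le ((measurable_ext hΦ hε).comp measurable_snd) measurable_const)

/-- The bound: mass at the time `0` plus density in the time. -/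
noncomputable def bnd (c T₀ : ℝ) (F : ℝ → Ph → ℝ≥0∞) : ℝ≥0∞ :=
  (∫⁻ l : Ph, g1 c l.2 * F 0 l) + ∫⁻ s in Icc 0 T₀, ∫⁻ l : Ph, g1 c l.2 * F s l

theorem bnd_anti {c c' T₀ : ℝ} (h : c' ≤ c) (F : ℝ → Ph → ℝ≥0∞) : bnd c T₀ F ≤ bnd c' T₀ F := by
  unfold bnd
  gcongr with l s l
  · exact g1_anti h _
  · exact g1_anti h _

theorem bnd_const {c T₀ : ℝ} (hT : 0 ≤ T₀) (F : Ph → ℝ≥0∞) :
    bnd c T₀ (fun _ => F) = ENNReal.ofReal (1 + T₀) * ∫⁻ l : Ph, g1 c l.2 * F l := by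
  unfold bnd
  rw [lintegral_const, Measure.restrict_apply MeasurableSet.univ, univ_inter, Real.volume_Icc,
    sub_zero, ENNReal.ofReal_add zero_le_one hT, ENNReal.ofReal_one]
  ring

/-- The contribution of a pair of incoming root lines to the law of the next root line. -/
noncomputable def pairF (Φ : E3 → ℝ) (ε T₀ : ℝ) (F : ℝ → Ph → ℝ≥0∞) (q : Ph × Ph) : ℝ≥0∞ :=
  {q : Ph × Ph | Meets ε q}.indicator
    (fun q => (Icc 0 T₀).indicator (fun s => F s (sc2 Φ ε q).1) (sepT Φ ε q)) q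

theorem measurable_icc_ind {T₀ : ℝ} {F : ℝ → Ph → ℝ≥0∞}
    (hF : Measurable fun q : ℝ × Ph => F q.1 q.2) :
    Measurable fun q : ℝ × Ph => (Icc 0 T₀).indicator (fun s => F s q.2) q.1 := by
  have h1 : (fun q : ℝ × Ph => (Icc 0 T₀).indicator (fun s => F s q.2) q.1) =
      {q : ℝ × Ph | q.1 ∈ Icc 0 T₀}.indicator (fun q : ℝ × Ph => F q.1 q.2) := by
    funext q
    by_cases hq : q.1 ∈ Icc 0 T₀
    · rw [indicator_of_mem hq, indicator_of_mem (show q ∈ {q : ℝ × Ph | q.1 ∈ Icc 0 T₀} from hq)]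
    · rw [indicator_of_notMem hq,
        indicator_of_notMem (show q ∉ {q : ℝ × Ph | q.1 ∈ Icc 0 T₀} from hq)]
  rw [h1]
  exact hF.indicator (measurable_fst measurableSet_Icc)

theorem measurable_pairF (hΦ : IsPotential Φ) (hε : ε ≠ 0) (T₀ : ℝ) {F : ℝ → Ph → ℝ≥0∞}
    (hF : Measurable fun q : ℝ × Ph => F q.1 q.2) : Measurable (pairF Φ ε T₀ F) := by
  unfold pairF
  refine Measurable.indicator ?_ measurableSet_meets
  exact (measurable_icc_ind hF).comp ((measurable_sepT hΦ).prodMk (measurable_sc2 hΦ hε).fst)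

theorem okF_node_le (hΦ : IsPotential Φ) (hε : 0 < ε) (T₀ : ℝ) (F : ℝ → Ph → ℝ≥0∞)
    (A B : CTree) : okF Φ ε T₀ F (node A B) ≤
      okF Φ ε T₀ (fun _ x => okF Φ ε T₀ (fun _ y => pairF Φ ε T₀ F (x, y)) B) A := by
  by_cases h : ok Φ ε (node A B) ∧ ext Φ ε (node A B) ≤ T₀
  · obtain ⟨hok, hex⟩ := h
    have hlt := sig_lt_ext hΦ hε hok
    have h0 := ext_nonneg hΦ hε hok
    have hA : ext Φ ε A ≤ T₀ := (hok.2.2.2.2.2.1.le.trans hlt.le).trans hex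
    have hB : ext Φ ε B ≤ T₀ := (hok.2.2.2.2.2.2.le.trans hlt.le).trans hex
    rw [okF_mem F hok hex, okF_mem _ hok.1 hA, okF_mem _ hok.2.1 hB]
    unfold pairF
    rw [indicator_of_mem (show (ln Φ ε A, ln Φ ε B) ∈ {q : Ph × Ph | Meets ε q} from hok.2.2.2.1),
      indicator_of_mem (show sepT Φ ε (ln Φ ε A, ln Φ ε B) ∈ Icc 0 T₀ from ⟨h0, hex⟩)]
    rfl
  · rw [okF_notMem F h]
    exact zero_le

/-- The node step. -/
theorem lintegral_pairF_le (hΦ : IsPotential Φ) (hε : 0 < ε) {b T₀ : ℝ} (hb : 0 < b) (d : ℕ)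
    {F : ℝ → Ph → ℝ≥0∞} (hF : Measurable fun q : ℝ × Ph => F q.1 q.2) :
    ∫⁻ x : Ph, g1 (bd b d) x.2 * ∫⁻ y : Ph, g1 (bd b d) y.2 * pairF Φ ε T₀ F (x, y) ≤
      ENNReal.ofReal (ε ^ 2) * (ENNReal.ofReal (Kb b * √((2 ^ (d + 1) : ℕ) : ℝ)) *
        ∫⁻ s in Icc 0 T₀, ∫⁻ l : Ph, g1 (bd b (d + 1)) l.2 * F s l) := by
  set c := bd b d with hc
  set G : ℝ → Ph → ℝ≥0∞ := fun s l => (Icc 0 T₀).indicator (fun s => F s l) s with hG
  have hGm : Measurable fun q : ℝ × Ph => G q.1 q.2 := measurable_icc_ind hF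
  have hPm := measurable_pairF hΦ hε.ne' T₀ hF
  have hmeets : MeasurableSet {q : Ph × Ph | Meets ε q} := measurableSet_meets
  have hk : Measurable fun e : ℝ => ENNReal.ofReal (Real.exp (-c * e)) := by fun_prop
  have h1 := lintegral_node hΦ hε hk hGm
  have h2 : ∫⁻ x : Ph, g1 c x.2 * ∫⁻ y : Ph, g1 c y.2 * pairF Φ ε T₀ F (x, y) =
      ∫⁻ q in {q : Ph × Ph | Meets ε q}, ENNReal.ofReal (Real.exp (-c * kin q)) *
        G (sepT Φ ε q) (sc2 Φ ε q).1 := by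
    have hv : (volume : Measure (Ph × Ph)) = (volume : Measure Ph).prod volume :=
      Measure.volume_eq_prod _ _
    have hFm : Measurable fun q : Ph × Ph => ENNReal.ofReal (Real.exp (-c * kin q)) *
        G (sepT Φ ε q) (sc2 Φ ε q).1 :=
      (hk.comp measurable_kin).mul (hGm.comp ((measurable_sepT hΦ).prodMk
        (measurable_sc2 hΦ hε.ne').fst))
    rw [← lintegral_indicator hmeets, hv, lintegral_prod _ (hFm.indicator hmeets).aemeasurable]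
    refine lintegral_congr fun x => ?_
    rw [← lintegral_const_mul' _ _ g1_ne_top]
    refine lintegral_congr fun y => ?_
    unfold pairF
    by_cases h : Meets ε (x, y)
    · rw [indicator_of_mem (show (x, y) ∈ {q : Ph × Ph | Meets ε q} from h),
        indicator_of_mem (show (x, y) ∈ {q : Ph × Ph | Meets ε q} from h), ← mul_assoc]
      congr 1
      unfold g1 kin
      rw [← ENNReal.ofReal_mul (Real.exp_nonneg _), ← Real.exp_add]
      congr 2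
      ring
    · rw [indicator_of_notMem (show (x, y) ∉ {q : Ph × Ph | Meets ε q} from h),
        indicator_of_notMem (show (x, y) ∉ {q : Ph × Ph | Meets ε q} from h), mul_zero, mul_zero]
  rw [h2, h1]
  have hin : Measurable fun l : Ph => ∫⁻ s, G s l := by
    have h : Measurable fun q : Ph × ℝ => G q.2 q.1 := hGm.comp measurable_swap
    exact h.lintegral_prod_right'
  have h3 : ENNReal.ofReal Real.pi * ∫⁻ l : Ph, ∫⁻ u : E3, ‖l.2 - u‖ₑ *
      ∫⁻ s, ENNReal.ofReal (Real.exp (-c * (‖l.2‖ ^ 2 + ‖u‖ ^ 2))) * G s l ≤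
      ENNReal.ofReal (Kb b * √((2 ^ (d + 1) : ℕ) : ℝ)) *
        ∫⁻ l : Ph, g1 (bd b (d + 1)) l.2 * ∫⁻ s, G s l := by
    rw [← lintegral_const_mul' _ _ ENNReal.ofReal_ne_top,
      ← lintegral_const_mul' _ _ ENNReal.ofReal_ne_top]
    refine lintegral_mono fun l => ?_
    have h5 : ∫⁻ u : E3, ‖l.2 - u‖ₑ *
        ∫⁻ s, ENNReal.ofReal (Real.exp (-c * (‖l.2‖ ^ 2 + ‖u‖ ^ 2))) * G s l =
        (∫⁻ u : E3, ‖l.2 - u‖ₑ * gw c l.2 u) * ∫⁻ s, G s l := by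
      rw [← lintegral_mul_const]
      · refine lintegral_congr fun u => ?_
        rw [lintegral_const_mul' _ _ ENNReal.ofReal_ne_top, ← mul_assoc]
        rfl
      · have h6 : Measurable fun u : E3 => ‖l.2 - u‖ₑ := by fun_prop
        have h7 : Measurable fun u : E3 => gw c l.2 u := by
          unfold gw
          refine Measurable.ennreal_ofReal ?_
          fun_prop
        exact h6.mul h7
    simp only
    rw [h5, ← mul_assoc, ← mul_assoc]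
    refine mul_le_mul' ?_ le_rfl
    have h8 := rate_le (M := 2 ^ (d + 1)) hb (half_le_bd hb d) Nat.one_le_two_pow l.2
    rw [bd_succ] at h8
    exact h8
  have h4 : ∫⁻ l : Ph, g1 (bd b (d + 1)) l.2 * ∫⁻ s, G s l =
      ∫⁻ s in Icc 0 T₀, ∫⁻ l : Ph, g1 (bd b (d + 1)) l.2 * F s l := by
    have h9 : ∀ l : Ph, g1 (bd b (d + 1)) l.2 * ∫⁻ s, G s l =
        ∫⁻ s in Icc 0 T₀, g1 (bd b (d + 1)) l.2 * F s l := by
      intro l
      rw [lintegral_const_mul' _ _ g1_ne_top, ← lintegral_indicator measurableSet_Icc]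
    simp_rw [h9]
    rw [lintegral_lintegral_swap]
    have h10 : Measurable fun q : Ph × ℝ => g1 (bd b (d + 1)) q.1.2 * F q.2 q.1 :=
      ((measurable_g1 _).comp measurable_fst).mul (hF.comp measurable_swap)
    exact h10.aemeasurable
  rw [← h4]
  exact mul_le_mul' le_rfl h3

theorem muE_ne_zero (hε : 0 < ε) : muE ε ≠ 0 := by
  intro h
  have := muE_mul hε
  rw [h, zero_mul] at this
  exact zero_ne_one this

/-- The law of the root line for a leaf. -/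
theorem lam_leaf (hΦ : IsPotential Φ) (hε : ε ≠ 0) {T₀ : ℝ} (hT : 0 ≤ T₀) (ν : Measure Ph)
    [SigmaFinite ν] {F : ℝ → Ph → ℝ≥0∞} (hF : Measurable fun q : ℝ × Ph => F q.1 q.2) :
    lam Φ ε T₀ ν Shape.leaf F = ∫⁻ z, F 0 z ∂ν := by
  unfold lam
  rw [lintegral_leaf (measurable_okF hΦ hε T₀ hF)]
  refine lintegral_congr fun z => ?_
  unfold okF
  rw [indicator_of_mem]
  · rfl
  · exact ⟨le_rfl, hT⟩

/-- The law of the root line for a node. -/
theorem lam_node_le (hΦ : IsPotential Φ) (hε : 0 < ε) {T₀ : ℝ} (ν : Measure Ph) [SigmaFinite ν]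
    (a b : Shape) {F : ℝ → Ph → ℝ≥0∞} (hF : Measurable fun q : ℝ × Ph => F q.1 q.2) :
    lam Φ ε T₀ ν (Shape.node a b) F ≤
      lam Φ ε T₀ ν a (fun _ x => lam Φ ε T₀ ν b (fun _ y => pairF Φ ε T₀ F (x, y))) := by
  have hN : Measurable fun p : CTree × CTree => okF Φ ε T₀ F (CTree.node p.1 p.2) :=
    (measurable_okF hΦ hε.ne' T₀ hF).comp measurable_node
  have h0 := lintegral_pi_append (ν := ν) a.card b.card
    (G := fun z z' => okF Φ ε T₀ F (CTree.node (a.ord z) (b.ord z')))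
    (hN.comp (((measurable_ord a).comp measurable_fst).prodMk
      ((measurable_ord b).comp measurable_snd)))
  have h1 : lam Φ ε T₀ ν (Shape.node a b) F =
      ∫⁻ z, ∫⁻ z', okF Φ ε T₀ F (CTree.node (a.ord z) (b.ord z'))
        ∂(Measure.pi fun _ : Fin b.card => ν) ∂(Measure.pi fun _ : Fin a.card => ν) := by
    rw [← h0]
    rfl
  rw [h1]
  unfold lam
  refine lintegral_mono fun z => ?_
  simp only
  by_cases h : ok Φ ε (a.ord z) ∧ ext Φ ε (a.ord z) ≤ T₀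
  · have h2 : okF Φ ε T₀ (fun _ x => ∫⁻ z', okF Φ ε T₀ (fun _ y => pairF Φ ε T₀ F (x, y)) (b.ord z')
        ∂(Measure.pi fun _ : Fin b.card => ν)) (a.ord z) =
        ∫⁻ z', okF Φ ε T₀ (fun _ y => pairF Φ ε T₀ F (ln Φ ε (a.ord z), y)) (b.ord z')
          ∂(Measure.pi fun _ : Fin b.card => ν) := by
      rw [okF_mem _ h.1 h.2]
    rw [h2]
    refine lintegral_mono fun z' => ?_
    refine (okF_node_le hΦ hε T₀ F _ _).trans (le_of_eq ?_)
    rw [okF_mem _ h.1 h.2]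
  · have h3 : ∀ z', okF Φ ε T₀ F (CTree.node (a.ord z) (b.ord z')) = 0 := by
      intro z'
      refine le_antisymm ?_ zero_le
      refine (okF_node_le hΦ hε T₀ F _ _).trans (le_of_eq ?_)
      rw [okF_notMem _ h]
    simp_rw [h3]
    rw [lintegral_zero]
    exact zero_le

theorem lam_mono (τ : Shape) {T₀ : ℝ} (ν : Measure Ph) {F G : ℝ → Ph → ℝ≥0∞}
    (h : ∀ s l, F s l ≤ G s l) : lam Φ ε T₀ ν τ F ≤ lam Φ ε T₀ ν τ G := by
  unfold lam okF
  refine lintegral_mono fun z => ?_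
  exact indicator_le_indicator (h _ _)

/-- The induction. -/
theorem crude_aux (hΦ : IsPotential Φ) {b T₀ : ℝ} (hb : 0 < b) (hT : 0 ≤ T₀) (M₀ : ℝ) (τ : Shape) :
    ∃ C : ℝ≥0∞, C ≠ ∞ ∧ ∀ ε : ℝ, 0 < ε → ∀ ν : Measure Ph, SigmaFinite ν →
      ν ≤ (muE ε * ENNReal.ofReal M₀) • volume.withDensity (fun z : Ph => g1 b z.2) →
      ∀ F : ℝ → Ph → ℝ≥0∞, (Measurable fun q : ℝ × Ph => F q.1 q.2) →
        lam Φ ε T₀ ν τ F ≤ muE ε * C * (if τ.depth = 0 then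
          ∫⁻ l : Ph, g1 (bd b τ.depth) l.2 * F 0 l else
          ∫⁻ s in Icc 0 T₀, ∫⁻ l : Ph, g1 (bd b τ.depth) l.2 * F s l) := by
  induction τ with
  | leaf =>
    refine ⟨ENNReal.ofReal M₀, ENNReal.ofReal_ne_top, fun ε hε ν hν hle F hF => ?_⟩
    rw [lam_leaf hΦ hε.ne' hT ν hF, if_pos (show Shape.leaf.depth = 0 from rfl)]
    have h1 : ∫⁻ z, F 0 z ∂ν ≤ muE ε * ENNReal.ofReal M₀ * ∫⁻ l : Ph, g1 (bd b 0) l.2 * F 0 l := by
      have hm : Measurable fun z : Ph => F 0 z := hF.comp (measurable_const.prodMk measurable_id)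
      refine (lintegral_mono' hle le_rfl).trans (le_of_eq ?_)
      rw [lintegral_smul_measure, smul_eq_mul, lintegral_withDensity_eq_lintegral_mul _
        (measurable_g1 b) hm, bd_zero]
      rfl
    exact h1
  | node a b' iha ihb =>
    obtain ⟨Ca, hCa, ha⟩ := iha
    obtain ⟨Cb, hCb, hb'⟩ := ihb
    set d := max a.depth b'.depth with hd
    have hdep : (Shape.node a b').depth = d + 1 := rfl
    refine ⟨Ca * Cb * (ENNReal.ofReal (1 + T₀) * ENNReal.ofReal (1 + T₀) *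
      ENNReal.ofReal (Kb b * √((2 ^ (d + 1) : ℕ) : ℝ))), ?_, fun ε hε ν hν hle F hF => ?_⟩
    · exact ENNReal.mul_ne_top (ENNReal.mul_ne_top hCa hCb)
        (ENNReal.mul_ne_top (ENNReal.mul_ne_top ENNReal.ofReal_ne_top ENNReal.ofReal_ne_top)
          ENNReal.ofReal_ne_top)
    have key : ∀ (τ : Shape) (C : ℝ≥0∞), τ.depth ≤ d →
        (∀ F : ℝ → Ph → ℝ≥0∞, (Measurable fun q : ℝ × Ph => F q.1 q.2) →
        lam Φ ε T₀ ν τ F ≤ muE ε * C * (if τ.depth = 0 then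
          ∫⁻ l : Ph, g1 (bd b τ.depth) l.2 * F 0 l else
          ∫⁻ s in Icc 0 T₀, ∫⁻ l : Ph, g1 (bd b τ.depth) l.2 * F s l)) →
        ∀ G : Ph → ℝ≥0∞, Measurable G → lam Φ ε T₀ ν τ (fun _ => G) ≤
          muE ε * C * (ENNReal.ofReal (1 + T₀) * ∫⁻ l : Ph, g1 (bd b d) l.2 * G l) := by
      intro τ C hτ h G hG
      refine (h (fun _ => G) (hG.comp measurable_snd)).trans ?_
      have h1 : (if τ.depth = 0 then ∫⁻ l : Ph, g1 (bd b τ.depth) l.2 * G l else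
          ∫⁻ _s in Icc 0 T₀, ∫⁻ l : Ph, g1 (bd b τ.depth) l.2 * G l) ≤
          bnd (bd b τ.depth) T₀ (fun _ => G) := by
        unfold bnd
        split_ifs
        · exact le_add_right le_rfl
        · exact le_add_left le_rfl
      rw [← bnd_const hT]
      gcongr
      exact h1.trans (bnd_anti (bd_anti hb hτ) _)
    have hPm := measurable_pairF hΦ hε.ne' T₀ hF
    have h1 : ∀ x : Ph, lam Φ ε T₀ ν b' (fun _ y => pairF Φ ε T₀ F (x, y)) ≤
        muE ε * Cb * (ENNReal.ofReal (1 + T₀) *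
          ∫⁻ y : Ph, g1 (bd b d) y.2 * pairF Φ ε T₀ F (x, y)) := fun x =>
      key b' Cb (le_max_right _ _) (hb' ε hε ν hν hle) _
        (hPm.comp (measurable_const.prodMk measurable_id))
    have hinm : Measurable fun x : Ph => ∫⁻ y : Ph, g1 (bd b d) y.2 * pairF Φ ε T₀ F (x, y) := by
      have h : Measurable fun q : Ph × Ph => g1 (bd b d) q.2.2 * pairF Φ ε T₀ F (q.1, q.2) :=
        ((measurable_g1 _).comp measurable_snd).mul hPm
      exact h.lintegral_prod_right'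
    rw [if_neg (by rw [hdep]; omega), hdep]
    refine (lam_node_le hΦ hε ν a b' hF).trans ?_
    refine (lam_mono a ν (fun _ x => h1 x)).trans ?_
    refine (key a Ca (le_max_left _ _) (ha ε hε ν hν hle) _
      ((hinm.const_mul _).const_mul _)).trans ?_
    have h2 : ∫⁻ l : Ph, g1 (bd b d) l.2 * (muE ε * Cb * (ENNReal.ofReal (1 + T₀) *
        ∫⁻ y : Ph, g1 (bd b d) y.2 * pairF Φ ε T₀ F (l, y))) =
        (muE ε * Cb * ENNReal.ofReal (1 + T₀)) * ∫⁻ l : Ph, g1 (bd b d) l.2 *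
        ∫⁻ y : Ph, g1 (bd b d) y.2 * pairF Φ ε T₀ F (l, y) := by
      rw [← lintegral_const_mul']
      · refine lintegral_congr fun l => ?_
        ring
      · exact ENNReal.mul_ne_top (ENNReal.mul_ne_top muE_ne_top hCb) ENNReal.ofReal_ne_top
    rw [h2]
    have h3 := lintegral_pairF_le (T₀ := T₀) hΦ hε hb d hF
    calc muE ε * Ca * (ENNReal.ofReal (1 + T₀) * ((muE ε * Cb * ENNReal.ofReal (1 + T₀)) *
          ∫⁻ l : Ph, g1 (bd b d) l.2 * ∫⁻ y : Ph, g1 (bd b d) y.2 * pairF Φ ε T₀ F (l, y)))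
        ≤ muE ε * Ca * (ENNReal.ofReal (1 + T₀) * ((muE ε * Cb * ENNReal.ofReal (1 + T₀)) *
          (ENNReal.ofReal (ε ^ 2) * (ENNReal.ofReal (Kb b * √((2 ^ (d + 1) : ℕ) : ℝ)) *
            ∫⁻ s in Icc 0 T₀, ∫⁻ l : Ph, g1 (bd b (d + 1)) l.2 * F s l)))) := by gcongr
      _ = (muE ε * ENNReal.ofReal (ε ^ 2)) * (muE ε * (Ca * Cb * (ENNReal.ofReal (1 + T₀) *
          ENNReal.ofReal (1 + T₀) * ENNReal.ofReal (Kb b * √((2 ^ (d + 1) : ℕ) : ℝ)))) *
            ∫⁻ s in Icc 0 T₀, ∫⁻ l : Ph, g1 (bd b (d + 1)) l.2 * F s l) := by ring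
      _ = _ := by rw [muE_mul hε, one_mul]

/-- **Crude bound (CAP0)**: the law of the exit time and of the root line of the trees of shape `τ`
has a density at most `μ C e^{-b|v|²/2}`, with a constant which does not depend on `ε`. -/
theorem crude (hΦ : IsPotential Φ) {b T₀ : ℝ} (hb : 0 < b) (hT : 0 ≤ T₀) (M₀ : ℝ) (τ : Shape) :
    ∃ C : ℝ≥0∞, C ≠ ∞ ∧ ∀ ε : ℝ, 0 < ε → ∀ ν : Measure Ph, SigmaFinite ν →
      ν ≤ (muE ε * ENNReal.ofReal M₀) • volume.withDensity (fun z : Ph => g1 b z.2) →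
      ∀ F : ℝ → Ph → ℝ≥0∞, (Measurable fun q : ℝ × Ph => F q.1 q.2) →
        lam Φ ε T₀ ν τ F ≤ muE ε * C * (if τ.depth = 0 then
          ∫⁻ l : Ph, g1 (b / 2) l.2 * F 0 l else
          ∫⁻ s in Icc 0 T₀, ∫⁻ l : Ph, g1 (b / 2) l.2 * F s l) := by
  obtain ⟨C, hC, h⟩ := crude_aux (T₀ := T₀) hΦ hb hT M₀ τ
  refine ⟨C, hC, fun ε hε ν hν hle F hF => (h ε hε ν hν hle F hF).trans ?_⟩
  have h1 : ∀ l : Ph, g1 (bd b τ.depth) l.2 ≤ g1 (b / 2) l.2 := fun l =>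
    g1_anti (half_le_bd hb _) _
  gcongr
  split_ifs
  · exact lintegral_mono fun l => mul_le_mul' (h1 l) le_rfl
  · exact lintegral_mono fun s => lintegral_mono fun l => mul_le_mul' (h1 l) le_rfl

/-- The intensity is at most Gaussian. -/
theorem inten_le {f₀ : Ph → ℝ} {b M₀ : ℝ} (hM : 0 ≤ M₀)
    (hf : ∀ z, f₀ z ≤ M₀ * Real.exp (-b * ‖z.2‖ ^ 2)) (ε : ℝ) :
    GC.inten f₀ ε ≤ (muE ε * ENNReal.ofReal M₀) • volume.withDensity (fun z : Ph => g1 b z.2) := by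
  have h1 : law f₀ ≤ ENNReal.ofReal M₀ • volume.withDensity (fun z : Ph => g1 b z.2) := by
    unfold law
    rw [← withDensity_smul _ (measurable_g1 b)]
    refine withDensity_mono (Eventually.of_forall fun z => ?_)
    simp only [Pi.smul_apply, smul_eq_mul]
    unfold g1
    rw [← ENNReal.ofReal_mul hM]
    exact ENNReal.ofReal_le_ofReal (hf z)
  unfold GC.inten
  refine Measure.le_iff.2 fun s hs => ?_
  rw [Measure.smul_apply, Measure.smul_apply]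
  have h2 := Measure.le_iff.1 h1 s hs
  rw [Measure.smul_apply] at h2
  simp only [smul_eq_mul] at h2 ⊢
  rw [mul_assoc]
  exact mul_le_mul' le_rfl h2

/-- **Crude bound (CAP0), all shapes of depth `≤ L` together.** -/
theorem crude_tree (hΦ : IsPotential Φ) {f₀ : Ph → ℝ} {κ b T₀ M₀ : ℝ} (hg : GoodDatum f₀ κ)
    (hb : 0 < b) (hT : 0 ≤ T₀) (hM : 0 ≤ M₀) (hf : ∀ z, f₀ z ≤ M₀ * Real.exp (-b * ‖z.2‖ ^ 2))
    (L : ℕ) : ∃ C : ℝ≥0∞, C ≠ ∞ ∧ ∀ ε : ℝ, 0 < ε → ∀ F : Src → ℝ≥0∞, Measurable F →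
      ∫⁻ T in {T | ok Φ ε T ∧ ext Φ ε T ≤ T₀}, F (rsrc Φ ε T) ∂(tree (GC.inten f₀ ε) L) ≤
        ENNReal.ofReal (mu ε) * (C * ((∫⁻ l : Ph, g1 (b / 2) l.2 * F (0, l, 0)) +
          ∑ d ∈ Finset.Icc 1 L, ∫⁻ s in Icc 0 T₀, ∫⁻ l : Ph, g1 (b / 2) l.2 * F (s, l, d))) := by
  choose C hC h using fun τ : Shape => crude (T₀ := T₀) hΦ hb hT M₀ τ
  refine ⟨∑ τ ∈ shapes L, C τ, ENNReal.sum_ne_top.2 fun τ _ => hC τ, fun ε hε F hF => ?_⟩
  have hfin : IsFiniteMeasure (GC.inten f₀ ε) := GC.isFiniteMeasure_inten hg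
  have hok : MeasurableSet {T | ok Φ ε T ∧ ext Φ ε T ≤ T₀} :=
    (measurableSet_ok hΦ hε.ne').inter
      (measurableSet_le (measurable_ext hΦ hε.ne') measurable_const)
  set B : ℝ≥0∞ := (∫⁻ l : Ph, g1 (b / 2) l.2 * F (0, l, 0)) +
    ∑ d ∈ Finset.Icc 1 L, ∫⁻ s in Icc 0 T₀, ∫⁻ l : Ph, g1 (b / 2) l.2 * F (s, l, d) with hB
  have hFr : Measurable fun T : CTree => F (rsrc Φ ε T) := hF.comp (measurable_rsrc hΦ hε.ne')
  rw [← lintegral_indicator hok, lintegral_tree L (hFr.indicator hok), Finset.sum_mul,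
    Finset.mul_sum]
  refine Finset.sum_le_sum fun τ hτ => ?_
  have hτL : τ.depth ≤ L := mem_shapes.1 hτ
  have hFτ : Measurable fun q : ℝ × Ph => (fun (s : ℝ) (l : Ph) => F (s, l, τ.depth)) q.1 q.2 :=
    hF.comp (measurable_fst.prodMk (measurable_snd.prodMk measurable_const))
  have h1 : ∫⁻ z, {T | ok Φ ε T ∧ ext Φ ε T ≤ T₀}.indicator (fun T => F (rsrc Φ ε T)) (τ.ord z)
      ∂(Measure.pi fun _ : Fin τ.card => GC.inten f₀ ε) =
      lam Φ ε T₀ (GC.inten f₀ ε) τ (fun s l => F (s, l, τ.depth)) := by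
    unfold lam okF
    refine lintegral_congr fun z => ?_
    by_cases hz : ok Φ ε (τ.ord z) ∧ ext Φ ε (τ.ord z) ≤ T₀
    · rw [indicator_of_mem (show τ.ord z ∈ {T : CTree | ok Φ ε T ∧ ext Φ ε T ≤ T₀} from hz),
        indicator_of_mem (show τ.ord z ∈ {T : CTree | ok Φ ε T ∧ ext Φ ε T ≤ T₀} from hz)]
      unfold rsrc
      rw [Shape.depth_ord]
    · rw [indicator_of_notMem (show τ.ord z ∉ {T : CTree | ok Φ ε T ∧ ext Φ ε T ≤ T₀} from hz),
        indicator_of_notMem (show τ.ord z ∉ {T : CTree | ok Φ ε T ∧ ext Φ ε T ≤ T₀} from hz)]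
  rw [h1]
  refine (h τ ε hε _ inferInstance (inten_le hM hf ε) _ hFτ).trans ?_
  have h2 : (if τ.depth = 0 then ∫⁻ l : Ph, g1 (b / 2) l.2 * F (0, l, τ.depth) else
      ∫⁻ s in Icc 0 T₀, ∫⁻ l : Ph, g1 (b / 2) l.2 * F (s, l, τ.depth)) ≤ B := by
    split_ifs with h0
    · rw [h0]
      exact le_add_right le_rfl
    · refine le_add_left ?_
      exact Finset.single_le_sum
        (f := fun d => ∫⁻ s in Icc 0 T₀, ∫⁻ l : Ph, g1 (b / 2) l.2 * F (s, l, d))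
        (fun _ _ => zero_le) (Finset.mem_Icc.2 ⟨Nat.one_le_iff_ne_zero.2 h0, hτL⟩)
  calc muE ε * C τ * (if τ.depth = 0 then ∫⁻ l : Ph, g1 (b / 2) l.2 * F (0, l, τ.depth) else
      ∫⁻ s in Icc 0 T₀, ∫⁻ l : Ph, g1 (b / 2) l.2 * F (s, l, τ.depth))
      ≤ muE ε * C τ * B := by gcongr
    _ = _ := by rw [mul_assoc]; rfl

end Vale.Agent.P119.ML
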