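import Vale.Agent.P119.ML.Crude
import Vale.Agent.P119.ML.Cls
import Mathlib.Analysis.Convex.Measure

/-!
# P119, block ML/CONV: mass of the irregular contacts (`helper576`)

For a random tree `T'` (law `tree (GC.inten f₀ ε) L`, restricted to `ok`, `ext ≤ T₀`):
* `near_mass`: the root line of `T'` is at distance `≤ r (1 + |v|)` of a given point `x (ext T')` at
  a given time `θ (ext T')` with mass at most `μ C r³`;
* `near_mass_eps`: the same with `r = ε K`: mass at most `C K³ ε`;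
* `win_mass`: contact with one of the particles of a given colliding pair during its collision;
* `graze_null`: the lines at minimal distance exactly `ε` of a given line are null.
-/

open MeasureTheory Set Filter Topology Metric ProbabilityTheory
open scoped ENNReal

namespace Vale.Agent.P119.ML

open KU FL M PB.CT CTree

variable {Φ : E3 → ℝ} {ε : ℝ}

/-! ### Gaussian moment -/

/-- Third Gaussian moment. -/
noncomputable def I3 (c : ℝ) : ℝ≥0∞ := ∫⁻ v : E3, g1 c v * ENNReal.ofReal ((1 + ‖v‖) ^ 3)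

theorem I3_ne_top {c : ℝ} (hc : 0 < c) : I3 c ≠ ∞ := by
  have h1 : ∀ u : E3, g1 c u * ENNReal.ofReal ((1 + ‖u‖) ^ 3) ≤ ENNReal.ofReal
      ((√3 * (1 + 1 / √c)) ^ 3 * Real.exp (-(c / 2) * ‖u‖ ^ 2)) := by
    intro u
    have h2 := one_add_le (x := ‖u‖) hc (M := 3) (by norm_num)
    unfold g1
    rw [← ENNReal.ofReal_mul (Real.exp_nonneg _)]
    apply ENNReal.ofReal_le_ofReal
    calc Real.exp (-c * ‖u‖ ^ 2) * (1 + ‖u‖) ^ 3
        ≤ Real.exp (-c * ‖u‖ ^ 2) *
          (√3 * (1 + 1 / √c) * Real.exp (c / (2 * 3) * ‖u‖ ^ 2)) ^ 3 := by gcongr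
      _ = _ := by
          rw [mul_pow, ← Real.exp_nat_mul]
          rw [mul_left_comm, ← Real.exp_add]
          congr 2
          push_cast
          ring
  have h3 : Integrable (fun u : E3 => (√3 * (1 + 1 / √c)) ^ 3 *
      Real.exp (-(c / 2) * ‖u‖ ^ 2)) := (integrable_gauss (by positivity)).const_mul _
  exact (lt_of_le_of_lt (lintegral_mono fun u => h1 u) h3.lintegral_lt_top).ne

/-! ### Lines close to a point at a given time -/

/-- The lines at distance `≤ r (1 + |v|)` of the point `x` at the time `θ`. -/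
def nearL (θ : ℝ) (x : E3) (r : ℝ) : Set Ph := {l | ‖(KU.free θ l).1 - x‖ ≤ r * (1 + ‖l.2‖)}

theorem measurableSet_nearL_prod {X : Type*} [MeasurableSpace X] {θ : X → ℝ} {x : X → E3}
    {l : X → Ph} (hθ : Measurable θ) (hx : Measurable x) (hl : Measurable l) (r : ℝ) :
    MeasurableSet {p : X | l p ∈ nearL (θ p) (x p) r} := by
  have h1 : Measurable fun p : X => (l p).1 + θ p • (l p).2 - x p :=
    (hl.fst.add (hθ.smul hl.snd)).sub hx
  have h2 : Measurable fun p : X => r * (1 + ‖(l p).2‖) := by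
    have : Measurable fun p : X => ‖(l p).2‖ := hl.snd.norm
    exact (this.const_add 1).const_mul r
  exact measurableSet_le h1.norm h2

theorem measurableSet_nearL (θ : ℝ) (x : E3) (r : ℝ) : MeasurableSet (nearL θ x r) :=
  measurableSet_nearL_prod measurable_const measurable_const measurable_id r

theorem lintegral_nearL (c θ : ℝ) (x : E3) {r : ℝ} (hr : 0 ≤ r) :
    ∫⁻ l : Ph, g1 c l.2 * (nearL θ x r).indicator 1 l = ENNReal.ofReal (r ^ 3) * (bv * I3 c) := by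
  have hm : Measurable fun l : Ph => g1 c l.2 * (nearL θ x r).indicator 1 l :=
    (measurable_g1 c).mul (measurable_one.indicator (measurableSet_nearL θ x r))
  rw [Measure.volume_eq_prod, lintegral_prod_symm _ hm.aemeasurable]
  have h1 : ∀ v : E3, ∫⁻ y : E3, g1 c v * (nearL θ x r).indicator 1 (y, v) =
      ENNReal.ofReal (r ^ 3) * bv * (g1 c v * ENNReal.ofReal ((1 + ‖v‖) ^ 3)) := by
    intro v
    rw [lintegral_const_mul' _ _ g1_ne_top]
    have h2 : ∫⁻ y : E3, (nearL θ x r).indicator 1 (y, v) =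
        volume {y : E3 | ‖y + (θ • v - x)‖ ≤ r * (1 + ‖v‖)} := by
      rw [← lintegral_indicator_one]
      · refine lintegral_congr fun y => ?_
        have h3 : (y, v) ∈ nearL θ x r ↔ y ∈ {y : E3 | ‖y + (θ • v - x)‖ ≤ r * (1 + ‖v‖)} := by
          unfold nearL KU.free
          simp only [mem_ofPred_eq]
          rw [add_sub_assoc]
        by_cases h : (y, v) ∈ nearL θ x r
        · rw [indicator_of_mem h, indicator_of_mem (h3.1 h)]; rfl
        · rw [indicator_of_notMem h, indicator_of_notMem (fun h' => h (h3.2 h'))]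
      · exact measurableSet_le (by fun_prop) measurable_const
    rw [h2, vol_near _ (by positivity), mul_pow, ENNReal.ofReal_mul (by positivity)]
    ring
  simp_rw [h1]
  rw [lintegral_const_mul' _ _ (ENNReal.mul_ne_top ENNReal.ofReal_ne_top bv_ne_top), mul_assoc]
  rfl

/-! ### Mass of the trees whose root line is close to a given point -/

/-- The trees which are `ok`, exit before `T₀`, and whose root line is close to the point
`x (ext T)` at the time `θ (ext T)`. -/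
def nearT (Φ : E3 → ℝ) (ε T₀ : ℝ) (θ : ℝ → ℝ) (x : ℝ → E3) (r : ℝ) : Set CTree :=
  {T | (ok Φ ε T ∧ ext Φ ε T ≤ T₀) ∧
    ‖(KU.free (θ (ext Φ ε T)) (ln Φ ε T)).1 - x (ext Φ ε T)‖ ≤ r * (1 + ‖(ln Φ ε T).2‖)}

theorem measurableSet_nearT (hΦ : IsPotential Φ) (hε : ε ≠ 0) {T₀ : ℝ} {θ : ℝ → ℝ} {x : ℝ → E3}
    (hθ : Measurable θ) (hx : Measurable x) (r : ℝ) :
    MeasurableSet (nearT Φ ε T₀ θ x r) :=
  ((measurableSet_ok hΦ hε).inter (measurableSet_le (measurable_ext hΦ hε) measurable_const)).inter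
    (measurableSet_nearL_prod (hθ.comp (measurable_ext hΦ hε)) (hx.comp (measurable_ext hΦ hε))
      (measurable_ln hΦ hε) r)

/-- **Mass of the trees whose root line is close to a given point.** -/
theorem near_mass (hΦ : IsPotential Φ) {f₀ : Ph → ℝ} {κ b T₀ M₀ : ℝ} (hg : GoodDatum f₀ κ)
    (hb : 0 < b) (hT : 0 ≤ T₀) (hM : 0 ≤ M₀) (hf : ∀ z, f₀ z ≤ M₀ * Real.exp (-b * ‖z.2‖ ^ 2))
    (L : ℕ) : ∃ C : ℝ≥0∞, C ≠ ∞ ∧ ∀ ε : ℝ, 0 < ε → ∀ (θ : ℝ → ℝ) (x : ℝ → E3), Measurable θ →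
      Measurable x → ∀ r : ℝ, 0 ≤ r →
      tree (GC.inten f₀ ε) L (nearT Φ ε T₀ θ x r) ≤
        ENNReal.ofReal (mu ε) * (C * ENNReal.ofReal (r ^ 3)) := by
  obtain ⟨C, hC, h⟩ := crude_tree (T₀ := T₀) hΦ hg hb hT hM hf L
  set A : ℝ≥0∞ := bv * I3 (b / 2) with hA
  have hA' : A ≠ ∞ := ENNReal.mul_ne_top bv_ne_top (I3_ne_top (by positivity))
  refine ⟨C * ((1 + (L : ℝ≥0∞) * ENNReal.ofReal T₀) * A), ?_, fun ε hε θ x hθ hx r hr => ?_⟩
  · refine ENNReal.mul_ne_top hC (ENNReal.mul_ne_top ?_ hA')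
    exact ENNReal.add_ne_top.2 ⟨ENNReal.one_ne_top,
      ENNReal.mul_ne_top (ENNReal.natCast_ne_top L) ENNReal.ofReal_ne_top⟩
  set F : Src → ℝ≥0∞ := fun p => {p : Src | p.2.1 ∈ nearL (θ p.1) (x p.1) r}.indicator 1 p with hF
  have hFm : Measurable F := by
    refine measurable_one.indicator ?_
    exact measurableSet_nearL_prod (hθ.comp measurable_fst) (hx.comp measurable_fst)
      (measurable_fst.comp measurable_snd) r
  have h1 := h ε hε F hFm
  have hok : MeasurableSet {T | ok Φ ε T ∧ ext Φ ε T ≤ T₀} :=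
    (measurableSet_ok hΦ hε.ne').inter
      (measurableSet_le (measurable_ext hΦ hε.ne') measurable_const)
  have h2 : tree (GC.inten f₀ ε) L (nearT Φ ε T₀ θ x r) =
      ∫⁻ T in {T | ok Φ ε T ∧ ext Φ ε T ≤ T₀}, F (rsrc Φ ε T) ∂(tree (GC.inten f₀ ε) L) := by
    rw [← lintegral_indicator_one (measurableSet_nearT hΦ hε.ne' hθ hx r),
      ← lintegral_indicator hok]
    refine lintegral_congr fun T => ?_
    by_cases h3 : ok Φ ε T ∧ ext Φ ε T ≤ T₀
    · rw [indicator_of_mem (show T ∈ {T | ok Φ ε T ∧ ext Φ ε T ≤ T₀} from h3)]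
      by_cases h4 : ln Φ ε T ∈ nearL (θ (ext Φ ε T)) (x (ext Φ ε T)) r
      · rw [indicator_of_mem (show T ∈ nearT Φ ε T₀ θ x r from ⟨h3, h4⟩), hF]
        simp only
        rw [indicator_of_mem (show rsrc Φ ε T ∈ {p : Src | p.2.1 ∈ nearL (θ p.1) (x p.1) r} from h4)]
        rfl
      · rw [indicator_of_notMem (show T ∉ nearT Φ ε T₀ θ x r from fun h5 => h4 h5.2), hF]
        simp only
        rw [indicator_of_notMem (show rsrc Φ ε T ∉ {p : Src | p.2.1 ∈ nearL (θ p.1) (x p.1) r}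
          from h4)]
    · rw [indicator_of_notMem (show T ∉ {T | ok Φ ε T ∧ ext Φ ε T ≤ T₀} from h3),
        indicator_of_notMem (show T ∉ nearT Φ ε T₀ θ x r from fun h5 => h3 h5.1)]
  rw [h2]
  refine h1.trans ?_
  have h5 : ∀ (s : ℝ) (d : ℕ), ∫⁻ l : Ph, g1 (b / 2) l.2 * F (s, l, d) =
      ENNReal.ofReal (r ^ 3) * A := by
    intro s d
    rw [hA, ← lintegral_nearL (b / 2) (θ s) (x s) hr]
    rfl
  simp_rw [h5]
  rw [setLIntegral_const, Real.volume_Icc, sub_zero, Finset.sum_const, Nat.card_Icc,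
    add_tsub_cancel_right, nsmul_eq_mul]
  refine le_of_eq ?_
  ring

/-- **The same at the scale `ε`.** -/
theorem near_mass_eps (hΦ : IsPotential Φ) {f₀ : Ph → ℝ} {κ b T₀ M₀ : ℝ} (hg : GoodDatum f₀ κ)
    (hb : 0 < b) (hT : 0 ≤ T₀) (hM : 0 ≤ M₀) (hf : ∀ z, f₀ z ≤ M₀ * Real.exp (-b * ‖z.2‖ ^ 2))
    (L : ℕ) : ∃ C : ℝ≥0∞, C ≠ ∞ ∧ ∀ ε : ℝ, 0 < ε → ∀ (θ : ℝ → ℝ) (x : ℝ → E3), Measurable θ →
      Measurable x → ∀ K : ℝ, 0 ≤ K →
      tree (GC.inten f₀ ε) L (nearT Φ ε T₀ θ x (ε * K)) ≤ C * ENNReal.ofReal (ε * K ^ 3) := by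
  obtain ⟨C, hC, h⟩ := near_mass (T₀ := T₀) hΦ hg hb hT hM hf L
  refine ⟨C, hC, fun ε hε θ x hθ hx K hK => (h ε hε θ x hθ hx (ε * K) (by positivity)).trans ?_⟩
  have h1 : ENNReal.ofReal ((ε * K) ^ 3) = ENNReal.ofReal (ε ^ 2) * ENNReal.ofReal (ε * K ^ 3) := by
    rw [← ENNReal.ofReal_mul (by positivity)]
    congr 1
    ring
  have h2 := muE_mul hε
  unfold muE at h2
  calc ENNReal.ofReal (mu ε) * (C * ENNReal.ofReal ((ε * K) ^ 3))
      = (ENNReal.ofReal (mu ε) * ENNReal.ofReal (ε ^ 2)) * (C * ENNReal.ofReal (ε * K ^ 3)) := by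
        rw [h1]; ring
    _ = _ := by rw [h2, one_mul]
    _ ≤ _ := le_rfl


/-! ### Null sets of lines -/

/-- A null set of lines is not charged by the root line. -/
theorem null_mass (hΦ : IsPotential Φ) (hε : 0 < ε) {f₀ : Ph → ℝ} {κ b T₀ M₀ : ℝ}
    (hg : GoodDatum f₀ κ) (hb : 0 < b) (hT : 0 ≤ T₀) (hM : 0 ≤ M₀)
    (hf : ∀ z, f₀ z ≤ M₀ * Real.exp (-b * ‖z.2‖ ^ 2)) (L : ℕ) {N : Set Ph} (hN : MeasurableSet N)
    (h0 : volume N = 0) :
    tree (GC.inten f₀ ε) L {T | (ok Φ ε T ∧ ext Φ ε T ≤ T₀) ∧ ln Φ ε T ∈ N} = 0 := by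
  obtain ⟨C, hC, h⟩ := crude_tree (T₀ := T₀) hΦ hg hb hT hM hf L
  set F : Src → ℝ≥0∞ := fun p => {p : Src | p.2.1 ∈ N}.indicator 1 p with hF
  have hNs : MeasurableSet {p : Src | p.2.1 ∈ N} := (measurable_fst.comp measurable_snd) hN
  have h1 := h ε hε F (measurable_one.indicator hNs)
  have hok : MeasurableSet {T | ok Φ ε T ∧ ext Φ ε T ≤ T₀} :=
    (measurableSet_ok hΦ hε.ne').inter
      (measurableSet_le (measurable_ext hΦ hε.ne') measurable_const)
  have hS : MeasurableSet {T | (ok Φ ε T ∧ ext Φ ε T ≤ T₀) ∧ ln Φ ε T ∈ N} :=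
    hok.inter (measurable_ln hΦ hε.ne' hN)
  have h2 : tree (GC.inten f₀ ε) L {T | (ok Φ ε T ∧ ext Φ ε T ≤ T₀) ∧ ln Φ ε T ∈ N} =
      ∫⁻ T in {T | ok Φ ε T ∧ ext Φ ε T ≤ T₀}, F (rsrc Φ ε T) ∂(tree (GC.inten f₀ ε) L) := by
    rw [← lintegral_indicator_one hS, ← lintegral_indicator hok]
    refine lintegral_congr fun T => ?_
    by_cases h3 : ok Φ ε T ∧ ext Φ ε T ≤ T₀
    · rw [indicator_of_mem (show T ∈ {T | ok Φ ε T ∧ ext Φ ε T ≤ T₀} from h3)]
      by_cases h4 : ln Φ ε T ∈ N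
      · rw [indicator_of_mem (show T ∈ {T | (ok Φ ε T ∧ ext Φ ε T ≤ T₀) ∧ ln Φ ε T ∈ N} from
          ⟨h3, h4⟩), hF]
        simp only
        rw [indicator_of_mem (show rsrc Φ ε T ∈ {p : Src | p.2.1 ∈ N} from h4)]
        rfl
      · rw [indicator_of_notMem (show T ∉ {T | (ok Φ ε T ∧ ext Φ ε T ≤ T₀) ∧ ln Φ ε T ∈ N} from
          fun h5 => h4 h5.2), hF]
        simp only
        rw [indicator_of_notMem (show rsrc Φ ε T ∉ {p : Src | p.2.1 ∈ N} from h4)]
    · rw [indicator_of_notMem (show T ∉ {T | ok Φ ε T ∧ ext Φ ε T ≤ T₀} from h3),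
        indicator_of_notMem (show T ∉ {T | (ok Φ ε T ∧ ext Φ ε T ≤ T₀) ∧ ln Φ ε T ∈ N} from
          fun h5 => h3 h5.1)]
  have h5 : ∀ (s : ℝ) (d : ℕ), ∫⁻ l : Ph, g1 (b / 2) l.2 * F (s, l, d) = 0 := by
    intro s d
    rw [lintegral_eq_zero_iff]
    · filter_upwards [measure_eq_zero_iff_ae_notMem.1 h0] with l hl
      rw [hF]
      simp only
      rw [indicator_of_notMem (show ((s, l, d) : Src) ∉ {p : Src | p.2.1 ∈ N} from hl), mul_zero]
      rfl
    · exact (measurable_g1 _).mul ((measurable_one.indicator hNs).comp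
        (measurable_const.prodMk (measurable_id.prodMk measurable_const)))
  rw [h2]
  refine le_antisymm (h1.trans (le_of_eq ?_)) zero_le
  simp_rw [h5]
  simp

/-- Lines at distance exactly `ε` of the point of a given line at a given time. -/
def sphereL (ε s : ℝ) (l : Ph) : Set Ph := {l' | ‖(KU.free s l).1 - (KU.free s l').1‖ = ε}

theorem measurableSet_sphereL (ε s : ℝ) (l : Ph) : MeasurableSet (sphereL ε s l) := by
  unfold sphereL KU.free
  exact measurableSet_eq_fun (by fun_prop) measurable_const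

theorem null_of_slices {N : Set Ph} (hN : MeasurableSet N)
    (h : ∀ u : E3, volume {y : E3 | (y, u) ∈ N} = 0) : volume N = 0 := by
  rw [Measure.volume_eq_prod, ← lintegral_indicator_one hN,
    lintegral_prod_symm _ (measurable_one.indicator hN).aemeasurable]
  rw [lintegral_eq_zero_iff' ]
  · refine Eventually.of_forall fun u => ?_
    have h1 : ∫⁻ y : E3, N.indicator 1 (y, u) = volume {y : E3 | (y, u) ∈ N} := by
      rw [← lintegral_indicator_one]
      · refine lintegral_congr fun y => ?_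
        by_cases h : (y, u) ∈ N
        · rw [indicator_of_mem h, indicator_of_mem (show y ∈ {y : E3 | (y, u) ∈ N} from h)]; rfl
        · rw [indicator_of_notMem h, indicator_of_notMem (show y ∉ {y : E3 | (y, u) ∈ N} from h)]
      · exact (measurable_id.prodMk measurable_const) hN
    simp only [Pi.zero_apply]
    rw [h1, h u]
  · have h1 : Measurable fun p : E3 × E3 => N.indicator (1 : Ph → ℝ≥0∞) (p.2, p.1) :=
      (measurable_one.indicator hN).comp measurable_swap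
    exact h1.lintegral_prod_right'.aemeasurable

theorem volume_sphereL {ε : ℝ} (hε : ε ≠ 0) (s : ℝ) (l : Ph) : volume (sphereL ε s l) = 0 := by
  refine null_of_slices (measurableSet_sphereL ε s l) fun u => ?_
  have h1 : {y : E3 | (y, u) ∈ sphereL ε s l} = sphere ((KU.free s l).1 - s • u) ε := by
    ext y
    unfold sphereL KU.free
    simp only [mem_ofPred_eq, mem_sphere, dist_eq_norm]
    rw [norm_sub_rev]
    constructor
    · intro h
      rw [← h]
      congr 1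
      abel
    · intro h
      rw [← h]
      congr 1
      abel
  rw [h1]
  exact Measure.addHaar_sphere_of_ne_zero _ _ hε

/-- Lines whose minimal distance to a given line is exactly `ε`. -/
def grazeL (ε : ℝ) (l : Ph) : Set Ph := {l' | ‖perp (rel ε (l, l'))‖ = 1}

theorem measurableSet_grazeL (ε : ℝ) (l : Ph) : MeasurableSet (grazeL ε l) :=
  measurableSet_eq_fun ((measurable_perp.comp ((measurable_rel' ε).comp
    (measurable_const.prodMk measurable_id))).norm) measurable_const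

theorem perp_lin (V : E3) (a b : ℝ) (x y : E3) :
    perp (a • x + b • y, V) = a • perp (x, V) + b • perp (y, V) := by
  unfold perp crd
  simp only
  rw [inner_add_left, real_inner_smul_left, real_inner_smul_left]
  module

theorem volume_grazeL {ε : ℝ} (l : Ph) : volume (grazeL ε l) = 0 := by
  refine null_of_slices (measurableSet_grazeL ε l) fun u => ?_
  set S : Set E3 := {y | ‖perp (rel ε (l, (y, u)))‖ ≤ 1} with hS
  have hlin : ∀ (a b : ℝ) (y y' : E3), a + b = 1 → perp (rel ε (l, (a • y + b • y', u))) =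
      a • perp (rel ε (l, (y, u))) + b • perp (rel ε (l, (y', u))) := by
    intro a b y y' hab
    unfold rel
    simp only
    rw [← perp_lin]
    congr 2
    have h1 : l.1 = (a + b) • l.1 := by rw [hab, one_smul]
    calc ε⁻¹ • (l.1 - (a • y + b • y')) = ε⁻¹ • ((a + b) • l.1 - (a • y + b • y')) := by
          rw [← h1]
      _ = _ := by module
  have hconv : Convex ℝ S := by
    intro y hy y' hy' a b ha hb hab
    change ‖perp (rel ε (l, (a • y + b • y', u)))‖ ≤ 1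
    rw [hlin a b y y' hab]
    calc ‖a • perp (rel ε (l, (y, u))) + b • perp (rel ε (l, (y', u)))‖
        ≤ ‖a • perp (rel ε (l, (y, u)))‖ + ‖b • perp (rel ε (l, (y', u)))‖ := norm_add_le _ _
      _ = a * ‖perp (rel ε (l, (y, u)))‖ + b * ‖perp (rel ε (l, (y', u)))‖ := by
        rw [norm_smul, norm_smul, Real.norm_of_nonneg ha, Real.norm_of_nonneg hb]
      _ ≤ a * 1 + b * 1 := by
        have h1 : ‖perp (rel ε (l, (y, u)))‖ ≤ 1 := hy
        have h2 : ‖perp (rel ε (l, (y', u)))‖ ≤ 1 := hy'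
        gcongr
      _ = 1 := by rw [mul_one, mul_one, hab]
  refine measure_mono_null (t := frontier S) ?_ (hconv.addHaar_frontier volume)
  intro y hy
  have hy1 : ‖perp (rel ε (l, (y, u)))‖ = 1 := hy
  refine ⟨subset_closure (show y ∈ S from hy1.le), fun hint => ?_⟩
  have h1 : Tendsto (fun δ : ℝ => (1 + δ) • y + (-δ) • l.1) (𝓝[>] 0) (𝓝 y) := by
    have h2 : Continuous fun δ : ℝ => (1 + δ) • y + (-δ) • l.1 := by fun_prop
    have h3 := (h2.tendsto 0).mono_left (nhdsWithin_le_nhds (s := Ioi (0 : ℝ)))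
    simpa using h3
  have h2 := h1.eventually (isOpen_interior.mem_nhds hint)
  obtain ⟨δ, hδ, hδ0⟩ := (h2.and self_mem_nhdsWithin).exists
  have hδ' : (1 + δ) • y + (-δ) • l.1 ∈ interior S := hδ
  have hδ'' : (1 + δ) • y + (-δ) • l.1 ∈ S := interior_subset hδ'
  have h3 : ‖perp (rel ε (l, ((1 + δ) • y + (-δ) • l.1, u)))‖ ≤ 1 := hδ''
  rw [hlin (1 + δ) (-δ) y l.1 (by ring)] at h3
  have h4 : perp (rel ε (l, (l.1, u))) = 0 := by
    unfold rel perp crd
    simp
  rw [h4, smul_zero, add_zero, norm_smul, hy1, mul_one, Real.norm_of_nonneg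
    (by have : (0 : ℝ) < δ := hδ0; linarith)] at h3
  have : (0 : ℝ) < δ := hδ0
  linarith

/-- A grazing contact. -/
theorem mem_grazeL (hε : 0 < ε) {l l' : Ph} {s : ℝ} (h1 : ‖(KU.free s l).1 - (KU.free s l').1‖ = ε)
    (h2 : (inner ℝ ((KU.free s l).1 - (KU.free s l').1) ((KU.free s l).2 - (KU.free s l').2) : ℝ) = 0) :
    l' ∈ grazeL ε l := by
  have h3 := dist_lines_sq hε (l, l') s
  have h4 := inner_free (rel ε (l, l')) (s / ε)
  rw [← rel_free hε.ne'] at h4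
  have h5 : (rel ε (KU.free s l, KU.free s l')).1 = ε⁻¹ • ((KU.free s l).1 - (KU.free s l').1) := rfl
  have h6 : (rel ε (KU.free s l, KU.free s l')).2 = (KU.free s l).2 - (KU.free s l').2 := rfl
  simp only at h3 h4
  rw [h5, h6, real_inner_smul_left, h2, mul_zero] at h4
  rw [h1] at h3
  have h7 : ‖perp (rel ε (l, l'))‖ ^ 2 +
      (crd (rel ε (l, l')) + s / ε) ^ 2 * ‖(rel ε (l, l')).2‖ ^ 2 = 1 := by
    have hε2 : ε ^ 2 ≠ 0 := by positivity
    exact (mul_left_cancel₀ hε2 ((mul_one (ε ^ 2)).trans h3)).symm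
  have h8 : (crd (rel ε (l, l')) + s / ε) ^ 2 * ‖(rel ε (l, l')).2‖ ^ 2 = 0 := by
    calc (crd (rel ε (l, l')) + s / ε) ^ 2 * ‖(rel ε (l, l')).2‖ ^ 2
        = (crd (rel ε (l, l')) + s / ε) *
          ((crd (rel ε (l, l')) + s / ε) * ‖(rel ε (l, l')).2‖ ^ 2) := by ring
      _ = 0 := by rw [← h4, mul_zero]
  rw [h8, add_zero] at h7
  have h9 : ‖perp (rel ε (l, l'))‖ ^ 2 = 1 ^ 2 := by rw [h7, one_pow]
  exact (pow_left_inj₀ (norm_nonneg _) zero_le_one two_ne_zero).1 h9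

/-! ### The contacts during a collision -/

/-- The radius (in units of `ε`) of a collision window. -/
noncomputable def winK (ε : ℝ) (w : (Ph × Ph) × ℝ × ℝ) : ℝ :=
  2 + |(w.2.2 - w.2.1) / ε| * (1 + ‖(com w.1).2‖)

theorem winK_nonneg (ε : ℝ) (w : (Ph × Ph) × ℝ × ℝ) : 0 ≤ winK ε w := by
  unfold winK; positivity

theorem norm_pairLine_sub_com (hΦ : IsPotential Φ) (hε : 0 < ε) {q : Ph × Ph} (hm : Meets ε q)
    (hx : Exits Φ (rel ε q)) {s : ℝ} (h1 : hitT ε q ≤ s) (h2 : s ≤ sepT Φ ε q) :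
    ‖(pairLine Φ ε q s).1.1 - (KU.free s (com q)).1‖ ≤ ε ∧
      ‖(pairLine Φ ε q s).2.1 - (KU.free s (com q)).1‖ ≤ ε := by
  have hc := com_pairLine (Φ := Φ) (ε := ε) q s
  have hd : ‖(pairLine Φ ε q s).1.1 - (pairLine Φ ε q s).2.1‖ ≤ ε := by
    rcases h1.lt_or_eq with h3 | h3
    · rcases h2.lt_or_eq with h4 | h4
      · exact ((dist_pairLine_lt_iff hΦ hε hx hm.2 s).2 ⟨h3, h4⟩).le
      · rw [dist_eq_rel hε, rel_pairLine hε.ne', h4]
        have h5 : sepT Φ ε q / ε = tout Φ (rel ε q) := by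
          unfold sepT; field_simp
        rw [h5, norm_traj_tout hΦ hx hm.2.le, mul_one]
    · rw [dist_eq_rel hε, rel_pairLine hε.ne', ← h3]
      have h5 : hitT ε q / ε = tin (rel ε q) := by
        unfold hitT; field_simp
      rw [h5, norm_traj_tin hΦ hm.1 hm.2.le, mul_one]
  have hc1 : (KU.free s (com q)).1 = (2 : ℝ)⁻¹ • ((pairLine Φ ε q s).1.1 + (pairLine Φ ε q s).2.1) := by
    rw [← hc]; rfl
  rw [hc1]
  generalize (pairLine Φ ε q s).1.1 = x at hd ⊢
  generalize (pairLine Φ ε q s).2.1 = y at hd ⊢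
  have e1 : x - (2 : ℝ)⁻¹ • (x + y) = (2 : ℝ)⁻¹ • (x - y) := by module
  have e2 : y - (2 : ℝ)⁻¹ • (x + y) = -((2 : ℝ)⁻¹ • (x - y)) := by module
  rw [e1, e2, norm_neg, norm_smul, Real.norm_of_nonneg (by norm_num : (0 : ℝ) ≤ 2⁻¹)]
  constructor <;> linarith

theorem free_sub_free (s s' : ℝ) (l : Ph) : (KU.free s l).1 - (KU.free s' l).1 = (s - s') • l.2 := by
  unfold KU.free
  simp only
  module

/-- A contact during a collision is close to the beginning of the collision. -/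
theorem win_near (hΦ : IsPotential Φ) (hε : 0 < ε) {w : (Ph × Ph) × ℝ × ℝ} (hm : Meets ε w.1)
    (hx : Exits Φ (rel ε w.1)) (e1 : w.2.1 = hitT ε w.1) (e2 : w.2.2 = sepT Φ ε w.1) {l : Ph} {s : ℝ}
    (h1 : w.2.1 ≤ s) (h2 : s ≤ w.2.2)
    (h : ‖(pairLine Φ ε w.1 s).1.1 - (KU.free s l).1‖ ≤ ε ∨
      ‖(pairLine Φ ε w.1 s).2.1 - (KU.free s l).1‖ ≤ ε) :
    l ∈ nearL w.2.1 (KU.free w.2.1 (com w.1)).1 (ε * winK ε w) := by
  have h3 := norm_pairLine_sub_com hΦ hε hm hx (e1 ▸ h1) (e2 ▸ h2)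
  have h4 : ‖(KU.free s l).1 - (KU.free s (com w.1)).1‖ ≤ 2 * ε := by
    rcases h with h | h
    · have : (KU.free s l).1 - (KU.free s (com w.1)).1 = -((pairLine Φ ε w.1 s).1.1 - (KU.free s l).1) +
        ((pairLine Φ ε w.1 s).1.1 - (KU.free s (com w.1)).1) := by abel
      rw [this]
      refine (norm_add_le _ _).trans ?_
      rw [norm_neg]
      linarith [h3.1]
    · have : (KU.free s l).1 - (KU.free s (com w.1)).1 = -((pairLine Φ ε w.1 s).2.1 - (KU.free s l).1) +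
        ((pairLine Φ ε w.1 s).2.1 - (KU.free s (com w.1)).1) := by abel
      rw [this]
      refine (norm_add_le _ _).trans ?_
      rw [norm_neg]
      linarith [h3.2]
  have h5 := free_sub_free w.2.1 s l
  have h6 := free_sub_free w.2.1 s (com w.1)
  set D : ℝ := |(w.2.2 - w.2.1) / ε| with hD
  have hD0 : 0 ≤ D := abs_nonneg _
  have h7 : |w.2.1 - s| ≤ ε * D := by
    rw [hD, abs_div, abs_of_pos hε, mul_div_cancel₀ _ hε.ne', abs_of_nonpos (by linarith),
      abs_of_nonneg (by linarith)]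
    linarith
  have h8 : (KU.free w.2.1 l).1 - (KU.free w.2.1 (com w.1)).1 =
      ((KU.free s l).1 - (KU.free s (com w.1)).1) + (w.2.1 - s) • (l.2 - (com w.1).2) := by
    rw [smul_sub, ← h5, ← h6]; abel
  change ‖(KU.free w.2.1 l).1 - (KU.free w.2.1 (com w.1)).1‖ ≤ ε * winK ε w * (1 + ‖l.2‖)
  rw [h8]
  refine (norm_add_le _ _).trans ?_
  rw [norm_smul, Real.norm_eq_abs]
  have h9 : ‖l.2 - (com w.1).2‖ ≤ ‖l.2‖ + ‖(com w.1).2‖ := norm_sub_le _ _
  have h10 : |w.2.1 - s| * ‖l.2 - (com w.1).2‖ ≤ ε * D * (‖l.2‖ + ‖(com w.1).2‖) := by gcongr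
  unfold winK
  rw [← hD]
  have h11 := norm_nonneg l.2
  have h12 := norm_nonneg (com w.1).2
  have h13 : 0 ≤ ε * D * (1 + ‖l.2‖ * ‖(com w.1).2‖) := by positivity
  have h14 : 0 ≤ ε * ‖l.2‖ := by positivity
  nlinarith

/-! ### The irregular contacts with a tree -/

theorem wins_spec {T : CTree} (hT : ok Φ ε T) {w : (Ph × Ph) × ℝ × ℝ} (hw : w ∈ wins Φ ε T) :
    Meets ε w.1 ∧ Exits Φ (rel ε w.1) ∧ w.2.1 = hitT ε w.1 ∧ w.2.2 = sepT Φ ε w.1 := by
  induction T with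
  | leaf σ => exact absurd hw (by simp [wins])
  | node a b iha ihb =>
    rcases mem_wins_node.1 hw with hw | hw | hw
    · exact iha hT.1 hw
    · exact ihb hT.2.1 hw
    · rw [hw]
      exact ⟨hT.2.2.2.1, hT.2.2.2.2.1, rfl, rfl⟩

/-- The measurable set of the trees with an irregular contact with `T` before the time `t`. -/
def irrT (Φ : E3 → ℝ) (ε : ℝ) (T : CTree) (t : ℝ) : Set CTree :=
  {T' | ∃ l ∈ legs Φ ε T t, T' ∈ {T' | (ok Φ ε T' ∧ ext Φ ε T' ≤ t) ∧ ln Φ ε T' ∈ grazeL ε l.1} ∪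
      (nearT Φ ε t (fun s => s) (fun s => (KU.free s l.1).1) (ε * 1) ∪
        nearT Φ ε t (fun _ => l.2.1) (fun _ => (KU.free l.2.1 l.1).1) (ε * 1))} ∪
  {T' | ∃ w ∈ wins Φ ε T, T' ∈ nearT Φ ε t (fun _ => w.2.1)
    (fun _ => (KU.free w.2.1 (com w.1)).1) (ε * winK ε w)}

/-- The constant of the irregular contacts with `T`. -/
noncomputable def irrC (Φ : E3 → ℝ) (ε : ℝ) (T : CTree) (t : ℝ) : ℝ :=
  2 * (legs Φ ε T t).length + ((wins Φ ε T).map fun w => winK ε w ^ 3).sum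

theorem measurableSet_exists_mem {α X : Type*} [MeasurableSpace X] (ls : List α) {A : α → Set X}
    (h : ∀ a ∈ ls, MeasurableSet (A a)) : MeasurableSet {x | ∃ a ∈ ls, x ∈ A a} := by
  have h1 : {x | ∃ a ∈ ls, x ∈ A a} = ⋃ a ∈ {a | a ∈ ls}, A a := by
    ext x; simp
  rw [h1]
  exact (List.finite_toSet ls).measurableSet_biUnion h

theorem measure_exists_mem_le {α X : Type*} [MeasurableSpace X] (μ : Measure X) (ls : List α)
    (A : α → Set X) : μ {x | ∃ a ∈ ls, x ∈ A a} ≤ (ls.map fun a => μ (A a)).sum := by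
  induction ls with
  | nil => simp
  | cons a ls ih =>
    have h1 : {x | ∃ b ∈ a :: ls, x ∈ A b} = A a ∪ {x | ∃ b ∈ ls, x ∈ A b} := by
      ext x; simp
    rw [h1, List.map_cons, List.sum_cons]
    exact (measure_union_le _ _).trans (add_le_add le_rfl ih)

theorem measurableSet_grazeT (hΦ : IsPotential Φ) (hε : ε ≠ 0) (t : ℝ) (l : Ph) :
    MeasurableSet {T' | (ok Φ ε T' ∧ ext Φ ε T' ≤ t) ∧ ln Φ ε T' ∈ grazeL ε l} :=
  ((measurableSet_ok hΦ hε).inter (measurableSet_le (measurable_ext hΦ hε) measurable_const)).inter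
    (measurable_ln hΦ hε (measurableSet_grazeL ε l))

theorem measurable_free_pos (l : Ph) : Measurable fun s : ℝ => (KU.free s l).1 := by
  unfold KU.free
  fun_prop

theorem measurableSet_irrT (hΦ : IsPotential Φ) (hε : ε ≠ 0) (T : CTree) (t : ℝ) :
    MeasurableSet (irrT Φ ε T t) := by
  refine (measurableSet_exists_mem _ fun l _ => ?_).union
    (measurableSet_exists_mem _ fun w _ => ?_)
  · exact (measurableSet_grazeT hΦ hε t l.1).union
      ((measurableSet_nearT hΦ hε measurable_id (measurable_free_pos l.1) _).union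
        (measurableSet_nearT hΦ hε measurable_const measurable_const _))
  · exact measurableSet_nearT hΦ hε measurable_const measurable_const _

/-- **The first hit is regular, or `T'` is in the irregular set.** -/
theorem first_hit_irr (hΦ : IsPotential Φ) (hε : 0 < ε) {T T' : CTree} (hT : ok Φ ε T)
    (hT' : ok Φ ε T') (hd : Disjoint T.leaves T'.leaves) {s t : ℝ} (h : hit Φ ε T T' s)
    (hfirst : ∀ r < s, ¬hit Φ ε T T' r) (hst : s ≤ t) :
    (∃ l ∈ legs Φ ε T t, l.2.1 < s ∧ s ≤ l.2.2 ∧ ext Φ ε T' < s ∧ Meets ε (l.1, ln Φ ε T') ∧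
      hitT ε (l.1, ln Φ ε T') = s) ∨ T' ∈ irrT Φ ε T t := by
  have hext : ext Φ ε T' ≤ t := (hit_ext_le h).trans hst
  have hn : ∀ {θ : ℝ} {x : E3}, ‖(KU.free θ (ln Φ ε T')).1 - x‖ ≤ ε →
      ‖(KU.free θ (ln Φ ε T')).1 - x‖ ≤ ε * 1 * (1 + ‖(ln Φ ε T').2‖) := by
    intro θ x h1
    refine h1.trans ?_
    nlinarith [norm_nonneg (ln Φ ε T').2]
  rcases first_hit_cases hΦ hε hT hd h hfirst hst with h1 | h1 | h1 | h1 | h1
  · exact Or.inl h1
  · obtain ⟨l, hl, h2, h3, h4, h5, h6⟩ := h1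
    exact Or.inr (Or.inl ⟨l, hl, Or.inl ⟨⟨hT', hext⟩, mem_grazeL hε h5 h6⟩⟩)
  · obtain ⟨l, hl, h2, h3, h4, h5⟩ := h1
    refine Or.inr (Or.inl ⟨l, hl, Or.inr (Or.inl ⟨⟨hT', hext⟩, hn ?_⟩)⟩)
    rw [norm_sub_rev, ← h4]
    exact h5.le
  · obtain ⟨l, hl, h2, h3, h4⟩ := h1
    refine Or.inr (Or.inl ⟨l, hl, Or.inr (Or.inr ⟨⟨hT', hext⟩, hn ?_⟩)⟩)
    rw [norm_sub_rev, ← h2]
    exact h4.le
  · obtain ⟨w, hw, h2, h3, h4, h5⟩ := h1
    obtain ⟨h6, h7, h8, h9⟩ := wins_spec hT hw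
    refine Or.inr (Or.inr ⟨w, hw, ⟨hT', hext⟩, ?_⟩)
    exact win_near hΦ hε h6 h7 h8 h9 h2 h3.le (h5.imp (fun h => h.le) (fun h => h.le))

/-- **Mass of the irregular contacts with a given tree.** -/
theorem irr_mass (hΦ : IsPotential Φ) {f₀ : Ph → ℝ} {κ b T₀ M₀ : ℝ} (hg : GoodDatum f₀ κ)
    (hb : 0 < b) (hT : 0 ≤ T₀) (hM : 0 ≤ M₀) (hf : ∀ z, f₀ z ≤ M₀ * Real.exp (-b * ‖z.2‖ ^ 2))
    (L : ℕ) : ∃ C : ℝ≥0∞, C ≠ ∞ ∧ ∀ ε : ℝ, 0 < ε → ∀ (T : CTree) (t : ℝ), t ≤ T₀ →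
      tree (GC.inten f₀ ε) L (irrT Φ ε T t) ≤ C * ENNReal.ofReal (ε * irrC Φ ε T t) := by
  obtain ⟨C, hC, h⟩ := near_mass_eps (T₀ := T₀) hΦ hg hb hT hM hf L
  refine ⟨C, hC, fun ε hε T t ht => ?_⟩
  have hsub : ∀ (θ : ℝ → ℝ) (x : ℝ → E3) (r : ℝ), nearT Φ ε t θ x r ⊆ nearT Φ ε T₀ θ x r :=
    fun θ x r T' hT' => ⟨⟨hT'.1.1, hT'.1.2.trans ht⟩, hT'.2⟩
  have h1 : ∀ l : Ph × ℝ × ℝ, tree (GC.inten f₀ ε) L
      ({T' | (ok Φ ε T' ∧ ext Φ ε T' ≤ t) ∧ ln Φ ε T' ∈ grazeL ε l.1} ∪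
      (nearT Φ ε t (fun s => s) (fun s => (KU.free s l.1).1) (ε * 1) ∪
        nearT Φ ε t (fun _ => l.2.1) (fun _ => (KU.free l.2.1 l.1).1) (ε * 1))) ≤
      C * ENNReal.ofReal (ε * 2) := by
    intro l
    have h2 : tree (GC.inten f₀ ε) L
        {T' | (ok Φ ε T' ∧ ext Φ ε T' ≤ t) ∧ ln Φ ε T' ∈ grazeL ε l.1} = 0 := by
      refine measure_mono_null ?_ (null_mass (T₀ := T₀) hΦ hε hg hb hT hM hf L
        (measurableSet_grazeL ε l.1) (volume_grazeL l.1))
      exact fun T' hT' => ⟨⟨hT'.1.1, hT'.1.2.trans ht⟩, hT'.2⟩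
    have h3 := h ε hε (fun s => s) (fun s => (KU.free s l.1).1) measurable_id
      (measurable_free_pos l.1) 1 zero_le_one
    have h4 := h ε hε (fun _ => l.2.1) (fun _ => (KU.free l.2.1 l.1).1) measurable_const
      measurable_const 1 zero_le_one
    rw [one_pow, mul_one ε] at h3 h4
    refine (measure_union_le _ _).trans ?_
    rw [h2, zero_add]
    refine (measure_union_le _ _).trans ?_
    rw [mul_one ε]
    refine (add_le_add ((measure_mono (hsub _ _ _)).trans h3)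
      ((measure_mono (hsub _ _ _)).trans h4)).trans (le_of_eq ?_)
    rw [← mul_add, ← ENNReal.ofReal_add hε.le hε.le]
    congr 2
    ring
  have h5 : ∀ w : (Ph × Ph) × ℝ × ℝ, tree (GC.inten f₀ ε) L (nearT Φ ε t (fun _ => w.2.1)
      (fun _ => (KU.free w.2.1 (com w.1)).1) (ε * winK ε w)) ≤
      C * ENNReal.ofReal (ε * winK ε w ^ 3) := fun w =>
    (measure_mono (hsub _ _ _)).trans (h ε hε _ _ measurable_const measurable_const _
      (winK_nonneg ε w))
  have hsum : ∀ {α : Type} (ls : List α) (g : α → ℝ≥0∞) (k : α → ℝ), (∀ a, 0 ≤ k a) →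
      (∀ a, g a ≤ C * ENNReal.ofReal (ε * k a)) →
      (ls.map g).sum ≤ C * ENNReal.ofReal (ε * (ls.map k).sum) := by
    intro α ls g k hk hgk
    induction ls with
    | nil => simp
    | cons a ls ih =>
      rw [List.map_cons, List.sum_cons, List.map_cons, List.sum_cons, mul_add ε,
        ENNReal.ofReal_add (mul_nonneg hε.le (hk a)) (mul_nonneg hε.le
          (List.sum_nonneg (by simpa using fun b _ => hk b))), mul_add]
      exact add_le_add (hgk a) ih
  unfold irrT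
  refine (measure_union_le _ _).trans ?_
  refine (add_le_add ((measure_exists_mem_le _ _ _).trans
    (hsum _ _ (fun _ => 2) (fun _ => zero_le_two) h1))
    ((measure_exists_mem_le _ _ _).trans (hsum _ _ (fun w => winK ε w ^ 3)
      (fun w => pow_nonneg (winK_nonneg ε w) 3) h5))).trans (le_of_eq ?_)
  unfold irrC
  rw [← mul_add, ← ENNReal.ofReal_add, ← mul_add]
  · congr 4
    rw [List.map_const', List.sum_replicate, nsmul_eq_mul, mul_comm]
  · refine mul_nonneg hε.le (List.sum_nonneg ?_)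
    intro x hx
    obtain ⟨_, _, rfl⟩ := List.mem_map.1 hx
    exact zero_le_two
  · refine mul_nonneg hε.le (List.sum_nonneg ?_)
    intro x hx
    obtain ⟨w, _, rfl⟩ := List.mem_map.1 hx
    exact pow_nonneg (winK_nonneg ε w) 3

end Vale.Agent.P119.ML
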