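import Vale.Agent.P119.ML.ConvNice

/-!
# P119, block ML (`helper860`): convergence of the hit integral of a forest of germs

* `MainF`: the kinetic hit integral (sum over the legs of the forest and over the shapes);
* `conv_forest`: `HI` and `MainF` differ by `o(1)`, uniformly in the functional.
-/

open MeasureTheory Filter Topology Set
open scoped ENNReal NNReal

noncomputable section

namespace Vale.Agent.P119.ML

open KU M KT CTree GC

variable {Φ : E3 → ℝ} {ε : ℝ} {f₀ : Ph → ℝ} {L : ℕ}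

/-- The hit integral of one leg and one shape. -/
def legI (Φ : E3 → ℝ) (f₀ : Ph → ℝ) (t₀ t ε : ℝ) (H : CTree → ℝ → ℝ≥0∞) (x : LG × ℝ × ℝ)
    (τ : Shape) : ℝ≥0∞ :=
  ∫⁻ y, regw (fh f₀) Φ 0 τ x.1.1 (max x.2.1 t₀) (min x.2.2 t) y *
    H ((TG.hit x.1 τ y.1 y.2).tree Φ ε) y.1.1 ∂(nvol.prod (pvol τ))

/-- The kinetic hit integral of a forest. -/
def MainF (Φ : E3 → ℝ) (f₀ : Ph → ℝ) (L : ℕ) (F : List TG) (t₀ t ε : ℝ)
    (H : CTree → ℝ → ℝ≥0∞) : ℝ≥0∞ :=
  ((flegs Φ F t).map fun x => ∑ τ ∈ shapes L, legI Φ f₀ t₀ t ε H x τ).sum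

theorem fh_le {b M₀ : ℝ} (hf : ∀ z, f₀ z ≤ M₀ * Real.exp (-b * ‖z.2‖ ^ 2)) (x v : E3) :
    fh f₀ (x, v) ≤ KE.gs M₀ b v := ENNReal.ofReal_le_ofReal (hf (x, v))

theorem continuous_fh (hc : Continuous f₀) (v : E3) : Continuous fun x : E3 => fh f₀ (x, v) :=
  ENNReal.continuous_ofReal.comp (hc.comp (by fun_prop))

theorem lintegral_regw_ne_top (hΦ : IsPotential Φ) {b M₀ : ℝ} (hb : 0 < b) (hM : 0 ≤ M₀)
    (hf : ∀ z, f₀ z ≤ M₀ * Real.exp (-b * ‖z.2‖ ^ 2)) (τ : Shape) (ℓ : Ph) (a t : ℝ) :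
    ∫⁻ x, regw (fh f₀) Φ 0 τ ℓ a t x ∂(nvol.prod (pvol τ)) ≠ ∞ := by
  obtain ⟨C, hC, h1⟩ := lintegral_domw_le hΦ hb (le_max_right t 0) hM τ
  have h2 : ∀ x, regw (fh f₀) Φ 0 τ ℓ a t x ≤
      domw Φ (max t 0) M₀ b τ ℓ.2 ((Ico a t).indicator 1) x := fun x =>
    regw_le hΦ hM (fh_le hf) le_rfl zero_le_one τ ℓ (le_max_left _ _) x
  refine ne_top_of_le_ne_top ?_ ((lintegral_mono h2).trans
    (h1 ℓ.2 _ (measurable_one.indicator measurableSet_Ico)))
  rw [lintegral_indicator_one measurableSet_Ico, Real.volume_Ico]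
  finiteness

section Limits

variable {ι : Type*} {l : Filter ι} {εs : ι → ℝ}

theorem tendsto_list_sum (hε : Tendsto εs l (𝓝 0)) {C : ℝ≥0∞} (hC : C ≠ ∞) (K : List ℝ) :
    Tendsto (fun i => (K.map fun c => C * ENNReal.ofReal (εs i * c)).sum) l (𝓝 0) := by
  induction K with
  | nil =>
    simp only [List.map_nil, List.sum_nil]
    exact tendsto_const_nhds
  | cons c K ih =>
    have h4 : Tendsto (fun i => C * ENNReal.ofReal (εs i * c)) l (𝓝 0) := by
      have h5 := ENNReal.Tendsto.const_mul (a := C)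
        (ENNReal.tendsto_ofReal (hε.mul_const c)) (Or.inr hC)
      rw [zero_mul, ENNReal.ofReal_zero, mul_zero] at h5
      exact h5
    have h6 := h4.add ih
    rw [add_zero] at h6
    simpa using h6

/-- The mass of the irregular contacts tends to zero. -/
theorem tendsto_irrF (hΦ : IsPotential Φ) {κ b T₀ M₀ : ℝ} (hg : GoodDatum f₀ κ)
    (hb : 0 < b) (hT : 0 ≤ T₀) (hM : 0 ≤ M₀) (hf : ∀ z, f₀ z ≤ M₀ * Real.exp (-b * ‖z.2‖ ^ 2))
    (L : ℕ) (hε : Tendsto εs l (𝓝 0)) (hpos : ∀ᶠ i in l, 0 < εs i) (F : List TG)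
    (hgood : GoodF Φ F) {t : ℝ} (ht : t ≤ T₀) :
    Tendsto (fun i => tree (inten f₀ (εs i)) L (irrF Φ (εs i) (trees Φ (εs i) F) t)) l (𝓝 0) := by
  obtain ⟨C, hC, h⟩ := irr_mass (T₀ := T₀) hΦ hg hb hT hM hf L
  have h1 : ∀ᶠ i in l, tree (inten f₀ (εs i)) L (irrF Φ (εs i) (trees Φ (εs i) F) t) ≤
      ((F.map fun G => irrP Φ G.τ G.ℓ.1.2 G.p).map fun c =>
        C * ENNReal.ofReal (εs i * c)).sum := by
    filter_upwards [hpos] with i hi
    refine (measure_exists_mem_le _ (trees Φ (εs i) F) fun T => irrT Φ (εs i) T t).trans ?_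
    rw [List.map_map]
    unfold trees
    rw [List.map_map]
    have h2 : ∀ G ∈ F, (tree (inten f₀ (εs i)) L) (irrT Φ (εs i) (G.tree Φ (εs i)) t) ≤
        C * ENNReal.ofReal (εs i * irrP Φ G.τ G.ℓ.1.2 G.p) := by
      intro G hG
      refine (h (εs i) hi _ t ht).trans (le_of_eq ?_)
      rw [TG.tree_def, irrC_bk hΦ hi.ne' G.τ (lat (εs i) G.ℓ) G.p t (hgood G hG)]
      rfl
    clear hgood
    induction F with
    | nil => exact le_rfl
    | cons G F ih =>
      simp only [List.map_cons, List.sum_cons]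
      exact add_le_add (h2 G (by simp)) (ih fun G' hG' => h2 G' (by simp [hG']))
  exact tendsto_of_tendsto_of_tendsto_of_le_of_le' tendsto_const_nhds
    (tendsto_list_sum hε hC _) (Eventually.of_forall fun _ => bot_le) h1

/-- The kinetic mass of the parameters at which the attached tree is not nice tends to zero. -/
theorem tendsto_not_nice [l.IsCountablyGenerated] (hΦ : IsPotential Φ) {b M₀ : ℝ}
    (hfm : Measurable f₀) (hb : 0 < b) (hM : 0 ≤ M₀)
    (hf : ∀ z, f₀ z ≤ M₀ * Real.exp (-b * ‖z.2‖ ^ 2)) (hε : Tendsto εs l (𝓝 0))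
    (hpos : ∀ᶠ i in l, 0 < εs i) (F : List TG) (t₀ t : ℝ)
    (ho : OrdF F) (hsep : (flegs Φ F t).Pairwise (sepR t)) (k : KI F) (τ : Shape) :
    Tendsto (fun i => ∫⁻ x, regw (fh f₀) Φ 0 τ (lgF Φ F t k).1.1 (max (lgF Φ F t k).2.1 t₀)
        (min (lgF Φ F t k).2.2 t) x *
      ind (¬niceZ Φ (εs i) (trees Φ (εs i) F) (fun k => (lgE Φ (εs i) F t k).1)
        (fun k => (lgE Φ (εs i) F t k).2.1) (fun k => (lgE Φ (εs i) F t k).2.2) k τ
        (ldEquiv τ (bk Φ (εs i) τ (hl (εs i) (lgE Φ (εs i) F t k).1 x.1) x.2)))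
        ∂(nvol.prod (pvol τ))) l (𝓝 0) := by
  set R : ND × PD τ → ℝ≥0∞ := regw (fh f₀) Φ 0 τ (lgF Φ F t k).1.1 (max (lgF Φ F t k).2.1 t₀)
    (min (lgF Φ F t k).2.2 t) with hR
  have hRm : Measurable R := measurable_regw (measurable_fh hfm) hΦ 0 τ _ _ _
  have key := tendsto_lintegral_filter_of_dominated_convergence (μ := nvol.prod (pvol τ))
    (F := fun i x => R x * ind (¬niceZ Φ (εs i) (trees Φ (εs i) F)
      (fun k => (lgE Φ (εs i) F t k).1) (fun k => (lgE Φ (εs i) F t k).2.1)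
      (fun k => (lgE Φ (εs i) F t k).2.2) k τ
        (ldEquiv τ (bk Φ (εs i) τ (hl (εs i) (lgE Φ (εs i) F t k).1 x.1) x.2))))
    (f := fun _ => 0) (l := l) R ?_ ?_ (lintegral_regw_ne_top hΦ hb hM hf τ _ _ _) ?_
  · rw [lintegral_zero] at key
    exact key
  · filter_upwards [hpos] with i hi
    refine hRm.mul (measurable_ind ?_)
    have h1 := measurableSet_niceZ (κ := KI F) hΦ hi.ne' (trees Φ (εs i) F)
      (fun k => (lgE Φ (εs i) F t k).1) (fun k => (lgE Φ (εs i) F t k).2.1)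
      (fun k => (lgE Φ (εs i) F t k).2.2) k τ
    exact (((ldEquiv τ).measurable.comp (measurable_bk_hl hΦ (εs i) τ _)) h1).compl
  · refine Eventually.of_forall fun i => Eventually.of_forall fun x => ?_
    exact (mul_le_mul' le_rfl (ind_le_one _)).trans (mul_one _).le
  · filter_upwards [eventually_nice hΦ hε F t ho hsep k τ] with x hx
    by_cases hRx : R x = 0
    · simp only [hRx, zero_mul]
      exact tendsto_const_nhds
    have h1 : x ∈ regset Φ 0 τ (max (lgF Φ F t k).2.1 t₀) (min (lgF Φ F t k).2.2 t) ∧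
        good Φ τ x.1.2.1 x.2 := by
      rw [hR] at hRx
      unfold regw at hRx
      have h2 := right_ne_zero_of_mul hRx
      have h3 := right_ne_zero_of_mul h2
      refine ⟨?_, (wt_ne_zero_iff τ _ _).1 (left_ne_zero_of_mul h2)⟩
      by_contra hcon
      exact h3 (indicator_of_notMem hcon _)
    obtain ⟨⟨h2, h3, h4, h5⟩, h6⟩ := h1
    have h7 := hx (h5.trans_le (min_le_right _ _)) ((le_max_left _ _).trans h4)
      (h5.le.trans (min_le_left _ _)) h6
    refine tendsto_const_nhds.congr' ?_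
    filter_upwards [h7, hpos] with i hi hi0
    rw [ind_of_false (not_not.2 (hi hi0.ne')), mul_zero]

end Limits

/-! ### The theorem -/

theorem hit_tree_eq (ε : ℝ) (x : LG) (τ : Shape) (y : ND × PD τ) :
    (TG.hit x τ y.1 y.2).tree Φ ε = mkL τ (bk Φ ε τ (hl ε (lat ε x) y.1) y.2) := TG.tree_hit _ _ _ _

theorem MainF_eq (F : List TG) (t₀ t ε : ℝ) (H : CTree → ℝ → ℝ≥0∞) :
    MainF Φ f₀ L F t₀ t ε H = ∑ k : KI F, ∑ τ ∈ shapes L, legI Φ f₀ t₀ t ε H (lgF Φ F t k) τ := by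
  unfold MainF
  rw [sum_lgF (fun x => ∑ τ ∈ shapes L, legI Φ f₀ t₀ t ε H x τ) t F]

theorem measurable_H_hit (hΦ : IsPotential Φ) (ε : ℝ) (ℓ : Ph) (τ : Shape)
    {H : CTree → ℝ → ℝ≥0∞} (hH : Measurable fun p : CTree × ℝ => H p.1 p.2) :
    Measurable fun x : ND × PD τ => H (mkL τ (bk Φ ε τ (hl ε ℓ x.1) x.2)) x.1.1 :=
  hH.comp (((measurable_mkL τ).comp (measurable_bk_hl hΦ ε τ ℓ)).prodMk (by fun_prop))

/-- Integrals against two densities. -/
theorem lintegral_mul_le_add {α : Type*} [MeasurableSpace α] {μ : Measure α} {R R' h : α → ℝ≥0∞}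
    (hR' : Measurable R') (hh : Measurable h) (h1 : ∀ x, h x ≤ 1) :
    ∫⁻ x, R x * h x ∂μ ≤ ∫⁻ x, R' x * h x ∂μ + ∫⁻ x, ((R x - R' x) + (R' x - R x)) ∂μ := by
  rw [← lintegral_add_left (f := fun x => R' x * h x) (hR'.mul hh)]
  refine lintegral_mono fun x => ?_
  have h2 : R x ≤ R' x + ((R x - R' x) + (R' x - R x)) := by
    rw [← add_assoc]
    exact le_tsub_add.trans (by rw [add_comm]; exact le_self_add)
  calc R x * h x ≤ (R' x + ((R x - R' x) + (R' x - R x))) * h x := mul_le_mul' h2 le_rfl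
    _ = R' x * h x + ((R x - R' x) + (R' x - R x)) * h x := add_mul _ _ _
    _ ≤ R' x * h x + ((R x - R' x) + (R' x - R x)) := by
      gcongr
      exact (mul_le_mul' le_rfl (h1 x)).trans (mul_one _).le

/-- **Convergence of the hit integral of a forest of germs**, uniformly in the functional. -/
theorem conv_forest {ι : Type*} {l : Filter ι} [l.NeBot] [l.IsCountablyGenerated] {εs : ι → ℝ}
    (hΦ : IsPotential Φ) {κ b M₀ : ℝ} (hg : GoodDatum f₀ κ) (hc : Continuous f₀) (hb : 0 < b)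
    (hM : 0 ≤ M₀) (hf : ∀ z, f₀ z ≤ M₀ * Real.exp (-b * ‖z.2‖ ^ 2)) (L : ℕ)
    (hε : Tendsto εs l (𝓝 0)) (hpos : ∀ᶠ i in l, 0 < εs i) (F : List TG) (hgood : GoodF Φ F)
    (hok : ∀ᶠ i in l, OkF Φ (εs i) L (trees Φ (εs i) F)) (t₀ t : ℝ)
    (hsep : (flegs Φ F t).Pairwise (sepR t)) :
    ∃ r : ι → ℝ≥0∞, Tendsto r l (𝓝 0) ∧ ∀ᶠ i in l, ∀ H : CTree → ℝ → ℝ≥0∞,
      (Measurable fun p : CTree × ℝ => H p.1 p.2) → (∀ T s, H T s ≤ 1) →
      HI Φ (εs i) L f₀ (trees Φ (εs i) F) t₀ t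
        (fun T' => H T' (ff Φ (εs i) (trees Φ (εs i) F) T')) ≤
          MainF Φ f₀ L F t₀ t (εs i) H + r i ∧
      MainF Φ f₀ L F t₀ t (εs i) H ≤ HI Φ (εs i) L f₀ (trees Φ (εs i) F) t₀ t
        (fun T' => H T' (ff Φ (εs i) (trees Φ (εs i) F) T')) + r i := by
  have hfm : Measurable f₀ := hg.meas
  -- the node times are ordered
  have ho : OrdF F := by
    intro G hG
    refine ord0_of_tok (Φ := Φ) hε G.τ G.ℓ.1.2 G.p ?_
    filter_upwards [hok, hpos] with i hi hi0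
    have h1 := (hi (G.tree Φ (εs i)) (List.mem_map_of_mem hG)).1
    exact ((ok_mkL_bk_iff hΦ hi0.ne' G.τ (lat (εs i) G.ℓ) G.p (hgood G hG)).1 h1).1
  set R0 : (k : KI F) → (τ : Shape) → ND × PD τ → ℝ≥0∞ := fun k τ =>
    regw (fh f₀) Φ 0 τ (lgF Φ F t k).1.1 (max (lgF Φ F t k).2.1 t₀)
      (min (lgF Φ F t k).2.2 t) with hR0
  set Rp : ι → (k : KI F) → (τ : Shape) → ND × PD τ → ℝ≥0∞ := fun i k τ =>
    regw (fh f₀) Φ (εs i) τ (lgE Φ (εs i) F t k).1 (max (lgE Φ (εs i) F t k).2.1 t₀)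
      (min ((lgE Φ (εs i) F t k).2.2 + εs i) t) with hRp
  set Rm : ι → (k : KI F) → (τ : Shape) → ND × PD τ → ℝ≥0∞ := fun i k τ =>
    regw (fh f₀) Φ (εs i) τ (lgE Φ (εs i) F t k).1 (max (lgE Φ (εs i) F t k).2.1 t₀)
      (min (lgE Φ (εs i) F t k).2.2 t) with hRm
  have m0 : ∀ k τ, Measurable (R0 k τ) := fun k τ =>
    measurable_regw (measurable_fh hfm) hΦ 0 τ _ _ _
  have mp : ∀ i k τ, Measurable (Rp i k τ) := fun i k τ =>
    measurable_regw (measurable_fh hfm) hΦ (εs i) τ _ _ _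
  have mm : ∀ i k τ, Measurable (Rm i k τ) := fun i k τ =>
    measurable_regw (measurable_fh hfm) hΦ (εs i) τ _ _ _
  set dp : ι → KI F → Shape → ℝ≥0∞ := fun i k τ =>
    ∫⁻ x, ((Rp i k τ x - R0 k τ x) + (R0 k τ x - Rp i k τ x)) ∂(nvol.prod (pvol τ)) with hdp
  set dm : ι → KI F → Shape → ℝ≥0∞ := fun i k τ =>
    ∫⁻ x, ((Rm i k τ x - R0 k τ x) + (R0 k τ x - Rm i k τ x)) ∂(nvol.prod (pvol τ)) with hdm
  set nn : ι → KI F → Shape → ℝ≥0∞ := fun i k τ =>
    ∫⁻ x, R0 k τ x * ind (¬niceZ Φ (εs i) (trees Φ (εs i) F)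
        (fun k => (lgE Φ (εs i) F t k).1) (fun k => (lgE Φ (εs i) F t k).2.1)
        (fun k => (lgE Φ (εs i) F t k).2.2) k τ
        (ldEquiv τ (bk Φ (εs i) τ (hl (εs i) (lgE Φ (εs i) F t k).1 x.1) x.2)))
        ∂(nvol.prod (pvol τ)) with hnn
  set ir : ι → ℝ≥0∞ := fun i =>
    tree (inten f₀ (εs i)) L (irrF Φ (εs i) (trees Φ (εs i) F) t) with hir
  -- the errors
  have hline : ∀ i k, (lgE Φ (εs i) F t k).1 =
      ((lat (εs i) (lgF Φ F t k).1).1, (lgF Φ F t k).1.1.2) := fun i k => lgE_line t t F k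
  have hts : ∀ k, Tendsto (fun i => (lgE Φ (εs i) F t k).2.1) l (𝓝 (lgF Φ F t k).2.1) ∧
      Tendsto (fun i => (lgE Φ (εs i) F t k).2.2) l (𝓝 (min (lgF Φ F t k).2.2 t)) := by
    intro k
    have h7 := tendsto_lgE (Φ := Φ) hε t F k
    have h8 := lgE_zero (Φ := Φ) t F k ho
    rw [h8.1, h8.2] at h7
    exact h7
  have tdp : ∀ k τ, Tendsto (fun i => dp i k τ) l (𝓝 0) := by
    intro k τ
    have h1 := tendsto_regw (g := fh f₀) hΦ (measurable_fh hfm) (continuous_fh hc) hb hM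
      (fh_le hf) τ hε (hpos.mono fun i hi => hi.le) (v := (lgF Φ F t k).1.1.2)
      (tendsto_lat hε (lgF Φ F t k).1)
      ((hts k).1.max (tendsto_const_nhds (x := t₀)))
      (((hts k).2.add hε).min (tendsto_const_nhds (x := t)))
    rw [add_zero, min_assoc, min_self] at h1
    rw [hdp, hRp, hR0]
    simp only [hline]
    exact h1
  have tdm : ∀ k τ, Tendsto (fun i => dm i k τ) l (𝓝 0) := by
    intro k τ
    have h1 := tendsto_regw (g := fh f₀) hΦ (measurable_fh hfm) (continuous_fh hc) hb hM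
      (fh_le hf) τ hε (hpos.mono fun i hi => hi.le) (v := (lgF Φ F t k).1.1.2)
      (tendsto_lat hε (lgF Φ F t k).1)
      ((hts k).1.max (tendsto_const_nhds (x := t₀)))
      ((hts k).2.min (tendsto_const_nhds (x := t)))
    rw [min_assoc, min_self] at h1
    rw [hdm, hRm, hR0]
    simp only [hline]
    exact h1
  have tnn : ∀ k τ, Tendsto (fun i => nn i k τ) l (𝓝 0) := fun k τ =>
    tendsto_not_nice hΦ hfm hb hM hf hε hpos F t₀ t ho hsep k τ
  have tir : Tendsto ir l (𝓝 0) :=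
    tendsto_irrF (T₀ := max t 0) hΦ hg hb (le_max_right _ _) hM hf L hε hpos F hgood
      (le_max_left _ _)
  refine ⟨fun i => (∑ k : KI F, ∑ τ ∈ shapes L, (dp i k τ + dm i k τ + nn i k τ)) +
    (1 + (Fintype.card (KI F) : ℝ≥0∞)) * ir i, ?_, ?_⟩
  · have h1 : Tendsto (fun i => ∑ k : KI F, ∑ τ ∈ shapes L, (dp i k τ + dm i k τ + nn i k τ)) l
        (𝓝 (∑ k : KI F, ∑ τ ∈ shapes L, (0 + 0 + 0))) :=
      tendsto_finsetSum _ fun k _ => tendsto_finsetSum _ fun τ _ =>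
        ((tdp k τ).add (tdm k τ)).add (tnn k τ)
    have h2 := ENNReal.Tendsto.const_mul (a := 1 + (Fintype.card (KI F) : ℝ≥0∞)) tir
      (Or.inr (by finiteness))
    have h3 := h1.add h2
    simpa using h3
  · filter_upwards [hok, hpos] with i hi hi0 H hH hH1
    have hlegs : ∀ x, (∃ T ∈ trees Φ (εs i) F, x ∈ legs Φ (εs i) T t) ↔
        ∃ k : KI F, ((lgE Φ (εs i) F t k).1, (lgE Φ (εs i) F t k).2.1,
          (lgE Φ (εs i) F t k).2.2) = x := fun x => mem_lgE hΦ hi0.ne' t x F hgood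
    set h : (k : KI F) → (τ : Shape) → ND × PD τ → ℝ≥0∞ := fun k τ x =>
      H (mkL τ (bk Φ (εs i) τ (hl (εs i) (lgE Φ (εs i) F t k).1 x.1) x.2)) x.1.1 with hh
    have mh : ∀ k τ, Measurable (h k τ) := fun k τ => measurable_H_hit hΦ (εs i) _ τ hH
    have h1' : ∀ k τ x, h k τ x ≤ 1 := fun k τ x => hH1 _ _
    have hmain : MainF Φ f₀ L F t₀ t (εs i) H = ∑ k : KI F, ∑ τ ∈ shapes L,
        ∫⁻ x, R0 k τ x * h k τ x ∂(nvol.prod (pvol τ)) := by
      rw [MainF_eq]
      refine Finset.sum_congr rfl fun k _ => Finset.sum_congr rfl fun τ _ => ?_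
      unfold legI
      rw [hR0, hh]
      simp only [hit_tree_eq, hline]
      rfl
    constructor
    · -- upper bound
      refine (HI_le (κ := KI F) hΦ hi0 hfm hi hlegs t₀ hi0 hH hH1).trans ?_
      rw [hmain]
      have h2 : ∀ k τ, ∫⁻ x, Rp i k τ x * h k τ x ∂(nvol.prod (pvol τ)) ≤
          ∫⁻ x, R0 k τ x * h k τ x ∂(nvol.prod (pvol τ)) + dp i k τ := fun k τ =>
        lintegral_mul_le_add (m0 k τ) (mh k τ) (h1' k τ)
      have h3 : (∑ k : KI F, ∑ τ ∈ shapes L,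
          ∫⁻ x, Rp i k τ x * h k τ x ∂(nvol.prod (pvol τ))) ≤
          (∑ k : KI F, ∑ τ ∈ shapes L, ∫⁻ x, R0 k τ x * h k τ x ∂(nvol.prod (pvol τ))) +
          ∑ k : KI F, ∑ τ ∈ shapes L, (dp i k τ + dm i k τ + nn i k τ) := by
        rw [← Finset.sum_add_distrib]
        refine Finset.sum_le_sum fun k _ => ?_
        rw [← Finset.sum_add_distrib]
        refine Finset.sum_le_sum fun τ _ => (h2 k τ).trans ?_
        gcongr
        rw [add_assoc]
        exact le_self_add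
      refine (add_le_add h3 (le_refl (ir i))).trans ?_
      rw [add_assoc]
      gcongr
      rw [add_mul, one_mul]
      exact le_self_add
    · -- lower bound
      have hlow := le_HI (κ := KI F) hΦ hi0 hfm hi hlegs t₀ hH hH1
      rw [hmain]
      set nz : (k : KI F) → (τ : Shape) → ND × PD τ → Prop := fun k τ x =>
        niceZ Φ (εs i) (trees Φ (εs i) F)
        (fun k => (lgE Φ (εs i) F t k).1) (fun k => (lgE Φ (εs i) F t k).2.1)
        (fun k => (lgE Φ (εs i) F t k).2.2) k τ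
        (ldEquiv τ (bk Φ (εs i) τ (hl (εs i) (lgE Φ (εs i) F t k).1 x.1) x.2)) with hnz
      have mnz : ∀ k τ, MeasurableSet {x | nz k τ x} := fun k τ =>
        ((ldEquiv τ).measurable.comp (measurable_bk_hl hΦ (εs i) τ _))
          (measurableSet_niceZ (κ := KI F) hΦ hi0.ne' (trees Φ (εs i) F)
            (fun k => (lgE Φ (εs i) F t k).1) (fun k => (lgE Φ (εs i) F t k).2.1)
            (fun k => (lgE Φ (εs i) F t k).2.2) k τ)
      have h2 : ∀ k τ, ∫⁻ x, R0 k τ x * h k τ x ∂(nvol.prod (pvol τ)) ≤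
          ∫⁻ x, Rm i k τ x * (ind (nz k τ x) * h k τ x) ∂(nvol.prod (pvol τ)) +
            (dp i k τ + dm i k τ + nn i k τ) := by
        intro k τ
        have mg : Measurable fun x => ind (nz k τ x) * h k τ x :=
          (measurable_ind (mnz k τ)).mul (mh k τ)
        have h3 : ∫⁻ x, R0 k τ x * h k τ x ∂(nvol.prod (pvol τ)) ≤
            ∫⁻ x, R0 k τ x * (ind (nz k τ x) * h k τ x) ∂(nvol.prod (pvol τ)) +
              nn i k τ := by
          rw [hnn, ← lintegral_add_left (f := fun x => R0 k τ x * (ind (nz k τ x) * h k τ x))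
            ((m0 k τ).mul mg)]
          refine lintegral_mono fun x => ?_
          by_cases hx : nz k τ x
          · rw [ind_of_true hx, one_mul]
            exact le_self_add
          · have hx' : ¬niceZ Φ (εs i) (trees Φ (εs i) F)
              (fun k => (lgE Φ (εs i) F t k).1) (fun k => (lgE Φ (εs i) F t k).2.1)
              (fun k => (lgE Φ (εs i) F t k).2.2) k τ
              (ldEquiv τ (bk Φ (εs i) τ (hl (εs i) (lgE Φ (εs i) F t k).1 x.1) x.2)) := hx
            rw [ind_of_false hx, zero_mul, mul_zero, zero_add]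
            simp only
            rw [ind_of_true hx']
            exact mul_le_mul' le_rfl (h1' k τ x)
        have h4 : ∫⁻ x, R0 k τ x * (ind (nz k τ x) * h k τ x) ∂(nvol.prod (pvol τ)) ≤
            ∫⁻ x, Rm i k τ x * (ind (nz k τ x) * h k τ x) ∂(nvol.prod (pvol τ)) +
              dm i k τ := by
          refine (lintegral_mul_le_add (mm i k τ) mg fun x =>
            (mul_le_mul' (ind_le_one _) (h1' k τ x)).trans (one_mul 1).le).trans ?_
          refine add_le_add le_rfl (le_of_eq ?_)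
          rw [hdm]
          refine lintegral_congr fun x => ?_
          exact add_comm _ _
        refine (h3.trans (add_le_add h4 le_rfl)).trans ?_
        rw [add_assoc]
        refine add_le_add le_rfl ?_
        rw [add_assoc]
        exact le_add_self
      have h3 : (∑ k : KI F, ∑ τ ∈ shapes L,
          ∫⁻ x, R0 k τ x * h k τ x ∂(nvol.prod (pvol τ))) ≤
          (∑ k : KI F, ∑ τ ∈ shapes L, ∫⁻ x, Rm i k τ x * (ind (nz k τ x) * h k τ x)
            ∂(nvol.prod (pvol τ))) +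
          ∑ k : KI F, ∑ τ ∈ shapes L, (dp i k τ + dm i k τ + nn i k τ) := by
        rw [← Finset.sum_add_distrib]
        refine Finset.sum_le_sum fun k _ => ?_
        rw [← Finset.sum_add_distrib]
        exact Finset.sum_le_sum fun τ _ => h2 k τ
      refine h3.trans ((add_le_add hlow le_rfl).trans ?_)
      rw [add_assoc]
      refine add_le_add le_rfl ?_
      rw [add_comm]
      exact add_le_add le_rfl (mul_le_mul' le_add_self le_rfl)

end Vale.Agent.P119.ML
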