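import Vale.Agent.P119.ML.Rate
import Vale.Agent.P119.ML.Conv

/-!
# P119, block ML (`helper388`): the measure of the attachments

* `AP`: the parameters of an attached tree (shape, leg, node data); `AP.tm`, `AP.tg`;
* `WF g Φ L F h`: the measure of the attachments to the forest `F` until `h`;
* `lintegral_WF_slab`: integrals over the attachments between two times;
* `eF F`: size of a forest; `WF_weight`: the weight bound.
-/

open MeasureTheory Filter Topology Set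
open scoped ENNReal NNReal

noncomputable section

namespace Vale.Agent.P119.ML

open KU M CTree KT KE

/-- The parameters of an attached tree. -/
abbrev AP := Σ τ : Shape, LG × (ND × PD τ)

/-- The time of the attachment. -/
def AP.tm (q : AP) : ℝ := q.2.2.1.1

/-- The germ of the attached tree. -/
def AP.tg (q : AP) : TG := TG.hit q.2.1 q.1 q.2.2.1 q.2.2.2

theorem measurable_of_sigma {α γ : Type*} {β : α → Type*} [∀ a, MeasurableSpace (β a)]
    [MeasurableSpace γ] {f : (Σ a, β a) → γ} (h : ∀ a, Measurable fun x => f ⟨a, x⟩) :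
    Measurable f := fun s hs => by
  have h1 : ∀ a, MeasurableSet[(inferInstance : MeasurableSpace (β a)).map (Sigma.mk a)]
      (f ⁻¹' s) := fun a => h a hs
  exact MeasurableSpace.measurableSet_iInf.2 h1

theorem measurable_sigma_mk {α : Type*} {β : α → Type*} [∀ a, MeasurableSpace (β a)] (a : α) :
    Measurable (Sigma.mk a : β a → Σ a, β a) := fun _ hs =>
  MeasurableSpace.measurableSet_iInf.1 hs a

theorem AP.measurable_tm : Measurable AP.tm :=
  measurable_of_sigma fun τ => (by fun_prop : Measurable fun x : LG × (ND × PD τ) => x.2.1.1)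

theorem measurable_mkAP (τ : Shape) (ℓ : LG) : Measurable fun y : ND × PD τ => (⟨τ, ℓ, y⟩ : AP) :=
  (measurable_sigma_mk τ).comp (by fun_prop : Measurable fun y : ND × PD τ => (ℓ, y))

/-- The measure of the attachments to one leg between the times `a` and `b`. -/
def wleg (g : Ph → ℝ≥0∞) (Φ : E3 → ℝ) (L : ℕ) (ℓ : LG) (a b : ℝ) : Measure AP :=
  ∑ τ ∈ shapes L, ((nvol.prod (pvol τ)).withDensity (regw g Φ 0 τ ℓ.1 a b)).map
    fun y => (⟨τ, ℓ, y⟩ : AP)

/-- The measure of the attachments to a forest until `h`. -/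
def WF (g : Ph → ℝ≥0∞) (Φ : E3 → ℝ) (L : ℕ) (F : List TG) (h : ℝ) : Measure AP :=
  ((flegs Φ F h).map fun x => wleg g Φ L x.1 (max x.2.1 0) (min x.2.2 h)).sum

variable {Φ : E3 → ℝ} {g : Ph → ℝ≥0∞} {L : ℕ}

theorem lintegral_wleg (hΦ : IsPotential Φ) (hg : Measurable g) (ℓ : LG) (a b : ℝ)
    {φ : AP → ℝ≥0∞} (hφ : Measurable φ) :
    ∫⁻ q, φ q ∂(wleg g Φ L ℓ a b) =
      ∑ τ ∈ shapes L, ∫⁻ y, regw g Φ 0 τ ℓ.1 a b y * φ ⟨τ, ℓ, y⟩ ∂(nvol.prod (pvol τ)) := by
  unfold wleg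
  rw [lintegral_finsetSum_measure]
  refine Finset.sum_congr rfl fun τ _ => ?_
  rw [lintegral_map hφ (measurable_mkAP τ ℓ)]
  exact lintegral_withDensity_eq_lintegral_mul _ (measurable_regw hg hΦ 0 τ ℓ.1 a b)
    (hφ.comp (measurable_mkAP τ ℓ))

theorem lintegral_list_sum {α : Type*} [MeasurableSpace α] (l : List (Measure α))
    (φ : α → ℝ≥0∞) : ∫⁻ q, φ q ∂l.sum = (l.map fun μ => ∫⁻ q, φ q ∂μ).sum := by
  induction l with
  | nil => rw [List.sum_nil, List.map_nil, List.sum_nil, lintegral_zero_measure]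
  | cons μ l ih => rw [List.sum_cons, List.map_cons, List.sum_cons, lintegral_add_measure, ih]

theorem regw_window (τ : Shape) (ℓ : Ph) {a b h t₀ t : ℝ} (h0 : 0 ≤ t₀) (ht : t ≤ h)
    (y : ND × PD τ) :
    {y : ND × PD τ | t₀ ≤ y.1.1 ∧ y.1.1 < t}.indicator
        (fun y => regw g Φ 0 τ ℓ (max a 0) (min b h) y) y =
      regw g Φ 0 τ ℓ (max a t₀) (min b t) y := by
  unfold regw
  by_cases h1 : t₀ ≤ y.1.1 ∧ y.1.1 < t
  · rw [indicator_of_mem (by exact h1)]
    have h2 : y ∈ regset Φ 0 τ (max a 0) (min b h) ↔ y ∈ regset Φ 0 τ (max a t₀) (min b t) := by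
      constructor
      · rintro ⟨h3, h4, h5, h6⟩
        exact ⟨h3, h4, max_le ((le_max_left _ _).trans h5) h1.1,
          lt_min (h6.trans_le (min_le_left _ _)) h1.2⟩
      · rintro ⟨h3, h4, h5, h6⟩
        exact ⟨h3, h4, max_le ((le_max_left _ _).trans h5) (h0.trans h1.1),
          lt_min (h6.trans_le (min_le_left _ _)) (h1.2.trans_le ht)⟩
    by_cases h3 : y ∈ regset Φ 0 τ (max a 0) (min b h)
    · rw [indicator_of_mem h3, indicator_of_mem (h2.1 h3)]
    · rw [indicator_of_notMem h3, indicator_of_notMem (fun h => h3 (h2.2 h))]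
  · rw [indicator_of_notMem (by exact h1)]
    have h3 : y ∉ regset Φ 0 τ (max a t₀) (min b t) := fun h =>
      h1 ⟨(le_max_right _ _).trans h.2.2.1, h.2.2.2.trans_le (min_le_right _ _)⟩
    rw [indicator_of_notMem h3, mul_zero, mul_zero]

theorem measurableSet_slabAP (t₀ t : ℝ) : MeasurableSet {q : AP | t₀ ≤ q.tm ∧ q.tm < t} :=
  (measurableSet_le measurable_const AP.measurable_tm).inter
    (measurableSet_lt AP.measurable_tm measurable_const)

theorem lintegral_wleg_slab (hΦ : IsPotential Φ) (hg : Measurable g) (ℓ : LG) {a b h t₀ t : ℝ}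
    (h0 : 0 ≤ t₀) (ht : t ≤ h) {φ : AP → ℝ≥0∞} (hφ : Measurable φ) :
    ∫⁻ q in {q : AP | t₀ ≤ q.tm ∧ q.tm < t}, φ q ∂(wleg g Φ L ℓ (max a 0) (min b h)) =
      ∑ τ ∈ shapes L, ∫⁻ y, regw g Φ 0 τ ℓ.1 (max a t₀) (min b t) y * φ ⟨τ, ℓ, y⟩
        ∂(nvol.prod (pvol τ)) := by
  rw [← lintegral_indicator (measurableSet_slabAP t₀ t), lintegral_wleg hΦ hg _ _ _
    (hφ.indicator (measurableSet_slabAP t₀ t))]
  refine Finset.sum_congr rfl fun τ _ => lintegral_congr fun y => ?_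
  rw [← regw_window τ ℓ.1 h0 ht y]
  by_cases h1 : t₀ ≤ y.1.1 ∧ y.1.1 < t
  · rw [indicator_of_mem (by exact h1), indicator_of_mem (by exact h1)]
  · rw [indicator_of_notMem (by exact h1), indicator_of_notMem (by exact h1), mul_zero, zero_mul]

/-- Integrals over the attachments between the times `t₀` and `t`. -/
theorem lintegral_WF_slab (hΦ : IsPotential Φ) (hg : Measurable g) (F : List TG) {h t₀ t : ℝ}
    (h0 : 0 ≤ t₀) (ht : t ≤ h) {φ : AP → ℝ≥0∞} (hφ : Measurable φ) :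
    ∫⁻ q in {q : AP | t₀ ≤ q.tm ∧ q.tm < t}, φ q ∂(WF g Φ L F h) =
      ((flegs Φ F h).map fun x => ∑ τ ∈ shapes L,
        ∫⁻ y, regw g Φ 0 τ x.1.1 (max x.2.1 t₀) (min x.2.2 t) y * φ ⟨τ, x.1, y⟩
          ∂(nvol.prod (pvol τ))).sum := by
  rw [← lintegral_indicator (measurableSet_slabAP t₀ t)]
  unfold WF
  rw [lintegral_list_sum, List.map_map]
  congr 1
  refine List.map_congr_left fun x _ => ?_
  rw [Function.comp_apply, lintegral_indicator (measurableSet_slabAP t₀ t),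
    lintegral_wleg_slab hΦ hg _ h0 ht hφ]

/-- The legs at two different horizons. -/
theorem glegs_map_congr {α : Type*} (f : LG × ℝ × ℝ → α) {t h : ℝ}
    (hf : ∀ ℓ a, f (ℓ, a, t) = f (ℓ, a, h)) (τ : Shape) (ℓ : LG) (p : PD τ) :
    (glegs Φ τ ℓ p t).map f = (glegs Φ τ ℓ p h).map f := by
  cases τ with
  | leaf => rw [glegs, glegs, List.map_singleton, List.map_singleton, hf]
  | node a b =>
    rw [glegs, glegs, List.map_append, List.map_append, List.map_append, List.map_append,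
      List.map_singleton, List.map_singleton, hf]

theorem flegs_map_congr {α : Type*} (f : LG × ℝ × ℝ → α) {t h : ℝ}
    (hf : ∀ ℓ a, f (ℓ, a, t) = f (ℓ, a, h)) (F : List TG) :
    (flegs Φ F t).map f = (flegs Φ F h).map f := by
  induction F with
  | nil => rfl
  | cons G F ih =>
    have h1 : ∀ s, flegs Φ (G :: F) s = glegs Φ G.τ G.ℓ G.p s ++ flegs Φ F s :=
      fun s => List.flatMap_cons
    rw [h1, h1, List.map_append, List.map_append, ih, glegs_map_congr f hf]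

/-! ### Sizes -/

/-- The size of a germ. -/
def eG (G : TG) : ℝ := 1 + (‖G.ℓ.1.2‖ ^ 2 + enP G.τ G.p)

/-- The size of a forest. -/
def eF (F : List TG) : ℝ := (F.map eG).sum

theorem eG_pos (G : TG) : 0 < eG G := by
  unfold eG
  have := enP_nonneg G.τ G.p
  positivity

theorem eF_nil : eF [] = 0 := rfl

theorem eF_cons (G : TG) (F : List TG) : eF (G :: F) = eG G + eF F := by
  unfold eF; rw [List.map_cons, List.sum_cons]

theorem eF_nonneg (F : List TG) : 0 ≤ eF F := by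
  induction F with
  | nil => exact le_rfl
  | cons G F ih => rw [eF_cons]; exact add_nonneg (eG_pos G).le ih

/-- The number of velocities of a shape. -/
def nsh : Shape → ℝ
  | .leaf => 2
  | .node a b => nsh a + nsh b + 2

theorem nsh_nonneg : ∀ τ : Shape, 0 ≤ nsh τ
  | .leaf => by unfold nsh; norm_num
  | .node a b => by
    have := nsh_nonneg a
    have := nsh_nonneg b
    unfold nsh
    linarith

/-- The sum of the velocities of the legs. -/
theorem glegs_vel (hΦ : IsPotential Φ) : ∀ (τ : Shape) (ℓ : LG) (p : PD τ) (h : ℝ),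
    ((glegs Φ τ ℓ p h).map fun x => 1 + ‖x.1.1.2‖).sum ≤
      nsh τ * (1 + (‖ℓ.1.2‖ ^ 2 + enP τ p))
  | .leaf, ℓ, p, h => by
    rw [glegs, List.map_singleton, List.sum_singleton]
    change 1 + ‖ℓ.1.2‖ ≤ 2 * (1 + (‖ℓ.1.2‖ ^ 2 + 0))
    nlinarith [norm_nonneg ℓ.1.2, sq_nonneg (‖ℓ.1.2‖ - 1)]
  | .node a b, ℓ, p, h => by
    have ha := glegs_vel hΦ a (inG1 Φ ℓ p.1) p.2.1 p.1.1
    have hb := glegs_vel hΦ b (inG2 Φ ℓ p.1) p.2.2 p.1.1
    rw [glegs, List.map_append, List.map_append, List.sum_append, List.sum_append,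
      List.map_singleton, List.sum_singleton]
    have e1 := inVel_energy hΦ ℓ.1.2 p.1
    rw [← inG1_snd, ← inG2_snd] at e1
    have e2 : enP (.node a b) p = ‖p.1.2.1‖ ^ 2 + (enP a p.2.1 + enP b p.2.2) := rfl
    have e3 : nsh (.node a b) = nsh a + nsh b + 2 := rfl
    have n1 := enP_nonneg a p.2.1
    have n2 := enP_nonneg b p.2.2
    have n3 := nsh_nonneg a
    have n4 := nsh_nonneg b
    have n5 := sq_nonneg ‖(inG1 Φ ℓ p.1).1.2‖
    have n6 := sq_nonneg ‖(inG2 Φ ℓ p.1).1.2‖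
    set X := 1 + (‖ℓ.1.2‖ ^ 2 + enP (.node a b) p) with hX
    have b1 : 1 + (‖(inG1 Φ ℓ p.1).1.2‖ ^ 2 + enP a p.2.1) ≤ X := by
      rw [hX, e2]; linarith
    have b2 : 1 + (‖(inG2 Φ ℓ p.1).1.2‖ ^ 2 + enP b p.2.2) ≤ X := by
      rw [hX, e2]; linarith
    have b3 : 1 + ‖ℓ.1.2‖ ≤ 2 * X := by
      have n7 := sq_nonneg ‖p.1.2.1‖
      rw [hX, e2]
      nlinarith [norm_nonneg ℓ.1.2, sq_nonneg (‖ℓ.1.2‖ - 1)]
    rw [e3]
    calc ((glegs Φ a (inG1 Φ ℓ p.1) p.2.1 p.1.1).map fun x => 1 + ‖x.1.1.2‖).sum +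
          ((glegs Φ b (inG2 Φ ℓ p.1) p.2.2 p.1.1).map fun x => 1 + ‖x.1.1.2‖).sum +
          (1 + ‖ℓ.1.2‖) ≤ nsh a * X + nsh b * X + 2 * X :=
          add_le_add (add_le_add (ha.trans (mul_le_mul_of_nonneg_left b1 n3))
            (hb.trans (mul_le_mul_of_nonneg_left b2 n4))) b3
      _ = (nsh a + nsh b + 2) * X := by ring

/-- The number of velocities for the depth `L`. -/
def nshL (L : ℕ) : ℝ := ∑ τ ∈ shapes L, nsh τ

theorem nshL_nonneg (L : ℕ) : 0 ≤ nshL L := Finset.sum_nonneg fun τ _ => nsh_nonneg τ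

theorem nsh_le {τ : Shape} (h : τ ∈ shapes L) : nsh τ ≤ nshL L :=
  Finset.single_le_sum (f := nsh) (fun τ _ => nsh_nonneg τ) h

theorem flegs_vel (hΦ : IsPotential Φ) (F : List TG) (hF : ∀ G ∈ F, G.τ.depth ≤ L) (h : ℝ) :
    ((flegs Φ F h).map fun x => 1 + ‖x.1.1.2‖).sum ≤ nshL L * eF F := by
  induction F with
  | nil => rw [eF_nil, mul_zero]; exact le_rfl
  | cons G F ih =>
    have h1 : flegs Φ (G :: F) h = glegs Φ G.τ G.ℓ G.p h ++ flegs Φ F h := List.flatMap_cons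
    rw [h1, List.map_append, List.sum_append, eF_cons, mul_add]
    refine add_le_add ((glegs_vel hΦ G.τ G.ℓ G.p h).trans ?_)
      (ih fun G' hG' => hF G' (List.mem_cons_of_mem _ hG'))
    exact mul_le_mul_of_nonneg_right (nsh_le (mem_shapes.2 (hF G List.mem_cons_self)))
      (eG_pos G).le

/-! ### The weight bound -/

theorem leg_weight (hΦ : IsPotential Φ) {β T M : ℝ} (hβ : 0 < β) (hT : 0 ≤ T) (hM : 0 ≤ M)
    (hgb : ∀ x v, g (x, v) ≤ KE.gs M β v) (L : ℕ) : ∃ C : ℝ, 0 ≤ C ∧ ∀ (ℓ : LG) (a b : ℝ),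
      b ≤ T → ∀ l ∈ Icc (0 : ℝ) 1, ∀ h : ℝ → ℝ≥0∞, Measurable h →
      ∑ τ ∈ shapes L, ∫⁻ y, regw g Φ 0 τ ℓ.1 a b y *
        (h y.1.1 * ENNReal.ofReal (Real.exp (l * (β / 2 * eG (TG.hit ℓ τ y.1 y.2)))))
          ∂(nvol.prod (pvol τ)) ≤
      ENNReal.ofReal (C * (1 + ‖ℓ.1.2‖)) * ∫⁻ s in Ico a b, h s := by
  choose C hC0 hC using fun τ : Shape => lintegral_regw_le hΦ (β := β) (T := T) (M := M) hβ hT hM τ
  refine ⟨Real.exp (β / 2) * ∑ τ ∈ shapes L, C τ,
    mul_nonneg (Real.exp_nonneg _) (Finset.sum_nonneg fun τ _ => hC0 τ), ?_⟩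
  intro ℓ a b hb l hl h hh
  have h1 : ∀ τ ∈ shapes L, ∫⁻ y, regw g Φ 0 τ ℓ.1 a b y *
        (h y.1.1 * ENNReal.ofReal (Real.exp (l * (β / 2 * eG (TG.hit ℓ τ y.1 y.2)))))
          ∂(nvol.prod (pvol τ)) ≤
      ENNReal.ofReal (Real.exp (β / 2) * C τ * (1 + ‖ℓ.1.2‖)) * ∫⁻ s in Ico a b, h s := by
    intro τ _
    have h2 := hC τ g hgb 0 le_rfl zero_le_one ℓ.1 a b hb h hh
    have h3 : ∀ y : ND × PD τ, regw g Φ 0 τ ℓ.1 a b y *
        (h y.1.1 * ENNReal.ofReal (Real.exp (l * (β / 2 * eG (TG.hit ℓ τ y.1 y.2))))) ≤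
        ENNReal.ofReal (Real.exp (β / 2)) * (regw g Φ 0 τ ℓ.1 a b y *
          (h y.1.1 * ENNReal.ofReal (Real.exp (β / 2 * (‖y.1.2.1‖ ^ 2 + enP τ y.2))))) := by
      intro y
      have e1 : eG (TG.hit ℓ τ y.1 y.2) = 1 + (‖y.1.2.1‖ ^ 2 + enP τ y.2) := by
        unfold eG TG.hit
        simp only [hG_snd]
      have e2 : 0 ≤ ‖y.1.2.1‖ ^ 2 + enP τ y.2 := add_nonneg (sq_nonneg _) (enP_nonneg _ _)
      have e3 : Real.exp (l * (β / 2 * eG (TG.hit ℓ τ y.1 y.2))) ≤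
          Real.exp (β / 2) * Real.exp (β / 2 * (‖y.1.2.1‖ ^ 2 + enP τ y.2)) := by
        rw [← Real.exp_add, e1]
        refine Real.exp_le_exp.2 ?_
        have h4 : 0 ≤ β / 2 * (1 + (‖y.1.2.1‖ ^ 2 + enP τ y.2)) := by positivity
        nlinarith [hl.2]
      calc regw g Φ 0 τ ℓ.1 a b y *
            (h y.1.1 * ENNReal.ofReal (Real.exp (l * (β / 2 * eG (TG.hit ℓ τ y.1 y.2)))))
          ≤ regw g Φ 0 τ ℓ.1 a b y * (h y.1.1 * (ENNReal.ofReal (Real.exp (β / 2)) *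
            ENNReal.ofReal (Real.exp (β / 2 * (‖y.1.2.1‖ ^ 2 + enP τ y.2))))) := by
            rw [← ENNReal.ofReal_mul (Real.exp_nonneg _)]
            gcongr
        _ = _ := by ring
    refine (lintegral_mono h3).trans ?_
    rw [lintegral_const_mul' _ _ ENNReal.ofReal_ne_top]
    refine (mul_le_mul' le_rfl h2).trans (le_of_eq ?_)
    rw [← mul_assoc, ← ENNReal.ofReal_mul (Real.exp_nonneg _), mul_assoc (Real.exp (β / 2))]
  refine (Finset.sum_le_sum h1).trans (le_of_eq ?_)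
  rw [← Finset.sum_mul, ← ENNReal.ofReal_sum_of_nonneg fun τ _ => by
    have := hC0 τ
    positivity]
  congr 2
  rw [← Finset.sum_mul, ← Finset.mul_sum]

/-- **The weight bound of a forest.** -/
theorem WF_weight (hΦ : IsPotential Φ) (hg : Measurable g) {β T M : ℝ} (hβ : 0 < β) (hT : 0 ≤ T)
    (hM : 0 ≤ M) (hgb : ∀ x v, g (x, v) ≤ KE.gs M β v) (L : ℕ) : ∃ C : ℝ, 0 ≤ C ∧
      ∀ (F : List TG), (∀ G ∈ F, G.τ.depth ≤ L) → ∀ (h t₀ t : ℝ), 0 ≤ t₀ → t ≤ h → h ≤ T →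
      ∀ l ∈ Icc (0 : ℝ) 1, ∀ φ : ℝ → ℝ≥0∞, Measurable φ →
      ∫⁻ q in {q : AP | t₀ ≤ q.tm ∧ q.tm < t},
        φ q.tm * ENNReal.ofReal (Real.exp (l * (β / 2 * eG q.tg))) ∂(WF g Φ L F h) ≤
      ENNReal.ofReal (C * (β / 2 * eF F)) * ∫⁻ s in Ico t₀ t, φ s := by
  obtain ⟨C, hC0, hC⟩ := leg_weight hΦ hβ hT hM hgb L
  refine ⟨C * nshL L / (β / 2), by have := nshL_nonneg L; positivity, ?_⟩
  intro F hF h t₀ t h0 ht hhT l hl φ hφ
  have mG : Measurable fun q : AP => ENNReal.ofReal (Real.exp (l * (β / 2 * eG q.tg))) := by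
    refine ENNReal.measurable_ofReal.comp (Real.measurable_exp.comp ?_)
    refine (Measurable.const_mul (Measurable.const_mul (measurable_of_sigma fun τ => ?_) _) _)
    have e1 : (fun x : LG × (ND × PD τ) => eG (AP.tg ⟨τ, x⟩)) =
        fun x => 1 + (‖x.2.1.2.1‖ ^ 2 + enP τ x.2.2) := by
      funext x
      unfold eG AP.tg TG.hit
      simp only [hG_snd]
    rw [e1]
    have e2 : Measurable fun x : LG × (ND × PD τ) => enP τ x.2.2 :=
      (measurable_enP τ).comp (by fun_prop)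
    exact measurable_const.add
      ((by fun_prop : Measurable fun x : LG × (ND × PD τ) => ‖x.2.1.2.1‖ ^ 2).add e2)
  have mH : Measurable fun q : AP =>
      φ q.tm * ENNReal.ofReal (Real.exp (l * (β / 2 * eG q.tg))) :=
    (hφ.comp AP.measurable_tm).mul mG
  rw [lintegral_WF_slab hΦ hg F h0 ht mH]
  have h1 : ∀ x ∈ flegs Φ F h, ∑ τ ∈ shapes L,
      ∫⁻ y, regw g Φ 0 τ x.1.1 (max x.2.1 t₀) (min x.2.2 t) y *
        (φ (AP.tm ⟨τ, x.1, y⟩) *
          ENNReal.ofReal (Real.exp (l * (β / 2 * eG (AP.tg ⟨τ, x.1, y⟩))))) ∂(nvol.prod (pvol τ)) ≤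
      ENNReal.ofReal (C * (1 + ‖x.1.1.2‖)) * ∫⁻ s in Ico t₀ t, φ s := by
    intro x _
    refine (hC x.1 (max x.2.1 t₀) (min x.2.2 t) ((min_le_right _ _).trans (ht.trans hhT)) l hl φ
      hφ).trans (mul_le_mul' le_rfl ?_)
    exact lintegral_mono_set (Ico_subset_Ico (le_max_right _ _) (min_le_right _ _))
  refine (List.sum_le_sum h1).trans ?_
  have h2 : ∀ l' : List (LG × ℝ × ℝ), (l'.map fun x => ENNReal.ofReal (C * (1 + ‖x.1.1.2‖)) *
      ∫⁻ s in Ico t₀ t, φ s).sum =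
      ENNReal.ofReal (C * (l'.map fun x => 1 + ‖x.1.1.2‖).sum) * ∫⁻ s in Ico t₀ t, φ s := by
    intro l'
    induction l' with
    | nil => simp
    | cons x l' ih =>
      have hs : 0 ≤ (l'.map fun x => 1 + ‖x.1.1.2‖).sum := List.sum_nonneg fun a ha => by
        obtain ⟨x, -, rfl⟩ := List.mem_map.1 ha
        positivity
      rw [List.map_cons, List.sum_cons, ih, List.map_cons, List.sum_cons, ← add_mul,
        ← ENNReal.ofReal_add (by positivity) (by positivity), ← mul_add]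
  rw [h2]
  refine mul_le_mul' (ENNReal.ofReal_le_ofReal ?_) le_rfl
  have h3 := flegs_vel (L := L) hΦ F hF h
  calc C * ((flegs Φ F h).map fun x => 1 + ‖x.1.1.2‖).sum ≤ C * (nshL L * eF F) :=
        mul_le_mul_of_nonneg_left h3 hC0
    _ = C * nshL L / (β / 2) * (β / 2 * eF F) := by field_simp

end Vale.Agent.P119.ML
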