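import Vale.Agent.P119.ML.CapDeg
import Vale.Agent.P119.KE.Tails

/-!
# P119, block ML (`helper667`): CAP0

The law of the root source `(ext T, ln T, depth T)` of the alive trees is at most `μ` times a
deterministic Gaussian density, superexponentially small in the depth, plus `μ` times a negligible
random measure.  The inputs are (I1) `InI1`, (In-nd) `InNd` and (In-R) `InR` of `ML/CapDef.lean`.
-/

open MeasureTheory Filter Topology Set ProbabilityTheory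
open scoped ENNReal NNReal

noncomputable section

namespace Vale.Agent.P119.Cap

open KU M PB.CT

variable {Φ : E3 → ℝ} {ε : ℝ} {L : ℕ} {Tm : ℝ} {f₀ : Ph → ℝ}

theorem lintegral_inten_le {b₀ M₀ : ℝ} (hM : 0 ≤ M₀)
    (hf : ∀ z, f₀ z ≤ M₀ * Real.exp (-b₀ * ‖z.2‖ ^ 2)) {G : Ph → ℝ≥0∞} (hG : Measurable G) :
    ∫⁻ z, G z ∂(GC.inten f₀ ε) ≤
      ENNReal.ofReal (mu ε) * ∫⁻ z : Ph, ENNReal.ofReal (M₀ * Real.exp (-b₀ * ‖z.2‖ ^ 2)) * G z := by
  refine (lintegral_mono' (ML.inten_le hM hf ε) le_rfl).trans (le_of_eq ?_)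
  rw [lintegral_smul_measure, lintegral_withDensity_eq_lintegral_mul _ (measurable_g1 b₀) hG,
    smul_eq_mul, mul_assoc, ← lintegral_const_mul' _ _ ENNReal.ofReal_ne_top]
  congr 1
  refine lintegral_congr fun z => ?_
  unfold g1
  rw [Pi.mul_apply, ← mul_assoc, ← ENNReal.ofReal_mul hM]

/-- The trees of depth `0`. -/
theorem bnd_zero (hΦ : IsPotential Φ) {κ b₀ M₀ K C A : ℝ} (hg : GoodDatum f₀ κ) (hM : 0 ≤ M₀)
    (hf : ∀ z, f₀ z ≤ M₀ * Real.exp (-b₀ * ‖z.2‖ ^ 2)) :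
    Bnd f₀ (fun ε c F => ∫⁻ T in {T | T ∈ AL Φ ε L Tm (GC.pts c : Set Ph) ∧ T.depth = 0},
      F (CTree.ext Φ ε T) (CTree.ln Φ ε T) ∂(tree (GC.inten f₀ ε) L))
      (typ M₀ b₀ K C A Tm 0) := by
  refine ⟨fun _ => 0, fun _ => inferInstance, fun ε hε c F hF => ?_, fun q => by simp⟩
  have : IsFiniteMeasure (GC.inten f₀ ε) := GC.isFiniteMeasure_inten hg
  have hdm : MeasurableSet {T : CTree | T.depth = 0} :=
    measurable_depth (measurableSet_singleton 0)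
  have hFr : Measurable fun T : CTree => F (CTree.ext Φ ε T) (CTree.ln Φ ε T) :=
    hF.comp ((measurable_ext hΦ hε.ne').prodMk (measurable_ln hΦ hε.ne'))
  have hF0 : Measurable fun z : Ph => F 0 z := hF.comp (measurable_const.prodMk measurable_id)
  set G : CTree → ℝ≥0∞ := {T : CTree | T.depth = 0}.indicator
    fun T => F (CTree.ext Φ ε T) (CTree.ln Φ ε T) with hG
  have hGm : Measurable G := hFr.indicator hdm
  have h1 : ∫⁻ T in {T | T ∈ AL Φ ε L Tm (GC.pts c : Set Ph) ∧ T.depth = 0},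
      F (CTree.ext Φ ε T) (CTree.ln Φ ε T) ∂(tree (GC.inten f₀ ε) L) ≤
      ∫⁻ T, G T ∂(tree (GC.inten f₀ ε) L) := by
    rw [hG, lintegral_indicator hdm]
    exact lintegral_mono_set fun T hT => hT.2
  have h2 : ∀ z : Ph, G (CTree.leaf (src z)) = F 0 z := fun z =>
    indicator_of_mem (show CTree.leaf (src z) ∈ {T : CTree | T.depth = 0} from rfl) _
  have h3 : ∫⁻ T, G T ∂(tree (GC.inten f₀ ε) L) = ∫⁻ z, F 0 z ∂(GC.inten f₀ ε) := by
    cases L with
    | zero =>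
      rw [lintegral_tree_zero hGm]
      exact lintegral_congr h2
    | succ L =>
      rw [lintegral_tree_succ L hGm]
      have h4 : ∀ A B : CTree, G (CTree.node A B) = 0 := fun A B =>
        indicator_of_notMem (show CTree.node A B ∉ {T : CTree | T.depth = 0} from
          Nat.succ_ne_zero _) _
      simp only [h2, h4, lintegral_zero, add_zero]
  refine h1.trans (h3.le.trans ((lintegral_inten_le hM hf hF0).trans ?_))
  unfold typ
  rw [if_pos rfl]
  gcongr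
  exact le_self_add

theorem typ_pos {M₀ b₀ K C A : ℝ} {d : ℕ} (hd : d ≠ 0) {F : ℝ → Ph → ℝ≥0∞} :
    typ M₀ b₀ K C A Tm d F = ∫⁻ l : Ph, ∫⁻ b in Icc 0 Tm, Th b₀ K (C * A⁻¹ ^ d) b l.2 * F b l := by
  unfold typ
  rw [if_neg hd]

theorem dens_le {b₀ K C A : ℝ} (hK : 0 < K) (hC : 0 ≤ C) (hA : 0 < A) {n r : ℕ → ℝ}
    (hn0 : ∀ d, 0 ≤ n d) (hr0 : ∀ j, 0 ≤ r j) {d : ℕ}
    (h : n d + 2 * ∑ p ∈ prs d, r p.2 * (C / K * A⁻¹ ^ p.1) ≤ C * A⁻¹ ^ d) (v : E3) {t : ℝ}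
    (ht : 0 ≤ t) :
    gv (n d) b₀ v + ∑ p ∈ prs d, ∑ _k : Bool, ENNReal.ofReal (r p.2 * (1 + ‖v‖)) *
      Mb b₀ K (C / K * A⁻¹ ^ p.1) t v ≤ Th b₀ K (C * A⁻¹ ^ d) t v := by
  set E := Ea b₀ K t v with hE
  have hE0 : 0 ≤ E := Ea_nonneg _ _ _ _
  have h1 : gv (n d) b₀ v ≤ ENNReal.ofReal (n d * ((1 + ‖v‖) * E)) := by
    unfold gv
    apply ENNReal.ofReal_le_ofReal
    have h2 : Real.exp (-b₀ * ‖v‖ ^ 2) ≤ E := by
      rw [hE]
      unfold Ea
      apply Real.exp_le_exp.2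
      have : 0 ≤ K * (1 + ‖v‖) * t := by positivity
      linarith
    have := hn0 d
    gcongr
  have h3 : ∀ p : ℕ × ℕ, ∑ _k : Bool, ENNReal.ofReal (r p.2 * (1 + ‖v‖)) *
      Mb b₀ K (C / K * A⁻¹ ^ p.1) t v =
      ENNReal.ofReal (2 * (r p.2 * (C / K * A⁻¹ ^ p.1)) * ((1 + ‖v‖) * E)) := by
    intro p
    have hr := hr0 p.2
    unfold Mb
    rw [Fintype.sum_bool, ← ENNReal.ofReal_mul (by positivity), ← ENNReal.ofReal_add
      (by positivity) (by positivity)]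
    congr 1
    ring
  simp only [h3]
  rw [← ENNReal.ofReal_sum_of_nonneg fun p _ => by
    have hr := hr0 p.2
    positivity]
  refine (add_le_add h1 le_rfl).trans ?_
  have h5 : 0 ≤ ∑ p ∈ prs d, 2 * (r p.2 * (C / K * A⁻¹ ^ p.1)) * ((1 + ‖v‖) * E) :=
    Finset.sum_nonneg fun p _ => by
      have hr := hr0 p.2
      positivity
  have h6 := hn0 d
  rw [← ENNReal.ofReal_add (by positivity) h5]
  unfold Th
  apply ENNReal.ofReal_le_ofReal
  rw [← Finset.sum_mul, ← Finset.mul_sum, ← add_mul]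
  gcongr

/-- **The induction over the depth**, for fixed constants. -/
theorem claim (hΦ : IsPotential Φ) {κ b₀ M₀ K C A : ℝ} (hg : GoodDatum f₀ κ) (hb : 0 < b₀)
    (hT : 0 ≤ Tm) (hM : 0 ≤ M₀) (hf : ∀ z, f₀ z ≤ M₀ * Real.exp (-b₀ * ‖z.2‖ ^ 2))
    (hK : 0 < K) (hC : 0 ≤ C) (hA : 0 < A) (hMC : M₀ ≤ C / K) {n r : ℕ → ℝ}
    (hn0 : ∀ d, 0 ≤ n d) (hr0 : ∀ j, 0 ≤ r j)
    (hc : ∀ d, 1 ≤ d → n d + 2 * ∑ p ∈ prs d, r p.2 * (C / K * A⁻¹ ^ p.1) ≤ C * A⁻¹ ^ d)
    (hI : InI1 Φ f₀ L Tm) (hN : InNd Φ f₀ L Tm n b₀) (hR : InR Φ f₀ L Tm r) (d : ℕ)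
    (hd : d ≤ L) :
    Bnd f₀ (fun ε c F => ∫⁻ T in {T | T ∈ AL Φ ε L Tm (GC.pts c : Set Ph) ∧ T.depth = d},
      F (CTree.ext Φ ε T) (CTree.ln Φ ε T) ∂(tree (GC.inten f₀ ε) L))
      (typ M₀ b₀ K C A Tm d) := by
  induction d using Nat.strong_induction_on with
  | _ d ih =>
    rcases Nat.eq_zero_or_pos d with h0 | h0
    · subst h0
      exact bnd_zero hΦ hg hM hf
    have h1 := bnd_I1 (L := L) (Tm := Tm) hΦ hg hI d
    have h2 := bnd_Nd hN h0 hd
    have h3 := Bnd.sum (f₀ := f₀) (prs d) (fun p hp => Bnd.sum (f₀ := f₀)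
      (Finset.univ : Finset Bool) (fun k _ => bnd_deg (Tm := Tm) hΦ hg hb hT hM hf hK hC hA hMC
        hR p.1 p.2 (by
          have h4 := mem_prs.1 hp
          have h5 := le_max_right p.1 p.2
          omega) k (ih p.1 (by
          have h4 := mem_prs.1 hp
          have h5 := le_max_left p.1 p.2
          omega) (by
          have h4 := mem_prs.1 hp
          have h5 := le_max_left p.1 p.2
          omega))))
    refine ((h1.add h2).add h3).mono (fun ε hε c F hF => ?_) fun F hF => ?_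
    · have : IsFiniteMeasure (GC.inten f₀ ε) := GC.isFiniteMeasure_inten hg
      exact split hΦ hε c hF h0 hd
    · have hF' : Measurable fun x : ℝ × Ph => F x.1 x.2 := hF
      have hgv : Measurable fun x : ℝ × Ph => gv (n d) b₀ x.2.2 := by unfold gv; fun_prop
      have hMb : ∀ p : ℕ × ℕ, Measurable fun x : ℝ × Ph => ENNReal.ofReal (r p.2 * (1 + ‖x.2.2‖)) *
          Mb b₀ K (C / K * A⁻¹ ^ p.1) x.1 x.2.2 := by
        intro p
        have h6 : Measurable fun x : ℝ × Ph => ENNReal.ofReal (r p.2 * (1 + ‖x.2.2‖)) := by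
          fun_prop
        exact h6.mul ((measurable_Mb b₀ K _).comp (measurable_fst.prodMk measurable_snd.snd))
      have h7 : (0 + ∫⁻ x, gv (n d) b₀ x.2.2 * F x.1 x.2 ∂(bs Tm)) +
          ∑ p ∈ prs d, ∑ _k : Bool, ∫⁻ x, (ENNReal.ofReal (r p.2 * (1 + ‖x.2.2‖)) *
            Mb b₀ K (C / K * A⁻¹ ^ p.1) x.1 x.2.2) * F x.1 x.2 ∂(bs Tm) =
          ∫⁻ x, (gv (n d) b₀ x.2.2 + ∑ p ∈ prs d, ∑ _k : Bool,
            ENNReal.ofReal (r p.2 * (1 + ‖x.2.2‖)) * Mb b₀ K (C / K * A⁻¹ ^ p.1) x.1 x.2.2) *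
              F x.1 x.2 ∂(bs Tm) := by
        have h8 : Measurable fun x : ℝ × Ph => gv (n d) b₀ x.2.2 * F x.1 x.2 := hgv.mul hF'
        have h9 : ∀ p : ℕ × ℕ, Measurable fun x : ℝ × Ph =>
            (ENNReal.ofReal (r p.2 * (1 + ‖x.2.2‖)) *
            Mb b₀ K (C / K * A⁻¹ ^ p.1) x.1 x.2.2) * F x.1 x.2 := fun p => (hMb p).mul hF'
        rw [zero_add]
        simp only [add_mul, Finset.sum_mul]
        rw [lintegral_add_left h8, lintegral_finsetSum]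
        · congr 1
          refine Finset.sum_congr rfl fun p _ => ?_
          rw [lintegral_finsetSum]
          exact fun k _ => h9 p
        · exact fun p _ => Finset.measurable_fun_sum _ fun k _ => h9 p
      refine (show _ = _ from h7).le.trans ?_
      have h10 : Measurable fun x : ℝ × Ph => (gv (n d) b₀ x.2.2 + ∑ p ∈ prs d, ∑ _k : Bool,
            ENNReal.ofReal (r p.2 * (1 + ‖x.2.2‖)) * Mb b₀ K (C / K * A⁻¹ ^ p.1) x.1 x.2.2) *
              F x.1 x.2 :=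
        (hgv.add (Finset.measurable_fun_sum _ fun p _ =>
          Finset.measurable_fun_sum _ fun k _ => hMb p)).mul hF'
      rw [lintegral_bs h10, typ_pos (by omega)]
      refine lintegral_mono fun l => setLIntegral_mono' measurableSet_Icc fun b hb' => ?_
      gcongr
      exact dens_le hK hC hA hn0 hr0 (hc d h0) l.2 hb'.1

end Vale.Agent.P119.Cap
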