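import Vale.Agent.P119.ML.Cap0Main
import Vale.Agent.P119.PB.Int5

/-!
# P119, block ML (`helper667`): CAP0 in the form used by `PB/Int5.lean`
-/

open MeasureTheory Filter Topology Set ProbabilityTheory
open scoped ENNReal NNReal

noncomputable section

namespace Vale.Agent.P119.Cap

open KU M

variable {Φ : E3 → ℝ} {ε : ℝ} {L : ℕ} {Tm : ℝ} {f₀ : Ph → ℝ}

theorem tyd_le {m : ℕ → ℝ} (hm : ∀ d, 0 ≤ m d) {b₁ Tm : ℝ} (d : ℕ) {F : Src → ℝ≥0∞}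
    (hF : Measurable F) :
    tyd m b₁ Tm d F ≤ ENNReal.ofReal (m d) * ((∫⁻ z : Ph, PB.gw b₁ z.2 * F (0, z, d)) +
      ∫⁻ s in Icc 0 Tm, ∫⁻ z : Ph, PB.gw b₁ z.2 * F (s, z, d)) := by
  have hg : ∀ z : Ph, ENNReal.ofReal (m d * Real.exp (-b₁ * ‖z.2‖ ^ 2)) =
      ENNReal.ofReal (m d) * PB.gw b₁ z.2 := fun z => by
    unfold PB.gw
    rw [ENNReal.ofReal_mul (hm d)]
  unfold tyd
  split_ifs with h0
  · subst h0
    simp only [hg]
    rw [mul_add]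
    refine le_trans (le_of_eq ?_) le_self_add
    rw [← lintegral_const_mul' _ _ ENNReal.ofReal_ne_top]
    exact lintegral_congr fun l => mul_assoc _ _ _
  · simp only [hg]
    rw [mul_add]
    refine le_trans (le_of_eq ?_) le_add_self
    have h1 : Measurable fun p : Ph × ℝ => ENNReal.ofReal (m d) * PB.gw b₁ p.1.2 *
        F (p.2, p.1, d) := by
      have h2 : Measurable fun p : Ph × ℝ => ((p.2, p.1, d) : Src) :=
        measurable_snd.prodMk (measurable_fst.prodMk measurable_const)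
      have h3 : Measurable fun p : Ph × ℝ => PB.gw b₁ p.1.2 :=
        (PB.measurable_gw b₁).comp measurable_fst.snd
      exact (h3.const_mul _).mul (hF.comp h2)
    rw [lintegral_lintegral_swap h1.aemeasurable, ← lintegral_const_mul' _ _ ENNReal.ofReal_ne_top]
    refine lintegral_congr fun s => ?_
    rw [← lintegral_const_mul' _ _ ENNReal.ofReal_ne_top]
    exact lintegral_congr fun l => mul_assoc _ _ _

/-- **CAP0**, with `typI`. -/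
theorem cap0_typI (hΦ : IsPotential Φ) {κ b₀ M₀ : ℝ} (hg : GoodDatum f₀ κ) (hb : 0 < b₀)
    (hT : 0 ≤ Tm) (hM : 0 ≤ M₀) (hf : ∀ z, f₀ z ≤ M₀ * Real.exp (-b₀ * ‖z.2‖ ^ 2))
    {n r : ℕ → ℝ} (hn0 : ∀ d, 0 ≤ n d) (hr0 : ∀ j, 0 ≤ r j) (hn : KE.SuperExp n)
    (hr : KE.SuperExp r) :
    ∃ m : ℕ → ℝ, (∀ d, 0 ≤ m d) ∧ KE.SuperExp m ∧ ∀ L, InI1 Φ f₀ L Tm →
      InNd Φ f₀ L Tm n b₀ → InR Φ f₀ L Tm r →
      ∃ aty : ℝ → Kernel (GC.Conf Ph) Src, (∀ ε, IsSFiniteKernel (aty ε)) ∧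
        (∀ ε, 0 < ε → ∀ c, ∀ F : Src → ℝ≥0∞, Measurable F →
          ∫⁻ T in AL Φ ε L Tm (GC.pts c : Set Ph), F (rsrc Φ ε T) ∂(tree (GC.inten f₀ ε) L) ≤
          FL.muE ε * (PB.typI (b₀ / 2) Tm (fun d => ENNReal.ofReal (m d)) F +
            ∫⁻ σ, F σ ∂(aty ε c))) ∧
        ∀ q : ℕ, Tendsto (fun ε => ∫⁻ c, ∫⁻ σ, pw q σ.2.1.2 ∂(aty ε c) ∂(GC.PP f₀ ε))
          (𝓝[>] 0) (𝓝 0) := by
  obtain ⟨m, hm0, hm, h⟩ := cap0 (Tm := Tm) hΦ hg hb hT hM hf hn0 hr0 hn hr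
  refine ⟨m, hm0, hm, fun L hI hN hR => ?_⟩
  obtain ⟨aty, h1, h2, h3⟩ := h L hI hN hR
  refine ⟨aty, h1, fun ε hε c F hF => (h2 ε hε c F hF).trans ?_, h3⟩
  unfold FL.muE
  gcongr
  unfold PB.typI
  exact (Finset.sum_le_sum fun d _ => tyd_le hm0 d hF).trans (ENNReal.sum_le_tsum _)

end Vale.Agent.P119.Cap
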