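import Vale.Agent.P119.ML.Cap0

/-!
# P119, block ML (`helper667`): CAP0, final form
-/

open MeasureTheory Filter Topology Set ProbabilityTheory
open scoped ENNReal NNReal

noncomputable section

namespace Vale.Agent.P119.Cap

open KU M PB.CT

variable {Φ : E3 → ℝ} {ε : ℝ} {L : ℕ} {Tm : ℝ} {f₀ : Ph → ℝ}

theorem superExp_bdd {a : ℕ → ℝ} (h : KE.SuperExp a) {A : ℝ} (hA : 0 ≤ A) :
    ∃ B, ∀ d, A ^ d * a d ≤ B := by
  obtain ⟨B, hB⟩ := (h A hA).bddAbove_range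
  exact ⟨B, fun d => hB ⟨d, rfl⟩⟩

/-- **The typical masses**, superexponentially small. -/
theorem exists_mass {n r : ℕ → ℝ} (hr0 : ∀ j, 0 ≤ r j) (hn : KE.SuperExp n) (hr : KE.SuperExp r)
    {b₀ M₀ Tm : ℝ} (hb : 0 < b₀) (hM : 0 ≤ M₀) (hT : 0 ≤ Tm) :
    ∃ m : ℕ → ℝ, (∀ d, 0 ≤ m d) ∧ KE.SuperExp m ∧ m 0 = M₀ ∧
      ∀ d : ℕ, ∃ A K C : ℝ, 0 < A ∧ 0 < K ∧ 0 ≤ C ∧ M₀ ≤ C / K ∧
        (∀ d', 1 ≤ d' → n d' + 2 * ∑ p ∈ prs d', r p.2 * (C / K * A⁻¹ ^ p.1) ≤ C * A⁻¹ ^ d') ∧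
        (d ≠ 0 → ∀ v : E3, ∀ t ∈ Icc 0 Tm, Th b₀ K (C * A⁻¹ ^ d) t v ≤
          ENNReal.ofReal (m d * Real.exp (-(b₀ / 2) * ‖v‖ ^ 2))) := by
  classical
  have h1 : ∀ A : ℕ, ∃ K C W : ℝ, 2 ≤ A → (1 ≤ K ∧ 0 ≤ C ∧ M₀ ≤ C / K ∧
      (∀ d', 1 ≤ d' → n d' + 2 * ∑ p ∈ prs d', r p.2 * (C / K * (A : ℝ)⁻¹ ^ p.1) ≤
        C * (A : ℝ)⁻¹ ^ d') ∧ 0 ≤ W ∧
      ∀ v : E3, ∀ t ∈ Icc 0 Tm, (1 + ‖v‖) ^ 1 * Ea b₀ K t v ≤
        W * Real.exp (-(b₀ / 2) * ‖v‖ ^ 2)) := by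
    intro A
    by_cases hA : 2 ≤ A
    · have hA' : (2 : ℝ) ≤ A := by exact_mod_cast hA
      obtain ⟨K, C, h2, h3, h4, h5⟩ := exists_consts hA' hr0
        (superExp_bdd hn (by linarith : (0 : ℝ) ≤ A))
        (superExp_bdd hr (by linarith : (0 : ℝ) ≤ 2 * A)) M₀
      obtain ⟨W, h6, h7⟩ := weight_bound hb (by linarith : 0 ≤ K) hT 1
      exact ⟨K, C, W, fun _ => ⟨h2, h3, h4, h5, h6, h7⟩⟩
    · exact ⟨0, 0, 0, fun h => absurd h hA⟩
  choose K C W h using h1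
  set g : ℕ → ℕ → ℝ := fun A d => C A * W A * (A : ℝ)⁻¹ ^ d with hg
  have h2 : ∀ d : ℕ, ∃ A ∈ Finset.Icc 2 (d + 2), ∀ A' ∈ Finset.Icc 2 (d + 2), g A d ≤ g A' d :=
    fun d => Finset.exists_min_image _ _ ⟨2, by simp⟩
  choose a ha hmin using h2
  have ha2 : ∀ d, 2 ≤ a d := fun d => (Finset.mem_Icc.1 (ha d)).1
  have hg0 : ∀ A, 2 ≤ A → ∀ d, 0 ≤ g A d := by
    intro A hA d
    have h3 := h A hA
    have h4 := h3.2.1
    have h5 := h3.2.2.2.2.1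
    simp only [hg]
    positivity
  refine ⟨fun d => if d = 0 then M₀ else g (a d) d, fun d => ?_, ?_, if_pos rfl, fun d => ?_⟩
  · beta_reduce
    split_ifs
    · exact hM
    · exact hg0 _ (ha2 d) d
  · intro B hB
    set A : ℕ := ⌈2 * B⌉₊ + 2 with hA
    have hA2 : 2 ≤ A := by omega
    have hAB : 2 * B ≤ A := by
      have := Nat.le_ceil (2 * B)
      rw [hA]
      push_cast
      linarith
    have hA0 : (0 : ℝ) < A := by
      have : 0 < A := by omega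
      exact_mod_cast this
    have h3 : Tendsto (fun d : ℕ => C A * W A * (1 / 2 : ℝ) ^ d) atTop (𝓝 0) := by
      have := (tendsto_pow_atTop_nhds_zero_of_lt_one (by norm_num : (0 : ℝ) ≤ 1 / 2)
        (by norm_num)).const_mul (C A * W A)
      rwa [mul_zero] at this
    refine tendsto_of_tendsto_of_tendsto_of_le_of_le' tendsto_const_nhds h3
      ((eventually_ge_atTop 1).mono fun d hd => ?_) ((eventually_ge_atTop A).mono fun d hd => ?_)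
    · beta_reduce
      rw [if_neg (by omega)]
      exact mul_nonneg (by positivity) (hg0 _ (ha2 d) d)
    · beta_reduce
      rw [if_neg (by omega)]
      have h4 : g (a d) d ≤ g A d := hmin d A (Finset.mem_Icc.2 ⟨hA2, by omega⟩)
      have h5 := h A hA2
      have h6 := h5.2.1
      have h7 := h5.2.2.2.2.1
      calc B ^ d * g (a d) d ≤ B ^ d * g A d := by gcongr
        _ = C A * W A * (B * (A : ℝ)⁻¹) ^ d := by
            simp only [hg]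
            rw [mul_pow]
            ring
        _ ≤ C A * W A * (1 / 2 : ℝ) ^ d := by
            have h8 : B * (A : ℝ)⁻¹ ≤ 1 / 2 := by
              rw [← div_eq_mul_inv, div_le_div_iff₀ hA0 (by norm_num)]
              linarith
            gcongr
  · have h3 := h (a d) (ha2 d)
    have hA0 : (0 : ℝ) < a d := by
      have : 0 < a d := by have := ha2 d; omega
      exact_mod_cast this
    refine ⟨a d, K (a d), C (a d), hA0, by linarith [h3.1], h3.2.1, h3.2.2.1, h3.2.2.2.1,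
      fun hd v t ht => ?_⟩
    beta_reduce
    rw [if_neg hd]
    unfold Th
    apply ENNReal.ofReal_le_ofReal
    have h4 := h3.2.2.2.2.2 v t ht
    rw [pow_one] at h4
    have h5 := h3.2.1
    calc C (a d) * (a d : ℝ)⁻¹ ^ d * ((1 + ‖v‖) * Ea b₀ (K (a d)) t v)
        ≤ C (a d) * (a d : ℝ)⁻¹ ^ d * (W (a d) * Real.exp (-(b₀ / 2) * ‖v‖ ^ 2)) := by gcongr
      _ = _ := by
          simp only [hg]
          ring

/-- The typical law of the root sources of depth `d`. -/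
def tyd (m : ℕ → ℝ) (b₁ Tm : ℝ) (d : ℕ) (F : Src → ℝ≥0∞) : ℝ≥0∞ :=
  if d = 0 then ∫⁻ l : Ph, ENNReal.ofReal (m 0 * Real.exp (-b₁ * ‖l.2‖ ^ 2)) * F (0, l, 0)
  else ∫⁻ l : Ph, ∫⁻ b in Icc 0 Tm,
    ENNReal.ofReal (m d * Real.exp (-b₁ * ‖l.2‖ ^ 2)) * F (b, l, d)

/-- **CAP0, one depth.** -/
theorem cap0_depth (hΦ : IsPotential Φ) {κ b₀ M₀ : ℝ} (hg : GoodDatum f₀ κ) (hb : 0 < b₀)
    (hT : 0 ≤ Tm) (hM : 0 ≤ M₀) (hf : ∀ z, f₀ z ≤ M₀ * Real.exp (-b₀ * ‖z.2‖ ^ 2))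
    {n r : ℕ → ℝ} (hn0 : ∀ d, 0 ≤ n d) (hr0 : ∀ j, 0 ≤ r j) (hn : KE.SuperExp n)
    (hr : KE.SuperExp r) :
    ∃ m : ℕ → ℝ, (∀ d, 0 ≤ m d) ∧ KE.SuperExp m ∧ ∀ L, InI1 Φ f₀ L Tm →
      InNd Φ f₀ L Tm n b₀ → InR Φ f₀ L Tm r → ∀ d ≤ L,
      ∃ aty : ℝ → Kernel (GC.Conf Ph) Src, (∀ ε, IsSFiniteKernel (aty ε)) ∧
        (∀ ε, 0 < ε → ∀ c, ∀ F : Src → ℝ≥0∞, Measurable F →
          ∫⁻ T in {T | T ∈ AL Φ ε L Tm (GC.pts c : Set Ph) ∧ T.depth = d}, F (rsrc Φ ε T)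
            ∂(tree (GC.inten f₀ ε) L) ≤
          ENNReal.ofReal (mu ε) * (tyd m (b₀ / 2) Tm d F + ∫⁻ σ, F σ ∂(aty ε c))) ∧
        ∀ q : ℕ, Tendsto (fun ε => ∫⁻ c, ∫⁻ σ, pw q σ.2.1.2 ∂(aty ε c) ∂(GC.PP f₀ ε))
          (𝓝[>] 0) (𝓝 0) := by
  obtain ⟨m, hm0, hm, hmM, hmd⟩ := exists_mass hr0 hn hr hb hM hT
  refine ⟨m, hm0, hm, fun L hI hN hR d hd => ?_⟩
  obtain ⟨A, K, C, hA, hK, hC, hMC, hc, hTh⟩ := hmd d
  obtain ⟨κ', h1, h2, h3⟩ := claim (L := L) (Tm := Tm) hΦ hg hb hT hM hf hK hC hA hMC hn0 hr0 hc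
    hI hN hR d hd
  have he : Measurable fun x : ℝ × Ph => ((x.1, x.2, d) : Src) :=
    measurable_fst.prodMk (measurable_snd.prodMk measurable_const)
  refine ⟨fun ε => (κ' ε).map fun x => ((x.1, x.2, d) : Src), fun ε => inferInstance,
    fun ε hε c F hF => ?_, fun q => ?_⟩
  · have hFe : Measurable (Function.uncurry fun (b : ℝ) (l : Ph) => F (b, l, d)) := hF.comp he
    have h4 := h2 ε hε c (fun b l => F (b, l, d)) hFe
    beta_reduce at h4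
    have hS : MeasurableSet {T | T ∈ AL Φ ε L Tm (GC.pts c : Set Ph) ∧ T.depth = d} :=
      (measurableSet_AL (c := fun _ : CTree => c) (T := id) hΦ hε measurable_const
        measurable_id).inter (measurable_depth (measurableSet_singleton d))
    have h5 : ∫⁻ T in {T | T ∈ AL Φ ε L Tm (GC.pts c : Set Ph) ∧ T.depth = d}, F (rsrc Φ ε T)
        ∂(tree (GC.inten f₀ ε) L) =
        ∫⁻ T in {T | T ∈ AL Φ ε L Tm (GC.pts c : Set Ph) ∧ T.depth = d},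
          F (CTree.ext Φ ε T, CTree.ln Φ ε T, d) ∂(tree (GC.inten f₀ ε) L) := by
      refine setLIntegral_congr_fun hS fun T hT => ?_
      unfold rsrc
      rw [hT.2]
    rw [h5]
    refine h4.trans ?_
    rw [Kernel.map_apply _ he, lintegral_map hF he]
    gcongr
    unfold tyd
    split_ifs with h0
    · subst h0
      unfold typ
      rw [if_pos rfl, hmM]
      refine lintegral_mono fun l => ?_
      gcongr
      linarith
    · rw [typ_pos h0]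
      refine lintegral_mono fun l => setLIntegral_mono' measurableSet_Icc fun b hb' => ?_
      gcongr
      exact hTh h0 l.2 b hb'
  · refine (h3 q).congr fun ε => lintegral_congr fun c => ?_
    have hp : Measurable fun σ : Src => pw q σ.2.1.2 :=
      (measurable_pw q).comp measurable_snd.fst.snd
    rw [Kernel.map_apply _ he, lintegral_map hp he]

/-- **CAP0**: the law of the root sources of the alive trees. -/
theorem cap0 (hΦ : IsPotential Φ) {κ b₀ M₀ : ℝ} (hg : GoodDatum f₀ κ) (hb : 0 < b₀)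
    (hT : 0 ≤ Tm) (hM : 0 ≤ M₀) (hf : ∀ z, f₀ z ≤ M₀ * Real.exp (-b₀ * ‖z.2‖ ^ 2))
    {n r : ℕ → ℝ} (hn0 : ∀ d, 0 ≤ n d) (hr0 : ∀ j, 0 ≤ r j) (hn : KE.SuperExp n)
    (hr : KE.SuperExp r) :
    ∃ m : ℕ → ℝ, (∀ d, 0 ≤ m d) ∧ KE.SuperExp m ∧ ∀ L, InI1 Φ f₀ L Tm →
      InNd Φ f₀ L Tm n b₀ → InR Φ f₀ L Tm r →
      ∃ aty : ℝ → Kernel (GC.Conf Ph) Src, (∀ ε, IsSFiniteKernel (aty ε)) ∧
        (∀ ε, 0 < ε → ∀ c, ∀ F : Src → ℝ≥0∞, Measurable F →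
          ∫⁻ T in AL Φ ε L Tm (GC.pts c : Set Ph), F (rsrc Φ ε T) ∂(tree (GC.inten f₀ ε) L) ≤
          ENNReal.ofReal (mu ε) * ((∑ d ∈ Finset.range (L + 1), tyd m (b₀ / 2) Tm d F) +
            ∫⁻ σ, F σ ∂(aty ε c))) ∧
        ∀ q : ℕ, Tendsto (fun ε => ∫⁻ c, ∫⁻ σ, pw q σ.2.1.2 ∂(aty ε c) ∂(GC.PP f₀ ε))
          (𝓝[>] 0) (𝓝 0) := by
  classical
  obtain ⟨m, hm0, hm, h⟩ := cap0_depth hΦ hg hb hT hM hf hn0 hr0 hn hr
  refine ⟨m, hm0, hm, fun L hI hN hR => ?_⟩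
  have h1 := h L hI hN hR
  have h2 : ∀ d : ℕ, ∃ aty : ℝ → Kernel (GC.Conf Ph) Src, d ≤ L → ((∀ ε, IsSFiniteKernel (aty ε)) ∧
        (∀ ε, 0 < ε → ∀ c, ∀ F : Src → ℝ≥0∞, Measurable F →
          ∫⁻ T in {T | T ∈ AL Φ ε L Tm (GC.pts c : Set Ph) ∧ T.depth = d}, F (rsrc Φ ε T)
            ∂(tree (GC.inten f₀ ε) L) ≤
          ENNReal.ofReal (mu ε) * (tyd m (b₀ / 2) Tm d F + ∫⁻ σ, F σ ∂(aty ε c))) ∧
        ∀ q : ℕ, Tendsto (fun ε => ∫⁻ c, ∫⁻ σ, pw q σ.2.1.2 ∂(aty ε c) ∂(GC.PP f₀ ε))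
          (𝓝[>] 0) (𝓝 0)) := by
    intro d
    by_cases hd : d ≤ L
    · obtain ⟨aty, h3⟩ := h1 d hd
      exact ⟨aty, fun _ => h3⟩
    · exact ⟨0, fun h' => absurd h' hd⟩
  choose aty h3 using h2
  have hp : ∀ q : ℕ, Measurable fun σ : Src => pw q σ.2.1.2 := fun q =>
    (measurable_pw q).comp measurable_snd.fst.snd
  refine ⟨fun ε => ∑ d ∈ Finset.range (L + 1), aty d ε, fun ε => ?_, fun ε hε c F hF => ?_,
    fun q => ?_⟩
  · exact Kernel.IsSFiniteKernel.finsetSum _ fun d hd =>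
      (h3 d (Nat.lt_succ_iff.1 (Finset.mem_range.1 hd))).1 ε
  · have hcov : AL Φ ε L Tm (GC.pts c : Set Ph) ⊆ ⋃ d ∈ Finset.range (L + 1),
        {T | T ∈ AL Φ ε L Tm (GC.pts c : Set Ph) ∧ T.depth = d} := by
      intro T hT'
      rw [mem_iUnion₂]
      exact ⟨T.depth, Finset.mem_range.2 (Nat.lt_succ_of_le (AL_depth hT')), hT', rfl⟩
    have hsum : ∫⁻ T in ⋃ d ∈ Finset.range (L + 1),
        {T | T ∈ AL Φ ε L Tm (GC.pts c : Set Ph) ∧ T.depth = d}, F (rsrc Φ ε T)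
          ∂(tree (GC.inten f₀ ε) L) ≤ ∑ d ∈ Finset.range (L + 1),
        ∫⁻ T in {T | T ∈ AL Φ ε L Tm (GC.pts c : Set Ph) ∧ T.depth = d}, F (rsrc Φ ε T)
          ∂(tree (GC.inten f₀ ε) L) := by
      have hle : (tree (GC.inten f₀ ε) L).restrict (⋃ d ∈ Finset.range (L + 1),
          {T | T ∈ AL Φ ε L Tm (GC.pts c : Set Ph) ∧ T.depth = d}) ≤
          ∑ d ∈ Finset.range (L + 1), (tree (GC.inten f₀ ε) L).restrict
            {T | T ∈ AL Φ ε L Tm (GC.pts c : Set Ph) ∧ T.depth = d} := by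
        refine Measure.le_iff.2 fun s hs => ?_
        rw [Measure.restrict_apply hs, Measure.coe_finsetSum, Finset.sum_apply,
          inter_iUnion₂]
        refine (measure_biUnion_finset_le _ _).trans (Finset.sum_le_sum fun d _ => ?_)
        rw [Measure.restrict_apply hs]
      refine (lintegral_mono' hle le_rfl).trans (le_of_eq ?_)
      rw [lintegral_finsetSum_measure]
    refine (lintegral_mono_set hcov).trans (hsum.trans ?_)
    refine (Finset.sum_le_sum fun d hd =>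
      (h3 d (Nat.lt_succ_iff.1 (Finset.mem_range.1 hd))).2.1 ε hε c F hF).trans (le_of_eq ?_)
    rw [← Finset.mul_sum, Finset.sum_add_distrib, Kernel.finset_sum_apply,
      lintegral_finsetSum_measure]
  · have h4 : ∀ ε, ∫⁻ c, ∫⁻ σ, pw q σ.2.1.2 ∂((∑ d ∈ Finset.range (L + 1), aty d ε) c)
        ∂(GC.PP f₀ ε) = ∑ d ∈ Finset.range (L + 1),
          ∫⁻ c, ∫⁻ σ, pw q σ.2.1.2 ∂(aty d ε c) ∂(GC.PP f₀ ε) := by
      intro ε
      rw [← lintegral_finsetSum _ fun d _ => Measurable.lintegral_kernel (hp q)]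
      refine lintegral_congr fun c => ?_
      rw [Kernel.finset_sum_apply, lintegral_finsetSum_measure]
    simp only [h4]
    have h5 := tendsto_finsetSum (Finset.range (L + 1)) fun d hd =>
      (h3 d (Nat.lt_succ_iff.1 (Finset.mem_range.1 hd))).2.2 q
    simpa using h5

end Vale.Agent.P119.Cap
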