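import Vale.Agent.P119.ML.CapStep

/-!
# P119, block ML (CAP0, `helper667`): the degenerate nodes
-/

open MeasureTheory Filter Topology Set ProbabilityTheory
open scoped ENNReal NNReal

noncomputable section

namespace Vale.Agent.P119.Cap

open KU M PB.CT

variable {Φ : E3 → ℝ} {ε : ℝ} {L : ℕ} {Tm : ℝ} {f₀ : Ph → ℝ}

/-- The birth and the line after the collision of a line with a partner tree. -/
@[irreducible] def ot (Φ : E3 → ℝ) (ε : ℝ) (k : Bool) (l : Ph) (T : CTree) : ℝ × Ph :=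
  (sepT Φ ε (prt k l (CTree.ln Φ ε T)), (sc2 Φ ε (prt k l (CTree.ln Φ ε T))).1)

theorem Hk_ot (F : ℝ → Ph → ℝ≥0∞) (k : Bool) (l : Ph) (T : CTree) : Hk Φ ε F k l T =
    F (ot Φ ε k l T).1 (ot Φ ε k l T).2 := by
  rw [Hk_def]
  unfold ot
  rfl

theorem measurable_ot (hΦ : IsPotential Φ) (hε : ε ≠ 0) (k : Bool) :
    Measurable fun p : Ph × CTree => ot Φ ε k p.1 p.2 := by
  have hp := measurable_prtT (Φ := Φ) (ε := ε) hΦ hε k
  unfold ot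
  exact ((measurable_sepT hΦ).comp hp).prodMk ((measurable_sc2 hΦ hε).comp hp).fst

/-- The indicator of the partner trees, and of the time order. -/
@[irreducible] def pk (Φ : E3 → ℝ) (ε : ℝ) (L : ℕ) (Tm : ℝ) (j : ℕ) (k : Bool) (c : GC.Conf Ph)
    (σ : ℝ × Ph) (T : CTree) : ℝ≥0∞ :=
  {p : GC.Conf Ph × (ℝ × Ph) × CTree | p.2.2 ∈ PS Φ ε L Tm (GC.pts p.1 : Set Ph) j k p.2.1.2 ∧
    p.2.1.1 < hl Φ ε k p.2.1.2 p.2.2}.indicator 1 (c, σ, T)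

theorem measurable_pk (hΦ : IsPotential Φ) (hε : 0 < ε) (j : ℕ) (k : Bool) :
    Measurable fun p : GC.Conf Ph × (ℝ × Ph) × CTree => pk Φ ε L Tm j k p.1 p.2.1 p.2.2 := by
  unfold pk
  refine measurable_one.indicator ?_
  have h1 : MeasurableSet {p : GC.Conf Ph × (ℝ × Ph) × CTree |
      p.2.2 ∈ PS Φ ε L Tm (GC.pts p.1 : Set Ph) j k p.2.1.2} :=
    measurableSet_PS (c := fun p : GC.Conf Ph × (ℝ × Ph) × CTree => p.1)
      (l := fun p => p.2.1.2) (T := fun p => p.2.2) hΦ hε measurable_fst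
      measurable_snd.fst.snd measurable_snd.snd j k
  have h2 : MeasurableSet {p : GC.Conf Ph × (ℝ × Ph) × CTree |
      p.2.1.1 < hl Φ ε k p.2.1.2 p.2.2} := by
    have h3 : Measurable fun p : GC.Conf Ph × (ℝ × Ph) × CTree => (p.2.1.2, p.2.2) :=
      measurable_snd.fst.snd.prodMk measurable_snd.snd
    have h4 : Measurable fun p : GC.Conf Ph × (ℝ × Ph) × CTree => hl Φ ε k p.2.1.2 p.2.2 :=
      (measurable_hl hΦ hε.ne' k).comp h3
    exact measurableSet_lt measurable_snd.fst.fst h4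
  exact h1.inter h2

theorem pk_mem {j : ℕ} {k : Bool} {c : GC.Conf Ph} {σ : ℝ × Ph} {T : CTree}
    (h : T ∈ PS Φ ε L Tm (GC.pts c : Set Ph) j k σ.2) (h' : σ.1 < hl Φ ε k σ.2 T) :
    pk Φ ε L Tm j k c σ T = 1 := by
  unfold pk
  exact indicator_of_mem (show (c, σ, T) ∈ {p : GC.Conf Ph × (ℝ × Ph) × CTree |
    p.2.2 ∈ PS Φ ε L Tm (GC.pts p.1 : Set Ph) j k p.2.1.2 ∧ p.2.1.1 < hl Φ ε k p.2.1.2 p.2.2}
    from ⟨h, h'⟩) _

theorem pk_notMem {j : ℕ} {k : Bool} {c : GC.Conf Ph} {σ : ℝ × Ph} {T : CTree}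
    (h : ¬(T ∈ PS Φ ε L Tm (GC.pts c : Set Ph) j k σ.2 ∧ σ.1 < hl Φ ε k σ.2 T)) :
    pk Φ ε L Tm j k c σ T = 0 := by
  unfold pk
  exact indicator_of_notMem (show (c, σ, T) ∉ {p : GC.Conf Ph × (ℝ × Ph) × CTree |
    p.2.2 ∈ PS Φ ε L Tm (GC.pts p.1 : Set Ph) j k p.2.1.2 ∧ p.2.1.1 < hl Φ ε k p.2.1.2 p.2.2}
    from h) _

theorem Gk_pk (hΦ : IsPotential Φ) (hε : 0 < ε) (F : ℝ → Ph → ℝ≥0∞) (c : GC.Conf Ph) (j : ℕ)
    (k : Bool) (s : ℝ) (l : Ph) :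
    Gk Φ ε L Tm f₀ F (GC.pts c : Set Ph) j k s l =
      ∫⁻ T, pk Φ ε L Tm j k c (s, l) T * Hk Φ ε F k l T ∂(tree (GC.inten f₀ ε) L) := by
  rw [Gk_eq, ← lintegral_indicator (measurableSet_PSc hΦ hε c j k l)]
  refine lintegral_congr fun T => ?_
  by_cases h : T ∈ PS Φ ε L Tm (GC.pts c : Set Ph) j k l
  · rw [indicator_of_mem h]
    by_cases h' : s < hl Φ ε k l T
    · rw [if_pos h', pk_mem (σ := (s, l)) h h', one_mul]
    · rw [if_neg h', pk_notMem (σ := (s, l)) fun h'' => h' h''.2, zero_mul]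
  · rw [indicator_of_notMem h, pk_notMem (σ := (s, l)) fun h'' => h h''.1, zero_mul]

theorem measurable_Gk (hΦ : IsPotential Φ) (hε : 0 < ε) [IsFiniteMeasure (GC.inten f₀ ε)]
    {F : ℝ → Ph → ℝ≥0∞} (hF : Measurable (Function.uncurry F)) (c : GC.Conf Ph) (j : ℕ)
    (k : Bool) :
    Measurable (Function.uncurry (Gk Φ ε L Tm f₀ F (GC.pts c : Set Ph) j k)) := by
  have h1 : Function.uncurry (Gk Φ ε L Tm f₀ F (GC.pts c : Set Ph) j k) = fun σ : ℝ × Ph =>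
      ∫⁻ T, pk Φ ε L Tm j k c σ T * Hk Φ ε F k σ.2 T ∂(tree (GC.inten f₀ ε) L) := by
    funext σ
    exact Gk_pk hΦ hε F c j k σ.1 σ.2
  rw [h1]
  have h2 : Measurable fun p : (ℝ × Ph) × CTree => pk Φ ε L Tm j k c p.1 p.2 := by
    have h3 : Measurable fun p : (ℝ × Ph) × CTree => (c, p.1, p.2) :=
      measurable_const.prodMk (measurable_fst.prodMk measurable_snd)
    exact (measurable_pk hΦ hε j k).comp h3
  have h4 : Measurable fun p : (ℝ × Ph) × CTree => Hk Φ ε F k p.1.2 p.2 := by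
    have h3 : Measurable fun p : (ℝ × Ph) × CTree => (p.1.2, p.2) :=
      measurable_fst.snd.prodMk measurable_snd
    exact (measurable_Hk hΦ hε.ne' hF k).comp h3
  exact (h2.mul h4).lintegral_prod_right'

theorem ot_vel (hΦ : IsPotential Φ) (hε : 0 < ε) {w : Set Ph} {j : ℕ} {k : Bool} {l : Ph}
    {T : CTree} (h : T ∈ PS Φ ε L Tm w j k l) : (ot Φ ε k l T).2.2 = l.2 := by
  unfold ot
  exact (PS_facts hΦ hε h).2.2

/-- The degenerate nodes with a negligible carrier are negligible. -/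
theorem bnd_deg1 (hΦ : IsPotential Φ) {κ' b₀ M₀ : ℝ} (hg : GoodDatum f₀ κ') (hb : 0 < b₀)
    (hT : 0 ≤ Tm) (hM : 0 ≤ M₀) (hf : ∀ z, f₀ z ≤ M₀ * Real.exp (-b₀ * ‖z.2‖ ^ 2))
    (κ : ℝ → Kernel (GC.Conf Ph) (ℝ × Ph)) (hκ : ∀ ε, IsSFiniteKernel (κ ε)) (hN : Ng f₀ κ)
    (j : ℕ) (k : Bool) :
    ∃ η : ℝ → Kernel (GC.Conf Ph) (ℝ × Ph), (∀ ε, IsSFiniteKernel (η ε)) ∧
      (∀ ε, 0 < ε → ∀ c, ∀ F : ℝ → Ph → ℝ≥0∞, Measurable (Function.uncurry F) →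
        ∫⁻ σ, Gk Φ ε L Tm f₀ F (GC.pts c : Set Ph) j k σ.1 σ.2 ∂(κ ε c) =
          ∫⁻ x, F x.1 x.2 ∂(η ε c)) ∧ Ng f₀ η := by
  have h1 : ∀ ε, 0 < ε → ∃ η : Kernel (GC.Conf Ph) (ℝ × Ph), IsSFiniteKernel η ∧
      ∀ c, ∀ F : ℝ × Ph → ℝ≥0∞, Measurable F → ∫⁻ x, F x ∂(η c) =
        ∫⁻ σ, ∫⁻ T, pk Φ ε L Tm j k c σ T * F (ot Φ ε k σ.2 T) ∂(tree (GC.inten f₀ ε) L)
          ∂(κ ε c) := by
    intro ε hε
    have : IsFiniteMeasure (GC.inten f₀ ε) := GC.isFiniteMeasure_inten hg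
    have := hκ ε
    have h3 : Measurable fun p : (ℝ × Ph) × CTree => (p.1.2, p.2) :=
      measurable_fst.snd.prodMk measurable_snd
    have h4 : Measurable fun p : (ℝ × Ph) × CTree => ot Φ ε k p.1.2 p.2 :=
      (measurable_ot hΦ hε.ne' k).comp h3
    exact exists_kernel_comp (κ ε) (tree (GC.inten f₀ ε) L)
      (f := fun c σ T => pk Φ ε L Tm j k c σ T) (measurable_pk hΦ hε j k) h4
  obtain ⟨η, h2, h3⟩ := exists_family (P := fun ε η => ∀ c, ∀ F : ℝ × Ph → ℝ≥0∞, Measurable F →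
      ∫⁻ x, F x ∂(η c) = ∫⁻ σ, ∫⁻ T, pk Φ ε L Tm j k c σ T * F (ot Φ ε k σ.2 T)
        ∂(tree (GC.inten f₀ ε) L) ∂(κ ε c)) h1
  refine ⟨η, h2, fun ε hε c F hF => ?_, fun q => ?_⟩
  · have h4 := h3 ε hε c (fun x => F x.1 x.2) hF
    beta_reduce at h4
    rw [h4]
    refine lintegral_congr fun σ => ?_
    rw [Gk_pk hΦ hε]
    refine lintegral_congr fun T => ?_
    rw [Hk_ot]
  · obtain ⟨C, hC, hfl⟩ := flux (Tm := Tm) hΦ hg hb hT hM hf L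
    have h4 := ENNReal.Tendsto.const_mul (a := C) (hN (q + 1)) (Or.inr hC)
    rw [mul_zero] at h4
    refine tendsto_of_tendsto_of_tendsto_of_le_of_le' tendsto_const_nhds h4
      (Eventually.of_forall fun _ => zero_le) ?_
    filter_upwards [self_mem_nhdsWithin] with ε hε
    have hε' : 0 < ε := hε
    rw [← lintegral_const_mul' _ _ hC]
    refine lintegral_mono fun c => ?_
    rw [h3 ε hε' c _ (measurable_pw' q), ← lintegral_const_mul' _ _ hC]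
    refine lintegral_mono fun σ => ?_
    calc ∫⁻ T, pk Φ ε L Tm j k c σ T * pw q (ot Φ ε k σ.2 T).2.2 ∂(tree (GC.inten f₀ ε) L)
        ≤ ∫⁻ T in PS Φ ε L Tm (GC.pts c : Set Ph) j k σ.2, pw q σ.2.2
            ∂(tree (GC.inten f₀ ε) L) := by
          rw [← lintegral_indicator (measurableSet_PSc hΦ hε' c j k σ.2)]
          refine lintegral_mono fun T => ?_
          by_cases h : T ∈ PS Φ ε L Tm (GC.pts c : Set Ph) j k σ.2
          · rw [indicator_of_mem h, ot_vel hΦ hε' h]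
            by_cases h' : σ.1 < hl Φ ε k σ.2 T
            · rw [pk_mem (σ := σ) h h', one_mul]
            · rw [pk_notMem (σ := σ) fun h'' => h' h''.2, zero_mul]
              exact zero_le
          · rw [pk_notMem (σ := σ) fun h'' => h h''.1, zero_mul]
            exact zero_le
      _ = pw q σ.2.2 * tree (GC.inten f₀ ε) L (PS Φ ε L Tm (GC.pts c : Set Ph) j k σ.2) := by
          rw [setLIntegral_const]
      _ ≤ pw q σ.2.2 * (C * pw 1 σ.2.2) := by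
          gcongr
          exact hfl ε hε' _ _ _ _
      _ = C * pw (q + 1) σ.2.2 := by
          rw [← pw_mul_one q]
          ring

/-- The degenerate nodes with a typical carrier. -/
theorem bnd_deg2 (hΦ : IsPotential Φ) {κ' b₀ M₀ K C A : ℝ} (hg : GoodDatum f₀ κ') (hb : 0 < b₀)
    (hT : 0 ≤ Tm) (hM : 0 ≤ M₀) (hK : 0 < K) (hC : 0 ≤ C) (hA : 0 < A) (hMC : M₀ ≤ C / K)
    {r : ℕ → ℝ} (hR : InR Φ f₀ L Tm r) (i j : ℕ) (hj : j ≤ L) (k : Bool) :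
    ∃ η : ℝ → Kernel (GC.Conf Ph) (ℝ × Ph), (∀ ε, IsSFiniteKernel (η ε)) ∧
      (∀ ε, 0 < ε → ∀ c, ∀ F : ℝ → Ph → ℝ≥0∞, Measurable (Function.uncurry F) →
        typ M₀ b₀ K C A Tm i (Gk Φ ε L Tm f₀ F (GC.pts c : Set Ph) j k) ≤
          (∫⁻ x, (ENNReal.ofReal (r j * (1 + ‖x.2.2‖)) * Mb b₀ K (C / K * A⁻¹ ^ i) x.1 x.2.2) *
            F x.1 x.2 ∂(bs Tm)) + ∫⁻ x, F x.1 x.2 ∂(η ε c)) ∧ Ng f₀ η := by
  obtain ⟨R, hRm, hlaw, hlim⟩ := hR j hj k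
  set a : ℝ := C / K * A⁻¹ ^ i with ha
  have ha0 : 0 ≤ a := by positivity
  have hr : Measurable fun x : ℝ × Ph => ENNReal.ofReal (r j * (1 + ‖x.2.2‖)) := by fun_prop
  have hMbm : Measurable fun x : ℝ × Ph => Mb b₀ K a x.1 x.2.2 :=
    (measurable_Mb b₀ K a).comp (measurable_fst.prodMk measurable_snd.snd)
  have hRc : ∀ ε, 0 < ε → ∀ c, Measurable fun x : ℝ × Ph => R ε c x.1 x.2 := fun ε hε c =>
    (hRm ε hε).comp (measurable_const.prodMk measurable_id)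
  have h1 : ∀ ε, 0 < ε → ∃ η : Kernel (GC.Conf Ph) (ℝ × Ph), IsSFiniteKernel η ∧
      ∀ c, ∀ F : ℝ × Ph → ℝ≥0∞, Measurable F → ∫⁻ x, F x ∂(η c) =
        ∫⁻ x, ((R ε c x.1 x.2 - ENNReal.ofReal (r j * (1 + ‖x.2.2‖))) * Mb b₀ K a x.1 x.2.2) *
          F x ∂(bs Tm) := by
    intro ε hε
    have hf : Measurable fun p : GC.Conf Ph × (ℝ × Ph) =>
        (R ε p.1 p.2.1 p.2.2 - ENNReal.ofReal (r j * (1 + ‖p.2.2.2‖))) *
          Mb b₀ K a p.2.1 p.2.2.2 :=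
      ((hRm ε hε).sub (hr.comp measurable_snd)).mul (hMbm.comp measurable_snd)
    obtain ⟨η, h2, h3⟩ := exists_kernel (Kernel.const (GC.Conf Ph) (bs Tm))
      (f := fun c x => (R ε c x.1 x.2 - ENNReal.ofReal (r j * (1 + ‖x.2.2‖))) *
        Mb b₀ K a x.1 x.2.2) hf measurable_id
    exact ⟨η, h2, fun c F hF => h3 c F hF⟩
  obtain ⟨η, h2, h3⟩ := exists_family (P := fun ε η => ∀ c, ∀ F : ℝ × Ph → ℝ≥0∞, Measurable F →
      ∫⁻ x, F x ∂(η c) = ∫⁻ x, ((R ε c x.1 x.2 - ENNReal.ofReal (r j * (1 + ‖x.2.2‖))) *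
        Mb b₀ K a x.1 x.2.2) * F x ∂(bs Tm)) h1
  refine ⟨η, h2, fun ε hε c F hF => ?_, fun q => ?_⟩
  · have : IsFiniteMeasure (GC.inten f₀ ε) := GC.isFiniteMeasure_inten hg
    have hF' : Measurable fun x : ℝ × Ph => F x.1 x.2 := hF
    have h4 := h3 ε hε c (fun x => F x.1 x.2) hF'
    beta_reduce at h4
    have hMF : Measurable fun x : ℝ × Ph => Mb b₀ K a x.1 x.2.2 * F x.1 x.2 := hMbm.mul hF'
    have h5 := typ_Gk (f₀ := f₀) (L := L) (Tm := Tm) (b₀ := b₀) hΦ hε hM hK hC hA hMC c hF i j k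
    refine h5.trans ?_
    rw [← ha]
    simp only [Hk_def]
    have h6 := hlaw ε hε c (fun b l => Mb b₀ K a b l.2 * F b l) hMF
    beta_reduce at h6
    refine (show _ ≤ _ from h6).trans ?_
    have h7 := lintegral_bs (Tm := Tm)
      (f := fun x => R ε c x.1 x.2 * (Mb b₀ K a x.1 x.2.2 * F x.1 x.2)) ((hRc ε hε c).mul hMF)
    beta_reduce at h7
    have h8 : Measurable fun x : ℝ × Ph =>
        (ENNReal.ofReal (r j * (1 + ‖x.2.2‖)) * Mb b₀ K a x.1 x.2.2) * F x.1 x.2 :=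
      (hr.mul hMbm).mul hF'
    rw [h4, ← h7, ← lintegral_add_left h8]
    refine lintegral_mono fun x => ?_
    beta_reduce
    rw [← add_mul, ← add_mul, ← mul_assoc]
    gcongr
    exact le_add_tsub
  · obtain ⟨Cw, hCw, hw⟩ := pw_Mb_le (b₀ := b₀) hb hK.le hT ha0 q
    have h4 := ENNReal.Tendsto.const_mul (a := Cw) (hlim (b₀ / 2) (by positivity)) (Or.inr hCw)
    rw [mul_zero] at h4
    refine tendsto_of_tendsto_of_tendsto_of_le_of_le' tendsto_const_nhds h4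
      (Eventually.of_forall fun _ => zero_le) ?_
    filter_upwards [self_mem_nhdsWithin] with ε hε
    have hε' : 0 < ε := hε
    rw [← lintegral_const_mul' _ _ hCw]
    refine lintegral_mono fun c => ?_
    have h5 : Measurable fun x : ℝ × Ph =>
        ((R ε c x.1 x.2 - ENNReal.ofReal (r j * (1 + ‖x.2.2‖))) * Mb b₀ K a x.1 x.2.2) *
          pw q x.2.2 := (((hRc ε hε' c).sub hr).mul hMbm).mul (measurable_pw' q)
    rw [h3 ε hε' c _ (measurable_pw' q), lintegral_bs h5, ← lintegral_const_mul' _ _ hCw]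
    refine lintegral_mono fun l => ?_
    rw [← lintegral_const_mul' _ _ hCw]
    refine setLIntegral_mono' measurableSet_Icc fun b hb' => ?_
    have h6 := hw l.2 b hb'
    calc (R ε c b l - ENNReal.ofReal (r j * (1 + ‖l.2‖))) * Mb b₀ K a b l.2 * pw q l.2
        = (pw q l.2 * Mb b₀ K a b l.2) * (R ε c b l - ENNReal.ofReal (r j * (1 + ‖l.2‖))) := by
          ring
      _ ≤ (Cw * ENNReal.ofReal (Real.exp (-(b₀ / 2) * ‖l.2‖ ^ 2))) *
          (R ε c b l - ENNReal.ofReal (r j * (1 + ‖l.2‖))) := by gcongr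
      _ = _ := by ring

/-- The degenerate nodes. -/
theorem bnd_deg (hΦ : IsPotential Φ) {κ' b₀ M₀ K C A : ℝ} (hg : GoodDatum f₀ κ') (hb : 0 < b₀)
    (hT : 0 ≤ Tm) (hM : 0 ≤ M₀) (hf : ∀ z, f₀ z ≤ M₀ * Real.exp (-b₀ * ‖z.2‖ ^ 2))
    (hK : 0 < K) (hC : 0 ≤ C) (hA : 0 < A) (hMC : M₀ ≤ C / K)
    {r : ℕ → ℝ} (hR : InR Φ f₀ L Tm r) (i j : ℕ) (hj : j ≤ L) (k : Bool)
    (hi : Bnd f₀ (fun ε c F => ∫⁻ T in {T | T ∈ AL Φ ε L Tm (GC.pts c : Set Ph) ∧ T.depth = i},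
      F (CTree.ext Φ ε T) (CTree.ln Φ ε T) ∂(tree (GC.inten f₀ ε) L))
      (typ M₀ b₀ K C A Tm i)) :
    Bnd f₀ (fun ε c F => ∫⁻ M in {M | M ∈ AL Φ ε L Tm (GC.pts c : Set Ph) ∧ M.depth = i},
      Gk Φ ε L Tm f₀ F (GC.pts c : Set Ph) j k (CTree.ext Φ ε M) (CTree.ln Φ ε M)
      ∂(tree (GC.inten f₀ ε) L))
      (fun F => ∫⁻ x, (ENNReal.ofReal (r j * (1 + ‖x.2.2‖)) *
        Mb b₀ K (C / K * A⁻¹ ^ i) x.1 x.2.2) * F x.1 x.2 ∂(bs Tm)) := by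
  obtain ⟨κ, h1, h2, h3⟩ := hi
  obtain ⟨η1, e1, e2, e3⟩ := bnd_deg1 (L := L) (Tm := Tm) hΦ hg hb hT hM hf κ h1 h3 j k
  obtain ⟨η2, g1, g2, g3⟩ := bnd_deg2 (Tm := Tm) hΦ hg hb hT hM hK hC hA hMC hR i j hj k
  refine ⟨fun ε => η2 ε + η1 ε, fun ε => inferInstance, fun ε hε c F hF => ?_, fun q => ?_⟩
  · have : IsFiniteMeasure (GC.inten f₀ ε) := GC.isFiniteMeasure_inten hg
    have h4 := h2 ε hε c (Gk Φ ε L Tm f₀ F (GC.pts c : Set Ph) j k) (measurable_Gk hΦ hε hF c j k)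
    beta_reduce at h4 ⊢
    refine h4.trans ?_
    rw [add_apply, lintegral_add_measure, ← add_assoc]
    exact mul_le_mul' le_rfl (add_le_add (g2 ε hε c F hF) (e2 ε hε c F hF).le)
  · have h4 : ∀ ε, ∫⁻ c, ∫⁻ x, pw q x.2.2 ∂((η2 ε + η1 ε) c) ∂(GC.PP f₀ ε) =
        (∫⁻ c, ∫⁻ x, pw q x.2.2 ∂(η2 ε c) ∂(GC.PP f₀ ε)) +
        ∫⁻ c, ∫⁻ x, pw q x.2.2 ∂(η1 ε c) ∂(GC.PP f₀ ε) := by
      intro ε
      rw [← lintegral_add_left (Measurable.lintegral_kernel (measurable_pw' q))]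
      refine lintegral_congr fun c => ?_
      rw [add_apply, lintegral_add_measure]
    simp only [h4]
    simpa using (g3 q).add (e3 q)

end Vale.Agent.P119.Cap
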