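import Vale.Agent.P119.ML.CapSplit
import Vale.Agent.P119.ML.Crude
import Vale.Agent.P119.FL.Hit

/-!
# P119, block ML (CAP0, `helper667`): the flux bound for the partner trees
-/

open MeasureTheory Filter Topology Set ProbabilityTheory
open scoped ENNReal NNReal

noncomputable section

namespace Vale.Agent.P119.Cap

open KU M PB.CT

variable {Φ : E3 → ℝ} {ε : ℝ} {L : ℕ} {Tm : ℝ} {f₀ : Ph → ℝ}

theorem pw_one (v : E3) : pw 1 v = ENNReal.ofReal (1 + ‖v‖) := by
  unfold pw; rw [pow_one]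

theorem pw_mul_one (q : ℕ) (v : E3) : pw q v * pw 1 v = pw (q + 1) v := by
  unfold pw
  rw [← ENNReal.ofReal_mul (by positivity)]
  congr 1
  ring

theorem measurable_pw (q : ℕ) : Measurable (pw q) := by
  unfold pw
  fun_prop

/-- The Gaussian moment of the relative speed. -/
theorem gauss_speed (b : ℝ) (hb : 0 < b) (v : E3) :
    ∫⁻ u : E3, ‖v - u‖ₑ * g1 b u ≤ pw 1 v * FL.I0 b := by
  have h := FL.lintegral_vel_le (b := b) v (κ := 0) (by positivity)
  simp only [zero_mul, Real.exp_zero, mul_one] at h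
  rw [pw_one]
  exact h

theorem meets_prt (k : Bool) (l l' : Ph) : Meets ε (prt k l l') ↔ Meets ε (l, l') := by
  cases k
  · exact meets_swap (l, l')
  · exact Iff.rfl

theorem hitT_prt (k : Bool) (l l' : Ph) : hitT ε (prt k l l') = hitT ε (l, l') := by
  cases k
  · exact hitT_swap (l, l')
  · rfl

/-- The pairs which start a collision in `[0, Tm]`. -/
def hs (ε Tm : ℝ) (k : Bool) (l : Ph) : Set Ph :=
  {l' | Meets ε (prt k l l') ∧ hitT ε (prt k l l') ∈ Icc 0 Tm}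

theorem measurableSet_hs (ε Tm : ℝ) (k : Bool) (l : Ph) : MeasurableSet (hs ε Tm k l) := by
  have hp : Measurable fun l' : Ph => prt k l l' :=
    (measurable_prt k).comp (measurable_const.prodMk measurable_id)
  exact (hp measurableSet_meets).inter ((measurable_hitT.comp hp) measurableSet_Icc)

theorem flux_g (hε : 0 < ε) (k : Bool) (l : Ph) {b : ℝ} (hb : 0 < b) (Tm : ℝ) :
    ∫⁻ l' : Ph, g1 b l'.2 * (hs ε Tm k l).indicator 1 l' ≤
      ENNReal.ofReal (ε ^ 2) * (ENNReal.ofReal Real.pi * (ENNReal.ofReal Tm *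
        (pw 1 l.2 * FL.I0 b))) := by
  have hgm : Measurable (g1 b) := by unfold g1; fun_prop
  have hI : Measurable ((Icc 0 Tm).indicator (1 : ℝ → ℝ≥0∞)) :=
    measurable_one.indicator measurableSet_Icc
  have h1 := FL.lintegral_hit_le hε l (G := fun τ u => (Icc 0 Tm).indicator 1 τ * g1 b u)
    (F := fun l' => g1 b l'.2 * (hs ε Tm k l).indicator 1 l')
    ((hI.comp measurable_fst).mul (hgm.comp measurable_snd)) ?_
  · refine h1.trans ?_
    have h2 : ∀ u : E3, ∫⁻ τ, (Icc 0 Tm).indicator (1 : ℝ → ℝ≥0∞) τ * g1 b u =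
        ENNReal.ofReal Tm * g1 b u := by
      intro u
      rw [lintegral_mul_const _ hI, lintegral_indicator_one measurableSet_Icc, Real.volume_Icc,
        sub_zero]
    simp only [h2]
    have h3 : ∫⁻ u : E3, ‖l.2 - u‖ₑ * (ENNReal.ofReal Tm * g1 b u) =
        ENNReal.ofReal Tm * ∫⁻ u : E3, ‖l.2 - u‖ₑ * g1 b u := by
      rw [← lintegral_const_mul' _ _ ENNReal.ofReal_ne_top]
      exact lintegral_congr fun u => by ring
    rw [h3]
    gcongr
    exact gauss_speed b hb l.2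
  · intro l' h0
    by_cases hl : l' ∈ hs ε Tm k l
    · refine ⟨(meets_prt k l l').1 hl.1, ?_⟩
      have h4 : hitT ε (l, l') ∈ Icc 0 Tm := by
        rw [← hitT_prt k l l']
        exact hl.2
      rw [indicator_of_mem hl, indicator_of_mem h4, Pi.one_apply, Pi.one_apply, mul_one, one_mul]
    · rw [indicator_of_notMem hl, mul_zero] at h0
      exact absurd rfl h0

theorem mu_mul' (hε : 0 < ε) : ENNReal.ofReal (mu ε) * ENNReal.ofReal (ε ^ 2) = 1 := by
  unfold mu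
  rw [← ENNReal.ofReal_mul (by positivity), inv_mul_cancel₀ (by positivity), ENNReal.ofReal_one]

/-- **The flux bound**: the mass of the partner trees of a line. -/
theorem flux (hΦ : IsPotential Φ) {κ b₀ M₀ : ℝ} (hg : GoodDatum f₀ κ) (hb : 0 < b₀) (hT : 0 ≤ Tm)
    (hM : 0 ≤ M₀) (hf : ∀ z, f₀ z ≤ M₀ * Real.exp (-b₀ * ‖z.2‖ ^ 2)) (L : ℕ) :
    ∃ C : ℝ≥0∞, C ≠ ∞ ∧ ∀ ε : ℝ, 0 < ε → ∀ (w : Set Ph) (j : ℕ) (k : Bool) (l : Ph),
      tree (GC.inten f₀ ε) L (PS Φ ε L Tm w j k l) ≤ C * pw 1 l.2 := by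
  obtain ⟨C, hC, h⟩ := ML.crude_tree (T₀ := Tm) hΦ hg hb hT hM hf L
  refine ⟨C * ((1 + L * ENNReal.ofReal Tm) * (ENNReal.ofReal Real.pi * (ENNReal.ofReal Tm *
    FL.I0 (b₀ / 2)))), ?_, fun ε hε w j k l => ?_⟩
  · have := FL.I0_ne_top (b := b₀ / 2) (by positivity)
    finiteness
  set S : Set Src := {σ | σ.2.1 ∈ hs ε Tm k l} with hS
  have hSm : MeasurableSet S := measurable_snd.fst (measurableSet_hs ε Tm k l)
  have h1 := h ε hε (S.indicator 1) (measurable_one.indicator hSm)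
  have hok : MeasurableSet {T | CTree.ok Φ ε T ∧ CTree.ext Φ ε T ≤ Tm} :=
    (measurableSet_ok hΦ hε.ne').inter
      (measurableSet_le (measurable_ext hΦ hε.ne') measurable_const)
  have h2 : tree (GC.inten f₀ ε) L (PS Φ ε L Tm w j k l) ≤
      ∫⁻ T in {T | CTree.ok Φ ε T ∧ CTree.ext Φ ε T ≤ Tm}, S.indicator 1 (rsrc Φ ε T)
        ∂(tree (GC.inten f₀ ε) L) := by
    have h3 : ∀ T : CTree, S.indicator (1 : Src → ℝ≥0∞) (rsrc Φ ε T) =
        ((rsrc Φ ε) ⁻¹' S).indicator 1 T := fun T => rfl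
    simp only [h3]
    rw [lintegral_indicator_one ((measurable_rsrc hΦ hε.ne') hSm),
      Measure.restrict_apply ((measurable_rsrc hΦ hε.ne') hSm)]
    refine measure_mono fun T hT => ?_
    have h4 := alive_pre hT.1
    have h5 := hT.2.2
    have h6 : hitT ε (prt k l (CTree.ln Φ ε T)) ≤ sepT Φ ε (prt k l (CTree.ln Φ ε T)) :=
      (hitT_lt_sepT hΦ hε h5.2.1 h5.1.2).le
    exact ⟨⟨h5.1, (M.ext_nonneg hΦ hε h4.ok).trans h5.2.2.1.le, h6.trans h5.2.2.2.1⟩,
      h4.ok, h5.2.2.1.le.trans (h6.trans h5.2.2.2.1)⟩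
  refine h2.trans (h1.trans ?_)
  have h7 : ∀ (s : ℝ) (l' : Ph) (d : ℕ), S.indicator (1 : Src → ℝ≥0∞) (s, l', d) =
      (hs ε Tm k l).indicator 1 l' := by
    intro s l' d
    by_cases hl : l' ∈ hs ε Tm k l
    · rw [indicator_of_mem hl, indicator_of_mem (show (s, l', d) ∈ S from hl)]
      rfl
    · rw [indicator_of_notMem hl, indicator_of_notMem (show (s, l', d) ∉ S from hl)]
  simp only [h7]
  set X := ∫⁻ l' : Ph, g1 (b₀ / 2) l'.2 * (hs ε Tm k l).indicator 1 l' with hX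
  rw [Finset.sum_const, Nat.card_Icc, Nat.add_sub_cancel, lintegral_const,
    Measure.restrict_apply MeasurableSet.univ, univ_inter, Real.volume_Icc, sub_zero, nsmul_eq_mul]
  have h8 := flux_g hε k l (b := b₀ / 2) (by positivity) Tm
  rw [← hX] at h8
  calc ENNReal.ofReal (mu ε) * (C * (X + L * (X * ENNReal.ofReal Tm)))
      = ENNReal.ofReal (mu ε) * X * (C * (1 + L * ENNReal.ofReal Tm)) := by ring
    _ ≤ ENNReal.ofReal (mu ε) * (ENNReal.ofReal (ε ^ 2) * (ENNReal.ofReal Real.pi *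
        (ENNReal.ofReal Tm * (pw 1 l.2 * FL.I0 (b₀ / 2))))) * (C * (1 + L * ENNReal.ofReal Tm)) := by
        gcongr
    _ = (ENNReal.ofReal (mu ε) * ENNReal.ofReal (ε ^ 2)) * (C * ((1 + L * ENNReal.ofReal Tm) *
        (ENNReal.ofReal Real.pi * (ENNReal.ofReal Tm * FL.I0 (b₀ / 2)))) * pw 1 l.2) := by ring
    _ = _ := by rw [mu_mul' hε, one_mul]

end Vale.Agent.P119.Cap
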