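import Vale.Agent.P119.ML.CapSup

/-!
# P119, block ML (CAP0, `helper667`): kernels, negligible kernels, bounds up to negligible kernels
-/

open MeasureTheory Filter Topology Set ProbabilityTheory
open scoped ENNReal NNReal

noncomputable section

namespace Vale.Agent.P119.Cap

open KU M PB.CT

variable {Φ : E3 → ℝ} {ε : ℝ} {L : ℕ} {Tm : ℝ} {f₀ : Ph → ℝ}

theorem exists_kernel {α β γ : Type*} [MeasurableSpace α] [MeasurableSpace β] [MeasurableSpace γ]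
    (κ : Kernel α β) [IsSFiniteKernel κ] {f : α → β → ℝ≥0∞} (hf : Measurable (Function.uncurry f))
    {g : β → γ} (hg : Measurable g) :
    ∃ η : Kernel α γ, IsSFiniteKernel η ∧ ∀ a, ∀ F : γ → ℝ≥0∞, Measurable F →
      ∫⁻ x, F x ∂(η a) = ∫⁻ b, f a b * F (g b) ∂(κ a) := by
  refine ⟨(densK κ f).map g, inferInstance, fun a F hF => ?_⟩
  rw [Kernel.map_apply _ hg, lintegral_map hF hg]
  exact lintegral_densK κ hf a (hF.comp hg)

theorem exists_kernel_comp {α β δ γ : Type*} [MeasurableSpace α] [MeasurableSpace β]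
    [MeasurableSpace γ] [MeasurableSpace δ] (κ : Kernel α β) [IsSFiniteKernel κ] (ρ : Measure δ)
    [SFinite ρ] {f : α → β → δ → ℝ≥0∞} (hf : Measurable fun p : α × β × δ => f p.1 p.2.1 p.2.2)
    {g : β × δ → γ} (hg : Measurable g) :
    ∃ η : Kernel α γ, IsSFiniteKernel η ∧ ∀ a, ∀ F : γ → ℝ≥0∞, Measurable F →
      ∫⁻ x, F x ∂(η a) = ∫⁻ b, ∫⁻ y, f a b y * F (g (b, y)) ∂ρ ∂(κ a) := by
  obtain ⟨η, h1, h2⟩ := exists_kernel (κ ×ₖ Kernel.const α ρ)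
    (f := fun a (p : β × δ) => f a p.1 p.2) hf hg
  refine ⟨η, h1, fun a F hF => ?_⟩
  rw [h2 a F hF, Kernel.prod_apply, Kernel.const_apply, lintegral_prod]
  have h3 : Measurable fun p : β × δ => f a p.1 p.2 :=
    hf.comp (measurable_const.prodMk measurable_id)
  exact (h3.mul (hF.comp hg)).aemeasurable

/-- The base measure. -/
def bs (Tm : ℝ) : Measure (ℝ × Ph) := (volume.restrict (Icc 0 Tm)).prod volume

instance instSFiniteBs : SFinite (bs Tm) := by unfold bs; infer_instance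

theorem lintegral_bs {f : ℝ × Ph → ℝ≥0∞} (hf : Measurable f) :
    ∫⁻ x, f x ∂(bs Tm) = ∫⁻ l : Ph, ∫⁻ b in Icc 0 Tm, f (b, l) := by
  unfold bs
  exact lintegral_prod_symm _ hf.aemeasurable

/-- Negligible kernels. -/
def Ng (f₀ : Ph → ℝ) (κ : ℝ → Kernel (GC.Conf Ph) (ℝ × Ph)) : Prop :=
  ∀ q : ℕ, Tendsto (fun ε => ∫⁻ c, ∫⁻ x, pw q x.2.2 ∂(κ ε c) ∂(GC.PP f₀ ε)) (𝓝[>] 0) (𝓝 0)

theorem measurable_pw' (q : ℕ) : Measurable fun x : ℝ × Ph => pw q x.2.2 :=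
  (measurable_pw q).comp measurable_snd.snd

/-- A family of functionals is bounded by a deterministic functional, up to a negligible kernel. -/
def Bnd (f₀ : Ph → ℝ) (X : ℝ → GC.Conf Ph → (ℝ → Ph → ℝ≥0∞) → ℝ≥0∞)
    (Y : (ℝ → Ph → ℝ≥0∞) → ℝ≥0∞) : Prop :=
  ∃ κ : ℝ → Kernel (GC.Conf Ph) (ℝ × Ph), (∀ ε, IsSFiniteKernel (κ ε)) ∧
    (∀ ε, 0 < ε → ∀ c, ∀ F : ℝ → Ph → ℝ≥0∞, Measurable (Function.uncurry F) →
      X ε c F ≤ ENNReal.ofReal (mu ε) * (Y F + ∫⁻ x, F x.1 x.2 ∂(κ ε c))) ∧ Ng f₀ κ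

theorem Bnd.mono {X X' : ℝ → GC.Conf Ph → (ℝ → Ph → ℝ≥0∞) → ℝ≥0∞}
    {Y Y' : (ℝ → Ph → ℝ≥0∞) → ℝ≥0∞} (h : Bnd f₀ X Y)
    (hX : ∀ ε, 0 < ε → ∀ c, ∀ F : ℝ → Ph → ℝ≥0∞, Measurable (Function.uncurry F) →
      X' ε c F ≤ X ε c F)
    (hY : ∀ F : ℝ → Ph → ℝ≥0∞, Measurable (Function.uncurry F) → Y F ≤ Y' F) : Bnd f₀ X' Y' := by
  obtain ⟨κ, h1, h2, h3⟩ := h
  refine ⟨κ, h1, fun ε hε c F hF => (hX ε hε c F hF).trans ((h2 ε hε c F hF).trans ?_), h3⟩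
  gcongr
  exact hY F hF

theorem Bnd.add {X X' : ℝ → GC.Conf Ph → (ℝ → Ph → ℝ≥0∞) → ℝ≥0∞}
    {Y Y' : (ℝ → Ph → ℝ≥0∞) → ℝ≥0∞} (h : Bnd f₀ X Y) (h' : Bnd f₀ X' Y') :
    Bnd f₀ (fun ε c F => X ε c F + X' ε c F) (fun F => Y F + Y' F) := by
  obtain ⟨κ, h1, h2, h3⟩ := h
  obtain ⟨κ', h1', h2', h3'⟩ := h'
  refine ⟨fun ε => κ ε + κ' ε, fun ε => inferInstance, fun ε hε c F hF => ?_, fun q => ?_⟩
  · refine (add_le_add (h2 ε hε c F hF) (h2' ε hε c F hF)).trans (le_of_eq ?_)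
    beta_reduce
    rw [add_apply, lintegral_add_measure]
    ring
  · have h4 : ∀ ε, ∫⁻ c, ∫⁻ x, pw q x.2.2 ∂((κ ε + κ' ε) c) ∂(GC.PP f₀ ε) =
        (∫⁻ c, ∫⁻ x, pw q x.2.2 ∂(κ ε c) ∂(GC.PP f₀ ε)) +
        ∫⁻ c, ∫⁻ x, pw q x.2.2 ∂(κ' ε c) ∂(GC.PP f₀ ε) := by
      intro ε
      rw [← lintegral_add_left (Measurable.lintegral_kernel (measurable_pw' q))]
      refine lintegral_congr fun c => ?_
      rw [add_apply, lintegral_add_measure]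
    simp only [h4]
    simpa using (h3 q).add (h3' q)

theorem Bnd.zero : Bnd f₀ (fun _ _ _ => 0) (fun _ => 0) := by
  refine ⟨fun _ => 0, fun _ => inferInstance, fun ε hε c F hF => zero_le, fun q => ?_⟩
  simp

theorem Bnd.sum {ι : Type*} (s : Finset ι) {X : ι → ℝ → GC.Conf Ph → (ℝ → Ph → ℝ≥0∞) → ℝ≥0∞}
    {Y : ι → (ℝ → Ph → ℝ≥0∞) → ℝ≥0∞} (h : ∀ i ∈ s, Bnd f₀ (X i) (Y i)) :
    Bnd f₀ (fun ε c F => ∑ i ∈ s, X i ε c F) (fun F => ∑ i ∈ s, Y i F) := by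
  classical
  induction s using Finset.induction_on with
  | empty => simpa using Bnd.zero
  | insert a s ha ih =>
    have h1 := (h a (Finset.mem_insert_self a s)).add
      (ih fun i hi => h i (Finset.mem_insert_of_mem hi))
    refine h1.mono (fun ε _ c F _ => ?_) fun F _ => ?_
    · rw [Finset.sum_insert ha]
    · rw [Finset.sum_insert ha]

end Vale.Agent.P119.Cap
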