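import Vale.Agent.P119.KU.Scat11
import Vale.Agent.P119.KU.Scat8

/-!
# P119, block ML (CAP0, `helper667`): the node formula

`inc Φ ε l b u ρ` is the incoming pair of lines of a node whose root leaves the collision at the
time `b` on the line `l`, while the exhaust has velocity `u` and impact vector `ρ`.
`nodeI Φ ε H b l` is the integral of `H` over the incoming pairs of such nodes.
-/

open MeasureTheory Filter Topology Set ProbabilityTheory
open scoped ENNReal NNReal RealInnerProductSpace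

noncomputable section

namespace Vale.Agent.P119.Cap

open KU

variable {Φ : E3 → ℝ} {ε : ℝ}

/-- The incoming pair of a node with outgoing line `l`, exit time `b`, exhaust `(u, ρ)`. -/
def inc (Φ : E3 → ℝ) (ε : ℝ) (l : Ph) (b : ℝ) (u ρ : E3) : Ph × Ph :=
  sc2inv Φ ε (l, partner ε l u (b - ε * half (ρ, l.2 - u)) ρ)

/-- The integral over the incoming pairs. -/
def nodeI (Φ : E3 → ℝ) (ε : ℝ) (H : Ph × Ph → ℝ≥0∞) (b : ℝ) (l : Ph) : ℝ≥0∞ :=
  ∫⁻ u : E3, ‖l.2 - u‖ₑ * ∫⁻ ρ, H (inc Φ ε l b u ρ) ∂(kappa (l.2 - u))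

/-- The exit time in terms of the outgoing pair. -/
def outT (ε : ℝ) (q : Ph × Ph) : ℝ := ε * (-crd (rel ε q) + half (rel ε q))

theorem measurable_outT : Measurable (outT ε) := by
  unfold outT
  have h := (continuous_rel (ε := ε)).measurable
  exact ((measurable_crd.comp h).neg.add (measurable_half.comp h)).const_mul ε

theorem outT_sc2 (hΦ : IsPotential Φ) (hε : ε ≠ 0) (q : Ph × Ph) :
    outT ε (sc2 Φ ε q) = sepT Φ ε q := by
  unfold outT sepT tout
  rw [rel_sc2 hε, half_scat hΦ]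

theorem outT_partner (hε : ε ≠ 0) (l : Ph) {u : E3} (hu : l.2 - u ≠ 0) (s : ℝ) {ρ : E3}
    (hρ : (inner ℝ ρ (l.2 - u) : ℝ) = 0) :
    outT ε (l, partner ε l u s ρ) = s + ε * half (ρ, l.2 - u) := by
  unfold outT
  rw [crd_rel_partner hε l hu s hρ, rel_partner hε, half_free, neg_neg, mul_add,
    mul_div_cancel₀ _ hε]

theorem measurable_inc (hΦ : IsPotential Φ) (hε : ε ≠ 0) :
    Measurable (fun x : Ph × ℝ × E3 × E3 => inc Φ ε x.1 x.2.1 x.2.2.1 x.2.2.2) := by
  unfold inc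
  refine (measurable_sc2inv hΦ hε).comp (measurable_fst.prodMk ?_)
  unfold partner
  have h1 : Measurable (fun x : Ph × ℝ × E3 × E3 =>
      x.2.1 - ε * half (x.2.2.2, x.1.2 - x.2.2.1)) := by
    refine (measurable_fst.comp measurable_snd).sub (Measurable.const_mul ?_ ε)
    refine measurable_half.comp ?_
    fun_prop
  have h2 : Measurable (fun x : Ph × ℝ × E3 × E3 => x.1.1) := by fun_prop
  have h3 : Measurable (fun x : Ph × ℝ × E3 × E3 => x.1.2 - x.2.2.1) := by fun_prop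
  have h4 : Measurable (fun x : Ph × ℝ × E3 × E3 => x.2.2.2) := by fun_prop
  have h5 : Measurable (fun x : Ph × ℝ × E3 × E3 => x.2.2.1) := by fun_prop
  exact ((h2.add (h1.smul h3)).sub (h4.const_smul ε)).prodMk h5

theorem inc_def (l : Ph) (b : ℝ) (u ρ : E3) : inc Φ ε l b u ρ =
    sc2inv Φ ε (l, partner ε l u (b - ε * half (ρ, l.2 - u)) ρ) := rfl

attribute [irreducible] inc

/-- Measurability of the node integral with parameters. -/
theorem measurable_nodeI {X : Type*} [MeasurableSpace X] (hΦ : IsPotential Φ) (hε : ε ≠ 0)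
    {H : X → ℝ → Ph → Ph × Ph → ℝ≥0∞}
    (hH : Measurable (fun p : (X × ℝ × Ph) × (Ph × Ph) => H p.1.1 p.1.2.1 p.1.2.2 p.2)) :
    Measurable (fun p : X × ℝ × Ph => nodeI Φ ε (H p.1 p.2.1 p.2.2) p.2.1 p.2.2) := by
  unfold nodeI
  have hinc : Measurable (fun x : ((X × ℝ × Ph) × E3) × E3 =>
      inc Φ ε x.1.1.2.2 x.1.1.2.1 x.1.2 x.2) := by
    have h := measurable_inc hΦ hε
    have h' : Measurable (fun x : ((X × ℝ × Ph) × E3) × E3 =>
        ((x.1.1.2.2, x.1.1.2.1, x.1.2, x.2) : Ph × ℝ × E3 × E3)) := by fun_prop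
    exact h.comp h'
  have h1 : Measurable (fun x : ((X × ℝ × Ph) × E3) × E3 =>
      H x.1.1.1 x.1.1.2.1 x.1.1.2.2 (inc Φ ε x.1.1.2.2 x.1.1.2.1 x.1.2 x.2)) := by
    have h' : Measurable (fun x : ((X × ℝ × Ph) × E3) × E3 =>
        ((x.1.1, inc Φ ε x.1.1.2.2 x.1.1.2.1 x.1.2 x.2) : (X × ℝ × Ph) × (Ph × Ph))) :=
      (measurable_fst.comp measurable_fst).prodMk hinc
    exact hH.comp h'
  have h2 := h1.lintegral_kernel_prod_right'
    (κ := kappa.comap (fun q : (X × ℝ × Ph) × E3 => q.1.2.2.2 - q.2) (by fun_prop))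
  simp_rw [Kernel.comap_apply] at h2
  have h3 : Measurable (fun q : (X × ℝ × Ph) × E3 => ‖q.1.2.2.2 - q.2‖ₑ) := by fun_prop
  exact (h3.mul h2).lintegral_prod_right'

theorem nodeI_def (H : Ph × Ph → ℝ≥0∞) (b : ℝ) (l : Ph) : nodeI Φ ε H b l =
    ∫⁻ u : E3, ‖l.2 - u‖ₑ * ∫⁻ ρ, H (inc Φ ε l b u ρ) ∂(kappa (l.2 - u)) := rfl

theorem nodeI_mono {H H' : Ph × Ph → ℝ≥0∞} (h : ∀ q, H q ≤ H' q) (b : ℝ) (l : Ph) :
    nodeI Φ ε H b l ≤ nodeI Φ ε H' b l := by
  unfold nodeI
  gcongr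
  exact h _

attribute [irreducible] nodeI

theorem kernel_swap {G : ℝ → E3 → ℝ≥0∞} (hG : Measurable (fun p : ℝ × E3 => G p.1 p.2)) (V : E3) :
    ∫⁻ s : ℝ, ∫⁻ ρ, G s ρ ∂(kappa V) = ∫⁻ ρ, (∫⁻ s : ℝ, G s ρ) ∂(kappa V) :=
  lintegral_lintegral_swap hG.aemeasurable

/-- **The node formula**: integrals over the colliding pairs in terms of the outgoing line, the exit
time, and the exhaust. -/
theorem node_formula (hΦ : IsPotential Φ) (hε : 0 < ε) {H : ℝ → Ph → Ph × Ph → ℝ≥0∞}
    (hH : Measurable (fun p : ℝ × Ph × (Ph × Ph) => H p.1 p.2.1 p.2.2)) :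
    ∫⁻ q in {q : Ph × Ph | Meets ε q}, H (sepT Φ ε q) (sc2 Φ ε q).1 q =
      ENNReal.ofReal (ε ^ 2) * ∫⁻ l : Ph, ∫⁻ b : ℝ, nodeI Φ ε (H b l) b l := by
  have hε0 : ε ≠ 0 := hε.ne'
  have hm : MeasurableSet {q : Ph × Ph | Meets ε q} := measurableSet_meets
  have h1 : ∫⁻ q in {q : Ph × Ph | Meets ε q}, H (sepT Φ ε q) (sc2 Φ ε q).1 q =
      ∫⁻ q in {q : Ph × Ph | Meets ε q}, H (outT ε q) q.1 (sc2inv Φ ε q) := by
    have hF : Measurable (fun q : (Ph × Ph) × (Ph × Ph) => H (outT ε q.2) q.2.1 q.1) := by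
      have h' : Measurable (fun q : (Ph × Ph) × (Ph × Ph) =>
          ((outT ε q.2, q.2.1, q.1) : ℝ × Ph × (Ph × Ph))) :=
        (measurable_outT.comp measurable_snd).prodMk
          ((measurable_fst.comp measurable_snd).prodMk measurable_fst)
      exact hH.comp h'
    have h2 := lintegral_sc2 hΦ hε0 (F := fun q q' => H (outT ε q') q'.1 q) hF
    simp only [outT_sc2 hΦ hε0] at h2
    exact h2
  rw [h1, ← lintegral_indicator hm, Measure.volume_eq_prod]
  have hG : Measurable (fun q : Ph × Ph => H (outT ε q) q.1 (sc2inv Φ ε q)) := by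
    have h' := (measurable_outT (ε := ε)).prodMk
      ((measurable_fst (α := Ph) (β := Ph)).prodMk (measurable_sc2inv hΦ hε0))
    have h'' := hH.comp h'
    simp only [Function.comp_def] at h''
    exact h''
  rw [lintegral_prod _ (hG.indicator hm).aemeasurable]
  have hN : Measurable (fun p : ℝ × Ph => nodeI Φ ε (H p.1 p.2) p.1 p.2) := by
    have h := measurable_nodeI (X := Unit) hΦ hε0 (H := fun _ b l q => H b l q) (by
      have h' : Measurable (fun p : (Unit × ℝ × Ph) × (Ph × Ph) =>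
        ((p.1.2.1, p.1.2.2, p.2) : ℝ × Ph × (Ph × Ph))) := by fun_prop
      exact hH.comp h')
    have h' : Measurable (fun p : ℝ × Ph => (((), p.1, p.2) : Unit × ℝ × Ph)) := by fun_prop
    exact h.comp h'
  rw [← lintegral_const_mul _ (by
    have h' : Measurable (fun p : Ph × ℝ => nodeI Φ ε (H p.2 p.1) p.2 p.1) :=
      hN.comp (measurable_snd.prodMk measurable_fst)
    exact h'.lintegral_prod_right')]
  refine lintegral_congr fun l => ?_
  have hGl : Measurable (fun e : Ph => H (outT ε (l, e)) l (sc2inv Φ ε (l, e))) :=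
    hG.comp measurable_prodMk_left
  have h3 : ∫⁻ e : Ph, {q : Ph × Ph | Meets ε q}.indicator
      (fun q => H (outT ε q) q.1 (sc2inv Φ ε q)) (l, e) =
      ∫⁻ e in {e : Ph | Meets ε (l, e)}, H (outT ε (l, e)) l (sc2inv Φ ε (l, e)) := by
    have hme : MeasurableSet {e : Ph | Meets ε (l, e)} :=
      measurable_prodMk_left measurableSet_meets
    rw [← lintegral_indicator hme]
    rfl
  rw [h3, lintegral_partner hε l hGl]
  congr 1
  -- shift of the time
  have hne : ∀ᵐ u : E3, l.2 - u ≠ 0 := by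
    have h0 : (volume : Measure E3) {l.2} = 0 := measure_singleton _
    have h1 : ∀ᵐ u : E3, u ∉ ({l.2} : Set E3) := measure_eq_zero_iff_ae_notMem.1 h0
    filter_upwards [h1] with u hu h
    exact hu (sub_eq_zero.1 h).symm
  have hHi : Measurable (fun x : (ℝ × E3) × E3 => H x.1.1 l (inc Φ ε l x.1.1 x.1.2 x.2)) := by
    have h := measurable_inc (Φ := Φ) (ε := ε) hΦ hε0
    have h' : Measurable (fun x : (ℝ × E3) × E3 => ((l, x.1.1, x.1.2, x.2) : Ph × ℝ × E3 × E3)) := by
      fun_prop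
    have h'' : Measurable (fun x : (ℝ × E3) × E3 =>
        ((x.1.1, l, inc Φ ε l x.1.1 x.1.2 x.2) : ℝ × Ph × (Ph × Ph))) :=
      (measurable_fst.comp measurable_fst).prodMk (measurable_const.prodMk (h.comp h'))
    exact hH.comp h''
  have h4 : ∫⁻ b : ℝ, nodeI Φ ε (H b l) b l = ∫⁻ u : E3, ‖l.2 - u‖ₑ *
      ∫⁻ b : ℝ, ∫⁻ ρ, H b l (inc Φ ε l b u ρ) ∂(kappa (l.2 - u)) := by
    simp only [nodeI_def]
    have h5 := hHi.lintegral_kernel_prod_right'
      (κ := kappa.comap (fun q : ℝ × E3 => l.2 - q.2) (by fun_prop))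
    simp_rw [Kernel.comap_apply] at h5
    have h6 : Measurable (fun q : ℝ × E3 => ‖l.2 - q.2‖ₑ) := by fun_prop
    rw [lintegral_lintegral_swap (h6.mul h5).aemeasurable]
    refine lintegral_congr fun u => ?_
    have h7 := h5.comp (measurable_prodMk_right (α := ℝ) (y := u))
    simp only [Function.comp_def] at h7
    exact lintegral_const_mul _ h7
  rw [h4]
  refine lintegral_congr_ae ?_
  filter_upwards [hne] with u hu
  congr 1
  have hs1 : Measurable (fun p : ℝ × E3 => H p.1 l (inc Φ ε l p.1 u p.2)) := by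
    have h' : Measurable (fun p : ℝ × E3 => (((p.1, u), p.2) : (ℝ × E3) × E3)) := by fun_prop
    exact hHi.comp h'
  have hs2 : Measurable (fun p : ℝ × E3 => H (outT ε (l, partner ε l u p.1 p.2)) l
      (sc2inv Φ ε (l, partner ε l u p.1 p.2))) := by
    have h' : Measurable (fun p : ℝ × E3 => partner ε l u p.1 p.2) := by unfold partner; fun_prop
    exact hGl.comp h'
  rw [kernel_swap hs2, kernel_swap hs1]
  refine lintegral_congr_ae ?_
  filter_upwards [ae_inner_kappa (l.2 - u)] with ρ hρ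
  have h5 : ∀ s : ℝ, H (outT ε (l, partner ε l u s ρ)) l (sc2inv Φ ε (l, partner ε l u s ρ)) =
      (fun b => H b l (inc Φ ε l b u ρ)) (s + ε * half (ρ, l.2 - u)) := by
    intro s
    simp only
    rw [outT_partner hε0 l hu s hρ.1, inc_def, add_sub_cancel_right]
  simp_rw [h5]
  exact lintegral_add_right_eq_self (fun b => H b l (inc Φ ε l b u ρ)) (ε * half (ρ, l.2 - u))

/-! ### Properties of the incoming pairs -/

end Vale.Agent.P119.Cap
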