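import Vale.Agent.P119.ML.CapKern

/-!
# P119, block ML (CAP0, `helper667`): the three contributions to the law of the next root line
-/

open MeasureTheory Filter Topology Set ProbabilityTheory
open scoped ENNReal NNReal

noncomputable section

namespace Vale.Agent.P119.Cap

open KU M PB.CT

variable {Φ : E3 → ℝ} {ε : ℝ} {L : ℕ} {Tm : ℝ} {f₀ : Ph → ℝ}

theorem weight_bound {b₀ K Tm : ℝ} (hb : 0 < b₀) (hK : 0 ≤ K) (hT : 0 ≤ Tm) (q : ℕ) :
    ∃ Cw : ℝ, 0 ≤ Cw ∧ ∀ v : E3, ∀ t ∈ Icc 0 Tm,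
      (1 + ‖v‖) ^ q * Ea b₀ K t v ≤ Cw * Real.exp (-(b₀ / 2) * ‖v‖ ^ 2) := by
  set M : ℝ := 1 + K * Tm with hM
  have hM0 : 0 ≤ M := by positivity
  refine ⟨q.factorial * Real.exp (M + M ^ 2 / (2 * b₀)), by positivity, fun v t ht => ?_⟩
  set x := ‖v‖ with hx
  have hx0 : 0 ≤ x := norm_nonneg v
  have h1 : (1 + x) ^ q ≤ q.factorial * Real.exp (1 + x) := by
    have h2 := Real.pow_div_factorial_le_exp (1 + x) (by positivity) q
    rw [div_le_iff₀ (by positivity)] at h2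
    linarith
  have h3 : K * (1 + x) * t ≤ K * (1 + x) * Tm := by
    have := ht.2
    gcongr
  have h4 : M * x ≤ b₀ / 2 * x ^ 2 + M ^ 2 / (2 * b₀) := by
    have h5 : 0 ≤ (b₀ * x - M) ^ 2 / (2 * b₀) := by positivity
    have h6 : (b₀ * x - M) ^ 2 / (2 * b₀) = b₀ / 2 * x ^ 2 - M * x + M ^ 2 / (2 * b₀) := by
      field_simp
      ring
    linarith
  have h7 : 1 + x + K * (1 + x) * Tm = M + M * x := by rw [hM]; ring
  have key : 1 + x + (-b₀ * x ^ 2 + K * (1 + x) * t) ≤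
      M + M ^ 2 / (2 * b₀) + -(b₀ / 2) * x ^ 2 := by linarith
  unfold Ea
  rw [← hx]
  calc (1 + x) ^ q * Real.exp (-b₀ * x ^ 2 + K * (1 + x) * t)
      ≤ q.factorial * Real.exp (1 + x) * Real.exp (-b₀ * x ^ 2 + K * (1 + x) * t) :=
        mul_le_mul_of_nonneg_right h1 (Real.exp_pos _).le
    _ = q.factorial * Real.exp (1 + x + (-b₀ * x ^ 2 + K * (1 + x) * t)) := by
        rw [mul_assoc, ← Real.exp_add]
    _ ≤ q.factorial * Real.exp (M + M ^ 2 / (2 * b₀) + -(b₀ / 2) * x ^ 2) :=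
        mul_le_mul_of_nonneg_left (Real.exp_le_exp.2 key) (by positivity)
    _ = _ := by rw [Real.exp_add]; ring

theorem pw_Mb_le {b₀ K Tm : ℝ} (hb : 0 < b₀) (hK : 0 ≤ K) (hT : 0 ≤ Tm) {a : ℝ} (ha : 0 ≤ a)
    (q : ℕ) : ∃ Cw : ℝ≥0∞, Cw ≠ ∞ ∧ ∀ v : E3, ∀ t ∈ Icc 0 Tm,
      pw q v * Mb b₀ K a t v ≤ Cw * ENNReal.ofReal (Real.exp (-(b₀ / 2) * ‖v‖ ^ 2)) := by
  obtain ⟨Cw, h0, h1⟩ := weight_bound hb hK hT q
  refine ⟨ENNReal.ofReal (a * Cw), ENNReal.ofReal_ne_top, fun v t ht => ?_⟩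
  unfold pw Mb
  rw [← ENNReal.ofReal_mul (by positivity), ← ENNReal.ofReal_mul (by positivity)]
  apply ENNReal.ofReal_le_ofReal
  have h2 := h1 v t ht
  calc (1 + ‖v‖) ^ q * (a * Ea b₀ K t v) = a * ((1 + ‖v‖) ^ q * Ea b₀ K t v) := by ring
    _ ≤ a * (Cw * Real.exp (-(b₀ / 2) * ‖v‖ ^ 2)) := by gcongr
    _ = _ := by ring

/-- A family of kernels from existence for every `ε > 0`. -/
theorem exists_family {α β : Type*} [MeasurableSpace α] [MeasurableSpace β]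
    {P : ℝ → Kernel α β → Prop} (h : ∀ ε, 0 < ε → ∃ κ, IsSFiniteKernel κ ∧ P ε κ) :
    ∃ κ : ℝ → Kernel α β, (∀ ε, IsSFiniteKernel (κ ε)) ∧ ∀ ε, 0 < ε → P ε (κ ε) := by
  classical
  have h1 : ∀ ε, ∃ κ : Kernel α β, IsSFiniteKernel κ ∧ (0 < ε → P ε κ) := by
    intro ε
    by_cases hε : 0 < ε
    · obtain ⟨κ, h2, h3⟩ := h ε hε
      exact ⟨κ, h2, fun _ => h3⟩
    · exact ⟨0, inferInstance, fun h' => absurd h' hε⟩
  choose κ h2 h3 using h1
  exact ⟨κ, h2, h3⟩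

theorem mu_ne_zero (hε : 0 < ε) : ENNReal.ofReal (mu ε) ≠ 0 := by
  intro h
  have := mu_mul' hε
  rw [h, zero_mul] at this
  exact zero_ne_one this

theorem mu_inv (hε : 0 < ε) : ENNReal.ofReal (mu ε) * (ENNReal.ofReal (mu ε))⁻¹ = 1 :=
  ENNReal.mul_inv_cancel (mu_ne_zero hε) ENNReal.ofReal_ne_top

theorem measurable_extln (hΦ : IsPotential Φ) (hε : ε ≠ 0) :
    Measurable fun T : CTree => (CTree.ext Φ ε T, CTree.ln Φ ε T) :=
  (measurable_ext hΦ hε).prodMk (measurable_ln hΦ hε)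

/-- A family of sets of trees with a negligible law. -/
theorem bnd_set {ν : ℝ → Measure CTree} (hν : ∀ ε, 0 < ε → SFinite (ν ε))
    {S : ℝ → Set (GC.Conf Ph × CTree)} (hS : ∀ ε, 0 < ε → MeasurableSet (S ε))
    {e : ℝ → CTree → ℝ × Ph} (he : ∀ ε, 0 < ε → Measurable (e ε))
    (hlim : ∀ q : ℕ, Tendsto (fun ε => (ENNReal.ofReal (mu ε))⁻¹ * ∫⁻ c,
      ∫⁻ T in {T | (c, T) ∈ S ε}, pw q (e ε T).2.2 ∂(ν ε) ∂(GC.PP f₀ ε)) (𝓝[>] 0) (𝓝 0)) :
    Bnd f₀ (fun ε c F => ∫⁻ T in {T | (c, T) ∈ S ε}, F (e ε T).1 (e ε T).2 ∂(ν ε))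
      (fun _ => 0) := by
  have h1 : ∀ ε, 0 < ε → ∃ η : Kernel (GC.Conf Ph) (ℝ × Ph), IsSFiniteKernel η ∧
      ∀ c, ∀ F : ℝ × Ph → ℝ≥0∞, Measurable F → ∫⁻ x, F x ∂(η c) =
        (ENNReal.ofReal (mu ε))⁻¹ * ∫⁻ T in {T | (c, T) ∈ S ε}, F (e ε T) ∂(ν ε) := by
    intro ε hε
    have := hν ε hε
    have hd : Measurable fun p : GC.Conf Ph × CTree =>
        (S ε).indicator (fun _ => (ENNReal.ofReal (mu ε))⁻¹) p :=
      measurable_const.indicator (hS ε hε)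
    obtain ⟨η, h2, h3⟩ := exists_kernel (Kernel.const (GC.Conf Ph) (ν ε))
      (f := fun c T => (S ε).indicator (fun _ => (ENNReal.ofReal (mu ε))⁻¹) (c, T)) hd (he ε hε)
    refine ⟨η, h2, fun c F hF => ?_⟩
    have hFm : Measurable fun T : CTree => F (e ε T) := hF.comp (he ε hε)
    have hSc : MeasurableSet {T : CTree | (c, T) ∈ S ε} :=
      (measurable_const.prodMk measurable_id) (hS ε hε)
    rw [h3 c F hF, Kernel.const_apply, ← lintegral_indicator hSc,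
      ← lintegral_const_mul _ (hFm.indicator hSc)]
    refine lintegral_congr fun T => ?_
    by_cases hT : (c, T) ∈ S ε
    · rw [indicator_of_mem (show T ∈ {T | (c, T) ∈ S ε} from hT), indicator_of_mem hT]
    · rw [indicator_of_notMem (show T ∉ {T | (c, T) ∈ S ε} from hT), indicator_of_notMem hT,
        zero_mul, mul_zero]
  obtain ⟨η, h2, h3⟩ := exists_family (P := fun ε η => ∀ c, ∀ F : ℝ × Ph → ℝ≥0∞, Measurable F →
      ∫⁻ x, F x ∂(η c) = (ENNReal.ofReal (mu ε))⁻¹ *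
          ∫⁻ T in {T | (c, T) ∈ S ε}, F (e ε T) ∂(ν ε)) h1
  refine ⟨η, h2, fun ε hε c F hF => ?_, fun q => ?_⟩
  · have h4 := h3 ε hε c (fun x => F x.1 x.2) hF
    beta_reduce at h4 ⊢
    rw [h4, zero_add, ← mul_assoc, mu_inv hε, one_mul]
  · refine Tendsto.congr' ?_ (hlim q)
    filter_upwards [self_mem_nhdsWithin] with ε hε
    have h4 : ∀ c, ∫⁻ x, pw q x.2.2 ∂(η ε c) = _ := fun c => h3 ε hε c _ (measurable_pw' q)
    simp only [h4]
    rw [← lintegral_const_mul' _ _ (ENNReal.inv_ne_top.2 (mu_ne_zero hε))]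

theorem measurableSet_I1d (hΦ : IsPotential Φ) (hε : 0 < ε) (d : ℕ) :
    MeasurableSet {p : GC.Conf Ph × CTree |
      p.2 ∈ I1 Φ ε L Tm (GC.pts p.1 : Set Ph) ∧ p.2.depth = d} :=
  (measurableSet_I1 (c := fun p : GC.Conf Ph × CTree => p.1) (T := fun p => p.2) hΦ hε
    measurable_fst measurable_snd).inter ((measurable_depth.comp measurable_snd)
      (measurableSet_singleton d))

/-- The coincidences (I1) are negligible. -/
theorem bnd_I1 (hΦ : IsPotential Φ) {κ : ℝ} (hg : GoodDatum f₀ κ) (h : InI1 Φ f₀ L Tm) (d : ℕ) :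
    Bnd f₀ (fun ε c F => ∫⁻ T in {T | T ∈ I1 Φ ε L Tm (GC.pts c : Set Ph) ∧ T.depth = d},
      F (CTree.ext Φ ε T) (CTree.ln Φ ε T) ∂(tree (GC.inten f₀ ε) L)) (fun _ => 0) := by
  have h1 := bnd_set (f₀ := f₀) (ν := fun ε => tree (GC.inten f₀ ε) L)
    (fun ε hε => by
      have : IsFiniteMeasure (GC.inten f₀ ε) := GC.isFiniteMeasure_inten hg
      infer_instance)
    (S := fun ε => {p : GC.Conf Ph × CTree |
      p.2 ∈ I1 Φ ε L Tm (GC.pts p.1 : Set Ph) ∧ p.2.depth = d})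
    (fun ε hε => measurableSet_I1d hΦ hε d)
    (e := fun ε T => (CTree.ext Φ ε T, CTree.ln Φ ε T)) (fun ε hε => measurable_extln hΦ hε.ne')
    (fun q => ?_)
  · exact h1
  · refine tendsto_of_tendsto_of_tendsto_of_le_of_le' tendsto_const_nhds (h q)
      (Eventually.of_forall fun _ => zero_le) (Eventually.of_forall fun ε => ?_)
    gcongr with c
    exact fun T hT => hT.1

/-- The nondegenerate nodes. -/
theorem bnd_Nd {n : ℕ → ℝ} {b₀ : ℝ} (h : InNd Φ f₀ L Tm n b₀)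
    {d : ℕ} (hd : 1 ≤ d) (hdL : d ≤ L) :
    Bnd f₀ (fun ε c F => ∫⁻ T in {T | T ∈ AL Φ ε L Tm (GC.pts c : Set Ph) ∧ T.depth = d ∧
      nondeg Φ ε T}, F (CTree.ext Φ ε T) (CTree.ln Φ ε T) ∂(tree (GC.inten f₀ ε) L))
      (fun F => ∫⁻ x, gv (n d) b₀ x.2.2 * F x.1 x.2 ∂(bs Tm)) := by
  obtain ⟨N, hN, hlaw, hlim⟩ := h d hd hdL
  have hgv : Measurable fun x : ℝ × Ph => gv (n d) b₀ x.2.2 := by unfold gv; fun_prop
  have hNc : ∀ ε, 0 < ε → ∀ c, Measurable fun x : ℝ × Ph => N ε c x.1 x.2 := fun ε hε c =>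
    (hN ε hε).comp (measurable_const.prodMk measurable_id)
  have h1 : ∀ ε, 0 < ε → ∃ η : Kernel (GC.Conf Ph) (ℝ × Ph), IsSFiniteKernel η ∧
      ∀ c, ∀ F : ℝ × Ph → ℝ≥0∞, Measurable F → ∫⁻ x, F x ∂(η c) =
        ∫⁻ x, (N ε c x.1 x.2 - gv (n d) b₀ x.2.2) * F x ∂(bs Tm) := by
    intro ε hε
    have hf : Measurable fun p : GC.Conf Ph × (ℝ × Ph) =>
        N ε p.1 p.2.1 p.2.2 - gv (n d) b₀ p.2.2.2 := (hN ε hε).sub (hgv.comp measurable_snd)
    obtain ⟨η, h2, h3⟩ := exists_kernel (Kernel.const (GC.Conf Ph) (bs Tm))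
      (f := fun c x => N ε c x.1 x.2 - gv (n d) b₀ x.2.2) hf measurable_id
    exact ⟨η, h2, fun c F hF => h3 c F hF⟩
  obtain ⟨η, h2, h3⟩ := exists_family (P := fun ε η => ∀ c, ∀ F : ℝ × Ph → ℝ≥0∞, Measurable F →
      ∫⁻ x, F x ∂(η c) = ∫⁻ x, (N ε c x.1 x.2 - gv (n d) b₀ x.2.2) * F x ∂(bs Tm)) h1
  refine ⟨η, h2, fun ε hε c F hF => ?_, fun q => ?_⟩
  · have h4 : ∫⁻ x, F x.1 x.2 ∂(η ε c) = _ := h3 ε hε c (fun x => F x.1 x.2) hF
    have hF' : Measurable fun x : ℝ × Ph => F x.1 x.2 := hF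
    have hgF : Measurable fun x : ℝ × Ph => gv (n d) b₀ x.2.2 * F x.1 x.2 := hgv.mul hF'
    beta_reduce
    rw [h4, ← lintegral_add_left hgF]
    refine (hlaw ε hε c F hF).trans ?_
    have h5 := lintegral_bs (Tm := Tm) (f := fun x => N ε c x.1 x.2 * F x.1 x.2)
      ((hNc ε hε c).mul hF')
    beta_reduce at h5
    rw [← h5]
    gcongr with x
    rw [← add_mul]
    gcongr
    exact le_add_tsub
  · refine Tendsto.congr' ?_ (hlim q)
    filter_upwards [self_mem_nhdsWithin] with ε hε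
    refine lintegral_congr fun c => ?_
    rw [h3 ε hε c _ (measurable_pw' q), lintegral_bs]
    · refine lintegral_congr fun l => lintegral_congr fun b => ?_
      rw [mul_comm]
    · exact ((hNc ε hε c).sub hgv).mul (measurable_pw' q)

end Vale.Agent.P119.Cap
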