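import Vale.Agent.P119.ML.CapFlux

/-!
# P119, block ML (CAP0, `helper667`): the supersolution
-/

open MeasureTheory Filter Topology Set ProbabilityTheory
open scoped ENNReal NNReal

noncomputable section

namespace Vale.Agent.P119.Cap

open KU M PB.CT

variable {Φ : E3 → ℝ} {ε : ℝ} {L : ℕ} {Tm : ℝ} {f₀ : Ph → ℝ}

/-- The exponential weight. -/
@[irreducible] def Ea (b₀ K t : ℝ) (v : E3) : ℝ :=
  Real.exp (-b₀ * ‖v‖ ^ 2 + K * (1 + ‖v‖) * t)

/-- The bound of the density of the lines present. -/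
@[irreducible] def Mb (b₀ K a t : ℝ) (v : E3) : ℝ≥0∞ := ENNReal.ofReal (a * Ea b₀ K t v)

/-- The bound of the density of the births. -/
@[irreducible] def Th (b₀ K a t : ℝ) (v : E3) : ℝ≥0∞ :=
  ENNReal.ofReal (a * ((1 + ‖v‖) * Ea b₀ K t v))

theorem Ea_nonneg (b₀ K t : ℝ) (v : E3) : 0 ≤ Ea b₀ K t v := by
  unfold Ea
  exact (Real.exp_pos _).le

theorem Mb_ne_top (b₀ K a t : ℝ) (v : E3) : Mb b₀ K a t v ≠ ∞ := by
  unfold Mb
  exact ENNReal.ofReal_ne_top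

theorem Th_ne_top (b₀ K a t : ℝ) (v : E3) : Th b₀ K a t v ≠ ∞ := by
  unfold Th
  exact ENNReal.ofReal_ne_top

theorem measurable_Mb (b₀ K a : ℝ) : Measurable fun p : ℝ × E3 => Mb b₀ K a p.1 p.2 := by
  unfold Mb Ea; fun_prop

theorem measurable_Th (b₀ K a : ℝ) : Measurable fun p : ℝ × E3 => Th b₀ K a p.1 p.2 := by
  unfold Th Ea; fun_prop

theorem hasDerivAt_Ea (b₀ K a : ℝ) (hK : 0 < K) (v : E3) (s : ℝ) :
    HasDerivAt (fun s => a / K * Ea b₀ K s v) (a * ((1 + ‖v‖) * Ea b₀ K s v)) s := by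
  have h1 : HasDerivAt (fun s : ℝ => -b₀ * ‖v‖ ^ 2 + K * (1 + ‖v‖) * s) (K * (1 + ‖v‖)) s := by
    have h2 := ((hasDerivAt_id s).const_mul (K * (1 + ‖v‖))).const_add (-b₀ * ‖v‖ ^ 2)
    simpa using h2
  have h3 := (h1.exp).const_mul (a / K)
  unfold Ea
  refine h3.congr_deriv ?_
  field_simp

theorem lintegral_Th_le {b₀ K a : ℝ} (hK : 0 < K) (ha : 0 ≤ a) (v : E3) (Tm h : ℝ) :
    ∫⁻ s in Icc 0 Tm, (if s < h then Th b₀ K a s v else 0) ≤ Mb b₀ K (a / K) h v := by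
  have hc : Continuous fun s : ℝ => a * ((1 + ‖v‖) * Ea b₀ K s v) := by
    unfold Ea; fun_prop
  rcases lt_or_ge h 0 with hh | hh
  · have h0 : ∀ s ∈ Icc 0 Tm, (if s < h then Th b₀ K a s v else 0) = 0 := by
      intro s hs
      rw [if_neg]
      have := hs.1
      linarith
    rw [setLIntegral_congr_fun measurableSet_Icc h0, lintegral_zero]
    exact zero_le
  · have h1 : ∫⁻ s in Icc 0 Tm, (if s < h then Th b₀ K a s v else 0) ≤
        ∫⁻ s in Ioc 0 h, Th b₀ K a s v := by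
      have h2 : ∀ s : ℝ, (Icc 0 Tm).indicator (fun s => if s < h then Th b₀ K a s v else 0) s ≤
          (Icc 0 h).indicator (fun s => Th b₀ K a s v) s := by
        intro s
        by_cases hs : s ∈ Icc 0 Tm
        · rw [indicator_of_mem hs]
          by_cases hs' : s < h
          · rw [if_pos hs', indicator_of_mem (show s ∈ Icc 0 h from ⟨hs.1, hs'.le⟩)]
          · rw [if_neg hs']
            exact zero_le
        · rw [indicator_of_notMem hs]
          exact zero_le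
      rw [← lintegral_indicator measurableSet_Icc]
      refine (lintegral_mono h2).trans ?_
      rw [lintegral_indicator measurableSet_Icc]
      exact (setLIntegral_congr Ioc_ae_eq_Icc.symm).le
    refine h1.trans ?_
    unfold Th Mb
    have hi : IntegrableOn (fun s : ℝ => a * ((1 + ‖v‖) * Ea b₀ K s v)) (Ioc 0 h) :=
      (hc.integrableOn_Icc).mono_set Ioc_subset_Icc_self
    rw [← ofReal_integral_eq_lintegral_ofReal hi (Eventually.of_forall fun s => by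
      have := Ea_nonneg b₀ K s v
      positivity)]
    apply ENNReal.ofReal_le_ofReal
    rw [← intervalIntegral.integral_of_le hh,
      intervalIntegral.integral_eq_sub_of_hasDerivAt
        (fun s _ => hasDerivAt_Ea b₀ K a hK v s) (hc.intervalIntegrable _ _)]
    have : 0 ≤ a / K * Ea b₀ K 0 v := mul_nonneg (div_nonneg ha hK.le) (Ea_nonneg _ _ _ _)
    linarith

theorem Mb_mono {b₀ K a : ℝ} (hK : 0 ≤ K) (ha : 0 ≤ a) (v : E3) {s t : ℝ} (h : s ≤ t) :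
    Mb b₀ K a s v ≤ Mb b₀ K a t v := by
  unfold Mb Ea
  gcongr

theorem le_Mb {b₀ K a M₀ : ℝ} (hK : 0 ≤ K) (hM : 0 ≤ M₀) (ha : M₀ ≤ a) (v : E3) {t : ℝ}
    (ht : 0 ≤ t) : ENNReal.ofReal (M₀ * Real.exp (-b₀ * ‖v‖ ^ 2)) ≤ Mb b₀ K a t v := by
  have ha0 : 0 ≤ a := hM.trans ha
  have : 0 ≤ K * (1 + ‖v‖) * t := by positivity
  unfold Mb Ea
  gcongr
  linarith

/-- The typical part of the law of the sources of depth `d`. -/
def typ (M₀ b₀ K C A Tm : ℝ) (d : ℕ) (F : ℝ → Ph → ℝ≥0∞) : ℝ≥0∞ :=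
  if d = 0 then ∫⁻ l : Ph, ENNReal.ofReal (M₀ * Real.exp (-b₀ * ‖l.2‖ ^ 2)) * F 0 l
  else ∫⁻ l : Ph, ∫⁻ b in Icc 0 Tm, Th b₀ K (C * A⁻¹ ^ d) b l.2 * F b l

theorem PS_facts (hΦ : IsPotential Φ) (hε : 0 < ε) {w : Set Ph} {j : ℕ} {k : Bool} {l : Ph}
    {T : CTree} (h : T ∈ PS Φ ε L Tm w j k l) :
    0 < hitT ε (prt k l (CTree.ln Φ ε T)) ∧
      hitT ε (prt k l (CTree.ln Φ ε T)) < sepT Φ ε (prt k l (CTree.ln Φ ε T)) ∧
      (sc2 Φ ε (prt k l (CTree.ln Φ ε T))).1.2 = l.2 := by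
  have h4 := alive_pre h.1
  have h5 := h.2.2
  exact ⟨(M.ext_nonneg hΦ hε h4.ok).trans_lt h5.2.2.1, hitT_lt_sepT hΦ hε h5.2.1 h5.1.2,
    h5.2.2.2.2⟩

/-- The function integrated over the partner trees. -/
@[irreducible] def Hk (Φ : E3 → ℝ) (ε : ℝ) (F : ℝ → Ph → ℝ≥0∞) (k : Bool) (l : Ph) (T : CTree) :
    ℝ≥0∞ :=
  F (sepT Φ ε (prt k l (CTree.ln Φ ε T))) (sc2 Φ ε (prt k l (CTree.ln Φ ε T))).1

theorem Hk_def (F : ℝ → Ph → ℝ≥0∞) (k : Bool) (l : Ph) (T : CTree) : Hk Φ ε F k l T =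
    F (sepT Φ ε (prt k l (CTree.ln Φ ε T))) (sc2 Φ ε (prt k l (CTree.ln Φ ε T))).1 := by
  unfold Hk
  rfl

/-- The time of the collision of a line with a tree. -/
@[irreducible] def hl (Φ : E3 → ℝ) (ε : ℝ) (k : Bool) (l : Ph) (T : CTree) : ℝ :=
  hitT ε (prt k l (CTree.ln Φ ε T))

theorem hl_def (k : Bool) (l : Ph) (T : CTree) :
    hl Φ ε k l T = hitT ε (prt k l (CTree.ln Φ ε T)) := by
  unfold hl
  rfl

theorem measurable_Hk (hΦ : IsPotential Φ) (hε : ε ≠ 0) {F : ℝ → Ph → ℝ≥0∞}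
    (hF : Measurable (Function.uncurry F)) (k : Bool) :
    Measurable fun p : Ph × CTree => Hk Φ ε F k p.1 p.2 := by
  have hp := measurable_prtT (Φ := Φ) (ε := ε) hΦ hε k
  simp only [Hk_def]
  exact hF.comp (((measurable_sepT hΦ).comp hp).prodMk ((measurable_sc2 hΦ hε).comp hp).fst)

theorem measurable_hl (hΦ : IsPotential Φ) (hε : ε ≠ 0) (k : Bool) :
    Measurable fun p : Ph × CTree => hl Φ ε k p.1 p.2 := by
  simp only [hl_def]
  exact measurable_hitT.comp (measurable_prtT (Φ := Φ) hΦ hε k)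

theorem Gk_eq (F : ℝ → Ph → ℝ≥0∞) (w : Set Ph) (j : ℕ) (k : Bool) (s : ℝ) (l : Ph) :
    Gk Φ ε L Tm f₀ F w j k s l = ∫⁻ T in PS Φ ε L Tm w j k l,
      (if s < hl Φ ε k l T then Hk Φ ε F k l T else 0) ∂(tree (GC.inten f₀ ε) L) := by
  unfold Gk
  refine lintegral_congr fun T => ?_
  rw [hl_def, Hk_def]
  by_cases h : s < hitT ε (prt k l (CTree.ln Φ ε T))
  · rw [if_pos h, indicator_of_mem (show T ∈ {T | s < hitT ε (prt k l (CTree.ln Φ ε T))} from h)]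
  · rw [if_neg h, indicator_of_notMem
      (show T ∉ {T | s < hitT ε (prt k l (CTree.ln Φ ε T))} from h)]

theorem measurableSet_PSc (hΦ : IsPotential Φ) (hε : 0 < ε) (c : GC.Conf Ph) (j : ℕ) (k : Bool)
    (l : Ph) : MeasurableSet (PS Φ ε L Tm (GC.pts c : Set Ph) j k l) :=
  measurableSet_PS (c := fun _ : CTree => c) (l := fun _ => l) (T := id) hΦ hε
    measurable_const measurable_const measurable_id j k

/-- The carriers of depth `0`. -/
theorem typ_Gk_zero (hΦ : IsPotential Φ) (hε : 0 < ε) {M₀ b₀ K a : ℝ} (hM : 0 ≤ M₀)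
    (hK : 0 < K) (ha : M₀ ≤ a) (c : GC.Conf Ph) (F : ℝ → Ph → ℝ≥0∞) (j : ℕ)
    (k : Bool) (l : Ph) :
    ENNReal.ofReal (M₀ * Real.exp (-b₀ * ‖l.2‖ ^ 2)) *
        Gk Φ ε L Tm f₀ F (GC.pts c : Set Ph) j k 0 l ≤
      ∫⁻ T in PS Φ ε L Tm (GC.pts c : Set Ph) j k l,
        Hk Φ ε (fun b l => Mb b₀ K a b l.2 * F b l) k l T ∂(tree (GC.inten f₀ ε) L) := by
  rw [Gk_eq, ← lintegral_const_mul' _ _ ENNReal.ofReal_ne_top]
  refine setLIntegral_mono' (measurableSet_PSc hΦ hε c j k l) fun T hT => ?_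
  obtain ⟨h1, h2, h3⟩ := PS_facts hΦ hε hT
  rw [← hl_def] at h1 h2
  rw [if_pos h1, Hk_def, Hk_def, h3]
  exact mul_le_mul' (le_Mb hK.le hM ha _ (h1.le.trans h2.le)) le_rfl

/-- The carriers of positive depth. -/
theorem typ_Gk_succ (hΦ : IsPotential Φ) (hε : 0 < ε) [IsFiniteMeasure (GC.inten f₀ ε)]
    {b₀ K a : ℝ} (hK : 0 < K) (ha : 0 ≤ a) (c : GC.Conf Ph) {F : ℝ → Ph → ℝ≥0∞}
    (hF : Measurable (Function.uncurry F)) (j : ℕ) (k : Bool) (l : Ph) :
    ∫⁻ s in Icc 0 Tm, Th b₀ K a s l.2 * Gk Φ ε L Tm f₀ F (GC.pts c : Set Ph) j k s l ≤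
      ∫⁻ T in PS Φ ε L Tm (GC.pts c : Set Ph) j k l,
        Hk Φ ε (fun b l => Mb b₀ K (a / K) b l.2 * F b l) k l T ∂(tree (GC.inten f₀ ε) L) := by
  set ν := tree (GC.inten f₀ ε) L with hν
  have h0 : Measurable fun T : CTree => (l, T) := measurable_const.prodMk measurable_id
  have hHl : Measurable fun T => Hk Φ ε F k l T := (measurable_Hk hΦ hε.ne' hF k).comp h0
  have hhit : Measurable fun T => hl Φ ε k l T := (measurable_hl hΦ hε.ne' k).comp h0
  have h1 : ∀ s : ℝ, Th b₀ K a s l.2 * Gk Φ ε L Tm f₀ F (GC.pts c : Set Ph) j k s l =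
      ∫⁻ T in PS Φ ε L Tm (GC.pts c : Set Ph) j k l,
        (if s < hl Φ ε k l T then Th b₀ K a s l.2 else 0) * Hk Φ ε F k l T ∂ν := by
    intro s
    have ht : Th b₀ K a s l.2 ≠ ∞ := Th_ne_top _ _ _ _ _
    rw [Gk_eq, ← lintegral_const_mul' _ _ ht]
    refine lintegral_congr fun T => ?_
    split_ifs
    · rfl
    · rw [mul_zero, zero_mul]
  simp only [h1]
  have hm : Measurable fun p : ℝ × CTree =>
      (if p.1 < hl Φ ε k l p.2 then Th b₀ K a p.1 l.2 else 0) * Hk Φ ε F k l p.2 := by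
    have hm0 : MeasurableSet {p : ℝ × CTree | p.1 < hl Φ ε k l p.2} :=
      measurableSet_lt measurable_fst (hhit.comp measurable_snd)
    have hm1 : Measurable fun p : ℝ × CTree => Th b₀ K a p.1 l.2 :=
      (measurable_Th b₀ K a).comp (measurable_fst.prodMk measurable_const)
    have hm2 : Measurable fun p : ℝ × CTree =>
        (if p.1 < hl Φ ε k l p.2 then Th b₀ K a p.1 l.2 else 0) :=
      Measurable.ite hm0 hm1 measurable_const
    have hm3 : Measurable fun p : ℝ × CTree => Hk Φ ε F k l p.2 := hHl.comp measurable_snd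
    exact hm2.mul hm3
  rw [lintegral_lintegral_swap hm.aemeasurable]
  refine setLIntegral_mono' (measurableSet_PSc hΦ hε c j k l) fun T hT => ?_
  obtain ⟨h2, h3, h4⟩ := PS_facts hΦ hε hT
  rw [← hl_def] at h2 h3
  have hm2 : Measurable fun s : ℝ => (if s < hl Φ ε k l T then Th b₀ K a s l.2 else 0) := by
    have hm0 : MeasurableSet {s : ℝ | s < hl Φ ε k l T} :=
      measurableSet_lt measurable_id measurable_const
    have hm1 : Measurable fun s : ℝ => Th b₀ K a s l.2 :=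
      (measurable_Th b₀ K a).comp (measurable_id.prodMk measurable_const)
    exact Measurable.ite hm0 hm1 measurable_const
  rw [lintegral_mul_const _ hm2]
  have h5 := lintegral_Th_le (b₀ := b₀) (K := K) (a := a) hK ha l.2 Tm (hl Φ ε k l T)
  rw [Hk_def, Hk_def, h4]
  exact mul_le_mul' (h5.trans (Mb_mono hK.le (div_nonneg ha hK.le) _ h3.le)) le_rfl

/-- The typical part of the carriers, through one degenerate collision. -/
theorem typ_Gk (hΦ : IsPotential Φ) (hε : 0 < ε) [IsFiniteMeasure (GC.inten f₀ ε)]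
    {M₀ b₀ K C A : ℝ} (hM : 0 ≤ M₀) (hK : 0 < K) (hC : 0 ≤ C) (hA : 0 < A) (hMC : M₀ ≤ C / K)
    (c : GC.Conf Ph) {F : ℝ → Ph → ℝ≥0∞} (hF : Measurable (Function.uncurry F)) (i j : ℕ)
    (k : Bool) :
    typ M₀ b₀ K C A Tm i (Gk Φ ε L Tm f₀ F (GC.pts c : Set Ph) j k) ≤
      ∫⁻ l : Ph, ∫⁻ T in PS Φ ε L Tm (GC.pts c : Set Ph) j k l,
        Hk Φ ε (fun b l => Mb b₀ K (C / K * A⁻¹ ^ i) b l.2 * F b l) k l T
        ∂(tree (GC.inten f₀ ε) L) := by
  unfold typ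
  split_ifs with hi
  · subst hi
    rw [pow_zero, mul_one]
    exact lintegral_mono fun l => typ_Gk_zero hΦ hε hM hK hMC c F j k l
  · have h6 : C / K * A⁻¹ ^ i = C * A⁻¹ ^ i / K := by ring
    rw [h6]
    exact lintegral_mono fun l => typ_Gk_succ hΦ hε hK (by positivity) c hF j k l

end Vale.Agent.P119.Cap
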