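import Vale.Agent.P119.ML.CapNode
import Vale.Agent.P119.PB.TreeMeas
import Vale.Agent.P119.GC.Phase

/-!
# P119, block ML (CAP0, `helper667`): disintegration of the measure on trees over the root line

`KM Φ ε f₀ L : Kernel Ph CTree`: the trees of depth `≤ L` with given root line.
`lintegral_tree_line`: `∫ F T (ln T) d(tree ν L) = μ ∫ dl ∫ F T l KM(l, dT)` on the trees all of
whose nodes are collisions.
-/

open MeasureTheory Filter Topology Set ProbabilityTheory
open scoped ENNReal NNReal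

noncomputable section

namespace Vale.Agent.P119.Cap

open KU M

variable {Φ : E3 → ℝ} {ε : ℝ} {f₀ : Ph → ℝ}

/-! ### The kernel of incoming pairs -/

/-- The velocity of the exhaust, with density `|l.2 - u|`. -/
def velK : Kernel (ℝ × Ph) E3 :=
  Kernel.withDensity (Kernel.const (ℝ × Ph) (volume : Measure E3)) (fun p u => ‖p.2.2 - u‖ₑ)

theorem measurable_velK_density :
    Measurable (Function.uncurry fun (p : ℝ × Ph) (u : E3) => ‖p.2.2 - u‖ₑ) := by
  unfold Function.uncurry
  fun_prop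

instance instSFiniteVelK : IsSFiniteKernel velK := by
  unfold velK
  exact Kernel.IsSFiniteKernel.withDensity _ fun _ _ => enorm_ne_top

theorem lintegral_velK (p : ℝ × Ph) {g : E3 → ℝ≥0∞} (hg : Measurable g) :
    ∫⁻ u, g u ∂(velK p) = ∫⁻ u, ‖p.2.2 - u‖ₑ * g u := by
  unfold velK
  rw [Kernel.lintegral_withDensity _ measurable_velK_density _ hg, Kernel.const_apply]

/-- The impact vector. -/
def impK : Kernel ((ℝ × Ph) × E3) E3 :=
  kappa.comap (fun x => x.1.2.2 - x.2) (by fun_prop)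

instance instFiniteImpK : IsFiniteKernel impK := by unfold impK; infer_instance

theorem impK_apply (x : (ℝ × Ph) × E3) : impK x = kappa (x.1.2.2 - x.2) := by
  unfold impK
  rw [Kernel.comap_apply]

/-- The incoming pairs of the nodes with exit time and outgoing line `(b, l)`. -/
def nodeK (Φ : E3 → ℝ) (ε : ℝ) : Kernel (ℝ × Ph) (Ph × Ph) :=
  (Kernel.id ×ₖ (velK ⊗ₖ impK)).map
    (fun x : (ℝ × Ph) × (E3 × E3) => inc Φ ε x.1.2 x.1.1 x.2.1 x.2.2)

instance instSFiniteNodeK : IsSFiniteKernel (nodeK Φ ε) := by unfold nodeK; infer_instance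

theorem lintegral_nodeK (hΦ : IsPotential Φ) (hε : ε ≠ 0) (b : ℝ) (l : Ph)
    {H : Ph × Ph → ℝ≥0∞} (hH : Measurable H) :
    ∫⁻ q, H q ∂(nodeK Φ ε (b, l)) = nodeI Φ ε H b l := by
  have hinc : Measurable (fun x : (ℝ × Ph) × (E3 × E3) => inc Φ ε x.1.2 x.1.1 x.2.1 x.2.2) := by
    have h := measurable_inc (Φ := Φ) (ε := ε) hΦ hε
    have h' : Measurable (fun x : (ℝ × Ph) × (E3 × E3) =>
        ((x.1.2, x.1.1, x.2.1, x.2.2) : Ph × ℝ × E3 × E3)) := by fun_prop
    exact h.comp h'
  unfold nodeK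
  rw [Kernel.lintegral_map _ hinc _ hH]
  have h1 : Measurable (fun x : (ℝ × Ph) × (E3 × E3) => H (inc Φ ε x.1.2 x.1.1 x.2.1 x.2.2)) :=
    hH.comp hinc
  have h2 : Measurable (fun y : E3 × E3 => H (inc Φ ε l b y.1 y.2)) :=
    h1.comp (measurable_prodMk_left (x := (b, l)))
  rw [Kernel.lintegral_id_prod h1, Kernel.lintegral_compProd _ _ _ h2,
    lintegral_velK _ (by
      have h3 := h2.lintegral_kernel_prod_right' (κ := impK.comap (fun u : E3 => ((b, l), u))
        (by fun_prop))
      simp_rw [Kernel.comap_apply] at h3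
      exact h3), nodeI_def]
  refine lintegral_congr fun u => ?_
  rw [impK_apply]

/-- The incoming pairs of the nodes with given outgoing line. -/
def nodeL (Φ : E3 → ℝ) (ε : ℝ) : Kernel Ph (Ph × Ph) :=
  nodeK Φ ε ∘ₖ (Kernel.const Ph (volume : Measure ℝ) ×ₖ Kernel.id)

instance instSFiniteNodeL : IsSFiniteKernel (nodeL Φ ε) := by unfold nodeL; infer_instance

theorem lintegral_nodeL (hΦ : IsPotential Φ) (hε : ε ≠ 0) (l : Ph)
    {H : Ph × Ph → ℝ≥0∞} (hH : Measurable H) :
    ∫⁻ q, H q ∂(nodeL Φ ε l) = ∫⁻ b : ℝ, nodeI Φ ε H b l := by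
  unfold nodeL
  rw [Kernel.lintegral_comp _ _ _ hH, Kernel.lintegral_prod_id hH.lintegral_kernel,
    Kernel.const_apply]
  exact lintegral_congr fun b => lintegral_nodeK hΦ hε b l hH

/-! ### The kernel of trees -/

/-- The leaves. -/
def leafK (f₀ : Ph → ℝ) : Kernel Ph CTree :=
  Kernel.withDensity (Kernel.deterministic (fun l : Ph => CTree.leaf (src l))
    (measurable_leaf.comp measurable_src)) (fun l _ => ENNReal.ofReal (f₀ l))

instance instSFiniteLeafK : IsSFiniteKernel (leafK f₀) := by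
  unfold leafK
  exact Kernel.IsSFiniteKernel.withDensity _ fun _ _ => ENNReal.ofReal_ne_top

theorem lintegral_leafK (hf : Measurable f₀) (l : Ph) {F : CTree → ℝ≥0∞} (hF : Measurable F) :
    ∫⁻ T, F T ∂(leafK f₀ l) = ENNReal.ofReal (f₀ l) * F (CTree.leaf (src l)) := by
  unfold leafK
  have h1 : Measurable (Function.uncurry fun (l : Ph) (_ : CTree) => ENNReal.ofReal (f₀ l)) := by
    unfold Function.uncurry
    exact (hf.comp measurable_fst).ennreal_ofReal
  rw [Kernel.lintegral_withDensity _ h1 _ hF,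
    Kernel.lintegral_deterministic' _ (hF.const_mul _)]

/-- The trees of depth `≤ L` with given root line. -/
def KM (Φ : E3 → ℝ) (ε : ℝ) (f₀ : Ph → ℝ) : ℕ → Kernel Ph CTree
  | 0 => leafK f₀
  | L + 1 => leafK f₀ + ((KM Φ ε f₀ L ∥ₖ KM Φ ε f₀ L) ∘ₖ nodeL Φ ε).map
      (fun p : CTree × CTree => CTree.node p.1 p.2)

instance instSFiniteKM (L : ℕ) : IsSFiniteKernel (KM Φ ε f₀ L) := by
  induction L with
  | zero => unfold KM; infer_instance
  | succ L ih => unfold KM; infer_instance

theorem lintegral_KM_zero (hf : Measurable f₀) (l : Ph) {F : CTree → ℝ≥0∞} (hF : Measurable F) :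
    ∫⁻ T, F T ∂(KM Φ ε f₀ 0 l) = ENNReal.ofReal (f₀ l) * F (CTree.leaf (src l)) := by
  unfold KM
  exact lintegral_leafK hf l hF

/-- Integration over the two subtrees. -/
theorem lintegral_two (L : ℕ) (q : Ph × Ph) {G : CTree × CTree → ℝ≥0∞} (hG : Measurable G) :
    ∫⁻ p, G p ∂((KM Φ ε f₀ L ∥ₖ KM Φ ε f₀ L) q) =
      ∫⁻ A, ∫⁻ B, G (A, B) ∂(KM Φ ε f₀ L q.2) ∂(KM Φ ε f₀ L q.1) := by
  rw [Kernel.parallelComp_apply, lintegral_prod _ hG.aemeasurable]

theorem measurable_two {X : Type*} [MeasurableSpace X] (L : ℕ)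
    {G : X → Ph × Ph → CTree → CTree → ℝ≥0∞}
    (hG : Measurable fun p : (X × (Ph × Ph)) × (CTree × CTree) => G p.1.1 p.1.2 p.2.1 p.2.2) :
    Measurable fun p : X × (Ph × Ph) => ∫⁻ A, ∫⁻ B, G p.1 p.2 A B ∂(KM Φ ε f₀ L p.2.2)
      ∂(KM Φ ε f₀ L p.2.1) := by
  set kk : Kernel (X × (Ph × Ph)) (CTree × CTree) := (KM Φ ε f₀ L ∥ₖ KM Φ ε f₀ L).comap
    (fun p : X × (Ph × Ph) => p.2) measurable_snd with hkk
  have h1 := hG.lintegral_kernel_prod_right' (κ := kk)
  have h2 : ∀ p : X × (Ph × Ph), (∫⁻ y : CTree × CTree, G p.1 p.2 y.1 y.2 ∂(kk p)) =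
      ∫⁻ A, ∫⁻ B, G p.1 p.2 A B ∂(KM Φ ε f₀ L p.2.2) ∂(KM Φ ε f₀ L p.2.1) := by
    intro p
    rw [hkk, Kernel.comap_apply]
    exact lintegral_two L p.2 (G := fun y => G p.1 p.2 y.1 y.2)
      (hG.comp (measurable_prodMk_left (x := p)))
  simp only [h2] at h1
  exact h1

theorem lintegral_KM_succ (hΦ : IsPotential Φ) (hε : ε ≠ 0) (hf : Measurable f₀) (L : ℕ) (l : Ph)
    {F : CTree → ℝ≥0∞} (hF : Measurable F) :
    ∫⁻ T, F T ∂(KM Φ ε f₀ (L + 1) l) = ENNReal.ofReal (f₀ l) * F (CTree.leaf (src l)) +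
      ∫⁻ b : ℝ, nodeI Φ ε (fun q => ∫⁻ A, ∫⁻ B, F (CTree.node A B) ∂(KM Φ ε f₀ L q.2)
        ∂(KM Φ ε f₀ L q.1)) b l := by
  have h0 : Measurable fun p : CTree × CTree => F (CTree.node p.1 p.2) := hF.comp measurable_node
  conv_lhs => unfold KM
  rw [add_apply, lintegral_add_measure, lintegral_leafK hf l hF,
    Kernel.lintegral_map _ measurable_node _ hF, Kernel.lintegral_comp _ _ _ h0,
    lintegral_nodeL hΦ hε l h0.lintegral_kernel]
  congr 1
  refine lintegral_congr fun b => ?_
  congr 1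
  funext q
  rw [Kernel.parallelComp_apply, lintegral_prod _ h0.aemeasurable]

/-! ### Disintegration -/

/-- All the nodes are meetings of the two lines. -/
def mt (Φ : E3 → ℝ) (ε : ℝ) : CTree → Prop
  | .leaf _ => True
  | .node a b => mt Φ ε a ∧ mt Φ ε b ∧ Meets ε (CTree.ln Φ ε a, CTree.ln Φ ε b)

theorem mt_of_ok {T : CTree} (h : CTree.ok Φ ε T) : mt Φ ε T := by
  induction T with
  | leaf σ => trivial
  | node a b iha ihb => exact ⟨iha h.1, ihb h.2.1, h.2.2.2.1⟩

theorem measurableSet_mt (hΦ : IsPotential Φ) (hε : ε ≠ 0) : MeasurableSet {T | mt Φ ε T} := by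
  have h : Measurable fun T => ((mt Φ ε T, CTree.ln Φ ε T) : Prop × Ph) := by
    refine measurable_rec (g := fun q : (Prop × Ph) × (Prop × Ph) =>
      (q.1.1 ∧ q.2.1 ∧ Meets ε (q.1.2, q.2.2), (sc2 Φ ε (q.1.2, q.2.2)).1))
      (h := fun σ => (True, σ.2.1)) ?_ ?_ (fun _ => rfl) (fun _ _ => rfl)
    · have h1 : Measurable fun q : (Prop × Ph) × (Prop × Ph) => (q.1.2, q.2.2) :=
        (measurable_snd.comp measurable_fst).prodMk (measurable_snd.comp measurable_snd)
      have h2 : Measurable fun q : (Prop × Ph) × (Prop × Ph) => Meets ε (q.1.2, q.2.2) :=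
        measurableSet_setOfPred.1 (h1 measurableSet_meets)
      exact (((measurable_fst.comp measurable_fst).and
        ((measurable_fst.comp measurable_snd).and h2))).prodMk
        ((measurable_sc2 hΦ hε).comp h1).fst
    · exact measurable_const.prodMk (measurable_fst.comp measurable_snd)
  exact measurableSet_setOfPred.2 h.fst

theorem lintegral_inten (hf : Measurable f₀) {g : Ph → ℝ≥0∞} (hg : Measurable g) :
    ∫⁻ z, g z ∂(GC.inten f₀ ε) = ENNReal.ofReal (mu ε) * ∫⁻ l, ENNReal.ofReal (f₀ l) * g l := by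
  unfold GC.inten law
  rw [lintegral_smul_measure, smul_eq_mul,
    lintegral_withDensity_eq_lintegral_mul _ hf.ennreal_ofReal hg]
  rfl

theorem mu_mul (hε : 0 < ε) : ENNReal.ofReal (mu ε) * ENNReal.ofReal (ε ^ 2) = 1 := by
  unfold mu
  rw [← ENNReal.ofReal_mul (by positivity), inv_mul_cancel₀ (by positivity), ENNReal.ofReal_one]

/-- **Disintegration of the measure on the trees over the root line.** -/
theorem lintegral_tree_line (hΦ : IsPotential Φ) (hε : 0 < ε) (hf : Measurable f₀)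
    [IsFiniteMeasure (GC.inten f₀ ε)] (L : ℕ) {F : CTree → Ph → ℝ≥0∞}
    (hF : Measurable fun p : CTree × Ph => F p.1 p.2) :
    ∫⁻ T in {T | mt Φ ε T}, F T (CTree.ln Φ ε T) ∂(tree (GC.inten f₀ ε) L) =
      ENNReal.ofReal (mu ε) * ∫⁻ l, ∫⁻ T, F T l ∂(KM Φ ε f₀ L l) := by
  have hε0 : ε ≠ 0 := hε.ne'
  have hmt := measurableSet_mt (Φ := Φ) (ε := ε) hΦ hε0
  have hln := measurable_ln (Φ := Φ) (ε := ε) hΦ hε0
  have hleafm : Measurable fun l : Ph => CTree.leaf (src l) := measurable_leaf.comp measurable_src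
  induction L generalizing F with
  | zero =>
    have hG : Measurable ({T | mt Φ ε T}.indicator fun T => F T (CTree.ln Φ ε T)) :=
      (hF.comp (measurable_id.prodMk hln)).indicator hmt
    rw [← lintegral_indicator hmt, lintegral_tree_zero hG]
    have h1 : ∀ z, {T | mt Φ ε T}.indicator (fun T => F T (CTree.ln Φ ε T)) (CTree.leaf (src z)) =
        F (CTree.leaf (src z)) z := fun z =>
      indicator_of_mem (show CTree.leaf (src z) ∈ {T | mt Φ ε T} from trivial) _
    simp only [h1]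
    rw [lintegral_inten hf (g := fun z => F (CTree.leaf (src z)) z)
      (hF.comp (hleafm.prodMk measurable_id))]
    congr 1
    refine lintegral_congr fun l => ?_
    rw [lintegral_KM_zero hf l (F := fun T => F T l) (hF.comp measurable_prodMk_right)]
  | succ L ih =>
    have hG : Measurable ({T | mt Φ ε T}.indicator fun T => F T (CTree.ln Φ ε T)) :=
      (hF.comp (measurable_id.prodMk hln)).indicator hmt
    rw [← lintegral_indicator hmt, lintegral_tree_succ L hG]
    have h1 : ∀ z, {T | mt Φ ε T}.indicator (fun T => F T (CTree.ln Φ ε T)) (CTree.leaf (src z)) =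
        F (CTree.leaf (src z)) z := fun z =>
      indicator_of_mem (show CTree.leaf (src z) ∈ {T | mt Φ ε T} from trivial) _
    simp only [h1]
    rw [lintegral_inten hf (g := fun z => F (CTree.leaf (src z)) z)
      (hF.comp (hleafm.prodMk measurable_id))]
    -- the pairs
    set J : CTree → CTree → Ph × Ph → ℝ≥0∞ := fun A B q =>
      {q : Ph × Ph | Meets ε q}.indicator (fun q => F (CTree.node A B) (sc2 Φ ε q).1) q with hJ
    have hJm : Measurable fun p : (CTree × CTree) × (Ph × Ph) => J p.1.1 p.1.2 p.2 := by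
      have h2 : Measurable fun p : (CTree × CTree) × (Ph × Ph) =>
          F (CTree.node p.1.1 p.1.2) (sc2 Φ ε p.2).1 :=
        hF.comp ((measurable_node.comp measurable_fst).prodMk
          ((measurable_sc2 hΦ hε0).comp measurable_snd).fst)
      exact h2.indicator (measurable_snd measurableSet_meets)
    have h2 : ∀ A B, {T | mt Φ ε T}.indicator (fun T => F T (CTree.ln Φ ε T)) (CTree.node A B) =
        {T | mt Φ ε T}.indicator (fun A => {T | mt Φ ε T}.indicator
          (fun B => J A B (CTree.ln Φ ε A, CTree.ln Φ ε B)) B) A := by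
      intro A B
      by_cases hA : mt Φ ε A
      · rw [indicator_of_mem (s := {T | mt Φ ε T}) (a := A) hA]
        by_cases hB : mt Φ ε B
        · rw [indicator_of_mem (s := {T | mt Φ ε T}) (a := B) hB, hJ]
          by_cases hM : Meets ε (CTree.ln Φ ε A, CTree.ln Φ ε B)
          · rw [indicator_of_mem (s := {T | mt Φ ε T}) (a := CTree.node A B) ⟨hA, hB, hM⟩]
            simp only
            rw [indicator_of_mem (show (CTree.ln Φ ε A, CTree.ln Φ ε B) ∈
              {q : Ph × Ph | Meets ε q} from hM)]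
            rfl
          · rw [indicator_of_notMem (s := {T | mt Φ ε T}) (a := CTree.node A B)
              (fun h => hM h.2.2)]
            simp only
            rw [indicator_of_notMem (show (CTree.ln Φ ε A, CTree.ln Φ ε B) ∉
              {q : Ph × Ph | Meets ε q} from hM)]
        · rw [indicator_of_notMem (s := {T | mt Φ ε T}) (a := B) hB,
            indicator_of_notMem (s := {T | mt Φ ε T}) (a := CTree.node A B) (fun h => hB h.2.1)]
      · rw [indicator_of_notMem (s := {T | mt Φ ε T}) (a := A) hA,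
          indicator_of_notMem (s := {T | mt Φ ε T}) (a := CTree.node A B) (fun h => hA h.1)]
    simp only [h2]
    have h3 : ∀ A, ∫⁻ B, {T | mt Φ ε T}.indicator (fun A => {T | mt Φ ε T}.indicator
          (fun B => J A B (CTree.ln Φ ε A, CTree.ln Φ ε B)) B) A ∂(tree (GC.inten f₀ ε) L) =
        {T | mt Φ ε T}.indicator (fun A => (fun A lA => ENNReal.ofReal (mu ε) *
          ∫⁻ lB, ∫⁻ B, J A B (lA, lB) ∂(KM Φ ε f₀ L lB)) A (CTree.ln Φ ε A)) A := by
      intro A
      by_cases hA : mt Φ ε A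
      · simp only [indicator_of_mem (s := {T | mt Φ ε T}) (a := A) hA]
        rw [lintegral_indicator hmt]
        have h4 := ih (F := fun B lB => J A B (CTree.ln Φ ε A, lB)) (by
          exact hJm.comp ((measurable_const.prodMk measurable_fst).prodMk
            (measurable_const.prodMk measurable_snd)))
        exact h4
      · simp only [indicator_of_notMem (s := {T | mt Φ ε T}) (a := A) hA, lintegral_zero]
    simp only [h3]
    have hJ2 : Measurable fun p : (CTree × Ph) × Ph =>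
        ∫⁻ B, J p.1.1 B (p.1.2, p.2) ∂(KM Φ ε f₀ L p.2) := by
      have h5 : Measurable fun p : ((CTree × Ph) × Ph) × CTree =>
          J p.1.1.1 p.2 (p.1.1.2, p.1.2) := by
        have h' : Measurable fun p : ((CTree × Ph) × Ph) × CTree =>
            (((p.1.1.1, p.2), (p.1.1.2, p.1.2)) : (CTree × CTree) × (Ph × Ph)) :=
          ((measurable_fst.comp (measurable_fst.comp measurable_fst)).prodMk
            measurable_snd).prodMk ((measurable_snd.comp (measurable_fst.comp
              measurable_fst)).prodMk (measurable_snd.comp measurable_fst))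
        exact hJm.comp h'
      exact h5.lintegral_kernel_prod_right'
        (κ := (KM Φ ε f₀ L).comap (fun p : (CTree × Ph) × Ph => p.2) measurable_snd)
    have hJ3 : Measurable fun p : CTree × Ph => ENNReal.ofReal (mu ε) *
        ∫⁻ lB, ∫⁻ B, J p.1 B (p.2, lB) ∂(KM Φ ε f₀ L lB) := hJ2.lintegral_prod_right'.const_mul _
    rw [lintegral_indicator hmt, ih (F := fun A lA => ENNReal.ofReal (mu ε) *
          ∫⁻ lB, ∫⁻ B, J A B (lA, lB) ∂(KM Φ ε f₀ L lB)) hJ3]
    -- collect
    have h6 : ∀ lA, ∫⁻ A, (ENNReal.ofReal (mu ε) * ∫⁻ lB, (∫⁻ B, J A B (lA, lB)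
        ∂(KM Φ ε f₀ L lB))) ∂(KM Φ ε f₀ L lA) = ENNReal.ofReal (mu ε) *
        ∫⁻ lB, (∫⁻ A, ∫⁻ B, J A B (lA, lB) ∂(KM Φ ε f₀ L lB) ∂(KM Φ ε f₀ L lA)) := by
      intro lA
      have h7 : Measurable fun p : CTree × Ph => ∫⁻ B, J p.1 B (lA, p.2) ∂(KM Φ ε f₀ L p.2) := by
        have h' : Measurable fun p : CTree × Ph => (((p.1, lA), p.2) : (CTree × Ph) × Ph) :=
          (measurable_fst.prodMk measurable_const).prodMk measurable_snd
        exact hJ2.comp h'
      rw [lintegral_const_mul _ h7.lintegral_prod_right', lintegral_lintegral_swap h7.aemeasurable]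
    simp only [h6]
    have hHm : Measurable fun p : Ph × (Ph × Ph) => ∫⁻ A, ∫⁻ B, F (CTree.node A B) p.1
        ∂(KM Φ ε f₀ L p.2.2) ∂(KM Φ ε f₀ L p.2.1) := by
      refine measurable_two (X := Ph) L (G := fun l _ A B => F (CTree.node A B) l) ?_
      have h' : Measurable fun p : (Ph × (Ph × Ph)) × (CTree × CTree) =>
          ((CTree.node p.2.1 p.2.2, p.1.1) : CTree × Ph) :=
        (measurable_node.comp measurable_snd).prodMk (measurable_fst.comp measurable_fst)
      exact hF.comp h'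
    have h8 : ∫⁻ lA, ENNReal.ofReal (mu ε) *
        ∫⁻ lB, (∫⁻ A, ∫⁻ B, J A B (lA, lB) ∂(KM Φ ε f₀ L lB) ∂(KM Φ ε f₀ L lA)) =
        ∫⁻ l, ∫⁻ b, nodeI Φ ε (fun q => ∫⁻ A, ∫⁻ B, F (CTree.node A B) l
          ∂(KM Φ ε f₀ L q.2) ∂(KM Φ ε f₀ L q.1)) b l := by
      have h9 : Measurable fun q : Ph × Ph => ∫⁻ A, ∫⁻ B, J A B q
          ∂(KM Φ ε f₀ L q.2) ∂(KM Φ ε f₀ L q.1) := by
        have h10 := measurable_two (Φ := Φ) (ε := ε) (f₀ := f₀) (X := Unit) L
          (G := fun _ q A B => J A B q) (by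
            have h' : Measurable fun p : (Unit × (Ph × Ph)) × (CTree × CTree) =>
                ((p.2, p.1.2) : (CTree × CTree) × (Ph × Ph)) :=
              measurable_snd.prodMk (measurable_snd.comp measurable_fst)
            exact hJm.comp h')
        exact h10.comp (measurable_const.prodMk measurable_id : Measurable fun q : Ph × Ph =>
          (((), q) : Unit × (Ph × Ph)))
      have h9' : Measurable fun lA : Ph =>
          ∫⁻ lB, (∫⁻ A, ∫⁻ B, J A B (lA, lB) ∂(KM Φ ε f₀ L lB) ∂(KM Φ ε f₀ L lA)) :=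
        h9.lintegral_prod_right'
      rw [lintegral_const_mul _ h9']
      have h11 : ∫⁻ lA, ∫⁻ lB, (∫⁻ A, ∫⁻ B, J A B (lA, lB) ∂(KM Φ ε f₀ L lB)
          ∂(KM Φ ε f₀ L lA)) =
          ∫⁻ q in {q : Ph × Ph | Meets ε q}, ∫⁻ A, ∫⁻ B, F (CTree.node A B) (sc2 Φ ε q).1
            ∂(KM Φ ε f₀ L q.2) ∂(KM Φ ε f₀ L q.1) := by
        rw [← lintegral_indicator measurableSet_meets, Measure.volume_eq_prod]
        rw [← lintegral_prod (fun q : Ph × Ph => ∫⁻ A, ∫⁻ B, J A B q
          ∂(KM Φ ε f₀ L q.2) ∂(KM Φ ε f₀ L q.1)) h9.aemeasurable]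
        refine lintegral_congr fun q => ?_
        by_cases hM : Meets ε q
        · simp only [hJ, indicator_of_mem (show q ∈ {q : Ph × Ph | Meets ε q} from hM)]
        · simp only [hJ, indicator_of_notMem (show q ∉ {q : Ph × Ph | Meets ε q} from hM),
            lintegral_zero]
      rw [h11]
      have h12 := node_formula (Φ := Φ) (ε := ε) hΦ hε (H := fun _ l q => ∫⁻ A, ∫⁻ B,
        F (CTree.node A B) l ∂(KM Φ ε f₀ L q.2) ∂(KM Φ ε f₀ L q.1)) (hHm.comp measurable_snd)
      rw [h12, ← mul_assoc, mu_mul hε, one_mul]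
    rw [h8, ← mul_add]
    congr 1
    have h13 : Measurable fun l : Ph => ENNReal.ofReal (f₀ l) * F (CTree.leaf (src l)) l :=
      hf.ennreal_ofReal.mul (hF.comp (hleafm.prodMk measurable_id))
    rw [← lintegral_add_left h13]
    refine lintegral_congr fun l => ?_
    rw [lintegral_KM_succ hΦ hε0 hf L l (F := fun T => F T l) (hF.comp measurable_prodMk_right)]

end Vale.Agent.P119.Cap
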