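import Vale.Agent.P119.M.Shape
import Vale.Agent.P119.GC.Moments

/-!
# P119, block ML (`helper388`): forests and first hits

* `lvs F`, `conF F T'` (contact times), `ff F T'` (first contact time), `NoHit W F t`, `FirstHit W F T'`;
* `exists_firstHit`, `ff_eq_of_firstHit`, `not_noHit_of_firstHit`;
* `ind_noHit_le`, `le_ind_noHit` (the loss is the number of first hitters, up to ties).
-/

open MeasureTheory Filter Topology Set
open scoped ENNReal NNReal

noncomputable section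

namespace Vale.Agent.P119.ML

open KU M CTree GC

/-- The indicator of a proposition. -/
def ind (P : Prop) : ℝ≥0∞ := by
  classical
  exact if P then 1 else 0

theorem ind_of_true {P : Prop} (h : P) : ind P = 1 := by
  unfold ind; exact if_pos h

theorem ind_of_false {P : Prop} (h : ¬P) : ind P = 0 := by
  unfold ind; exact if_neg h

theorem ind_le_one (P : Prop) : ind P ≤ 1 := by
  by_cases h : P
  · rw [ind_of_true h]
  · rw [ind_of_false h]; exact zero_le

theorem ind_ne_top (P : Prop) : ind P ≠ ∞ := ((ind_le_one P).trans_lt ENNReal.one_lt_top).ne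

theorem ind_mono {P Q : Prop} (h : P → Q) : ind P ≤ ind Q := by
  by_cases hP : P
  · rw [ind_of_true hP, ind_of_true (h hP)]
  · rw [ind_of_false hP]; exact zero_le

theorem ind_congr {P Q : Prop} (h : P ↔ Q) : ind P = ind Q := by
  rw [propext h]

theorem ind_ne_zero {P : Prop} : ind P ≠ 0 ↔ P := by
  by_cases h : P
  · rw [ind_of_true h]; simp [h]
  · rw [ind_of_false h]; simp [h]

theorem ind_and {P Q : Prop} : ind (P ∧ Q) = ind P * ind Q := by
  by_cases hP : P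
  · by_cases hQ : Q
    · rw [ind_of_true hP, ind_of_true hQ, ind_of_true ⟨hP, hQ⟩, one_mul]
    · rw [ind_of_false hQ, ind_of_false fun h => hQ h.2, mul_zero]
  · rw [ind_of_false hP, ind_of_false fun h => hP h.1, zero_mul]

theorem measurable_ind {X : Type*} [MeasurableSpace X] {P : X → Prop}
    (h : MeasurableSet {x | P x}) : Measurable fun x => ind (P x) := by
  classical
  have : (fun x => ind (P x)) = {x | P x}.indicator fun _ => (1 : ℝ≥0∞) := by
    funext x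
    by_cases hx : P x
    · rw [ind_of_true hx, indicator_of_mem (by exact hx)]
    · rw [ind_of_false hx, indicator_of_notMem (by exact hx)]
  rw [this]
  exact measurable_const.indicator h

variable (Φ : E3 → ℝ) (ε : ℝ) (L : ℕ)

/-- The sources of a forest. -/
def lvs (F : List CTree) : Set Src := {σ | ∃ T ∈ F, σ ∈ T.leaves}

/-- The times of contact of the forest `F` with the tree `T'`. -/
def conF (F : List CTree) (T' : CTree) : Set ℝ := {s | ∃ T ∈ F, hit Φ ε T T' s}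

/-- The first time of contact. -/
def ff (F : List CTree) (T' : CTree) : ℝ := sInf (conF Φ ε F T')

/-- The forest is not hit by a living tree of `W` before the time `t`. -/
def NoHit (W : Set Src) (F : List CTree) (t : ℝ) : Prop :=
  ∀ T ∈ F, ∀ T' s, s < t → hit Φ ε T T' s → ¬alive Φ ε L W T' s

/-- `T'` is a first hitter of the forest `F` in the world `W`. -/
def FirstHit (W : Set Src) (F : List CTree) (T' : CTree) : Prop :=
  (conF Φ ε F T').Nonempty ∧ alive Φ ε L W T' (ff Φ ε F T') ∧ NoHit Φ ε L W F (ff Φ ε F T')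

/-- The trees of the forest are admissible. -/
def OkF (F : List CTree) : Prop := ∀ T ∈ F, ok Φ ε T ∧ T.depth ≤ L

variable {Φ ε L} {W : Set Src} {F G : List CTree} {T T' : CTree} {s t t₀ : ℝ}

theorem mem_lvs {σ : Src} : σ ∈ lvs F ↔ ∃ T ∈ F, σ ∈ T.leaves := Iff.rfl

theorem lvs_nil : lvs [] = ∅ := by
  ext σ; simp [lvs]

theorem lvs_cons : lvs (T :: F) = T.leaves ∪ lvs F := by
  ext σ
  simp only [lvs, List.mem_cons, mem_union, Set.mem_ofPred_eq]
  constructor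
  · rintro ⟨T₁, rfl | h, h'⟩
    · exact Or.inl h'
    · exact Or.inr ⟨T₁, h, h'⟩
  · rintro (h | ⟨T₁, h, h'⟩)
    · exact ⟨T, Or.inl rfl, h⟩
    · exact ⟨T₁, Or.inr h, h'⟩

theorem lvs_append : lvs (F ++ G) = lvs F ∪ lvs G := by
  ext σ
  simp only [lvs, List.mem_append, mem_union, Set.mem_ofPred_eq]
  constructor
  · rintro ⟨T₁, h | h, h'⟩
    · exact Or.inl ⟨T₁, h, h'⟩
    · exact Or.inr ⟨T₁, h, h'⟩
  · rintro (⟨T₁, h, h'⟩ | ⟨T₁, h, h'⟩)
    · exact ⟨T₁, Or.inl h, h'⟩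
    · exact ⟨T₁, Or.inr h, h'⟩

theorem lvs_finite : (lvs F).Finite := by
  induction F with
  | nil => rw [lvs_nil]; exact finite_empty
  | cons T F ih => rw [lvs_cons]; exact T.leaves_finite.union ih

theorem leaves_subset_lvs (h : T ∈ F) : T.leaves ⊆ lvs F := fun _ hσ => ⟨T, h, hσ⟩

theorem okF_cons : OkF Φ ε L (T :: F) ↔ (ok Φ ε T ∧ T.depth ≤ L) ∧ OkF Φ ε L F := by
  unfold OkF; simp

theorem okF_append : OkF Φ ε L (F ++ G) ↔ OkF Φ ε L F ∧ OkF Φ ε L G := by
  unfold OkF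
  simp only [List.mem_append]
  constructor
  · exact fun h => ⟨fun T hT => h T (Or.inl hT), fun T hT => h T (Or.inr hT)⟩
  · rintro ⟨h1, h2⟩ T (hT | hT)
    · exact h1 T hT
    · exact h2 T hT

theorem NoHit.mono (h : NoHit Φ ε L W F t) (hs : s ≤ t) : NoHit Φ ε L W F s :=
  fun T hT T' r hr => h T hT T' r (hr.trans_le hs)

theorem noHit_cons : NoHit Φ ε L W (T :: F) t ↔ NoHit Φ ε L W [T] t ∧ NoHit Φ ε L W F t := by
  unfold NoHit; simp

theorem noHit_append : NoHit Φ ε L W (F ++ G) t ↔ NoHit Φ ε L W F t ∧ NoHit Φ ε L W G t := by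
  unfold NoHit
  simp only [List.mem_append]
  constructor
  · exact fun h => ⟨fun T hT => h T (Or.inl hT), fun T hT => h T (Or.inr hT)⟩
  · rintro ⟨h1, h2⟩ T (hT | hT)
    · exact h1 T hT
    · exact h2 T hT

theorem noHit_singleton : NoHit Φ ε L W [T] t ↔
    ∀ T' s, s < t → hit Φ ε T T' s → ¬alive Φ ε L W T' s := by
  unfold NoHit; simp

theorem alive_iff_noHit (hΦ : IsPotential Φ) (hε : 0 < ε) (hW : W.Finite) :
    alive Φ ε L W T t ↔ pre Φ ε L W T t ∧ NoHit Φ ε L W [T] t := by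
  rw [alive_iff hΦ hε hW, noHit_singleton]

/-- Members of an unhit forest are alive. -/
theorem alive_of_noHit (hΦ : IsPotential Φ) (hε : 0 < ε) (hW : W.Finite) (hF : OkF Φ ε L F)
    (hsub : lvs F ⊆ W) (h : NoHit Φ ε L W F t) (hT : T ∈ F) (hext : ext Φ ε T ≤ t) :
    alive Φ ε L W T t := by
  rw [alive_iff_noHit hΦ hε hW]
  refine ⟨⟨(leaves_subset_lvs hT).trans hsub, (hF T hT).1, (hF T hT).2, hext⟩, ?_⟩
  rw [noHit_singleton]
  exact fun T' s hs hh => h T hT T' s hs hh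

theorem conF_bddBelow (hΦ : IsPotential Φ) (hε : 0 < ε) (hF : OkF Φ ε L F) :
    BddBelow (conF Φ ε F T') := by
  refine ⟨0, ?_⟩
  rintro s ⟨T, hT, hs⟩
  exact hit_nonneg hΦ hε (hF T hT).1 hs

theorem ext_le_of_mem_conF (h : s ∈ conF Φ ε F T') : ext Φ ε T' ≤ s := by
  obtain ⟨T, -, hs⟩ := h
  exact hit_ext_le hs

theorem conF_of_frequently (hΦ : IsPotential Φ) (hε : 0 < ε) (hF : OkF Φ ε L F)
    (h : ∃ᶠ r in 𝓝[>] s, r ∈ conF Φ ε F T') : s ∈ conF Φ ε F T' := by
  induction F with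
  | nil =>
    obtain ⟨r, T, hT, -⟩ := h.exists
    exact absurd hT (by simp)
  | cons T F ih =>
    have h1 : ∃ᶠ r in 𝓝[>] s, hit Φ ε T T' r ∨ r ∈ conF Φ ε F T' := by
      refine h.mono ?_
      rintro r ⟨T₁, hT₁, hr⟩
      rcases List.mem_cons.1 hT₁ with rfl | hT₁
      · exact Or.inl hr
      · exact Or.inr ⟨T₁, hT₁, hr⟩
    rcases frequently_or_distrib.1 h1 with h2 | h2
    · exact ⟨T, by simp, hit_of_frequently hΦ hε (hF T (by simp)).1 h2⟩
    · obtain ⟨T₁, hT₁, hs⟩ := ih (fun T₁ hT₁ => hF T₁ (by simp [hT₁])) h2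
      exact ⟨T₁, by simp [hT₁], hs⟩

theorem ff_mem (hΦ : IsPotential Φ) (hε : 0 < ε) (hF : OkF Φ ε L F)
    (h : (conF Φ ε F T').Nonempty) : ff Φ ε F T' ∈ conF Φ ε F T' :=
  sInf_mem_of_frequently h (conF_bddBelow hΦ hε hF) fun _ hs => conF_of_frequently hΦ hε hF hs

theorem ff_le (hΦ : IsPotential Φ) (hε : 0 < ε) (hF : OkF Φ ε L F) (h : s ∈ conF Φ ε F T') :
    ff Φ ε F T' ≤ s := csInf_le (conF_bddBelow hΦ hε hF) h

theorem ff_nonneg (hΦ : IsPotential Φ) (hε : 0 < ε) (hF : OkF Φ ε L F)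
    (h : (conF Φ ε F T').Nonempty) : 0 ≤ ff Φ ε F T' := by
  obtain ⟨T, hT, hs⟩ := ff_mem hΦ hε hF h
  exact hit_nonneg hΦ hε (hF T hT).1 hs

/-- Two first hitters hit at the same time. -/
theorem ff_eq_of_firstHit (hΦ : IsPotential Φ) (hε : 0 < ε) (hF : OkF Φ ε L F)
    (h : FirstHit Φ ε L W F T) (h' : FirstHit Φ ε L W F T') : ff Φ ε F T = ff Φ ε F T' := by
  by_contra hne
  rcases lt_or_gt_of_ne hne with hlt | hlt
  · obtain ⟨S, hS, hs⟩ := ff_mem hΦ hε hF h.1
    exact h'.2.2 S hS T _ hlt hs h.2.1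
  · obtain ⟨S, hS, hs⟩ := ff_mem hΦ hε hF h'.1
    exact h.2.2 S hS T' _ hlt hs h'.2.1

theorem not_noHit_of_firstHit (hΦ : IsPotential Φ) (hε : 0 < ε) (hF : OkF Φ ε L F)
    (h : FirstHit Φ ε L W F T') (ht : ff Φ ε F T' < t) : ¬NoHit Φ ε L W F t := fun hcon => by
  obtain ⟨S, hS, hs⟩ := ff_mem hΦ hε hF h.1
  exact hcon S hS T' _ ht hs h.2.1

theorem noHit_of_firstHit (h : FirstHit Φ ε L W F T') (ht : t ≤ ff Φ ε F T') :
    NoHit Φ ε L W F t := h.2.2.mono ht

/-- The candidates. -/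
def cand (W : Set Src) (L : ℕ) : Set CTree := {T | T.leaves ⊆ W ∧ T.depth ≤ L}

theorem cand_finite (hW : W.Finite) : (cand W L).Finite := finite_depth hW L

/-- If the forest has been hit before `t` but not before `t₀` there is a first hitter. -/
theorem exists_firstHit (hΦ : IsPotential Φ) (hε : 0 < ε) (hW : W.Finite) (hF : OkF Φ ε L F)
    (h0 : NoHit Φ ε L W F t₀) (h1 : ¬NoHit Φ ε L W F t) :
    ∃ T', FirstHit Φ ε L W F T' ∧ t₀ ≤ ff Φ ε F T' ∧ ff Φ ε F T' < t := by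
  -- the hitters which are alive at their first contact, which is before `t`
  set B : Set CTree := {T' | (conF Φ ε F T').Nonempty ∧ ff Φ ε F T' < t ∧
    alive Φ ε L W T' (ff Φ ε F T')} with hB
  have hBf : B.Finite := (cand_finite (L := L) hW).subset fun T' hT' =>
    ⟨(alive_pre hT'.2.2).sub, (alive_pre hT'.2.2).depth⟩
  have key : ∀ T ∈ F, ∀ T' s, s < t → hit Φ ε T T' s → alive Φ ε L W T' s → T' ∈ B := by
    intro T hT T' s hs hh ha
    have hc : s ∈ conF Φ ε F T' := ⟨T, hT, hh⟩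
    have h2 := ff_mem hΦ hε hF ⟨s, hc⟩
    exact ⟨⟨s, hc⟩, (ff_le hΦ hε hF hc).trans_lt hs,
      alive_anti ha (ff_le hΦ hε hF hc) (ext_le_of_mem_conF h2)⟩
  have hBne : B.Nonempty := by
    rw [NoHit] at h1
    push Not at h1
    obtain ⟨T, hT, T', s, hs, hh, ha⟩ := h1
    exact ⟨T', key T hT T' s hs hh ha⟩
  obtain ⟨T', hT', hmin⟩ := Set.exists_min_image B (ff Φ ε F) hBf hBne
  have hno : NoHit Φ ε L W F (ff Φ ε F T') := by
    intro T hT T'' s hs hh ha
    have h2 := key T hT T'' s (hs.trans hT'.2.1) hh ha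
    exact absurd ((hmin T'' h2).trans (ff_le hΦ hε hF ⟨T, hT, hh⟩)) (not_le.2 hs)
  refine ⟨T', ⟨hT'.1, hT'.2.2, hno⟩, ?_, hT'.2.1⟩
  by_contra hlt
  push Not at hlt
  obtain ⟨S, hS, hs⟩ := ff_mem hΦ hε hF hT'.1
  exact h0 S hS T' _ hlt hs hT'.2.2

/-- Upper bound: the first hitters account for the loss. -/
theorem ind_noHit_le (hΦ : IsPotential Φ) (hε : 0 < ε) (hW : W.Finite) (hF : OkF Φ ε L F) :
    ind (NoHit Φ ε L W F t₀) ≤ ind (NoHit Φ ε L W F t) +
      ∑' T', ind (FirstHit Φ ε L W F T' ∧ t₀ ≤ ff Φ ε F T' ∧ ff Φ ε F T' < t) := by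
  by_cases h0 : NoHit Φ ε L W F t₀
  · by_cases h1 : NoHit Φ ε L W F t
    · rw [ind_of_true h0, ind_of_true h1]
      exact le_self_add
    · obtain ⟨T', hT'⟩ := exists_firstHit hΦ hε hW hF h0 h1
      rw [ind_of_true h0]
      refine le_trans ?_ (le_add_left (ENNReal.le_tsum T'))
      rw [ind_of_true hT']
  · rw [ind_of_false h0]; exact zero_le

/-- Lower bound, up to the pairs of simultaneous first hitters. -/
theorem le_ind_noHit (hΦ : IsPotential Φ) (hε : 0 < ε) (hF : OkF Φ ε L F)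
    (ht : t₀ ≤ t) :
    ind (NoHit Φ ε L W F t) +
      ∑' T', ind (FirstHit Φ ε L W F T' ∧ t₀ ≤ ff Φ ε F T' ∧ ff Φ ε F T' < t) ≤
    ind (NoHit Φ ε L W F t₀) + ∑' T', ∑' T'', ind (T'' ≠ T' ∧ (FirstHit Φ ε L W F T' ∧
      FirstHit Φ ε L W F T'') ∧ t₀ ≤ ff Φ ε F T' ∧ ff Φ ε F T' < t) := by
  by_cases h : ∃ T', FirstHit Φ ε L W F T' ∧ t₀ ≤ ff Φ ε F T' ∧ ff Φ ε F T' < t
  · obtain ⟨T₁, hT₁, h1, h2⟩ := h
    rw [ind_of_false (not_noHit_of_firstHit hΦ hε hF hT₁ h2), zero_add,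
      ind_of_true (noHit_of_firstHit hT₁ h1)]
    classical
    -- all the terms except `T₁` are bounded by the pairs `(T', T₁)`
    have hle : ∀ T', ind (FirstHit Φ ε L W F T' ∧ t₀ ≤ ff Φ ε F T' ∧ ff Φ ε F T' < t) ≤
        (if T' = T₁ then 1 else 0) + ∑' T'', ind (T'' ≠ T' ∧ (FirstHit Φ ε L W F T' ∧
          FirstHit Φ ε L W F T'') ∧ t₀ ≤ ff Φ ε F T' ∧ ff Φ ε F T' < t) := by
      intro T'
      by_cases hT' : T' = T₁
      · rw [if_pos hT']
        exact (ind_le_one _).trans le_self_add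
      · rw [if_neg hT', zero_add]
        refine le_trans (ind_mono ?_) (ENNReal.le_tsum T₁)
        rintro ⟨h3, h4⟩
        exact ⟨fun h => hT' h.symm, ⟨h3, hT₁⟩, h4⟩
    refine (ENNReal.tsum_le_tsum hle).trans ?_
    rw [ENNReal.tsum_add, tsum_ite_eq]
  · have h3 : ∑' T', ind (FirstHit Φ ε L W F T' ∧ t₀ ≤ ff Φ ε F T' ∧ ff Φ ε F T' < t) = 0 := by
      rw [ENNReal.tsum_eq_zero]
      exact fun T' => ind_of_false fun hT' => h ⟨T', hT'⟩
    rw [h3, add_zero]
    exact (ind_mono fun h => h.mono ht).trans le_self_add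

end Vale.Agent.P119.ML
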