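import Vale.Agent.P119.PB.TreeMeas
import Vale.Agent.P119.AU.World
import Vale.Agent.P119.KT.HitLine
import Vale.Agent.P119.ML.FH

/-!
# P119, block ML (`helper67`): integrals over the trees of an ordinary world in backward parameters

* `lintegral_shape`: the integral over the trees of a given shape;
* `lintegral_node_tree`: for trees whose last collision ends exactly at the time `t`:
  parameters `ξ : XP a b`, weights `vw`, `tk`, `lw`, trees `nT`.
-/

open MeasureTheory Filter Topology Set ProbabilityTheory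
open scoped ENNReal NNReal

noncomputable section

namespace Vale.Agent.P119.ML

open KU M KT CTree

variable {Φ : E3 → ℝ} {ε : ℝ} {f₀ : Ph → ℝ}

/-- The density as a function to `ENNReal`. -/
def fh (f₀ : Ph → ℝ) (z : Ph) : ℝ≥0∞ := ENNReal.ofReal (f₀ z)

theorem measurable_fh (hf : Measurable f₀) : Measurable (fh f₀) := hf.ennreal_ofReal

theorem mu_mul_sq (hε : 0 < ε) : ENNReal.ofReal (mu ε) * ENNReal.ofReal (ε ^ 2) = 1 := by
  unfold mu
  rw [← ENNReal.ofReal_mul (by positivity), inv_mul_cancel₀ (by positivity), ENNReal.ofReal_one]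

/-- Integration over the trees of shape `τ`. -/
theorem lintegral_shape (hΦ : IsPotential Φ) (hε : 0 < ε) (hf : Measurable f₀) (τ : Shape)
    {G : CTree → ℝ≥0∞} (hG : Measurable G) (h0 : ∀ T, G T ≠ 0 → ok Φ ε T) :
    ∫⁻ z, G (τ.ord z) ∂(Measure.pi fun _ : Fin τ.card => GC.inten f₀ ε) =
      ENNReal.ofReal (mu ε) * ∫⁻ l : Ph, ∫⁻ p, KT.wt Φ τ l.2 p *
        {x : Ph × PD τ | tok Φ ε τ x.1.2 x.2}.indicator
          (fun x => lprod (fh f₀) τ (bk Φ ε τ x.1 x.2) * G (mkL τ (bk Φ ε τ x.1 x.2))) (l, p)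
            ∂(pvol τ) := by
  have hfm := measurable_fh hf
  have hG' : Measurable fun z : Fin τ.card → Ph => G (τ.ord z) := hG.comp (measurable_ord τ)
  have h1 : GC.inten f₀ ε = (volume : Measure Ph).withDensity
      (fun z => ENNReal.ofReal (mu ε) * fh f₀ z) := by
    unfold GC.inten law
    exact (withDensity_smul _ hfm).symm
  rw [h1, AU.lintegral_pi_withDensity (volume : Measure Ph) (hfm.const_mul _)
    (fun a => ENNReal.mul_ne_top ENNReal.ofReal_ne_top ENNReal.ofReal_ne_top) hG']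
  have h2 : ∀ z : Fin τ.card → Ph, (∏ i, ENNReal.ofReal (mu ε) * fh f₀ (z i)) * G (τ.ord z) =
      ENNReal.ofReal (mu ε) ^ τ.card * {z | ok Φ ε (τ.ord z)}.indicator
        (fun z => (∏ i, fh f₀ (z i)) * (fun y : Ph × (Fin τ.card → Ph) => G (τ.ord y.2))
          (ln Φ ε (τ.ord z), z)) z := by
    intro z
    rw [Finset.prod_mul_distrib, Finset.prod_const, Finset.card_univ, Fintype.card_fin, mul_assoc]
    congr 1
    by_cases h : ok Φ ε (τ.ord z)
    · rw [indicator_of_mem (by exact h)]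
    · rw [indicator_of_notMem (by exact h)]
      have : G (τ.ord z) = 0 := by
        by_contra hne
        exact h (h0 _ hne)
      rw [this, mul_zero]
  simp only [h2]
  rw [lintegral_const_mul' _ _ (ENNReal.pow_ne_top ENNReal.ofReal_ne_top)]
  have h3 : Measurable fun y : Ph × (Fin τ.card → Ph) => G (τ.ord y.2) :=
    hG'.comp measurable_snd
  have h4 := lintegral_ok_ord (Φ := Φ) hΦ hε τ hfm h3
  rw [← volume_pi]
  rw [h4, ← mul_assoc]
  congr 1
  · have hc : τ.card = (τ.card - 1) + 1 := (Nat.succ_pred_eq_of_pos (card_pos τ)).symm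
    conv_lhs => rw [hc, pow_succ]
    rw [Nat.add_sub_cancel, mul_right_comm, ← mul_pow, mu_mul_sq hε, one_pow, one_mul]
  · refine lintegral_congr fun l => lintegral_congr fun p => ?_
    congr 1
    by_cases h : tok Φ ε τ l.2 p
    · rw [indicator_of_mem (by exact h), indicator_of_mem (by exact h)]
      simp only
      rw [mkL_eq_ord]
    · rw [indicator_of_notMem (by exact h), indicator_of_notMem (by exact h)]

/-! ### Nodes with exact exit time -/

/-- Parameters of a tree of shape `node a b` whose last collision ends at a given time. -/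
abbrev XP (a b : Shape) : Type := (E3 × E2) × (PD a × PD b)

/-- The measure of the parameters `(w, b)` of a node. -/
def yvol : Measure (E3 × E2) := (volume : Measure (E3 × E2)).restrict {y | ‖y.2‖ < 1}

instance : SigmaFinite yvol := by unfold yvol; infer_instance

/-- The measure on `XP a b`. -/
def xvol (a b : Shape) : Measure (XP a b) := yvol.prod ((pvol a).prod (pvol b))

instance (a b : Shape) : SigmaFinite (xvol a b) := by unfold xvol; infer_instance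

/-- The node with exhaust velocity and impact parameter `y` whose collision ends at the time `t`. -/
def shn (ε : ℝ) (v : E3) (t : ℝ) (y : E3 × E2) : ND := (t - ε * half (outRel v (0, y)), y)

theorem measurable_half_zero : Measurable fun x : E3 × (E3 × E2) => half (outRel x.1 (0, x.2)) := by
  have h1 : Measurable fun x : E3 × (E3 × E2) => ((x.1, ((0 : ℝ), x.2)) : E3 × ND) :=
    measurable_fst.prodMk (measurable_const.prodMk measurable_snd)
  have h2 := measurable_half_outRel.comp h1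
  simp only [Function.comp_def] at h2
  exact h2

theorem measurable_shn : Measurable fun x : (E3 × ℝ) × (E3 × E2) => shn ε x.1.1 x.1.2 x.2 := by
  unfold shn
  have h1 : Measurable fun x : (E3 × ℝ) × (E3 × E2) => ((x.1.1, x.2) : E3 × (E3 × E2)) := by
    fun_prop
  have h2 := measurable_half_zero.comp h1
  simp only [Function.comp_def] at h2
  have h3 : Measurable fun x : (E3 × ℝ) × (E3 × E2) =>
      x.1.2 - ε * half (outRel x.1.1 (0, x.2)) :=
    (measurable_snd.comp measurable_fst).sub (h2.const_mul ε)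
  exact h3.prodMk measurable_snd

theorem half_shn (v : E3) (t : ℝ) (y : E3 × E2) :
    (shn ε v t y).1 + ε * half (outRel v (shn ε v t y)) = t := by
  change t - ε * half (outRel v (0, y)) +
    ε * half (outRel v (t - ε * half (outRel v (0, y)), y)) = t
  rw [outRel_congr v (t - ε * half (outRel v (0, y))) 0 y, sub_add_cancel]

/-- Integration over the parameters of a node, with the exit time. -/
theorem lintegral_pvol_node (ε : ℝ) (v : E3) (a b : Shape) {H : ND × (PD a × PD b) → ℝ≥0∞}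
    (hH : Measurable H) :
    ∫⁻ p, H p ∂(nvol.prod ((pvol a).prod (pvol b))) =
      ∫⁻ t : ℝ, ∫⁻ ξ, H (shn ε v t ξ.1, ξ.2) ∂(xvol a b) := by
  set K : ND → ℝ≥0∞ := fun q => ∫⁻ r, H (q, r) ∂((pvol a).prod (pvol b)) with hK
  have hKm : Measurable K := hH.lintegral_prod_right'
  have hc : Measurable fun y : E3 × E2 => -(ε * half (outRel v (0, y))) := by
    have h1 : Measurable fun y : E3 × E2 => ((v, y) : E3 × (E3 × E2)) := measurable_prodMk_left
    have h2 := measurable_half_zero.comp h1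
    simp only [Function.comp_def] at h2
    exact (h2.const_mul ε).neg
  have h1 : ∫⁻ p, H p ∂(nvol.prod ((pvol a).prod (pvol b))) = ∫⁻ q, K q ∂nvol :=
    lintegral_prod _ hH.aemeasurable
  rw [h1, ← lintegral_nvol_shift hc hKm, nvol_eq]
  have hm : Measurable fun q : ℝ × (E3 × E2) =>
      K (q.1 + -(ε * half (outRel v (0, q.2))), q.2) :=
    hKm.comp ((measurable_fst.add (hc.comp measurable_snd)).prodMk measurable_snd)
  rw [lintegral_prod _ hm.aemeasurable]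
  refine lintegral_congr fun t => ?_
  unfold xvol
  have hm2 : Measurable fun ξ : XP a b => H (shn ε v t ξ.1, ξ.2) := by
    have h2 : Measurable fun ξ : XP a b => ((v, t), ξ.1) := measurable_const.prodMk measurable_fst
    have h3 := (measurable_shn (ε := ε)).comp h2
    simp only [Function.comp_def] at h3
    exact hH.comp (h3.prodMk measurable_snd)
  rw [lintegral_prod _ hm2.aemeasurable]
  rfl

/-- The two incoming lines of the last node. -/
def nL (Φ : E3 → ℝ) (ε t : ℝ) (l : Ph) (y : E3 × E2) : Ph × Ph := inLines Φ ε l (shn ε l.2 t y)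

/-- The incoming velocities. -/
def nV (Φ : E3 → ℝ) (v : E3) (y : E3 × E2) : E3 × E3 := inVel Φ v (0, y)

/-- The duration of the collision, divided by `ε`. -/
def dur (Φ : E3 → ℝ) (v : E3) (y : E3 × E2) : ℝ :=
  half (outRel v (0, y)) - tin (inRel Φ v (0, y))

/-- The product of the relative speeds. -/
def nvw (Φ : E3 → ℝ) (a b : Shape) (v : E3) (ξ : XP a b) : ℝ≥0∞ :=
  nw Φ v (0, ξ.1) * (KT.wt Φ a (nV Φ v ξ.1).1 ξ.2.1 * KT.wt Φ b (nV Φ v ξ.1).2 ξ.2.2)

/-- The conditions on the times. -/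
def ntk (Φ : E3 → ℝ) (ε : ℝ) (a b : Shape) (t : ℝ) (v : E3) (ξ : XP a b) : Prop :=
  (tok Φ ε a (nV Φ v ξ.1).1 ξ.2.1 ∧ tok Φ ε b (nV Φ v ξ.1).2 ξ.2.2) ∧
    ex ε a (nV Φ v ξ.1).1 ξ.2.1 < t - ε * dur Φ v ξ.1 ∧
    ex ε b (nV Φ v ξ.1).2 ξ.2.2 < t - ε * dur Φ v ξ.1

/-- The subtrees. -/
def nA (Φ : E3 → ℝ) (ε : ℝ) (a b : Shape) (t : ℝ) (l : Ph) (ξ : XP a b) : CTree :=
  mkL a (bk Φ ε a (nL Φ ε t l ξ.1).1 ξ.2.1)

/-- The subtrees. -/
def nB (Φ : E3 → ℝ) (ε : ℝ) (a b : Shape) (t : ℝ) (l : Ph) (ξ : XP a b) : CTree :=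
  mkL b (bk Φ ε b (nL Φ ε t l ξ.1).2 ξ.2.2)

/-- The product of the densities of the leaves. -/
def nlp (g : Ph → ℝ≥0∞) (Φ : E3 → ℝ) (ε : ℝ) (a b : Shape) (t : ℝ) (l : Ph) (ξ : XP a b) : ℝ≥0∞ :=
  lprod g a (bk Φ ε a (nL Φ ε t l ξ.1).1 ξ.2.1) * lprod g b (bk Φ ε b (nL Φ ε t l ξ.1).2 ξ.2.2)

theorem inVel_time (v : E3) (s s' : ℝ) (y : E3 × E2) :
    inVel Φ v (s, y) = inVel Φ v (s', y) := by
  rw [inVel_def, inVel_def, inRel_def, inRel_def, outRel_congr v s s' y]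

theorem inRel_time (v : E3) (s s' : ℝ) (y : E3 × E2) :
    inRel Φ v (s, y) = inRel Φ v (s', y) := by
  rw [inRel_def, inRel_def, outRel_congr v s s' y]

theorem mem_gn_time (v : E3) (s s' : ℝ) (y : E3 × E2) :
    ((s, y) : ND) ∈ gn Φ v ↔ ((s', y) : ND) ∈ gn Φ v := by
  unfold gn
  simp only [mem_ofPred_eq]
  rw [outRel_congr v s s' y]

theorem nw_time (v : E3) (s s' : ℝ) (y : E3 × E2) : nw Φ v (s, y) = nw Φ v (s', y) := by
  by_cases h : ((s, y) : ND) ∈ gn Φ v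
  · rw [nw_of_mem h, nw_of_mem ((mem_gn_time v s s' y).1 h)]
  · rw [nw_of_notMem h, nw_of_notMem (fun h' => h ((mem_gn_time v s s' y).2 h'))]

theorem nV_shn (v : E3) (t : ℝ) (y : E3 × E2) : inVel Φ v (shn ε v t y) = nV Φ v y :=
  inVel_time v _ _ y

theorem nL_snd (t : ℝ) (l : Ph) (y : E3 × E2) :
    (nL Φ ε t l y).1.2 = (nV Φ l.2 y).1 ∧ (nL Φ ε t l y).2.2 = (nV Φ l.2 y).2 := by
  unfold nL
  have h := inLines_vel (Φ := Φ) ε l (shn ε l.2 t y)
  rw [nV_shn] at h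
  exact h

theorem wt_shn (a b : Shape) (v : E3) (t : ℝ) (ξ : XP a b) :
    KT.wt Φ (.node a b) v (shn ε v t ξ.1, ξ.2) = nvw Φ a b v ξ := by
  change nw Φ v (shn ε v t ξ.1) * (KT.wt Φ a (inVel Φ v (shn ε v t ξ.1)).1 ξ.2.1 *
    KT.wt Φ b (inVel Φ v (shn ε v t ξ.1)).2 ξ.2.2) = _
  rw [nV_shn]
  unfold nvw shn
  rw [nw_time v _ 0 ξ.1]

theorem shn_tin (v : E3) (t : ℝ) (y : E3 × E2) :
    (shn ε v t y).1 + ε * tin (inRel Φ v (shn ε v t y)) = t - ε * dur Φ v y := by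
  have h : inRel Φ v (shn ε v t y) = inRel Φ v (0, y) := inRel_time v _ _ y
  rw [h]
  unfold shn dur
  simp only
  ring

theorem tok_shn (a b : Shape) (v : E3) (t : ℝ) (ξ : XP a b) :
    tok Φ ε (.node a b) v (shn ε v t ξ.1, ξ.2) ↔ ntk Φ ε a b t v ξ := by
  change ((tok Φ ε a (inVel Φ v (shn ε v t ξ.1)).1 ξ.2.1 ∧
    tok Φ ε b (inVel Φ v (shn ε v t ξ.1)).2 ξ.2.2) ∧
    ex ε a (inVel Φ v (shn ε v t ξ.1)).1 ξ.2.1 <
      (shn ε v t ξ.1).1 + ε * tin (inRel Φ v (shn ε v t ξ.1)) ∧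
    ex ε b (inVel Φ v (shn ε v t ξ.1)).2 ξ.2.2 <
      (shn ε v t ξ.1).1 + ε * tin (inRel Φ v (shn ε v t ξ.1))) ↔ _
  rw [nV_shn, shn_tin]
  rfl

/-- The weight of the parameters. -/
def nW (g : Ph → ℝ≥0∞) (Φ : E3 → ℝ) (ε : ℝ) (a b : Shape) (t : ℝ) (l : Ph) (ξ : XP a b) : ℝ≥0∞ :=
  nvw Φ a b l.2 ξ * (ind (ntk Φ ε a b t l.2 ξ) * nlp g Φ ε a b t l ξ)

theorem measurable_mkL (τ : Shape) : Measurable (mkL τ) := by
  have h : mkL τ = fun z => τ.ord (ldEquiv τ z) := funext fun z => mkL_eq_ord τ z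
  rw [h]
  exact (measurable_ord τ).comp (ldEquiv τ).measurable

/-- **Integration over the trees of shape `node a b`**, with the exit time of the last collision. -/
theorem lintegral_node_shape (hΦ : IsPotential Φ) (hε : 0 < ε) (hf : Measurable f₀) (a b : Shape)
    {G : CTree → ℝ≥0∞} (hG : Measurable G) (h0 : ∀ T, G T ≠ 0 → ok Φ ε T) :
    ∫⁻ z, G ((Shape.node a b).ord z) ∂(Measure.pi fun _ : Fin (Shape.node a b).card =>
        GC.inten f₀ ε) =
      ENNReal.ofReal (mu ε) * ∫⁻ l : Ph, ∫⁻ t : ℝ, ∫⁻ ξ, nW (fh f₀) Φ ε a b t l ξ *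
        G (.node (nA Φ ε a b t l ξ) (nB Φ ε a b t l ξ)) ∂(xvol a b) := by
  have hfm := measurable_fh hf
  rw [lintegral_shape hΦ hε hf (.node a b) hG h0]
  congr 1
  refine lintegral_congr fun l => ?_
  set H : PD (.node a b) → ℝ≥0∞ := fun p => KT.wt Φ (.node a b) l.2 p *
    {x : Ph × PD (.node a b) | tok Φ ε (.node a b) x.1.2 x.2}.indicator
      (fun x => lprod (fh f₀) (.node a b) (bk Φ ε (.node a b) x.1 x.2) *
        G (mkL (.node a b) (bk Φ ε (.node a b) x.1 x.2))) (l, p) with hH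
  have hHm : Measurable H := by
    have h1 : Measurable fun p : PD (.node a b) => KT.wt Φ (.node a b) l.2 p :=
      (KT.measurable_wt hΦ (.node a b)).comp (measurable_const.prodMk measurable_id)
    have h2 : MeasurableSet {x : Ph × PD (.node a b) | tok Φ ε (.node a b) x.1.2 x.2} :=
      ((measurable_snd.comp measurable_fst).prodMk measurable_snd :
        Measurable fun x : Ph × PD (.node a b) => (x.1.2, x.2))
        (measurableSet_tok hΦ ε (.node a b))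
    have h3 : Measurable fun x : Ph × PD (.node a b) =>
        lprod (fh f₀) (.node a b) (bk Φ ε (.node a b) x.1 x.2) *
          G (mkL (.node a b) (bk Φ ε (.node a b) x.1 x.2)) :=
      ((measurable_lprod hfm (.node a b)).comp (measurable_bk hΦ ε (.node a b))).mul
        (hG.comp ((measurable_mkL (.node a b)).comp (measurable_bk hΦ ε (.node a b))))
    exact h1.mul ((h3.indicator h2).comp (measurable_const.prodMk measurable_id))
  have h4 : ∫⁻ p, H p ∂(pvol (.node a b)) =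
      ∫⁻ t : ℝ, ∫⁻ ξ, H (shn ε l.2 t ξ.1, ξ.2) ∂(xvol a b) :=
    lintegral_pvol_node ε l.2 a b (H := H) hHm
  rw [h4]
  refine lintegral_congr fun t => lintegral_congr fun ξ => ?_
  rw [hH]
  simp only
  rw [wt_shn]
  unfold nW
  rw [mul_assoc]
  congr 1
  by_cases h : ntk Φ ε a b t l.2 ξ
  · rw [indicator_of_mem (by exact (tok_shn a b l.2 t ξ).2 h), ind_of_true h, one_mul]
    rfl
  · rw [indicator_of_notMem (by exact fun h' => h ((tok_shn a b l.2 t ξ).1 h')), ind_of_false h,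
      zero_mul, zero_mul]

/-! ### The trees -/

section facts

variable {a b : Shape} {t : ℝ} {l : Ph} {ξ : XP a b}

theorem nvw_ne_zero (h : nvw Φ a b l.2 ξ ≠ 0) : ((0, ξ.1) : ND) ∈ gn Φ l.2 ∧
    good Φ a (nV Φ l.2 ξ.1).1 ξ.2.1 ∧ good Φ b (nV Φ l.2 ξ.1).2 ξ.2.2 := by
  unfold nvw at h
  rw [mul_ne_zero_iff, mul_ne_zero_iff] at h
  exact ⟨nw_ne_zero_iff.1 h.1, (wt_ne_zero_iff a _ _).1 h.2.1, (wt_ne_zero_iff b _ _).1 h.2.2⟩

theorem shn_mem (h : nvw Φ a b l.2 ξ ≠ 0) (ε t : ℝ) : shn ε l.2 t ξ.1 ∈ gn Φ l.2 :=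
  (mem_gn_time l.2 0 _ ξ.1).1 (nvw_ne_zero h).1

theorem ln_nA (hΦ : IsPotential Φ) (hε : ε ≠ 0) (h : nvw Φ a b l.2 ξ ≠ 0) :
    ln Φ ε (nA Φ ε a b t l ξ) = (nL Φ ε t l ξ.1).1 := by
  unfold nA
  refine ln_mkL_bk hΦ hε a _ _ ?_
  rw [(nL_snd _ _ _).1]
  exact (nvw_ne_zero h).2.1

theorem ln_nB (hΦ : IsPotential Φ) (hε : ε ≠ 0) (h : nvw Φ a b l.2 ξ ≠ 0) :
    ln Φ ε (nB Φ ε a b t l ξ) = (nL Φ ε t l ξ.1).2 := by
  unfold nB
  refine ln_mkL_bk hΦ hε b _ _ ?_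
  rw [(nL_snd _ _ _).2]
  exact (nvw_ne_zero h).2.2

theorem ext_nA (hΦ : IsPotential Φ) (hε : ε ≠ 0) (h : nvw Φ a b l.2 ξ ≠ 0) :
    ext Φ ε (nA Φ ε a b t l ξ) = ex ε a (nV Φ l.2 ξ.1).1 ξ.2.1 := by
  unfold nA
  rw [ext_mkL, exL_bk hΦ hε a _ _ (by rw [(nL_snd _ _ _).1]; exact (nvw_ne_zero h).2.1), (nL_snd _ _ _).1]

theorem ext_nB (hΦ : IsPotential Φ) (hε : ε ≠ 0) (h : nvw Φ a b l.2 ξ ≠ 0) :
    ext Φ ε (nB Φ ε a b t l ξ) = ex ε b (nV Φ l.2 ξ.1).2 ξ.2.2 := by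
  unfold nB
  rw [ext_mkL, exL_bk hΦ hε b _ _ (by rw [(nL_snd _ _ _).2]; exact (nvw_ne_zero h).2.2), (nL_snd _ _ _).2]

theorem sc2_nL (hΦ : IsPotential Φ) (hε : ε ≠ 0) (h : nvw Φ a b l.2 ξ ≠ 0) :
    sc2 Φ ε (nL Φ ε t l ξ.1) = (l, exLine ε l (shn ε l.2 t ξ.1)) := by
  rw [← pm_eq_sc2]
  exact pm_inLines hΦ hε l (shn_mem h ε t).2.2

theorem ln_node (hΦ : IsPotential Φ) (hε : ε ≠ 0) (h : nvw Φ a b l.2 ξ ≠ 0) :
    ln Φ ε (.node (nA Φ ε a b t l ξ) (nB Φ ε a b t l ξ)) = l := by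
  change (sc2 Φ ε (ln Φ ε (nA Φ ε a b t l ξ), ln Φ ε (nB Φ ε a b t l ξ))).1 = l
  rw [ln_nA hΦ hε h, ln_nB hΦ hε h, show ((nL Φ ε t l ξ.1).1, (nL Φ ε t l ξ.1).2) =
    nL Φ ε t l ξ.1 from rfl, sc2_nL hΦ hε h]

theorem ext_node (hΦ : IsPotential Φ) (hε : ε ≠ 0) (h : nvw Φ a b l.2 ξ ≠ 0) :
    ext Φ ε (.node (nA Φ ε a b t l ξ) (nB Φ ε a b t l ξ)) = t := by
  change sepT Φ ε (ln Φ ε (nA Φ ε a b t l ξ), ln Φ ε (nB Φ ε a b t l ξ)) = t
  rw [ln_nA hΦ hε h, ln_nB hΦ hε h, show ((nL Φ ε t l ξ.1).1, (nL Φ ε t l ξ.1).2) =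
    inLines Φ ε l (shn ε l.2 t ξ.1) from rfl, sepT_inLines hΦ hε (shn_mem h ε t), half_shn]

theorem sig_node (hΦ : IsPotential Φ) (hε : ε ≠ 0) (h : nvw Φ a b l.2 ξ ≠ 0) :
    sig Φ ε (.node (nA Φ ε a b t l ξ) (nB Φ ε a b t l ξ)) = t - ε * dur Φ l.2 ξ.1 := by
  change hitT ε (ln Φ ε (nA Φ ε a b t l ξ), ln Φ ε (nB Φ ε a b t l ξ)) = _
  rw [ln_nA hΦ hε h, ln_nB hΦ hε h, show ((nL Φ ε t l ξ.1).1, (nL Φ ε t l ξ.1).2) =
    inLines Φ ε l (shn ε l.2 t ξ.1) from rfl, hitT_inLines hΦ hε (shn_mem h ε t), shn_tin]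

theorem dur_pos (hΦ : IsPotential Φ) (h : nvw Φ a b l.2 ξ ≠ 0) : 0 < dur Φ l.2 ξ.1 := by
  unfold dur
  have := tin_inRel_lt hΦ (nvw_ne_zero h).1
  linarith

end facts

end Vale.Agent.P119.ML
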