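import Vale.Agent.P119.ML.LegG
import Vale.Agent.P119.ML.IrrGerm
import Vale.Agent.P119.ML.FH2
import Vale.Agent.P119.ML.TreeInt

/-!
# P119, block ML (`helper860`): the first contacts with a forest at fixed `ε`

* `lintegral_hset`: exact formula for the regular contacts with a line;
* `first_cases`: the first contact with a forest is regular or irregular;
* `HI_le`, `le_HI`: the hit integral and the sum over the legs.
-/

open MeasureTheory Filter Topology Set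
open scoped ENNReal NNReal

noncomputable section

namespace Vale.Agent.P119.ML

open KU M KT CTree GC

variable {Φ : E3 → ℝ} {ε : ℝ} {f₀ : Ph → ℝ} {L : ℕ}

/-! ### Integrals -/

theorem lintegral_pi_ld (hf : Measurable f₀) (τ : Shape) {F : (Fin τ.card → Ph) → ℝ≥0∞}
    (hF : Measurable F) :
    ∫⁻ z, F z ∂(Measure.pi fun _ : Fin τ.card => inten f₀ ε) =
      ENNReal.ofReal (mu ε) ^ τ.card *
        ∫⁻ z, lprod (fh f₀) τ z * F (ldEquiv τ z) ∂vol τ := by
  have hfm := measurable_fh hf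
  have h1 : inten f₀ ε = (volume : Measure Ph).withDensity
      (fun z => ENNReal.ofReal (mu ε) * fh f₀ z) := by
    unfold inten law
    exact (withDensity_smul _ hfm).symm
  rw [h1, AU.lintegral_pi_withDensity (volume : Measure Ph) (hfm.const_mul _)
    (fun a => ENNReal.mul_ne_top ENNReal.ofReal_ne_top ENNReal.ofReal_ne_top) hF]
  have h2 : ∀ z : Fin τ.card → Ph, (∏ i, ENNReal.ofReal (mu ε) * fh f₀ (z i)) * F z =
      ENNReal.ofReal (mu ε) ^ τ.card * ((∏ i, fh f₀ (z i)) * F z) := by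
    intro z
    rw [Finset.prod_mul_distrib, Finset.prod_const, Finset.card_univ, Fintype.card_fin, mul_assoc]
  simp only [h2]
  rw [lintegral_const_mul' _ _ (ENNReal.pow_ne_top ENNReal.ofReal_ne_top), ← volume_pi,
    ← (ldEquiv_preserving τ).lintegral_comp_emb (ldEquiv τ).measurableEmbedding]
  congr 1
  refine lintegral_congr fun z => ?_
  rw [lprod_eq]

/-- The regular contacts with the line `ℓ` in `[a, b)`. -/
def hset (Φ : E3 → ℝ) (ε : ℝ) (τ : Shape) (ℓ : Ph) (a b : ℝ) : Set (Fin τ.card → Ph) :=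
  {z | ok Φ ε (τ.ord z) ∧ Meets ε (ℓ, ln Φ ε (τ.ord z)) ∧
    ext Φ ε (τ.ord z) ≤ hitT ε (ℓ, ln Φ ε (τ.ord z)) ∧
    a ≤ hitT ε (ℓ, ln Φ ε (τ.ord z)) ∧ hitT ε (ℓ, ln Φ ε (τ.ord z)) < b}

theorem measurable_hitT_ord (hΦ : IsPotential Φ) (hε : ε ≠ 0) (τ : Shape) (ℓ : Ph) :
    Measurable fun z : Fin τ.card → Ph => hitT ε (ℓ, ln Φ ε (τ.ord z)) :=
  measurable_hitT.comp (measurable_const.prodMk ((measurable_ln hΦ hε).comp (measurable_ord τ)))

theorem measurableSet_hset (hΦ : IsPotential Φ) (hε : ε ≠ 0) (τ : Shape) (ℓ : Ph) (a b : ℝ) :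
    MeasurableSet (hset Φ ε τ ℓ a b) := by
  have h1 := measurable_hitT_ord hΦ hε τ ℓ
  have h2 : Measurable fun z : Fin τ.card → Ph => (ℓ, ln Φ ε (τ.ord z)) :=
    measurable_const.prodMk ((measurable_ln hΦ hε).comp (measurable_ord τ))
  exact (measurable_ord τ (measurableSet_ok hΦ hε)).inter ((h2 measurableSet_meets).inter
    ((measurableSet_le ((measurable_ext hΦ hε).comp (measurable_ord τ)) h1).inter
      ((measurableSet_le measurable_const h1).inter (measurableSet_lt h1 measurable_const))))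

/-- **The regular contacts with a line: exact formula.** -/
theorem lintegral_hset (hΦ : IsPotential Φ) (hε : 0 < ε) (hf : Measurable f₀) (τ : Shape) (ℓ : Ph)
    (a b : ℝ) {G : (Fin τ.card → Ph) × ℝ → ℝ≥0∞} (hG : Measurable G) :
    ∫⁻ z, (hset Φ ε τ ℓ a b).indicator (fun z => G (z, hitT ε (ℓ, ln Φ ε (τ.ord z)))) z
        ∂(Measure.pi fun _ : Fin τ.card => inten f₀ ε) =
      ∫⁻ x, regw (fh f₀) Φ ε τ ℓ a b x * G (ldEquiv τ (bk Φ ε τ (hl ε ℓ x.1) x.2), x.1.1)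
        ∂(nvol.prod (pvol τ)) := by
  have hm : Measurable ((hset Φ ε τ ℓ a b).indicator
      (fun z => G (z, hitT ε (ℓ, ln Φ ε (τ.ord z))))) :=
    (hG.comp (measurable_id.prodMk (measurable_hitT_ord hΦ hε.ne' τ ℓ))).indicator
      (measurableSet_hset hΦ hε.ne' τ ℓ a b)
  rw [lintegral_pi_ld hf τ hm]
  have h1 : ∫⁻ z, lprod (fh f₀) τ z * (hset Φ ε τ ℓ a b).indicator
      (fun z => G (z, hitT ε (ℓ, ln Φ ε (τ.ord z)))) (ldEquiv τ z) ∂vol τ =
      ∫⁻ z, (hitset Φ ε τ ℓ a b).indicator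
        (fun z => lprod (fh f₀) τ z * (fun y : LD τ × ℝ => G (ldEquiv τ y.1, y.2))
          (z, hitT ε (ℓ, ln Φ ε (mkL τ z)))) z ∂vol τ := by
    refine lintegral_congr fun z => ?_
    have e1 : ldEquiv τ z ∈ hset Φ ε τ ℓ a b ↔ z ∈ hitset Φ ε τ ℓ a b := by
      unfold hset hitset
      rw [Set.mem_ofPred_eq, Set.mem_ofPred_eq, ← mkL_eq_ord]
    by_cases h : z ∈ hitset Φ ε τ ℓ a b
    · rw [indicator_of_mem h, indicator_of_mem (e1.2 h), ← mkL_eq_ord]
    · rw [indicator_of_notMem h, indicator_of_notMem fun h' => h (e1.1 h'), mul_zero]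
  rw [h1, lintegral_hits hΦ hε τ ℓ a b (measurable_fh hf)
    (H := fun y : LD τ × ℝ => G (ldEquiv τ y.1, y.2))
    (hG.comp (((ldEquiv τ).measurable.comp measurable_fst).prodMk measurable_snd)),
    ← mul_assoc, ← mul_pow, mu_mul_sq hε, one_pow, one_mul]

/-! ### First contacts -/

theorem disjoint_of_cmpZ (hε : 0 < ε) {F : List CTree} {τ : Shape} {z : Fin τ.card → Ph}
    (h : CmpZ ε F z) {T : CTree} (hT : T ∈ F) : Disjoint T.leaves (τ.ord z).leaves := by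
  rw [Set.disjoint_left]
  intro σ h1 h2
  obtain ⟨i, rfl⟩ := mem_leaves_ord.1 h2
  have h3 := h i _ (leaves_subset_lvs hT h1)
  have h4 : (z i).1 - (src (z i)).2.1.1 = 0 := sub_self _
  rw [h4, norm_zero] at h3
  exact absurd h3 (not_lt.2 hε.le)

/-- The set of the trees with an irregular contact with the forest. -/
def irrF (Φ : E3 → ℝ) (ε : ℝ) (F : List CTree) (t : ℝ) : Set CTree :=
  {T' | ∃ T ∈ F, T' ∈ irrT Φ ε T t}

theorem measurableSet_irrF (hΦ : IsPotential Φ) (hε : ε ≠ 0) (F : List CTree) (t : ℝ) :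
    MeasurableSet (irrF Φ ε F t) :=
  measurableSet_exists_mem F fun T _ => measurableSet_irrT hΦ hε T t

/-- The first contact with a forest is regular or irregular. -/
theorem first_cases (hΦ : IsPotential Φ) (hε : 0 < ε) {F : List CTree} (hF : OkF Φ ε L F)
    {T' : CTree} (hT' : ok Φ ε T') (hd : ∀ T ∈ F, Disjoint T.leaves T'.leaves)
    (hne : (conF Φ ε F T').Nonempty) {t : ℝ} (ht : ff Φ ε F T' ≤ t) :
    (∃ T ∈ F, ∃ l ∈ legs Φ ε T t, l.2.1 < ff Φ ε F T' ∧ ff Φ ε F T' ≤ l.2.2 ∧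
      ext Φ ε T' < ff Φ ε F T' ∧ Meets ε (l.1, ln Φ ε T') ∧
      hitT ε (l.1, ln Φ ε T') = ff Φ ε F T') ∨ T' ∈ irrF Φ ε F t := by
  obtain ⟨T, hT, hs⟩ := ff_mem hΦ hε hF hne
  have hfirst : ∀ r < ff Φ ε F T', ¬hit Φ ε T T' r := fun r hr hcon =>
    absurd (ff_le hΦ hε hF ⟨T, hT, hcon⟩) (not_le.2 hr)
  rcases first_hit_irr hΦ hε (hF T hT).1 hT' (hd T hT) hs hfirst ht with h | h
  · exact Or.inl ⟨T, hT, h⟩
  · exact Or.inr ⟨T, hT, h⟩

/-- Two lines which keep a distance on a compact interval. -/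
theorem measurableSet_apart (ε : ℝ) (ℓ : Ph) (a b : ℝ) :
    MeasurableSet {ρ : Ph | ∀ s ∈ Icc a b, ε < ‖(KU.free s ℓ).1 - (KU.free s ρ).1‖} := by
  have h1 : {ρ : Ph | ∀ s ∈ Icc a b, ε < ‖(KU.free s ℓ).1 - (KU.free s ρ).1‖} =
      (Prod.snd '' {p : Icc a b × Ph | ‖(KU.free p.1 ℓ).1 - (KU.free p.1 p.2).1‖ ≤ ε})ᶜ := by
    ext ρ
    simp only [Set.mem_ofPred_eq, mem_compl_iff, mem_image, Prod.exists,
      exists_eq_right, not_exists, not_le, Subtype.forall]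
  rw [h1]
  have h2 : IsClosed {p : Icc a b × Ph | ‖(KU.free p.1 ℓ).1 - (KU.free p.1 p.2).1‖ ≤ ε} := by
    refine isClosed_le ?_ continuous_const
    unfold KU.free
    fun_prop
  exact (isClosedMap_snd_of_compactSpace _ h2).measurableSet.compl

section Fixed

variable {κ : Type*} {F : List CTree} {t : ℝ} {ℓ : κ → Ph} {A B : κ → ℝ}

/-- The contact with the leg `k` is the only contact. -/
def niceZ (Φ : E3 → ℝ) (ε : ℝ) (F : List CTree) (ℓ : κ → Ph) (A B : κ → ℝ) (k : κ)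
    (τ : Shape) (z : Fin τ.card → Ph) : Prop :=
  (PW (Cx ε) z ∧ CmpZ ε F z) ∧ ∀ k', k' ≠ k → ∀ s ∈ Icc (A k') (B k'),
    ε < ‖(KU.free s (ℓ k')).1 - (KU.free s (ln Φ ε (τ.ord z))).1‖

theorem measurableSet_niceZ [Finite κ] (hΦ : IsPotential Φ) (hε : ε ≠ 0) (F : List CTree)
    (ℓ : κ → Ph) (A B : κ → ℝ) (k : κ) (τ : Shape) :
    MeasurableSet {z : Fin τ.card → Ph | niceZ Φ ε F ℓ A B k τ z} := by
  have h1 : MeasurableSet {z : Fin τ.card → Ph | PW (Cx ε) z} :=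
    measurableSet_PW (measurableSet_Cx ε)
  have h2 : MeasurableSet {z : Fin τ.card → Ph | CmpZ ε F z} := by
    have e1 : {z : Fin τ.card → Ph | CmpZ ε F z} =
        ⋂ i, ⋂ σ ∈ lvs F, {z : Fin τ.card → Ph | ε < ‖(z i).1 - σ.2.1.1‖} := by
      ext z; simp [CmpZ]
    rw [e1]
    refine MeasurableSet.iInter fun i => ?_
    refine MeasurableSet.biInter lvs_finite.countable fun σ _ => ?_
    refine measurableSet_lt measurable_const ?_
    have h : Measurable fun z : Fin τ.card → Ph => (z i).1 := (measurable_pi_apply i).fst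
    exact (h.sub_const _).norm
  have h3 : MeasurableSet {z : Fin τ.card → Ph | ∀ k', k' ≠ k → ∀ s ∈ Icc (A k') (B k'),
      ε < ‖(KU.free s (ℓ k')).1 - (KU.free s (ln Φ ε (τ.ord z))).1‖} := by
    have e1 : {z : Fin τ.card → Ph | ∀ k', k' ≠ k → ∀ s ∈ Icc (A k') (B k'),
        ε < ‖(KU.free s (ℓ k')).1 - (KU.free s (ln Φ ε (τ.ord z))).1‖} =
        ⋂ k', ⋂ (_ : k' ≠ k), (fun z => ln Φ ε (τ.ord z)) ⁻¹'
          {ρ : Ph | ∀ s ∈ Icc (A k') (B k'), ε < ‖(KU.free s (ℓ k')).1 - (KU.free s ρ).1‖} := by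
      ext z; simp
    rw [e1]
    refine MeasurableSet.iInter fun k' => MeasurableSet.iInter fun _ => ?_
    exact ((measurable_ln hΦ hε).comp (measurable_ord τ)) (measurableSet_apart ε _ _ _)
  exact (h1.inter h2).inter h3

/-- **Upper bound for the hit integral at fixed `ε`.** -/
theorem HI_le [Fintype κ] (hΦ : IsPotential Φ) (hε : 0 < ε) (hf : Measurable f₀)
    (hF : OkF Φ ε L F) (hlegs : ∀ l, (∃ T ∈ F, l ∈ legs Φ ε T t) ↔ ∃ k, (ℓ k, A k, B k) = l)
    (t₀ : ℝ) {η : ℝ} (hη : 0 < η) {H : CTree → ℝ → ℝ≥0∞}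
    (hH : Measurable fun p : CTree × ℝ => H p.1 p.2) (hH1 : ∀ T s, H T s ≤ 1) :
    HI Φ ε L f₀ F t₀ t (fun T' => H T' (ff Φ ε F T')) ≤
      (∑ k, ∑ τ ∈ shapes L, ∫⁻ x,
        regw (fh f₀) Φ ε τ (ℓ k) (max (A k) t₀) (min (B k + η) t) x *
          H (mkL τ (bk Φ ε τ (hl ε (ℓ k) x.1) x.2)) x.1.1 ∂(nvol.prod (pvol τ))) +
        tree (inten f₀ ε) L (irrF Φ ε F t) := by
  have hirr := measurableSet_irrF hΦ hε.ne' F t
  -- pointwise
  have hpt : ∀ (τ : Shape) (z : Fin τ.card → Ph),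
      ind (HitEv Φ ε F t₀ t z (τ.ord z)) * H (τ.ord z) (ff Φ ε F (τ.ord z)) ≤
      (∑ k, (hset Φ ε τ (ℓ k) (max (A k) t₀) (min (B k + η) t)).indicator
        (fun z => (fun y : (Fin τ.card → Ph) × ℝ => H (τ.ord y.1) y.2)
          (z, hitT ε (ℓ k, ln Φ ε (τ.ord z)))) z) +
        (irrF Φ ε F t).indicator 1 (τ.ord z) := by
    intro τ z
    by_cases hev : HitEv Φ ε F t₀ t z (τ.ord z)
    · rw [ind_of_true hev, one_mul]
      obtain ⟨⟨h1, h2, h3⟩, h4, h5⟩ := hev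
      rcases first_cases hΦ hε hF h2 (fun T hT => disjoint_of_cmpZ hε h1 hT) h3 h5.le with h | h
      · obtain ⟨T, hT, l, hl, h6, h7, h8, h9, h10⟩ := h
        obtain ⟨k, hk⟩ := (hlegs l).1 ⟨T, hT, hl⟩
        refine le_trans ?_ (le_add_right (Finset.single_le_sum
          (f := fun k => (hset Φ ε τ (ℓ k) (max (A k) t₀) (min (B k + η) t)).indicator
          (fun z => (fun y : (Fin τ.card → Ph) × ℝ => H (τ.ord y.1) y.2)
          (z, hitT ε (ℓ k, ln Φ ε (τ.ord z)))) z) (fun _ _ => bot_le) (Finset.mem_univ k)))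
        have e1 : ℓ k = l.1 := by rw [← hk]
        have e2 : A k = l.2.1 := by rw [← hk]
        have e3 : B k = l.2.2 := by rw [← hk]
        simp only
        rw [indicator_of_mem]
        · rw [e1, h10]
        · rw [e1, e2, e3]
          refine ⟨h2, h9, ?_, ?_, ?_⟩
          · rw [h10]; exact h8.le
          · rw [h10]; exact max_le h6.le h4
          · rw [h10]; exact lt_min (h7.trans_lt (lt_add_of_pos_right _ hη)) h5
      · rw [indicator_of_mem h, Pi.one_apply]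
        exact (hH1 _ _).trans le_add_self
    · rw [ind_of_false hev, zero_mul]; exact bot_le
  have hG : ∀ τ : Shape, Measurable fun y : (Fin τ.card → Ph) × ℝ => H (τ.ord y.1) y.2 :=
    fun τ => hH.comp (((measurable_ord τ).comp measurable_fst).prodMk measurable_snd)
  unfold HI
  have h1 : ∀ τ : Shape, ∫⁻ z in {z : Fin τ.card → Ph | PW (Cx ε) z},
      ind (HitEv Φ ε F t₀ t z (τ.ord z)) * H (τ.ord z) (ff Φ ε F (τ.ord z))
        ∂(Measure.pi fun _ : Fin τ.card => inten f₀ ε) ≤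
      (∑ k, ∫⁻ x, regw (fh f₀) Φ ε τ (ℓ k) (max (A k) t₀) (min (B k + η) t) x *
          H (mkL τ (bk Φ ε τ (hl ε (ℓ k) x.1) x.2)) x.1.1 ∂(nvol.prod (pvol τ))) +
        ∫⁻ z, (irrF Φ ε F t).indicator 1 (τ.ord z)
          ∂(Measure.pi fun _ : Fin τ.card => inten f₀ ε) := by
    intro τ
    refine (setLIntegral_le_lintegral _ _).trans ?_
    refine (lintegral_mono (hpt τ)).trans (le_of_eq ?_)
    have hm : ∀ k, Measurable ((hset Φ ε τ (ℓ k) (max (A k) t₀) (min (B k + η) t)).indicator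
        (fun z => (fun y : (Fin τ.card → Ph) × ℝ => H (τ.ord y.1) y.2)
          (z, hitT ε (ℓ k, ln Φ ε (τ.ord z))))) := fun k =>
      ((hG τ).comp (measurable_id.prodMk (measurable_hitT_ord hΦ hε.ne' τ (ℓ k)))).indicator
        (measurableSet_hset hΦ hε.ne' τ _ _ _)
    rw [lintegral_add_left (Finset.measurable_sum _ fun k _ => hm k),
      lintegral_finsetSum _ fun k _ => hm k]
    congr 1
    refine Finset.sum_congr rfl fun k _ => ?_
    rw [lintegral_hset hΦ hε hf τ (ℓ k) _ _ (hG τ)]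
    refine lintegral_congr fun x => ?_
    rw [mkL_eq_ord]
  refine (Finset.sum_le_sum fun τ _ => h1 τ).trans (le_of_eq ?_)
  rw [Finset.sum_add_distrib, Finset.sum_comm]
  congr 1
  rw [← lintegral_tree L (measurable_one.indicator hirr), lintegral_indicator_one hirr]

theorem le_HI_point [Fintype κ] (hΦ : IsPotential Φ) (hε : 0 < ε)
    (hF : OkF Φ ε L F) (hlegs : ∀ l, (∃ T ∈ F, l ∈ legs Φ ε T t) ↔ ∃ k, (ℓ k, A k, B k) = l)
    (t₀ : ℝ) {H : CTree → ℝ → ℝ≥0∞} (hH1 : ∀ T s, H T s ≤ 1) (τ : Shape) (z : Fin τ.card → Ph) :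
    (∑ k, (hset Φ ε τ (ℓ k) (max (A k) t₀) (min (B k) t)).indicator
        (fun z => (fun y : (Fin τ.card → Ph) × ℝ => ind (niceZ Φ ε F ℓ A B k τ y.1) *
          H (τ.ord y.1) y.2) (z, hitT ε (ℓ k, ln Φ ε (τ.ord z)))) z) ≤
      {z : Fin τ.card → Ph | PW (Cx ε) z}.indicator (fun z => ind (HitEv Φ ε F t₀ t z (τ.ord z)) *
        H (τ.ord z) (ff Φ ε F (τ.ord z))) z +
        Fintype.card κ * (irrF Φ ε F t).indicator 1 (τ.ord z) := by
  have hone : ∀ k, (hset Φ ε τ (ℓ k) (max (A k) t₀) (min (B k) t)).indicator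
      (fun z => (fun y : (Fin τ.card → Ph) × ℝ => ind (niceZ Φ ε F ℓ A B k τ y.1) *
        H (τ.ord y.1) y.2) (z, hitT ε (ℓ k, ln Φ ε (τ.ord z)))) z ≤ 1 := by
    intro k
    refine (indicator_le_self' (fun _ _ => bot_le) z).trans ?_
    exact (mul_le_mul' (ind_le_one _) (hH1 _ _)).trans (one_mul 1).le
  by_cases hi : τ.ord z ∈ irrF Φ ε F t
  · rw [indicator_of_mem hi, Pi.one_apply, mul_one]
    refine le_trans ?_ le_add_self
    refine (Finset.sum_le_sum fun k _ => hone k).trans (le_of_eq ?_)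
    rw [Finset.sum_const, Finset.card_univ, nsmul_eq_mul, mul_one]
  · rw [indicator_of_notMem hi, mul_zero, add_zero]
    by_cases hex : ∃ k, z ∈ hset Φ ε τ (ℓ k) (max (A k) t₀) (min (B k) t) ∧
      niceZ Φ ε F ℓ A B k τ z
    swap
    · refine le_trans (le_of_eq ?_) bot_le
      refine Finset.sum_eq_zero fun k _ => ?_
      by_cases hk : z ∈ hset Φ ε τ (ℓ k) (max (A k) t₀) (min (B k) t)
      · rw [indicator_of_mem hk]
        simp only
        rw [ind_of_false fun h => hex ⟨k, hk, h⟩, zero_mul]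
      · rw [indicator_of_notMem hk]
    obtain ⟨k, hk, hn⟩ := hex
    have hdist : ∀ k', Meets ε (ℓ k', ln Φ ε (τ.ord z)) →
        A k' ≤ hitT ε (ℓ k', ln Φ ε (τ.ord z)) → hitT ε (ℓ k', ln Φ ε (τ.ord z)) ≤ B k' →
        k' = k := by
      intro k' hm h1 h2
      by_contra hne
      exact absurd (ctc_hitT hε hm).le (not_le.2 (hn.2 k' hne _ ⟨h1, h2⟩))
    -- the other terms vanish
    rw [Finset.sum_eq_single k]
    rotate_left
    · intro k' _ hne
      refine indicator_of_notMem (fun h => hne ?_) _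
      exact hdist k' h.2.1 ((le_max_left _ _).trans h.2.2.2.1)
        (h.2.2.2.2.le.trans (min_le_left _ _))
    · exact fun h => absurd (Finset.mem_univ k) h
    have hk' := hk
    obtain ⟨h1, h2, h3, h4, h5⟩ := hk
    have hd : ∀ T ∈ F, Disjoint T.leaves (τ.ord z).leaves :=
      fun T hT => disjoint_of_cmpZ hε hn.1.2 hT
    obtain ⟨T, hT, hl⟩ := (hlegs (ℓ k, A k, B k)).2 ⟨k, rfl⟩
    have a1 : A k ≤ hitT ε (ℓ k, ln Φ ε (τ.ord z)) := (le_max_left _ _).trans h4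
    have a2 : hitT ε (ℓ k, ln Φ ε (τ.ord z)) ≤ B k := h5.le.trans (min_le_left _ _)
    have hhit : hit Φ ε T (τ.ord z) (hitT ε (ℓ k, ln Φ ε (τ.ord z))) :=
      hit_of_regular hΦ hε (hF T hT).1 (hd T hT) (l := (ℓ k, A k, B k)) hl h2 a1 a2 h3
    have hcon : hitT ε (ℓ k, ln Φ ε (τ.ord z)) ∈ conF Φ ε F (τ.ord z) := ⟨T, hT, hhit⟩
    have hle : ff Φ ε F (τ.ord z) ≤ hitT ε (ℓ k, ln Φ ε (τ.ord z)) := ff_le hΦ hε hF hcon
    have hst : hitT ε (ℓ k, ln Φ ε (τ.ord z)) < t := h5.trans_le (min_le_right _ _)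
    have heq : ff Φ ε F (τ.ord z) = hitT ε (ℓ k, ln Φ ε (τ.ord z)) := by
      rcases first_cases hΦ hε hF h1 hd ⟨_, hcon⟩ (hle.trans hst.le) with h | h
      · obtain ⟨T₂, hT₂, l, hl₂, h6, h7, h8, h9, h10⟩ := h
        obtain ⟨k', hk₂⟩ := (hlegs l).1 ⟨T₂, hT₂, hl₂⟩
        have e1 : ℓ k' = l.1 := by rw [← hk₂]
        have e2 : A k' = l.2.1 := by rw [← hk₂]
        have e3 : B k' = l.2.2 := by rw [← hk₂]
        have h11 : k' = k := hdist k' (by rw [e1]; exact h9) (by rw [e1, e2, h10]; exact h6.le)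
          (by rw [e1, e3, h10]; exact h7)
        rw [← h10, ← e1, h11]
      · exact absurd h hi
    have hev : HitEv Φ ε F t₀ t z (τ.ord z) :=
      ⟨⟨hn.1.2, h1, ⟨_, hcon⟩⟩, by rw [heq]; exact (le_max_right _ _).trans h4, by
        rw [heq]; exact hst⟩
    have hPW : z ∈ {z : Fin τ.card → Ph | PW (Cx ε) z} := hn.1.1
    rw [indicator_of_mem hk', indicator_of_mem hPW, ind_of_true hev, heq]
    simp only
    rw [ind_of_true hn]

/-- **Lower bound for the hit integral at fixed `ε`.** -/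
theorem le_HI [Fintype κ] (hΦ : IsPotential Φ) (hε : 0 < ε) (hf : Measurable f₀)
    (hF : OkF Φ ε L F) (hlegs : ∀ l, (∃ T ∈ F, l ∈ legs Φ ε T t) ↔ ∃ k, (ℓ k, A k, B k) = l)
    (t₀ : ℝ) {H : CTree → ℝ → ℝ≥0∞}
    (hH : Measurable fun p : CTree × ℝ => H p.1 p.2) (hH1 : ∀ T s, H T s ≤ 1) :
    (∑ k, ∑ τ ∈ shapes L, ∫⁻ x,
      regw (fh f₀) Φ ε τ (ℓ k) (max (A k) t₀) (min (B k) t) x *
        (ind (niceZ Φ ε F ℓ A B k τ (ldEquiv τ (bk Φ ε τ (hl ε (ℓ k) x.1) x.2))) *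
          H (mkL τ (bk Φ ε τ (hl ε (ℓ k) x.1) x.2)) x.1.1) ∂(nvol.prod (pvol τ))) ≤
      HI Φ ε L f₀ F t₀ t (fun T' => H T' (ff Φ ε F T')) +
        Fintype.card κ * tree (inten f₀ ε) L (irrF Φ ε F t) := by
  have hirr := measurableSet_irrF hΦ hε.ne' F t
  have hG : ∀ (k : κ) (τ : Shape), Measurable fun y : (Fin τ.card → Ph) × ℝ =>
      ind (niceZ Φ ε F ℓ A B k τ y.1) * H (τ.ord y.1) y.2 := fun k τ =>
    ((measurable_ind (measurableSet_niceZ hΦ hε.ne' F ℓ A B k τ)).comp measurable_fst).mul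
      (hH.comp (((measurable_ord τ).comp measurable_fst).prodMk measurable_snd))
  have h1 : ∀ τ : Shape, (∑ k, ∫⁻ x,
      regw (fh f₀) Φ ε τ (ℓ k) (max (A k) t₀) (min (B k) t) x *
        (ind (niceZ Φ ε F ℓ A B k τ (ldEquiv τ (bk Φ ε τ (hl ε (ℓ k) x.1) x.2))) *
          H (mkL τ (bk Φ ε τ (hl ε (ℓ k) x.1) x.2)) x.1.1) ∂(nvol.prod (pvol τ))) ≤
      ∫⁻ z in {z : Fin τ.card → Ph | PW (Cx ε) z},
        ind (HitEv Φ ε F t₀ t z (τ.ord z)) * H (τ.ord z) (ff Φ ε F (τ.ord z))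
        ∂(Measure.pi fun _ : Fin τ.card => inten f₀ ε) +
      ∫⁻ z, Fintype.card κ * (irrF Φ ε F t).indicator 1 (τ.ord z)
          ∂(Measure.pi fun _ : Fin τ.card => inten f₀ ε) := by
    intro τ
    have hm : ∀ k, Measurable ((hset Φ ε τ (ℓ k) (max (A k) t₀) (min (B k) t)).indicator
        (fun z => (fun y : (Fin τ.card → Ph) × ℝ => ind (niceZ Φ ε F ℓ A B k τ y.1) *
          H (τ.ord y.1) y.2) (z, hitT ε (ℓ k, ln Φ ε (τ.ord z))))) := fun k =>
      ((hG k τ).comp (measurable_id.prodMk (measurable_hitT_ord hΦ hε.ne' τ (ℓ k)))).indicator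
        (measurableSet_hset hΦ hε.ne' τ _ _ _)
    have e1 : (∑ k, ∫⁻ x, regw (fh f₀) Φ ε τ (ℓ k) (max (A k) t₀) (min (B k) t) x *
        (ind (niceZ Φ ε F ℓ A B k τ (ldEquiv τ (bk Φ ε τ (hl ε (ℓ k) x.1) x.2))) *
          H (mkL τ (bk Φ ε τ (hl ε (ℓ k) x.1) x.2)) x.1.1) ∂(nvol.prod (pvol τ))) =
        ∫⁻ z, ∑ k, (hset Φ ε τ (ℓ k) (max (A k) t₀) (min (B k) t)).indicator
        (fun z => (fun y : (Fin τ.card → Ph) × ℝ => ind (niceZ Φ ε F ℓ A B k τ y.1) *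
          H (τ.ord y.1) y.2) (z, hitT ε (ℓ k, ln Φ ε (τ.ord z)))) z
          ∂(Measure.pi fun _ : Fin τ.card => inten f₀ ε) := by
      rw [lintegral_finsetSum _ fun k _ => hm k]
      refine Finset.sum_congr rfl fun k _ => ?_
      rw [lintegral_hset hΦ hε hf τ (ℓ k) _ _ (hG k τ)]
      refine lintegral_congr fun x => ?_
      rw [mkL_eq_ord]
    rw [e1]
    refine (lintegral_mono (le_HI_point hΦ hε hF hlegs t₀ hH1 τ)).trans (le_of_eq ?_)
    rw [lintegral_add_right, lintegral_indicator (measurableSet_PW (measurableSet_Cx ε))]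
    exact ((measurable_one.indicator hirr).comp (measurable_ord τ)).const_mul _
  rw [Finset.sum_comm]
  refine (Finset.sum_le_sum fun τ _ => h1 τ).trans (le_of_eq ?_)
  rw [Finset.sum_add_distrib]
  unfold HI
  congr 1
  have e2 : ∀ τ : Shape, ∫⁻ z, Fintype.card κ * (irrF Φ ε F t).indicator 1 (τ.ord z)
      ∂(Measure.pi fun _ : Fin τ.card => inten f₀ ε) = Fintype.card κ *
      ∫⁻ z, (irrF Φ ε F t).indicator 1 (τ.ord z)
      ∂(Measure.pi fun _ : Fin τ.card => inten f₀ ε) := fun τ =>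
    lintegral_const_mul _ ((measurable_one.indicator hirr).comp (measurable_ord τ))
  simp only [e2]
  rw [← Finset.mul_sum, ← lintegral_tree L (measurable_one.indicator hirr),
    lintegral_indicator_one hirr]

end Fixed

end Vale.Agent.P119.ML
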