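import Vale.Agent.P119.ML.FH2
import Vale.Agent.P119.PB.Extract
import Vale.Agent.P119.MM.Worlds

/-!
# P119, block ML (`helper388`): extraction of the hitters of a forest

* `CmpTF`, `cmpF_rem`, `Wc_rem`: removal of a tree from the configuration;
* `alive_sub_false`: the subtrees of an alive tree are not alive;
* `firstHit_iff`: a first hitter, in terms of `Unhit`;
* measurability of `CmpF`, `Wc`, `sbt`, `surv`, `Rel`, `Dp`, `Dm`;
* `extract_forest`: extraction of a tree in the presence of a forest.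
-/

open MeasureTheory Filter Topology Set
open scoped ENNReal NNReal

noncomputable section

namespace Vale.Agent.P119.ML

open KU M CTree GC MM

variable {Φ : E3 → ℝ} {ε : ℝ} {L : ℕ} {f₀ : Ph → ℝ} {κ : ℝ}

/-- The leaves of the tree are compatible with the sources of the forest. -/
def CmpTF (ε : ℝ) (F : List CTree) (T : CTree) : Prop :=
  ∀ σ' ∈ T.leaves, ∀ σ ∈ lvs F, ε < ‖σ'.2.1.1 - σ.2.1.1‖

theorem cmpTF_ord {F : List CTree} {τ : Shape} {z : Fin τ.card → Ph} :
    CmpTF ε F (τ.ord z) ↔ CmpZ ε F z := by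
  unfold CmpTF CmpZ
  constructor
  · exact fun h i σ hσ => h (src (z i)) (mem_leaves_ord.2 ⟨i, rfl⟩) σ hσ
  · intro h σ' hσ' σ hσ
    obtain ⟨i, rfl⟩ := mem_leaves_ord.1 hσ'
    exact h i σ hσ

theorem CmpTF.disjoint {F : List CTree} {T : CTree} (hε : 0 < ε) (h : CmpTF ε F T) :
    Disjoint T.leaves (lvs F) := by
  rw [disjoint_left]
  intro σ h1 h2
  have := h σ h1 σ h2
  rw [sub_self, norm_zero] at this
  exact absurd this (not_lt.2 hε.le)

theorem cmpF_rem {F : List CTree} {w : Finset Ph} {T : CTree}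
    (hT : T.leaves ⊆ world (w : Set Ph)) :
    CmpF ε F w ↔ CmpF ε F (rem w T) ∧ CmpTF ε F T := by
  constructor
  · intro h
    refine ⟨fun z hz => h z (mem_rem.1 hz).1, fun σ' hσ' σ hσ => ?_⟩
    obtain ⟨z, hz, rfl⟩ := hT hσ'
    exact h z hz σ hσ
  · rintro ⟨h1, h2⟩ z hz σ hσ
    by_cases hzT : src z ∈ T.leaves
    · exact h2 _ hzT σ hσ
    · exact h1 z (mem_rem.2 ⟨hz, hzT⟩) σ hσ

theorem Wc_rem {F : List CTree} {w : Finset Ph} {T : CTree}
    (hT : T.leaves ⊆ world (w : Set Ph)) : Wc F w = Wc (T :: F) (rem w T) := by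
  unfold Wc
  rw [world_rem, lvs_cons, ← union_assoc, sdiff_union_self, union_eq_left.2 hT]

theorem Wc_finite {F : List CTree} {w : Finset Ph} : (Wc F w).Finite :=
  ((w.finite_toSet).image _).union lvs_finite

theorem lvs_subset_Wc {F : List CTree} {w : Finset Ph} : lvs F ⊆ Wc F w := subset_union_right

theorem subset_world_of_disjoint {F : List CTree} {w : Finset Ph} {T : CTree}
    (hT : T.leaves ⊆ Wc F w) (hd : Disjoint T.leaves (lvs F)) :
    T.leaves ⊆ world (w : Set Ph) := fun σ hσ => by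
  rcases hT hσ with h | h
  · exact h
  · exact absurd h (disjoint_left.1 hd hσ)

theorem disjoint_lvs_cons {F : List CTree} {S T : CTree} :
    Disjoint S.leaves (lvs (T :: F)) ↔ Disjoint S.leaves T.leaves ∧ Disjoint S.leaves (lvs F) := by
  rw [lvs_cons, disjoint_union_right]

/-! ### Subtrees -/

theorem self_mem_sbt (T : CTree) : T ∈ sbt T := by
  cases T with
  | leaf σ => exact mem_singleton _
  | node a b => exact Or.inl (mem_singleton _)

theorem leaves_subset_of_mem_sbt {S T : CTree} (h : S ∈ sbt T) : S.leaves ⊆ T.leaves := by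
  induction T with
  | leaf σ => rw [show S = leaf σ from h]
  | node a b iha ihb =>
    rcases h with h | h | h
    · rw [show S = node a b from h]
    · exact (iha h).trans subset_union_left
    · exact (ihb h).trans subset_union_right

theorem ext_le_of_mem_sbt (hΦ : IsPotential Φ) (hε : 0 < ε) {S T : CTree} (hT : ok Φ ε T)
    (h : S ∈ sbt T) : ext Φ ε S ≤ ext Φ ε T := by
  induction T with
  | leaf σ => rw [show S = leaf σ from h]
  | node a b iha ihb =>
    have h1 := sig_lt_ext hΦ hε hT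
    rcases h with h | h | h
    · rw [show S = node a b from h]
    · have h2 := hT.2.2.2.2.2.1
      change _ < sig Φ ε (node a b) at h2
      linarith [iha hT.1 h]
    · have h2 := hT.2.2.2.2.2.2
      change _ < sig Φ ε (node a b) at h2
      linarith [ihb hT.2.1 h]

/-- **The proper subtrees of an alive tree are not alive.** -/
theorem alive_sub_false (hΦ : IsPotential Φ) (hε : 0 < ε) {W : Set Src} (hW : W.Finite)
    {S T : CTree} {t : ℝ} (hT : alive Φ ε L W T t) (hS : S ∈ sbt T) (hne : S ≠ T)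
    (hSa : alive Φ ε L W S t) : False := by
  induction T generalizing t with
  | leaf σ => exact hne hS
  | node a b iha ihb =>
    have hok := (alive_pre hT).ok
    have hs := sig_le_of_pre hΦ hε (alive_pre hT)
    have h1 := alive_left hΦ hε hW hT
    have h2 := alive_right hΦ hε hW hT
    rcases hS with h | h | h
    · exact hne h
    · have h3 : ext Φ ε S ≤ sig Φ ε (node a b) :=
        (ext_le_of_mem_sbt hΦ hε hok.1 h).trans hok.2.2.2.2.2.1.le
      by_cases hSa' : S = a
      · subst hSa'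
        exact ((alive_iff hΦ hε hW).1 hSa).2 b _ hs (hit_sig hΦ hε hok) h2
      · exact iha h1 h hSa' (alive_anti hSa hs.le h3)
    · have h3 : ext Φ ε S ≤ sig Φ ε (node a b) :=
        (ext_le_of_mem_sbt hΦ hε hok.2.1 h).trans hok.2.2.2.2.2.2.le
      by_cases hSb : S = b
      · subst hSb
        exact ((alive_iff hΦ hε hW).1 hSa).2 a _ hs (hit_sig' hΦ hε hok) h1
      · exact ihb h2 h hSb (alive_anti hSa hs.le h3)

/-! ### First hitters -/

variable {W : Set Src} {F : List CTree} {T T' : CTree} {s t t₀ : ℝ}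

theorem unhit_singleton_of_alive (hΦ : IsPotential Φ) (hε : 0 < ε) (hW : W.Finite)
    (h : alive Φ ε L W T t) : Unhit Φ ε L W [T] t := by
  have h1 := (alive_iff_noHit hΦ hε hW).1 h
  refine ⟨fun S hS => ?_, h1.2⟩
  rw [List.mem_singleton] at hS
  rw [hS]
  exact ⟨h1.1.ok, h1.1.depth⟩

theorem unhit_cons_of_alive (hΦ : IsPotential Φ) (hε : 0 < ε) (hW : W.Finite)
    (h : alive Φ ε L W T t) (hF : Unhit Φ ε L W F t) : Unhit Φ ε L W (T :: F) t :=
  unhit_cons.2 ⟨unhit_singleton_of_alive hΦ hε hW h, hF⟩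

theorem alive_of_unhit (hΦ : IsPotential Φ) (hε : 0 < ε) (hW : W.Finite)
    (hsub : T.leaves ⊆ W) (h : Unhit Φ ε L W [T] t) (hext : ext Φ ε T ≤ t) :
    alive Φ ε L W T t := by
  rw [alive_iff_noHit hΦ hε hW]
  have h1 := h.1 T (by simp)
  exact ⟨⟨hsub, h1.1, h1.2, hext⟩, h.2⟩

/-- **First hitters in terms of `Unhit`.** -/
theorem firstHit_iff (hΦ : IsPotential Φ) (hε : 0 < ε) (hW : W.Finite) (hsub : T'.leaves ⊆ W) :
    (OkF Φ ε L F ∧ FirstHit Φ ε L W F T') ↔
      (conF Φ ε F T').Nonempty ∧ Unhit Φ ε L W (T' :: F) (ff Φ ε F T') := by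
  constructor
  · rintro ⟨h1, h2, h3, h4⟩
    exact ⟨h2, unhit_cons_of_alive hΦ hε hW h3 ⟨h1, h4⟩⟩
  · rintro ⟨h1, h2⟩
    have h3 := unhit_cons.1 h2
    refine ⟨h3.2.1, h1, ?_, h3.2.2⟩
    exact alive_of_unhit hΦ hε hW hsub h3.1 (ext_le_of_mem_conF (ff_mem hΦ hε h3.2.1 h1))

/-- A tree which is alive at its first contact with a part of a forest, the whole forest being
unhit until then. -/
theorem firstHit_of_alive (hΦ : IsPotential Φ) (hε : 0 < ε) {G : List CTree}
    (hG : Unhit Φ ε L W G s) (ha : alive Φ ε L W T' s) (hc : s ∈ conF Φ ε G T') :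
    FirstHit Φ ε L W G T' ∧ ff Φ ε G T' = s := by
  have h1 := ff_le hΦ hε hG.1 hc
  have h2 : ff Φ ε G T' = s := by
    by_contra hne
    have hlt := lt_of_le_of_ne h1 hne
    obtain ⟨S, hS, hh⟩ := ff_mem hΦ hε hG.1 ⟨s, hc⟩
    exact hG.2 S hS T' _ hlt hh (alive_anti ha h1 (hit_ext_le hh))
  refine ⟨⟨⟨s, hc⟩, ?_, ?_⟩, h2⟩
  · rw [h2]; exact ha
  · rw [h2]; exact hG.2

theorem conF_mono {G : List CTree} (h : ∀ T ∈ F, T ∈ G) (hs : s ∈ conF Φ ε F T') :
    s ∈ conF Φ ε G T' := by
  obtain ⟨T, hT, hh⟩ := hs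
  exact ⟨T, h T hT, hh⟩

/-- Lower bound for a restricted set of hitters. -/
theorem le_ind_noHit_of (hΦ : IsPotential Φ) (hε : 0 < ε) (hF : OkF Φ ε L F)
    (ht : t₀ ≤ t) (Q : CTree → Prop) :
    ind (NoHit Φ ε L W F t) +
      ∑' T', ind (Q T' ∧ FirstHit Φ ε L W F T' ∧ t₀ ≤ ff Φ ε F T' ∧ ff Φ ε F T' < t) ≤
    ind (NoHit Φ ε L W F t₀) + ∑' T', ∑' T'', ind ((T'' ≠ T' ∧ Q T' ∧ Q T'') ∧
      (FirstHit Φ ε L W F T' ∧ FirstHit Φ ε L W F T'') ∧ t₀ ≤ ff Φ ε F T' ∧ ff Φ ε F T' < t) := by
  by_cases h : ∃ T', Q T' ∧ FirstHit Φ ε L W F T' ∧ t₀ ≤ ff Φ ε F T' ∧ ff Φ ε F T' < t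
  · obtain ⟨T₁, hQ, hT₁, h1, h2⟩ := h
    rw [ind_of_false (not_noHit_of_firstHit hΦ hε hF hT₁ h2), zero_add,
      ind_of_true (noHit_of_firstHit hT₁ h1)]
    classical
    have hle : ∀ T', ind (Q T' ∧ FirstHit Φ ε L W F T' ∧ t₀ ≤ ff Φ ε F T' ∧ ff Φ ε F T' < t) ≤
        (if T' = T₁ then 1 else 0) + ∑' T'', ind ((T'' ≠ T' ∧ Q T' ∧ Q T'') ∧
          (FirstHit Φ ε L W F T' ∧ FirstHit Φ ε L W F T'') ∧ t₀ ≤ ff Φ ε F T' ∧
            ff Φ ε F T' < t) := by
      intro T'
      by_cases hT' : T' = T₁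
      · rw [if_pos hT']
        exact (ind_le_one _).trans le_self_add
      · rw [if_neg hT', zero_add]
        refine le_trans (ind_mono ?_) (ENNReal.le_tsum T₁)
        rintro ⟨h3, h4, h5⟩
        exact ⟨⟨fun h => hT' h.symm, h3, hQ⟩, ⟨h4, hT₁⟩, h5⟩
    refine (ENNReal.tsum_le_tsum hle).trans ?_
    rw [ENNReal.tsum_add, tsum_ite_eq]
  · have h3 : ∑' T', ind (Q T' ∧ FirstHit Φ ε L W F T' ∧ t₀ ≤ ff Φ ε F T' ∧
        ff Φ ε F T' < t) = 0 := by
      rw [ENNReal.tsum_eq_zero]
      exact fun T' => ind_of_false fun hT' => h ⟨T', hT'⟩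
    rw [h3, add_zero]
    exact (ind_mono fun h => h.mono ht).trans le_self_add

/-! ### Measurability -/

section Meas

variable {X : Type*} [MeasurableSpace X] {Fs Gs : List (X → CTree)} {c : X → Conf Ph}

theorem measurableSet_cmpF (hF : MF Fs) (hc : Measurable c) :
    MeasurableSet {x | CmpF ε (ev Fs x) (pts (c x))} := by
  have h1 := (RS.pts hc).prod (RS.lvs hF)
  have hP : MeasurableSet {q : X × (Ph × Src) | ε < ‖q.2.1.1 - q.2.2.2.1.1‖} :=
    measurableSet_lt measurable_const (by fun_prop)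
  convert h1.measurableSet_forall hP using 1
  ext x
  constructor
  · exact fun h q hq => h q.1 (Finset.mem_coe.1 hq.1) q.2 hq.2
  · exact fun h z hz σ hσ => h (z, σ) ⟨Finset.mem_coe.2 hz, hσ⟩

theorem RS.Wc (hF : MF Fs) (hc : Measurable c) : RS fun x => ML.Wc (ev Fs x) (pts (c x)) :=
  (RS.world_pts hc).union (RS.lvs hF)

theorem measurableSet_sbt : MeasurableSet {p : CTree × CTree | p.1 ∈ sbt p.2} := by
  have h : Measurable fun p : CTree × CTree => (p.1 ∈ sbt p.2 : Prop) := by
    rw [M.measurable_prod_ctree]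
    intro τ
    induction τ with
    | leaf =>
      refine measurableSet_setOfPred.1 ?_
      have h2 : Measurable fun p : CTree × (Fin Shape.leaf.card → Src) =>
          Shape.mk Shape.leaf p.2 := (measurable_smk _).comp measurable_snd
      exact measurableSet_eq_fun measurable_fst h2
    | node a b iha ihb =>
      have ma : Measurable fun z : Fin (Shape.node a b).card → Src =>
          fun i : Fin a.card => z (Fin.castAdd b.card i) :=
        measurable_pi_iff.2 fun i => measurable_pi_apply _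
      have mb : Measurable fun z : Fin (Shape.node a b).card → Src =>
          fun i : Fin b.card => z (Fin.natAdd a.card i) :=
        measurable_pi_iff.2 fun i => measurable_pi_apply _
      have h1 := iha.comp ((measurable_fst (α := CTree)).prodMk (ma.comp measurable_snd))
      have h2 := ihb.comp ((measurable_fst (α := CTree)).prodMk (mb.comp measurable_snd))
      have h3 : Measurable fun p : CTree × (Fin (Shape.node a b).card → Src) =>
          Shape.mk (Shape.node a b) p.2 := (measurable_smk _).comp measurable_snd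
      have h4 : Measurable fun p : CTree × (Fin (Shape.node a b).card → Src) =>
          (p.1 = Shape.mk (Shape.node a b) p.2 : Prop) :=
        measurableSet_setOfPred.1 (measurableSet_eq_fun measurable_fst h3)
      exact h4.or (h1.or h2)
  exact measurableSet_setOfPred.2 h

theorem measurableSet_not_sbt (hF : MF Fs) {T' : X → CTree} (hT' : Measurable T') :
    MeasurableSet {x | ∀ T ∈ ev Fs x, T' x ∉ sbt T} := by
  induction Fs with
  | nil =>
    have : {x : X | ∀ T ∈ ev ([] : List (X → CTree)) x, T' x ∉ sbt T} = univ := by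
      ext x; simp [ev]
    rw [this]
    exact MeasurableSet.univ
  | cons f Fs ih =>
    have h1 : MeasurableSet {x | T' x ∈ sbt (f x)} := (hT'.prodMk hF.head) measurableSet_sbt
    refine (h1.compl.inter (ih hF.tail)).congr ?_
    ext x
    simp only [mem_inter_iff, mem_compl_iff, mem_ofPred_eq, ev_cons, List.mem_cons,
      forall_eq_or_imp]

theorem measurableSet_relEv (hΦ : IsPotential Φ) (hε : 0 < ε) (hF : MF Fs) (hc : Measurable c)
    {t : X → ℝ} (ht : Measurable t) {T' : X → CTree} (hT' : Measurable T') :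
    MeasurableSet {x | RelEv Φ ε L (ev Fs x) (t x) (pts (c x)) (T' x)} := by
  have h1 := measurableSet_cmpF (ε := ε) hF hc
  have h2 := ((RS.leaves hT').measurableSet_disjoint (RS.lvs hF)).compl
  have h3 := measurableSet_firstHit hΦ hε hF (RS.Wc hF hc) hT' (L := L)
  have h4 := measurable_ff hΦ hε.ne' hF hT'
  have h5 : MeasurableSet {x | ff Φ ε (ev Fs x) (T' x) < t x} := measurableSet_lt h4 ht
  have h6 : MeasurableSet {x | ff Φ ε (ev Fs x) (T' x) = t x} := measurableSet_eq_fun h4 ht
  have h7 := measurableSet_not_sbt hF hT'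
  refine ((h1.inter (h2.inter h3)).inter (h5.union (h6.inter h7))).congr ?_
  ext x
  simp only [mem_inter_iff, mem_compl_iff, mem_ofPred_eq, RelEv, mem_union]
  tauto

theorem firstHit_subset {w : Finset Ph} (h : FirstHit Φ ε L (Wc F w) F T') :
    T'.leaves ⊆ Wc F w := (alive_pre h.2.1).sub

theorem measurable_relSum (hΦ : IsPotential Φ) (hε : 0 < ε) (hF : MF Fs) (hc : Measurable c)
    {t : X → ℝ} (ht : Measurable t) :
    Measurable fun x => ∑' T', ind (RelEv Φ ε L (ev Fs x) (t x) (pts (c x)) T') := by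
  have h1 : Measurable fun q : X × CTree =>
      ind (RelEv Φ ε L (ev Fs q.1) (t q.1) (pts (c q.1)) q.2) := by
    refine measurable_ind ?_
    have h2 := measurableSet_relEv (L := L) hΦ hε (hF.pull measurable_fst)
      (hc.comp (measurable_fst (α := X) (β := CTree))) (ht.comp measurable_fst) measurable_snd
    simpa only [ev_pull, Function.comp_def] using h2
  refine (RS.trees (RS.Wc hF hc)).measurable_tsum_of_support h1 fun x T' hT' => ?_
  exact firstHit_subset (ind_ne_zero.1 hT').1.2.2.2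

end Meas

section Meas2

variable {Y : Type*} [MeasurableSpace Y] {Fs Gs Cs : List (Y → CTree)} {f : Y → CTree}
  {t : Y → ℝ}

theorem measurable_surv (hΦ : IsPotential Φ) (hε : 0 < ε) [SFinite (PP f₀ ε)] (hF : MF Fs)
    (ht : Measurable t) : Measurable fun y => surv Φ ε L f₀ (ev Fs y) (t y) := by
  have h1 : Measurable fun q : Y × Conf Ph => ind (CmpF ε (ev Fs q.1) (pts q.2) ∧
      Unhit Φ ε L (Wc (ev Fs q.1) (pts q.2)) (ev Fs q.1) (t q.1)) := by
    refine measurable_ind ?_
    have hF' := hF.pull (measurable_fst (α := Y) (β := Conf Ph))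
    have h2 := measurableSet_cmpF (ε := ε) hF' measurable_snd
    have h3 := measurableSet_unhit hΦ hε hF' (RS.Wc hF' measurable_snd)
      (ht.comp measurable_fst) (L := L)
    have h4 := h2.inter h3
    simp only [ev_pull, Function.comp_def] at h4
    exact h4
  exact h1.lintegral_prod_right'

theorem measurable_Rel (hΦ : IsPotential Φ) (hε : 0 < ε) [SFinite (PP f₀ ε)] (hF : MF Fs)
    (ht : Measurable t) : Measurable fun y => Rel Φ ε L f₀ (ev Fs y) (t y) := by
  have hF' := hF.pull (measurable_fst (α := Y) (β := Conf Ph))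
  have h1 := measurable_relSum (L := L) hΦ hε hF' measurable_snd (ht.comp measurable_fst)
  simp only [ev_pull, Function.comp_def] at h1
  exact h1.lintegral_prod_right'

end Meas2

/-! ### Extraction -/

/-- **Extraction of a tree in the presence of a forest.** -/
theorem extract_forest (hf : GoodDatum f₀ κ) (hε : 0 < ε) (F : List CTree)
    {K : CTree → Finset Ph → ℝ≥0∞} (hK0 : ∀ T w, K T w ≠ 0 → ok Φ ε T ∧ T.depth ≤ L)
    (hK : Measurable fun p : CTree × Conf Ph => K p.1 (pts p.2)) :
    ∫⁻ c, ∑' T', ind (T'.leaves ⊆ world (pts c : Set Ph) ∧ CmpF ε F (pts c)) *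
        K T' (rem (pts c) T') ∂(PP f₀ ε) =
      ∑ τ ∈ shapes L, ∫⁻ z in {z | PW (Cx ε) z}, ind (CmpZ ε F z) *
        ∫⁻ c, ind (CmpF ε (τ.ord z :: F) (pts c)) * K (τ.ord z) (pts c) ∂(PP f₀ ε)
          ∂(Measure.pi fun _ : Fin τ.card => inten f₀ ε) := by
  classical
  have := isFiniteMeasure_inten (ε := ε) hf
  have hFs : MF (cst (CTree × Conf Ph) F) := MF.cst F
  -- measurability
  have mcmp : Measurable fun p : CTree × Conf Ph => ind (CmpF ε F (pts p.2)) := by
    refine measurable_ind ?_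
    have h := measurableSet_cmpF (ε := ε) hFs (measurable_snd (α := CTree) (β := Conf Ph))
    simpa only [ev_cst] using h
  have mtf : Measurable fun p : CTree × Conf Ph => ind (CmpTF ε F p.1) := by
    refine measurable_ind ?_
    have h1 := (RS.leaves (measurable_fst (α := CTree) (β := Conf Ph))).prod (RS.lvs hFs)
    have hP : MeasurableSet {q : (CTree × Conf Ph) × (Src × Src) |
        ε < ‖q.2.1.2.1.1 - q.2.2.2.1.1‖} := measurableSet_lt measurable_const (by fun_prop)
    convert h1.measurableSet_forall hP using 1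
    ext x
    constructor
    · intro h q hq
      refine h q.1 hq.1 q.2 ?_
      have h2 := hq.2
      rwa [ev_cst] at h2
    · intro h σ' hσ' σ hσ
      refine h (σ', σ) ⟨hσ', ?_⟩
      change σ ∈ lvs (ev (cst (CTree × Conf Ph) F) x)
      rwa [ev_cst]
  have hG : Measurable fun p : CTree × Conf Ph =>
      ind (CmpTF ε F p.1) * (ind (CmpF ε F (pts p.2)) * K p.1 (pts p.2)) :=
    mtf.mul (mcmp.mul hK)
  have hmain := extract (Φ := Φ) (ε := ε) (L := L) (ν := inten f₀ ε) (measurableSet_Cx ε)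
    (Cx_symm ε) (Cx_irrefl hε.le)
    (F := fun T w => ind (CmpTF ε F T) * (ind (CmpF ε F w) * K T w))
    (fun T w h => hK0 T w (right_ne_zero_of_mul (right_ne_zero_of_mul h))) hG
  have e1 : ∀ c : Conf Ph, (∑' T', ind (T'.leaves ⊆ world (pts c : Set Ph) ∧ CmpF ε F (pts c)) *
        K T' (rem (pts c) T')) = ∑' T' : CTree, (if T'.leaves ⊆ world (pts c : Set Ph) then
        ind (CmpTF ε F T') * (ind (CmpF ε F (rem (pts c) T')) * K T' (rem (pts c) T')) else 0) := by
    intro c
    refine tsum_congr fun T' => ?_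
    by_cases h : T'.leaves ⊆ world (pts c : Set Ph)
    · rw [if_pos h, ← mul_assoc]
      congr 1
      rw [← ind_and]
      refine ind_congr ?_
      rw [cmpF_rem h]
      tauto
    · rw [if_neg h, ind_of_false fun h' => h h'.1, zero_mul]
  simp only [e1]
  unfold PP
  refine hmain.trans (Finset.sum_congr rfl fun τ _ => ?_)
  refine lintegral_congr fun z => ?_
  have mC : MeasurableSet {c : Conf Ph | Cmp (Cx ε) z (pts c)} :=
    (measurable_const.prodMk measurable_id : Measurable fun c : Conf Ph => (z, c))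
      (measurableSet_Cmp (measurableSet_Cx ε) τ.card)
  rw [← lintegral_indicator mC]
  have hKz : Measurable fun c : Conf Ph => K (τ.ord z) (pts c) :=
    hK.comp (measurable_const.prodMk measurable_id)
  have hcz : Measurable fun c : Conf Ph => ind (CmpF ε (τ.ord z :: F) (pts c)) := by
    refine measurable_ind ?_
    have h := measurableSet_cmpF (ε := ε) (MF.cst (X := Conf Ph) (τ.ord z :: F)) measurable_id
    simp only [ev_cst] at h
    exact h
  refine Eq.trans ?_ (lintegral_const_mul (ind (CmpZ ε F z)) (hcz.mul hKz))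
  refine lintegral_congr fun c => ?_
  rw [cmpF_cons (T := τ.ord z) (F := F), cmpF_ord, ← cmpTF_ord]
  by_cases h : Cmp (Cx ε) z (pts c)
  · rw [indicator_of_mem (by exact h)]
    congr 2
    exact ind_congr ⟨fun h' => ⟨h, h'⟩, fun h' => h'.2⟩
  · rw [indicator_of_notMem (by exact h), ind_of_false (P := Cmp (Cx ε) z (pts c) ∧ _)
      fun h' => h h'.1, zero_mul, mul_zero]

end Vale.Agent.P119.ML
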