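import Vale.Agent.P119.ML.FH3

/-!
# P119, block ML (`helper388`): the inequalities (S) and (D) at fixed `ε`

* `HI_eq`, `surv_le`, `le_surv`: survival;
* `Dp_le`, `Dm_le`: two worlds.
-/

open MeasureTheory Filter Topology Set
open scoped ENNReal NNReal

noncomputable section

namespace Vale.Agent.P119.ML

open KU M CTree GC MM

variable {Φ : E3 → ℝ} {ε : ℝ} {L : ℕ} {f₀ : Ph → ℝ} {κ : ℝ}
variable {F : List CTree} {t₀ t : ℝ}

/-- The condition on the times of a hitter. -/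
def HitC (Φ : E3 → ℝ) (ε : ℝ) (F : List CTree) (t₀ t : ℝ) (T : CTree) : Prop :=
  (conF Φ ε F T).Nonempty ∧ t₀ ≤ ff Φ ε F T ∧ ff Φ ε F T < t

theorem measurableSet_hitC (hΦ : IsPotential Φ) (hε : 0 < ε) {X : Type*} [MeasurableSpace X]
    {Fs : List (X → CTree)} (hF : MF Fs) {T : X → CTree} (hT : Measurable T) (t₀ t : ℝ) :
    MeasurableSet {x | HitC Φ ε (ev Fs x) t₀ t (T x)} := by
  have h1 := measurableSet_conF_nonempty hΦ hε.ne' hF hT
  have h2 := measurable_ff hΦ hε.ne' hF hT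
  exact h1.inter ((measurableSet_le measurable_const h2).inter
    (measurableSet_lt h2 measurable_const))

theorem ind_hitEv {n : ℕ} {z : Fin n → Ph} {T : CTree} {a : ℝ≥0∞} (h : a ≠ 0 → ok Φ ε T) :
    ind (HitEv Φ ε F t₀ t z T) * a = ind (CmpZ ε F z) * (ind (HitC Φ ε F t₀ t T) * a) := by
  by_cases ha : a = 0
  · rw [ha, mul_zero, mul_zero, mul_zero]
  · rw [← mul_assoc, ← ind_and]
    congr 1
    refine ind_congr ?_
    have := h ha
    unfold HitEv HitC
    tauto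

/-- The hit integral of a function which vanishes on the trees which are not `ok`. -/
theorem HI_eq {H : CTree → ℝ≥0∞} (hH : ∀ T, H T ≠ 0 → ok Φ ε T) :
    HI Φ ε L f₀ F t₀ t H = ∑ τ ∈ shapes L, ∫⁻ z in {z | PW (Cx ε) z},
      ind (CmpZ ε F z) * (ind (HitC Φ ε F t₀ t (τ.ord z)) * H (τ.ord z))
        ∂(Measure.pi fun _ : Fin τ.card => inten f₀ ε) := by
  unfold HI
  refine Finset.sum_congr rfl fun τ _ => lintegral_congr fun z => ?_
  exact ind_hitEv (hH _)

theorem HI_mono {H H' : CTree → ℝ≥0∞} (h : ∀ T, H T ≤ H' T) :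
    HI Φ ε L f₀ F t₀ t H ≤ HI Φ ε L f₀ F t₀ t H' := by
  unfold HI
  exact Finset.sum_le_sum fun τ _ => lintegral_mono fun z => mul_le_mul_right (h _) _

theorem measurable_hitEv (hΦ : IsPotential Φ) (hε : 0 < ε) (τ : Shape) :
    Measurable fun z : Fin τ.card → Ph => ind (HitEv Φ ε F t₀ t z (τ.ord z)) := by
  have hT : Measurable fun z : Fin τ.card → Ph => τ.ord z := MM.measurable_ord τ
  have hFs := MF.cst (X := Fin τ.card → Ph) F
  refine measurable_ind ?_
  have h1 := measurableSet_hitC hΦ hε hFs hT t₀ t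
  have h2 := measurableSet_tree_ok hΦ hε.ne' hT
  have h3 : MeasurableSet {z : Fin τ.card → Ph | CmpZ ε F z} := by
    have h4 := (RS.tuple (measurable_id : Measurable fun z : Fin τ.card → Ph => z)).prod
      (RS.lvs hFs)
    have hP : MeasurableSet {q : (Fin τ.card → Ph) × (Ph × Src) | ε < ‖q.2.1.1 - q.2.2.2.1.1‖} :=
      measurableSet_lt measurable_const (by fun_prop)
    convert h4.measurableSet_forall hP using 1
    ext z
    constructor
    · rintro h q ⟨⟨i, hi⟩, hq⟩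
      rw [ev_cst] at hq
      have := h i q.2 hq
      rwa [show z i = q.1 from hi] at this
    · intro h i σ hσ
      refine h (z i, σ) ⟨⟨i, rfl⟩, ?_⟩
      change σ ∈ lvs (ev (cst (Fin τ.card → Ph) F) z)
      rwa [ev_cst]
  refine (h3.inter (h2.inter h1)).congr ?_
  ext z
  simp only [mem_inter_iff, mem_ofPred_eq, ev_cst, HitEv, HitC]
  tauto

theorem HI_add (hΦ : IsPotential Φ) (hε : 0 < ε) {H H' : CTree → ℝ≥0∞} (hH : Measurable H) :
    HI Φ ε L f₀ F t₀ t (fun T => H T + H' T) =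
      HI Φ ε L f₀ F t₀ t H + HI Φ ε L f₀ F t₀ t H' := by
  unfold HI
  rw [← Finset.sum_add_distrib]
  refine Finset.sum_congr rfl fun τ _ => ?_
  rw [← lintegral_add_left]
  · exact lintegral_congr fun z => mul_add _ _ _
  · exact (measurable_hitEv hΦ hε τ).mul (hH.comp (MM.measurable_ord τ))

/-! ### Survival -/

theorem measurable_indUnhit (hΦ : IsPotential Φ) (hε : 0 < ε) (F : List CTree) (t : ℝ) :
    Measurable fun c : Conf Ph => ind (CmpF ε F (pts c) ∧ Unhit Φ ε L (Wc F (pts c)) F t) := by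
  have hFs := MF.cst (X := Conf Ph) F
  have h2 := measurableSet_cmpF (ε := ε) hFs measurable_id
  have h3 := measurableSet_unhit hΦ hε hFs (RS.Wc hFs measurable_id)
    (measurable_const (a := t)) (L := L)
  simp only [ev_cst] at h2 h3
  exact measurable_ind (h2.inter h3)

/-- The kernel of the first hitters. -/
def Kfh (Φ : E3 → ℝ) (ε : ℝ) (L : ℕ) (F : List CTree) (t₀ t : ℝ) (T : CTree) (w : Finset Ph) :
    ℝ≥0∞ :=
  ind (HitC Φ ε F t₀ t T) * ind (Unhit Φ ε L (Wc (T :: F) w) (T :: F) (ff Φ ε F T))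

theorem Kfh_ne_zero {T : CTree} {w : Finset Ph} (h : Kfh Φ ε L F t₀ t T w ≠ 0) :
    ok Φ ε T ∧ T.depth ≤ L :=
  (ind_ne_zero.1 (right_ne_zero_of_mul h)).1 T (by simp)

theorem measurable_unhit_ff (hΦ : IsPotential Φ) (hε : 0 < ε) :
    Measurable fun p : CTree × Conf Ph =>
      ind (Unhit Φ ε L (Wc (p.1 :: F) (pts p.2)) (p.1 :: F) (ff Φ ε F p.1)) := by
  have h0 : Measurable fun p : CTree × Conf Ph => p.1 := measurable_fst
  have hFs : MF ((fun p : CTree × Conf Ph => p.1) :: cst (CTree × Conf Ph) F) :=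
    MF.cons h0 (MF.cst F)
  have h1 := measurable_ff hΦ hε.ne' (MF.cst (X := CTree × Conf Ph) F) h0
  have h2 := measurableSet_unhit hΦ hε hFs (RS.Wc hFs measurable_snd) h1 (L := L)
  simp only [ev_cons, ev_cst] at h2
  exact measurable_ind h2

theorem measurable_Kfh (hΦ : IsPotential Φ) (hε : 0 < ε) :
    Measurable fun p : CTree × Conf Ph => Kfh Φ ε L F t₀ t p.1 (pts p.2) := by
  have h0 : Measurable fun p : CTree × Conf Ph => p.1 := measurable_fst
  have h1 := measurableSet_hitC hΦ hε (MF.cst (X := CTree × Conf Ph) F) h0 t₀ t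
  simp only [ev_cst] at h1
  exact (measurable_ind h1).mul (measurable_unhit_ff hΦ hε)

/-- A first hitter which is disjoint from the forest. -/
def Dis (Φ : E3 → ℝ) (ε : ℝ) (L : ℕ) (F : List CTree) (t₀ t : ℝ) (w : Finset Ph) (T : CTree) :
    Prop :=
  (CmpF ε F w ∧ OkF Φ ε L F) ∧ Disjoint T.leaves (lvs F) ∧ FirstHit Φ ε L (Wc F w) F T ∧
    t₀ ≤ ff Φ ε F T ∧ ff Φ ε F T < t

theorem ind_dis (hΦ : IsPotential Φ) (hε : 0 < ε) (w : Finset Ph) (T : CTree) :
    ind (Dis Φ ε L F t₀ t w T) =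
      ind (T.leaves ⊆ world (w : Set Ph) ∧ CmpF ε F w) * Kfh Φ ε L F t₀ t T (rem w T) := by
  by_cases h : T.leaves ⊆ world (w : Set Ph)
  · have h1 : T.leaves ⊆ Wc F w := h.trans subset_union_left
    have h2 := firstHit_iff (L := L) (F := F) hΦ hε (Wc_finite (F := F) (w := w)) h1
    unfold Kfh
    rw [← Wc_rem h, ← ind_and, ← ind_and]
    refine ind_congr ?_
    unfold Dis HitC
    constructor
    · rintro ⟨⟨h3, h4⟩, h5, h6, h7⟩
      have h8 := h2.1 ⟨h4, h6⟩
      exact ⟨⟨h, h3⟩, ⟨h8.1, h7⟩, h8.2⟩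
    · rintro ⟨⟨-, h3⟩, ⟨h4, h5⟩, h6⟩
      have h8 := h2.2 ⟨h4, h6⟩
      exact ⟨⟨h3, h8.1⟩, ((cmpF_rem h).1 h3).2.disjoint hε, h8.2, h5⟩
  · have e1 : ind (T.leaves ⊆ world (w : Set Ph) ∧ CmpF ε F w) = 0 :=
      ind_of_false fun h' => h h'.1
    rw [e1, zero_mul, ind_of_false]
    rintro ⟨-, h3, h4, -⟩
    exact h (subset_world_of_disjoint (firstHit_subset h4) h3)

/-- **The expected number of disjoint first hitters.** -/
theorem lintegral_dis (hf : GoodDatum f₀ κ) (hΦ : IsPotential Φ) (hε : 0 < ε) :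
    ∫⁻ c, ∑' T, ind (Dis Φ ε L F t₀ t (pts c) T) ∂(PP f₀ ε) =
      HI Φ ε L f₀ F t₀ t fun T => surv Φ ε L f₀ (T :: F) (ff Φ ε F T) := by
  have h1 := extract_forest (Φ := Φ) (L := L) hf hε F (K := Kfh Φ ε L F t₀ t)
    (fun T w h => Kfh_ne_zero h) (measurable_Kfh hΦ hε)
  simp only [← ind_dis hΦ hε] at h1
  rw [h1, HI_eq]
  · refine Finset.sum_congr rfl fun τ _ => lintegral_congr fun z => ?_
    congr 1
    unfold surv Kfh
    rw [← lintegral_const_mul _ (measurable_indUnhit hΦ hε _ _)]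
    refine lintegral_congr fun c => ?_
    rw [ind_and]
    ring
  · intro T hT
    by_contra hok
    refine hT ?_
    unfold surv
    rw [lintegral_eq_zero_of_ae_eq_zero]
    refine Eventually.of_forall fun c => ind_of_false ?_
    rintro ⟨-, h2, -⟩
    exact hok (h2 T (by simp)).1

theorem ind_le_surv_pointwise (hΦ : IsPotential Φ) (hε : 0 < ε) (w : Finset Ph) :
    ind (CmpF ε F w ∧ Unhit Φ ε L (Wc F w) F t₀) ≤
      ind (CmpF ε F w ∧ Unhit Φ ε L (Wc F w) F t) + ((∑' T, ind (Dis Φ ε L F t₀ t w T)) +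
        ∑' T, ind (RelEv Φ ε L F t w T)) := by
  by_cases h : CmpF ε F w ∧ OkF Φ ε L F
  · have e : ∀ r, ind (CmpF ε F w ∧ Unhit Φ ε L (Wc F w) F r) =
        ind (NoHit Φ ε L (Wc F w) F r) := fun r =>
      ind_congr ⟨fun h' => h'.2.2, fun h' => ⟨h.1, h.2, h'⟩⟩
    rw [e, e]
    refine (ind_noHit_le (t := t) hΦ hε Wc_finite h.2).trans ?_
    gcongr
    rw [← ENNReal.tsum_add]
    refine ENNReal.tsum_le_tsum fun T => ?_
    by_cases hT : FirstHit Φ ε L (Wc F w) F T ∧ t₀ ≤ ff Φ ε F T ∧ ff Φ ε F T < t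
    · rw [ind_of_true hT]
      by_cases hd : Disjoint T.leaves (lvs F)
      · rw [ind_of_true (P := Dis Φ ε L F t₀ t w T) ⟨h, hd, hT⟩]
        exact le_self_add
      · rw [ind_of_true (P := RelEv Φ ε L F t w T) ⟨⟨h.1, h.2, hd, hT.1⟩, Or.inl hT.2.2⟩]
        exact le_add_self
    · rw [ind_of_false hT]; exact zero_le
  · rw [ind_of_false fun h' => h ⟨h'.1, h'.2.1⟩]; exact zero_le

theorem measurable_disSum (hΦ : IsPotential Φ) (hε : 0 < ε) :
    Measurable fun c : Conf Ph => ∑' T, ind (Dis Φ ε L F t₀ t (pts c) T) := by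
  have hFs := MF.cst (X := Conf Ph) F
  have h1 : Measurable fun q : Conf Ph × CTree => ind (Dis Φ ε L F t₀ t (pts q.1) q.2) := by
    have hFq := MF.cst (X := Conf Ph × CTree) F
    have h2 := measurableSet_cmpF (ε := ε) hFq (measurable_fst (α := Conf Ph) (β := CTree))
    have h3 := (RS.leaves (measurable_snd (α := Conf Ph) (β := CTree))).measurableSet_disjoint
      (RS.lvs hFq)
    have h4 := measurableSet_firstHit hΦ hε hFq (RS.Wc hFq measurable_fst) measurable_snd (L := L)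
    have h5 := measurable_ff hΦ hε.ne' hFq (measurable_snd (α := Conf Ph) (β := CTree))
    have h6 := (measurableSet_le (measurable_const (a := t₀)) h5).inter
      (measurableSet_lt h5 (measurable_const (a := t)))
    simp only [ev_cst] at h2 h3 h4 h6
    refine measurable_ind (((h2.inter h3).inter (h4.inter h6)).congr ?_)
    ext q
    simp only [mem_inter_iff, mem_ofPred_eq, Dis]
    tauto
  refine (RS.trees (RS.Wc hFs measurable_id)).measurable_tsum_of_support h1 fun c T hT => ?_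
  have h2 := firstHit_subset (ind_ne_zero.1 hT).2.2.1
  change T.leaves ⊆ Wc (ev (cst (Conf Ph) F) c) (pts c)
  rw [ev_cst]
  exact h2

/-- **(S), upper bound for the loss.** -/
theorem surv_le (hf : GoodDatum f₀ κ) (hΦ : IsPotential Φ) (hε : 0 < ε) (F : List CTree)
    (t₀ t : ℝ) :
    surv Φ ε L f₀ F t₀ ≤ surv Φ ε L f₀ F t +
      HI Φ ε L f₀ F t₀ t (fun T => surv Φ ε L f₀ (T :: F) (ff Φ ε F T)) + Rel Φ ε L f₀ F t := by
  rw [← lintegral_dis hf hΦ hε, add_assoc]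
  unfold surv Rel
  rw [← lintegral_add_left (measurable_disSum hΦ hε),
    ← lintegral_add_left (measurable_indUnhit hΦ hε F t)]
  exact lintegral_mono fun c => ind_le_surv_pointwise hΦ hε (pts c)

/-- The pairs of disjoint first hitters. -/
def PairEv (Φ : E3 → ℝ) (ε : ℝ) (L : ℕ) (F : List CTree) (t₀ t : ℝ) (w : Finset Ph)
    (T T' : CTree) : Prop :=
  T' ≠ T ∧ Dis Φ ε L F t₀ t w T ∧ Dis Φ ε L F t₀ t w T'

theorem le_surv_pointwise (hΦ : IsPotential Φ) (hε : 0 < ε) (ht : t₀ ≤ t) (w : Finset Ph) :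
    ind (CmpF ε F w ∧ Unhit Φ ε L (Wc F w) F t) + ∑' T, ind (Dis Φ ε L F t₀ t w T) ≤
      ind (CmpF ε F w ∧ Unhit Φ ε L (Wc F w) F t₀) +
        ∑' T, ∑' T', ind (PairEv Φ ε L F t₀ t w T T') := by
  by_cases h : CmpF ε F w ∧ OkF Φ ε L F
  · have e : ∀ r, ind (CmpF ε F w ∧ Unhit Φ ε L (Wc F w) F r) =
        ind (NoHit Φ ε L (Wc F w) F r) := fun r =>
      ind_congr ⟨fun h' => h'.2.2, fun h' => ⟨h.1, h.2, h'⟩⟩
    rw [e, e]
    have h1 := le_ind_noHit_of (W := Wc F w) (L := L) hΦ hε h.2 ht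
      (fun T => Disjoint T.leaves (lvs F))
    have e2 : ∀ T, ind (Disjoint T.leaves (lvs F) ∧ FirstHit Φ ε L (Wc F w) F T ∧
        t₀ ≤ ff Φ ε F T ∧ ff Φ ε F T < t) = ind (Dis Φ ε L F t₀ t w T) := fun T =>
      ind_congr ⟨fun h' => ⟨h, h'⟩, fun h' => h'.2⟩
    simp only [e2] at h1
    refine h1.trans ?_
    gcongr with T T'
    refine ind_mono ?_
    rintro ⟨⟨h2, h3, h4⟩, ⟨h5, h6⟩, h7⟩
    have h8 := ff_eq_of_firstHit hΦ hε h.2 h5 h6
    exact ⟨h2, ⟨h, h3, h5, h7⟩, ⟨h, h4, h6, by rw [← h8]; exact h7⟩⟩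
  · have e : ∀ T, ind (Dis Φ ε L F t₀ t w T) = 0 := fun T => ind_of_false fun h' => h h'.1
    rw [ind_of_false fun h' => h ⟨h'.1, h'.2.1⟩]
    simp only [e, tsum_zero, add_zero]
    exact zero_le

end Vale.Agent.P119.ML
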