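import Vale.Agent.P119.ML.FH4

/-!
# P119, block ML (`helper388`): the inequalities (S) and (D) at fixed `ε`, second part

* `lintegral_pairs_le`, `le_surv`: lower bound for the loss;
* `Dp_le`, `Dm_le`: two worlds.
-/

open MeasureTheory Filter Topology Set
open scoped ENNReal NNReal

noncomputable section

namespace Vale.Agent.P119.ML

open KU M CTree GC MM

variable {Φ : E3 → ℝ} {ε : ℝ} {L : ℕ} {f₀ : Ph → ℝ} {κ : ℝ}
variable {F : List CTree} {t₀ t : ℝ}

/-- The simultaneous independent hits. -/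
def Tie (Φ : E3 → ℝ) (ε : ℝ) (L : ℕ) (f₀ : Ph → ℝ) (F : List CTree) (t₀ t : ℝ) : ℝ≥0∞ :=
  HI Φ ε L f₀ F t₀ t fun T => HI Φ ε L f₀ F t₀ t fun T' => ind (ff Φ ε F T' = ff Φ ε F T)

/-- A second first hitter. -/
def Sec (Φ : E3 → ℝ) (ε : ℝ) (L : ℕ) (F : List CTree) (t₀ t : ℝ) (T : CTree) (w : Finset Ph)
    (T' : CTree) : Prop :=
  T' ≠ T ∧ Disjoint T'.leaves (lvs F) ∧ (OkF Φ ε L F ∧ FirstHit Φ ε L (Wc (T :: F) w) F T') ∧
    t₀ ≤ ff Φ ε F T' ∧ ff Φ ε F T' < t

theorem ind_pair (hΦ : IsPotential Φ) (hε : 0 < ε) (w : Finset Ph) (T : CTree) :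
    ∑' T', ind (PairEv Φ ε L F t₀ t w T T') =
      ind (T.leaves ⊆ world (w : Set Ph) ∧ CmpF ε F w) * (Kfh Φ ε L F t₀ t T (rem w T) *
        ∑' T', ind (Sec Φ ε L F t₀ t T (rem w T) T')) := by
  rw [← mul_assoc, ← ind_dis hΦ hε]
  by_cases h : Dis Φ ε L F t₀ t w T
  · rw [ind_of_true h, one_mul]
    have h1 : T.leaves ⊆ world (w : Set Ph) :=
      subset_world_of_disjoint (firstHit_subset h.2.2.1) h.2.1
    refine tsum_congr fun T' => ind_congr ?_
    unfold Sec PairEv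
    rw [← Wc_rem h1]
    constructor
    · rintro ⟨h2, h3, h4⟩
      exact ⟨h2, h4.2.1, ⟨h4.1.2, h4.2.2.1⟩, h4.2.2.2⟩
    · rintro ⟨h2, h3, h4, h5⟩
      exact ⟨h2, h, h.1, h3, h4.2, h5⟩
  · have e : ∀ T', ind (PairEv Φ ε L F t₀ t w T T') = 0 := fun T' =>
      ind_of_false fun h' => h h'.2.1
    simp only [e, tsum_zero]
    rw [ind_of_false h, zero_mul]

/-- A second first hitter is related or independent. -/
theorem sec_cases (hΦ : IsPotential Φ) (hε : 0 < ε) {T T' : CTree} {w : Finset Ph}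
    (hw : CmpF ε (T :: F) w) (hc : (conF Φ ε F T).Nonempty)
    (hU : Unhit Φ ε L (Wc (T :: F) w) (T :: F) (ff Φ ε F T))
    (h : Sec Φ ε L F t₀ t T w T') :
    RelEv Φ ε L (T :: F) (ff Φ ε F T) w T' ∨
      (T'.leaves ⊆ world (w : Set Ph) ∧ CmpF ε F w) ∧
        (ok Φ ε T' ∧ T'.depth ≤ L) ∧ HitC Φ ε F t₀ t T' ∧ ff Φ ε F T' = ff Φ ε F T := by
  set W := Wc (T :: F) w with hWdef
  have hWf : W.Finite := Wc_finite
  obtain ⟨hne, hd, ⟨hok, hfh⟩, h1, h2⟩ := h
  have hTW : T.leaves ⊆ W := by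
    refine Subset.trans ?_ (lvs_subset_Wc (F := T :: F))
    exact leaves_subset_lvs (by simp)
  have hfT : FirstHit Φ ε L W F T := ((firstHit_iff hΦ hε hWf hTW).2 ⟨hc, hU⟩).2
  have hTa := hfT.2.1
  have heq : ff Φ ε F T' = ff Φ ε F T := ff_eq_of_firstHit hΦ hε hok hfh hfT
  have ha := hfh.2.1
  rw [heq] at ha
  by_cases hdT : Disjoint T'.leaves T.leaves
  · right
    refine ⟨⟨?_, (cmpF_cons.1 hw).2⟩, ⟨(alive_pre ha).ok, (alive_pre ha).depth⟩,
      ⟨hfh.1, h1, h2⟩, heq⟩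
    exact subset_world_of_disjoint (alive_pre ha).sub (disjoint_lvs_cons.2 ⟨hdT, hd⟩)
  · left
    have hcon : ff Φ ε F T ∈ conF Φ ε (T :: F) T' := by
      rw [← heq]
      exact conF_mono (fun S hS => List.mem_cons_of_mem _ hS) (ff_mem hΦ hε hok hfh.1)
    obtain ⟨h3, h4⟩ := firstHit_of_alive hΦ hε hU ha hcon
    refine ⟨⟨hw, hU.1, fun hcon => hdT (disjoint_lvs_cons.1 hcon).1, h3⟩, Or.inr ⟨h4, ?_⟩⟩
    intro S hS hsub
    rcases List.mem_cons.1 hS with rfl | hS
    · exact alive_sub_false hΦ hε hWf hTa hsub hne ha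
    · obtain ⟨σ, hσ⟩ := T'.leaves_nonempty
      exact disjoint_left.1 hd hσ (leaves_subset_lvs hS (leaves_subset_of_mem_sbt hsub hσ))

theorem measurable_secSum (hΦ : IsPotential Φ) (hε : 0 < ε) :
    Measurable fun p : CTree × Conf Ph => ∑' T', ind (Sec Φ ε L F t₀ t p.1 (pts p.2) T') := by
  have h0 : Measurable fun p : CTree × Conf Ph => p.1 := measurable_fst
  have hFs : MF ((fun p : CTree × Conf Ph => p.1) :: cst (CTree × Conf Ph) F) :=
    MF.cons h0 (MF.cst F)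
  have hW := RS.Wc hFs (measurable_snd (α := CTree) (β := Conf Ph))
  simp only [ev_cons, ev_cst] at hW
  have h1 : Measurable fun q : (CTree × Conf Ph) × CTree =>
      ind (Sec Φ ε L F t₀ t q.1.1 (pts q.1.2) q.2) := by
    have hFq := MF.cst (X := (CTree × Conf Ph) × CTree) F
    have h2 : MeasurableSet {q : (CTree × Conf Ph) × CTree | q.2 ≠ q.1.1} :=
      (measurableSet_eq_fun measurable_snd (measurable_fst.comp measurable_fst)).compl
    have h3 := (RS.leaves (measurable_snd (α := CTree × Conf Ph) (β := CTree))).measurableSet_disjoint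
      (RS.lvs hFq)
    have h4 := measurableSet_firstHit hΦ hε hFq
      (hW.comp (measurable_fst (α := CTree × Conf Ph) (β := CTree))) measurable_snd (L := L)
    have h5 := measurable_ff hΦ hε.ne' hFq (measurable_snd (α := CTree × Conf Ph) (β := CTree))
    have h6 := (measurableSet_le (measurable_const (a := t₀)) h5).inter
      (measurableSet_lt h5 (measurable_const (a := t)))
    simp only [ev_cst] at h3 h4 h6
    refine measurable_ind ((h2.inter (h3.inter (h4.inter h6))).congr ?_)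
    ext q
    simp only [mem_inter_iff, mem_ofPred_eq, Sec]
  refine (RS.trees hW).measurable_tsum_of_support h1 fun p T' hT' => ?_
  exact (alive_pre (ind_ne_zero.1 hT').2.2.1.2.2.1).sub

theorem measurable_Rel_cons (hΦ : IsPotential Φ) (hε : 0 < ε) [SFinite (PP f₀ ε)] :
    Measurable fun T : CTree => Rel Φ ε L f₀ (T :: F) (ff Φ ε F T) := by
  have hFs : MF ((fun T : CTree => T) :: cst CTree F) := MF.cons measurable_id (MF.cst F)
  have h1 := measurable_ff hΦ hε.ne' (MF.cst (X := CTree) F) (measurable_id (α := CTree))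
  have h2 := measurable_Rel (L := L) (f₀ := f₀) hΦ hε hFs h1
  simp only [ev_cons, ev_cst] at h2
  exact h2

/-- **The expected number of pairs of disjoint first hitters.** -/
theorem lintegral_pairs_le (hf : GoodDatum f₀ κ) (hΦ : IsPotential Φ) (hε : 0 < ε) :
    ∫⁻ c, ∑' T, ∑' T', ind (PairEv Φ ε L F t₀ t (pts c) T T') ∂(PP f₀ ε) ≤
      HI Φ ε L f₀ F t₀ t (fun T => Rel Φ ε L f₀ (T :: F) (ff Φ ε F T)) +
        Tie Φ ε L f₀ F t₀ t := by
  have := isProbability_PP (ε := ε) hf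
  have h1 := extract_forest (Φ := Φ) (L := L) hf hε F
    (K := fun T w => Kfh Φ ε L F t₀ t T w * ∑' T', ind (Sec Φ ε L F t₀ t T w T'))
    (fun T w h => Kfh_ne_zero (left_ne_zero_of_mul h))
    ((measurable_Kfh hΦ hε).mul (measurable_secSum hΦ hε))
  simp only [← ind_pair hΦ hε] at h1
  rw [h1]
  unfold Tie
  rw [← HI_add hΦ hε (measurable_Rel_cons hΦ hε)]
  unfold HI
  refine Finset.sum_le_sum fun τ _ => lintegral_mono fun z => ?_
  set T := τ.ord z with hT
  by_cases hok : ok Φ ε T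
  swap
  · have e : ∀ c : Conf Ph, ind (CmpF ε (T :: F) (pts c)) * (Kfh Φ ε L F t₀ t T (pts c) *
        ∑' T', ind (Sec Φ ε L F t₀ t T (pts c) T')) = 0 := by
      intro c
      have : Kfh Φ ε L F t₀ t T (pts c) = 0 := by
        by_contra hne
        exact hok (Kfh_ne_zero hne).1
      rw [this, zero_mul, mul_zero]
    simp only [e, lintegral_zero, mul_zero]
    exact zero_le
  by_cases hC : HitC Φ ε F t₀ t T
  swap
  · have e : ∀ c : Conf Ph, ind (CmpF ε (T :: F) (pts c)) * (Kfh Φ ε L F t₀ t T (pts c) *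
        ∑' T', ind (Sec Φ ε L F t₀ t T (pts c) T')) = 0 := by
      intro c
      unfold Kfh
      rw [ind_of_false hC, zero_mul, zero_mul, mul_zero]
    simp only [e, lintegral_zero, mul_zero]
    exact zero_le
  have hev : ind (CmpZ ε F z) ≤ ind (HitEv Φ ε F t₀ t z T) :=
    ind_mono fun h => ⟨⟨h, hok, hC.1⟩, hC.2⟩
  refine mul_le_mul' hev ?_
  -- the independent second hitters
  have h2 := extract_forest (Φ := Φ) (L := L) hf hε F
    (K := fun T' _ => ind ((ok Φ ε T' ∧ T'.depth ≤ L) ∧ HitC Φ ε F t₀ t T' ∧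
      ff Φ ε F T' = ff Φ ε F T)) (fun T' w h => (ind_ne_zero.1 h).1) (by
      refine measurable_ind ?_
      have m0 : Measurable fun p : CTree × Conf Ph => p.1 := measurable_fst
      have hFq := MF.cst (X := CTree × Conf Ph) F
      have m1 := (measurableSet_tree_ok hΦ hε.ne' m0).inter
        (meas_depth m0 (measurableSet_Iic (a := L)))
      have m2 := measurableSet_hitC hΦ hε hFq m0 t₀ t
      have m3 := measurableSet_eq_fun (measurable_ff hΦ hε.ne' hFq m0)
        (measurable_const (a := ff Φ ε F T))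
      simp only [ev_cst] at m2 m3
      exact m1.inter (m2.inter m3))
  have h3 : ∀ c : Conf Ph, ind (CmpF ε (T :: F) (pts c)) * (Kfh Φ ε L F t₀ t T (pts c) *
        ∑' T', ind (Sec Φ ε L F t₀ t T (pts c) T')) ≤
      ∑' T', ind (RelEv Φ ε L (T :: F) (ff Φ ε F T) (pts c) T') +
        ∑' T', ind (T'.leaves ⊆ world (pts c : Set Ph) ∧ CmpF ε F (pts c)) *
          ind ((ok Φ ε T' ∧ T'.depth ≤ L) ∧ HitC Φ ε F t₀ t T' ∧ ff Φ ε F T' = ff Φ ε F T) := by
    intro c
    by_cases h4 : CmpF ε (T :: F) (pts c) ∧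
        Unhit Φ ε L (Wc (T :: F) (pts c)) (T :: F) (ff Φ ε F T)
    · rw [← ENNReal.tsum_add]
      have h5 : ind (CmpF ε (T :: F) (pts c)) * (Kfh Φ ε L F t₀ t T (pts c) *
          ∑' T', ind (Sec Φ ε L F t₀ t T (pts c) T')) ≤
          ∑' T', ind (Sec Φ ε L F t₀ t T (pts c) T') := by
        unfold Kfh
        rw [ind_of_true h4.1, ind_of_true hC, ind_of_true h4.2]
        simp
      refine h5.trans (ENNReal.tsum_le_tsum fun T' => ?_)
      by_cases h6 : Sec Φ ε L F t₀ t T (pts c) T'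
      · rw [ind_of_true h6]
        rcases sec_cases hΦ hε h4.1 hC.1 h4.2 h6 with h7 | ⟨h7, h8⟩
        · rw [ind_of_true h7]; exact le_self_add
        · rw [ind_of_true h7, ind_of_true h8, one_mul]; exact le_add_self
      · rw [ind_of_false h6]; exact zero_le
    · have h5 : ind (CmpF ε (T :: F) (pts c)) * (Kfh Φ ε L F t₀ t T (pts c) *
          ∑' T', ind (Sec Φ ε L F t₀ t T (pts c) T')) = 0 := by
        by_cases h6 : CmpF ε (T :: F) (pts c)
        · unfold Kfh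
          rw [ind_of_false (P := Unhit Φ ε L (Wc (T :: F) (pts c)) (T :: F) (ff Φ ε F T))
            fun h' => h4 ⟨h6, h'⟩, mul_zero, zero_mul, mul_zero]
        · rw [ind_of_false h6, zero_mul]
      rw [h5]; exact zero_le
  refine (lintegral_mono h3).trans ?_
  have hm := measurable_relSum (L := L) hΦ hε (MF.cst (X := Conf Ph) (T :: F)) measurable_id
    (measurable_const (a := ff Φ ε F T))
  simp only [ev_cst] at hm
  refine (le_of_eq (lintegral_add_left hm _)).trans ?_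
  refine add_le_add le_rfl ?_
  rw [h2]
  refine Finset.sum_le_sum fun τ' _ => lintegral_mono fun z' => ?_
  have h6 : ∫⁻ c, ind (CmpF ε (τ'.ord z' :: F) (pts c)) *
      ind ((ok Φ ε (τ'.ord z') ∧ (τ'.ord z').depth ≤ L) ∧ HitC Φ ε F t₀ t (τ'.ord z') ∧
        ff Φ ε F (τ'.ord z') = ff Φ ε F T) ∂(PP f₀ ε) ≤
      ind ((ok Φ ε (τ'.ord z') ∧ (τ'.ord z').depth ≤ L) ∧ HitC Φ ε F t₀ t (τ'.ord z') ∧
        ff Φ ε F (τ'.ord z') = ff Φ ε F T) := by
    calc _ ≤ ∫⁻ _ : Conf Ph, ind ((ok Φ ε (τ'.ord z') ∧ (τ'.ord z').depth ≤ L) ∧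
          HitC Φ ε F t₀ t (τ'.ord z') ∧ ff Φ ε F (τ'.ord z') = ff Φ ε F T) ∂(PP f₀ ε) :=
          lintegral_mono fun c => (mul_le_mul_left (ind_le_one _) _).trans (one_mul _).le
      _ = _ := by rw [lintegral_const, measure_univ, mul_one]
  refine (mul_le_mul_right h6 _).trans ?_
  rw [← ind_and, ← ind_and]
  refine ind_mono ?_
  rintro ⟨h7, ⟨h8, -⟩, h9, h10⟩
  exact ⟨⟨⟨h7, h8, h9.1⟩, h9.2⟩, h10⟩

/-- **(S), lower bound for the loss.** -/
theorem le_surv (hf : GoodDatum f₀ κ) (hΦ : IsPotential Φ) (hε : 0 < ε) (F : List CTree)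
    (ht : t₀ ≤ t) :
    surv Φ ε L f₀ F t +
        HI Φ ε L f₀ F t₀ t (fun T => surv Φ ε L f₀ (T :: F) (ff Φ ε F T)) ≤
      surv Φ ε L f₀ F t₀ + (HI Φ ε L f₀ F t₀ t (fun T => Rel Φ ε L f₀ (T :: F) (ff Φ ε F T)) +
        Tie Φ ε L f₀ F t₀ t) := by
  rw [← lintegral_dis hf hΦ hε]
  refine le_trans ?_ (add_le_add le_rfl (lintegral_pairs_le hf hΦ hε))
  unfold surv
  rw [← lintegral_add_left (measurable_indUnhit hΦ hε F t),
    ← lintegral_add_left (measurable_indUnhit hΦ hε F t₀)]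
  exact lintegral_mono fun c => le_surv_pointwise hΦ hε ht (pts c)

end Vale.Agent.P119.ML
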