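import Vale.Agent.P119.ML.FH5

/-!
# P119, block ML (`helper388`): the inequality (D) at fixed `ε` (two worlds)

* `Dp_le`, `Dm_le`.
-/

open MeasureTheory Filter Topology Set
open scoped ENNReal NNReal

noncomputable section

namespace Vale.Agent.P119.ML

open KU M CTree GC MM

variable {Φ : E3 → ℝ} {ε : ℝ} {L : ℕ} {f₀ : Ph → ℝ} {κ : ℝ}

theorem lvs_middle (A C : List CTree) (T : CTree) : lvs (A ++ T :: C) = lvs (T :: (A ++ C)) := by
  rw [lvs_append, lvs_cons, lvs_cons, lvs_append, union_left_comm]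

theorem cmpF_congr {F G : List CTree} (h : lvs F = lvs G) {w : Finset Ph} :
    CmpF ε F w ↔ CmpF ε G w :=
  ⟨fun h' => cmpF_mono (h ▸ subset_rfl) h', fun h' => cmpF_mono (h ▸ subset_rfl) h'⟩

theorem Wc_congr {F G : List CTree} (h : lvs F = lvs G) (w : Finset Ph) : Wc F w = Wc G w := by
  unfold Wc; rw [h]

/-- The event of `Dp`. -/
def DpEv (Φ : E3 → ℝ) (ε : ℝ) (L : ℕ) (A C : List CTree) (c : CTree) (t : ℝ) (w : Finset Ph) :
    Prop :=
  Unhit Φ ε L (Wc (A ++ c :: C) w) (A ++ c :: C) t ∧ Unhit Φ ε L (Wc (c :: C) w) C t ∧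
    ¬NoHit Φ ε L (Wc (c :: C) w) [c] t

/-- The event of `Dm`. -/
def DmEv (Φ : E3 → ℝ) (ε : ℝ) (L : ℕ) (A C : List CTree) (c : CTree) (t : ℝ) (w : Finset Ph) :
    Prop :=
  Unhit Φ ε L (Wc (c :: C) w) (c :: C) t ∧ Unhit Φ ε L (Wc (A ++ c :: C) w) (A ++ C) t ∧
    ¬NoHit Φ ε L (Wc (A ++ c :: C) w) [c] t

theorem Dp_eq (A C : List CTree) (c : CTree) (t : ℝ) : Dp Φ ε L f₀ A C c t =
    ∫⁻ o, ind (CmpF ε (A ++ c :: C) (pts o)) * ind (DpEv Φ ε L A C c t (pts o)) ∂(PP f₀ ε) := by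
  unfold Dp
  exact lintegral_congr fun o => by rw [← ind_and]; rfl

theorem Dm_eq (A C : List CTree) (c : CTree) (t : ℝ) : Dm Φ ε L f₀ A C c t =
    ∫⁻ o, ind (CmpF ε (A ++ c :: C) (pts o)) * ind (DmEv Φ ε L A C c t (pts o)) ∂(PP f₀ ε) := by
  unfold Dm
  exact lintegral_congr fun o => by rw [← ind_and]; rfl

theorem noHit_zero (hΦ : IsPotential Φ) (hε : 0 < ε) {W : Set Src} {F : List CTree}
    (hF : OkF Φ ε L F) : NoHit Φ ε L W F 0 := fun T hT _ _ hs hh _ =>
  absurd (hit_nonneg hΦ hε (hF T hT).1 hh) (not_le.2 hs)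

section Meas

variable {X : Type*} [MeasurableSpace X] {As Cs : List (X → CTree)} {f : X → CTree}
  {c : X → Conf Ph} {t : X → ℝ}

omit [MeasurableSpace X] in
theorem ev_mid (x : X) : ev (As ++ f :: Cs) x = ev As x ++ f x :: ev Cs x := by
  rw [ev_append, ev_cons]

theorem measurableSet_DpEv (hΦ : IsPotential Φ) (hε : 0 < ε) (hA : MF As) (hC : MF Cs)
    (hf : Measurable f) (hc : Measurable c) (ht : Measurable t) :
    MeasurableSet {x | DpEv Φ ε L (ev As x) (ev Cs x) (f x) (t x) (pts (c x))} := by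
  have h1 := MF.append hA (MF.cons hf hC)
  have h2 := MF.cons hf hC
  have h3 := MF.cons hf (MF.nil (X := X))
  have m1 := measurableSet_unhit hΦ hε h1 (RS.Wc h1 hc) ht (L := L)
  have m2 := measurableSet_unhit hΦ hε hC (RS.Wc h2 hc) ht (L := L)
  have m3 := measurableSet_unhit hΦ hε h3 (RS.Wc h2 hc) ht (L := L)
  simp only [ev_mid] at m1
  simp only [ev_cons] at m2 m3
  refine (m1.inter (m2.inter m3.compl)).congr ?_
  ext x
  have e : ev ([] : List (X → CTree)) x = [] := rfl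
  simp only [mem_inter_iff, mem_compl_iff, mem_ofPred_eq, DpEv, e]
  constructor
  · rintro ⟨h4, h5, h6⟩
    refine ⟨h4, h5, fun h7 => h6 ⟨?_, h7⟩⟩
    intro T hT
    rw [List.mem_singleton] at hT
    rw [hT]
    exact h4.1 (f x) (by simp)
  · rintro ⟨h4, h5, h6⟩
    exact ⟨h4, h5, fun h7 => h6 h7.2⟩

theorem measurableSet_DmEv (hΦ : IsPotential Φ) (hε : 0 < ε) (hA : MF As) (hC : MF Cs)
    (hf : Measurable f) (hc : Measurable c) (ht : Measurable t) :
    MeasurableSet {x | DmEv Φ ε L (ev As x) (ev Cs x) (f x) (t x) (pts (c x))} := by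
  have h1 := MF.append hA (MF.cons hf hC)
  have h2 := MF.cons hf hC
  have h3 := MF.cons hf (MF.nil (X := X))
  have h0 := MF.append hA hC
  have m1 := measurableSet_unhit hΦ hε h2 (RS.Wc h2 hc) ht (L := L)
  have m2 := measurableSet_unhit hΦ hε h0 (RS.Wc h1 hc) ht (L := L)
  have m3 := measurableSet_unhit hΦ hε h3 (RS.Wc h1 hc) ht (L := L)
  simp only [ev_cons, ev_append] at m1 m2 m3
  refine (m1.inter (m2.inter m3.compl)).congr ?_
  ext x
  have e : ev ([] : List (X → CTree)) x = [] := rfl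
  simp only [mem_inter_iff, mem_compl_iff, mem_ofPred_eq, DmEv, e]
  constructor
  · rintro ⟨h4, h5, h6⟩
    refine ⟨h4, h5, fun h7 => h6 ⟨?_, h7⟩⟩
    intro T hT
    rw [List.mem_singleton] at hT
    rw [hT]
    exact h4.1 (f x) (by simp)
  · rintro ⟨h4, h5, h6⟩
    exact ⟨h4, h5, fun h7 => h6 h7.2⟩

theorem measurable_Dp (hΦ : IsPotential Φ) (hε : 0 < ε) [SFinite (PP f₀ ε)] (hA : MF As)
    (hC : MF Cs) (hf : Measurable f) (ht : Measurable t) :
    Measurable fun x => Dp Φ ε L f₀ (ev As x) (ev Cs x) (f x) (t x) := by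
  simp only [Dp_eq]
  have g : Measurable (Prod.fst : X × Conf Ph → X) := measurable_fst
  have h1 := measurableSet_DpEv (L := L) hΦ hε (hA.pull g) (hC.pull g) (hf.comp g)
    measurable_snd (ht.comp g)
  have h2 := measurableSet_cmpF (ε := ε) ((MF.append hA (MF.cons hf hC)).pull g) measurable_snd
  simp only [ev_pull, Function.comp_def, ev_mid] at h1 h2
  exact ((measurable_ind h2).mul (measurable_ind h1)).lintegral_prod_right'

theorem measurable_Dm (hΦ : IsPotential Φ) (hε : 0 < ε) [SFinite (PP f₀ ε)] (hA : MF As)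
    (hC : MF Cs) (hf : Measurable f) (ht : Measurable t) :
    Measurable fun x => Dm Φ ε L f₀ (ev As x) (ev Cs x) (f x) (t x) := by
  simp only [Dm_eq]
  have g : Measurable (Prod.fst : X × Conf Ph → X) := measurable_fst
  have h1 := measurableSet_DmEv (L := L) hΦ hε (hA.pull g) (hC.pull g) (hf.comp g)
    measurable_snd (ht.comp g)
  have h2 := measurableSet_cmpF (ε := ε) ((MF.append hA (MF.cons hf hC)).pull g) measurable_snd
  simp only [ev_pull, Function.comp_def, ev_mid] at h1 h2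
  exact ((measurable_ind h2).mul (measurable_ind h1)).lintegral_prod_right'

end Meas

theorem ok_of_DpEv {A C : List CTree} {T : CTree} {t : ℝ} {w : Finset Ph}
    (h : DpEv Φ ε L A C T t w) : ok Φ ε T ∧ T.depth ≤ L := h.1.1 T (by simp)

theorem ok_of_DmEv {A C : List CTree} {T : CTree} {t : ℝ} {w : Finset Ph}
    (h : DmEv Φ ε L A C T t w) : ok Φ ε T ∧ T.depth ≤ L := h.1.1 T (by simp)

/-- **(D) for `Dp`, deterministic part.** -/
theorem DpEv_cases (hΦ : IsPotential Φ) (hε : 0 < ε) {A C : List CTree} {c : CTree} {t : ℝ}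
    {w : Finset Ph} (hcmp : CmpF ε (A ++ c :: C) w) (h : DpEv Φ ε L A C c t w) :
    ∃ T', RelEv Φ ε L (c :: C) t w T' ∨
      ((T'.leaves ⊆ world (w : Set Ph) ∧ CmpF ε (A ++ c :: C) w) ∧
        HitC Φ ε [c] 0 t T' ∧ DmEv Φ ε L A (c :: C) T' (ff Φ ε [c] T') (rem w T')) := by
  obtain ⟨h1, h2, h3⟩ := h
  set W1 := Wc (A ++ c :: C) w with hW1
  set W2 := Wc (c :: C) w with hW2
  have hf1 : W1.Finite := Wc_finite
  have hf2 : W2.Finite := Wc_finite
  have hokc : OkF Φ ε L [c] := fun T hT => by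
    rw [List.mem_singleton] at hT
    rw [hT]
    exact h1.1 c (by simp)
  obtain ⟨T', hfh, h4, h5⟩ := exists_firstHit hΦ hε hf2 hokc (noHit_zero hΦ hε hokc) h3
  refine ⟨T', ?_⟩
  set s := ff Φ ε [c] T' with hs
  have ha := hfh.2.1
  have hmem := ff_mem hΦ hε hokc hfh.1
  have hUc : Unhit Φ ε L W2 [c] s := ⟨hokc, hfh.2.2⟩
  have hU2 : Unhit Φ ε L W2 (c :: C) s := unhit_cons.2 ⟨hUc, h2.mono h5.le⟩
  have hmem' : s ∈ conF Φ ε (c :: C) T' := conF_mono (fun S hS => by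
    rw [List.mem_singleton] at hS
    rw [hS]
    exact List.mem_cons_self) hmem
  obtain ⟨h6, h7⟩ := firstHit_of_alive hΦ hε hU2 ha hmem'
  by_cases hd : Disjoint T'.leaves (lvs (c :: C))
  · right
    have hsub := subset_world_of_disjoint (alive_pre ha).sub hd
    have e2 : Wc (T' :: (c :: C)) (rem w T') = W2 := (Wc_rem hsub).symm
    have e1 : Wc (A ++ T' :: (c :: C)) (rem w T') = W1 := by
      rw [Wc_congr (lvs_middle A (c :: C) T'), ← Wc_rem hsub]
    refine ⟨⟨hsub, hcmp⟩, ⟨hfh.1, h4, h5⟩, ?_, ?_, ?_⟩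
    · rw [e2]
      exact unhit_cons_of_alive hΦ hε hf2 ha hU2
    · rw [e1]
      exact h1.mono h5.le
    · rw [e1]
      intro hno
      have ha1 : alive Φ ε L W1 T' s := by
        refine (alive_iff_noHit hΦ hε hf1).2 ⟨⟨hsub.trans subset_union_left, (alive_pre ha).ok,
          (alive_pre ha).depth, (alive_pre ha).ext_le⟩, hno⟩
      obtain ⟨S, hS, hh⟩ := hmem
      rw [List.mem_singleton] at hS
      rw [hS] at hh
      exact h1.2 c (by simp) T' s h5 hh ha1
  · left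
    refine ⟨⟨cmpF_mono ?_ hcmp, hU2.1, hd, h6⟩, Or.inl (h7.trans_lt h5)⟩
    rw [lvs_append]
    exact subset_union_right

/-- **(D) for `Dm`, deterministic part.** -/
theorem DmEv_cases (hΦ : IsPotential Φ) (hε : 0 < ε) {A C : List CTree} {c : CTree} {t : ℝ}
    {w : Finset Ph} (hcmp : CmpF ε (A ++ c :: C) w) (h : DmEv Φ ε L A C c t w) :
    ∃ T', RelEv Φ ε L (A ++ c :: C) t w T' ∨
      ((T'.leaves ⊆ world (w : Set Ph) ∧ CmpF ε (A ++ c :: C) w) ∧
        HitC Φ ε [c] 0 t T' ∧ DpEv Φ ε L A (c :: C) T' (ff Φ ε [c] T') (rem w T')) := by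
  obtain ⟨h2, h1, h3⟩ := h
  set W1 := Wc (A ++ c :: C) w with hW1
  set W2 := Wc (c :: C) w with hW2
  have hf1 : W1.Finite := Wc_finite
  have hf2 : W2.Finite := Wc_finite
  have hokc : OkF Φ ε L [c] := fun T hT => by
    rw [List.mem_singleton] at hT
    rw [hT]
    exact h2.1 c (by simp)
  obtain ⟨T', hfh, h4, h5⟩ := exists_firstHit hΦ hε hf1 hokc (noHit_zero hΦ hε hokc) h3
  refine ⟨T', ?_⟩
  set s := ff Φ ε [c] T' with hs
  have ha := hfh.2.1
  have hmem := ff_mem hΦ hε hokc hfh.1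
  have hUc : Unhit Φ ε L W1 [c] s := ⟨hokc, hfh.2.2⟩
  have hU1 : Unhit Φ ε L W1 (A ++ c :: C) s := by
    have h6 := unhit_append.1 (h1.mono h5.le)
    exact unhit_append.2 ⟨h6.1, unhit_cons.2 ⟨hUc, h6.2⟩⟩
  have hmem' : s ∈ conF Φ ε (A ++ c :: C) T' := conF_mono (fun S hS => by
    rw [List.mem_singleton] at hS
    rw [hS]
    simp) hmem
  obtain ⟨h6, h7⟩ := firstHit_of_alive hΦ hε hU1 ha hmem'
  by_cases hd : Disjoint T'.leaves (lvs (A ++ c :: C))
  · right
    have hsub := subset_world_of_disjoint (alive_pre ha).sub hd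
    have e2 : Wc (T' :: (c :: C)) (rem w T') = W2 := (Wc_rem hsub).symm
    have e1 : Wc (A ++ T' :: (c :: C)) (rem w T') = W1 := by
      rw [Wc_congr (lvs_middle A (c :: C) T'), ← Wc_rem hsub]
    refine ⟨⟨hsub, hcmp⟩, ⟨hfh.1, h4, h5⟩, ?_, ?_, ?_⟩
    · rw [e1]
      have h8 := unhit_append.1 hU1
      exact unhit_append.2 ⟨h8.1, unhit_cons_of_alive hΦ hε hf1 ha h8.2⟩
    · rw [e2]
      exact h2.mono h5.le
    · rw [e2]
      intro hno
      have ha2 : alive Φ ε L W2 T' s := by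
        refine (alive_iff_noHit hΦ hε hf2).2 ⟨⟨hsub.trans subset_union_left, (alive_pre ha).ok,
          (alive_pre ha).depth, (alive_pre ha).ext_le⟩, hno⟩
      obtain ⟨S, hS, hh⟩ := hmem
      rw [List.mem_singleton] at hS
      rw [hS] at hh
      exact h2.2 c (by simp) T' s h5 hh ha2
  · left
    exact ⟨⟨hcmp, hU1.1, hd, h6⟩, Or.inl (h7.trans_lt h5)⟩

/-- The probabilistic part of (D). -/
theorem extract_two (hf : GoodDatum f₀ κ) (hΦ : IsPotential Φ) (hε : 0 < ε)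
    {A C : List CTree} {c : CTree} {t : ℝ} {E : CTree → Finset Ph → Prop}
    (hE0 : ∀ T w, E T w → ok Φ ε T ∧ T.depth ≤ L)
    (hE : MeasurableSet {p : CTree × Conf Ph | E p.1 (pts p.2)}) :
    ∫⁻ o, ∑' T', ind ((T'.leaves ⊆ world (pts o : Set Ph) ∧ CmpF ε (A ++ c :: C) (pts o)) ∧
        HitC Φ ε [c] 0 t T' ∧ E T' (rem (pts o) T')) ∂(PP f₀ ε) ≤
      HI Φ ε L f₀ [c] 0 t (fun T' =>
        ∫⁻ o, ind (CmpF ε (A ++ T' :: (c :: C)) (pts o)) * ind (E T' (pts o)) ∂(PP f₀ ε)) := by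
  have h1 := extract_forest (Φ := Φ) (L := L) hf hε (A ++ c :: C)
    (K := fun T' w => ind (HitC Φ ε [c] 0 t T' ∧ E T' w))
    (fun T w h => hE0 T w (ind_ne_zero.1 h).2) (by
      have m0 : Measurable fun p : CTree × Conf Ph => p.1 := measurable_fst
      have m1 := measurableSet_hitC hΦ hε (MF.cst (X := CTree × Conf Ph) [c]) m0 0 t
      simp only [ev_cst] at m1
      exact measurable_ind (m1.inter hE))
  simp only [← ind_and] at h1
  rw [h1]
  unfold HI
  refine Finset.sum_le_sum fun τ _ => lintegral_mono fun z => ?_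
  set T := τ.ord z with hT
  by_cases hh : ok Φ ε T ∧ HitC Φ ε [c] 0 t T
  swap
  · have e : ∀ o : Conf Ph, ind (CmpF ε (T :: (A ++ c :: C)) (pts o) ∧
        HitC Φ ε [c] 0 t T ∧ E T (pts o)) = 0 := fun o =>
      ind_of_false fun h' => hh ⟨(hE0 _ _ h'.2.2).1, h'.2.1⟩
    simp only [e, lintegral_zero, mul_zero]
    exact zero_le
  refine mul_le_mul' (ind_mono fun h => ?_) ?_
  · refine ⟨⟨fun i σ hσ => h i σ ?_, hh.1, hh.2.1⟩, hh.2.2⟩
    rw [lvs_append]
    refine Or.inr ?_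
    rw [lvs_cons] at hσ ⊢
    rw [lvs_nil, union_empty] at hσ
    exact Or.inl hσ
  · refine lintegral_mono fun o => ?_
    rw [← ind_and]
    refine ind_mono fun h => ⟨?_, h.2.2⟩
    exact (cmpF_congr (lvs_middle A (c :: C) T)).2 h.1

theorem measurable_relSum_pts (hΦ : IsPotential Φ) (hε : 0 < ε) (F : List CTree) (t : ℝ) :
    Measurable fun o : Conf Ph => ∑' T', ind (RelEv Φ ε L F t (pts o) T') := by
  have hm := measurable_relSum (L := L) hΦ hε (MF.cst (X := Conf Ph) F) measurable_id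
    (measurable_const (a := t))
  simp only [ev_cst] at hm
  exact hm

/-- **(D), first inequality.** -/
theorem Dp_le (hf : GoodDatum f₀ κ) (hΦ : IsPotential Φ) (hε : 0 < ε) (A C : List CTree)
    (c : CTree) (t : ℝ) : Dp Φ ε L f₀ A C c t ≤ Rel Φ ε L f₀ (c :: C) t +
      HI Φ ε L f₀ [c] 0 t (fun T' => Dm Φ ε L f₀ A (c :: C) T' (ff Φ ε [c] T')) := by
  have m0 : Measurable fun p : CTree × Conf Ph => p.1 := measurable_fst
  have hE := measurableSet_DmEv (L := L) hΦ hε (MF.cst (X := CTree × Conf Ph) A)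
    (MF.cst (X := CTree × Conf Ph) (c :: C)) m0 measurable_snd
    (measurable_ff hΦ hε.ne' (MF.cst (X := CTree × Conf Ph) [c]) m0)
  simp only [ev_cst] at hE
  have h1 := extract_two hf hΦ hε (A := A) (C := C) (c := c) (t := t)
    (E := fun T w => DmEv Φ ε L A (c :: C) T (ff Φ ε [c] T) w) (fun T w h => ok_of_DmEv h) hE
  simp only [Dm_eq]
  refine le_trans ?_ (add_le_add le_rfl h1)
  rw [Dp_eq]
  unfold Rel
  rw [← lintegral_add_left (measurable_relSum_pts hΦ hε (c :: C) t)]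
  refine lintegral_mono fun o => ?_
  rw [← ind_and]
  by_cases h : CmpF ε (A ++ c :: C) (pts o) ∧ DpEv Φ ε L A C c t (pts o)
  · rw [ind_of_true h]
    obtain ⟨T', h2 | h2⟩ := DpEv_cases hΦ hε h.1 h.2
    · refine le_trans ?_ (le_add_right (ENNReal.le_tsum T'))
      rw [ind_of_true h2]
    · refine le_trans ?_ (le_add_left (ENNReal.le_tsum T'))
      rw [ind_of_true h2]
  · rw [ind_of_false h]; exact zero_le

/-- **(D), second inequality.** -/
theorem Dm_le (hf : GoodDatum f₀ κ) (hΦ : IsPotential Φ) (hε : 0 < ε) (A C : List CTree)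
    (c : CTree) (t : ℝ) : Dm Φ ε L f₀ A C c t ≤ Rel Φ ε L f₀ (A ++ c :: C) t +
      HI Φ ε L f₀ [c] 0 t (fun T' => Dp Φ ε L f₀ A (c :: C) T' (ff Φ ε [c] T')) := by
  have m0 : Measurable fun p : CTree × Conf Ph => p.1 := measurable_fst
  have hE := measurableSet_DpEv (L := L) hΦ hε (MF.cst (X := CTree × Conf Ph) A)
    (MF.cst (X := CTree × Conf Ph) (c :: C)) m0 measurable_snd
    (measurable_ff hΦ hε.ne' (MF.cst (X := CTree × Conf Ph) [c]) m0)
  simp only [ev_cst] at hE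
  have h1 := extract_two hf hΦ hε (A := A) (C := C) (c := c) (t := t)
    (E := fun T w => DpEv Φ ε L A (c :: C) T (ff Φ ε [c] T) w) (fun T w h => ok_of_DpEv h) hE
  simp only [Dp_eq]
  refine le_trans ?_ (add_le_add le_rfl h1)
  rw [Dm_eq]
  unfold Rel
  rw [← lintegral_add_left (measurable_relSum_pts hΦ hε (A ++ c :: C) t)]
  refine lintegral_mono fun o => ?_
  rw [← ind_and]
  by_cases h : CmpF ε (A ++ c :: C) (pts o) ∧ DmEv Φ ε L A C c t (pts o)
  · rw [ind_of_true h]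
    obtain ⟨T', h2 | h2⟩ := DmEv_cases hΦ hε h.1 h.2
    · refine le_trans ?_ (le_add_right (ENNReal.le_tsum T'))
      rw [ind_of_true h2]
    · refine le_trans ?_ (le_add_left (ENNReal.le_tsum T'))
      rw [ind_of_true h2]
  · rw [ind_of_false h]; exact zero_le

end Vale.Agent.P119.ML
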