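import Vale.Agent.P119.ML.FH
import Vale.Agent.P119.MM.Stat
import Vale.Agent.P119.MM.ShapeMeas

/-!
# P119, block ML (`helper388`): measurability for forests

For a list `Fs` of measurable trees `X → CTree` the forest at `x` is `ev Fs x`.
-/

open MeasureTheory Filter Topology Set
open scoped ENNReal NNReal

noncomputable section

namespace Vale.Agent.P119.ML

open KU M CTree GC MM

variable {X : Type*} [MeasurableSpace X] {Φ : E3 → ℝ} {ε : ℝ} {L : ℕ}

/-- The forest at `x`. -/
def ev (Fs : List (X → CTree)) (x : X) : List CTree := Fs.map fun f => f x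

/-- All the trees are measurable. -/
def MF (Fs : List (X → CTree)) : Prop := ∀ f ∈ Fs, Measurable f

theorem MF.nil : MF ([] : List (X → CTree)) := fun f hf => absurd hf (by simp)

theorem MF.cons {f : X → CTree} {Fs : List (X → CTree)} (h : Measurable f) (hF : MF Fs) :
    MF (f :: Fs) := fun g hg => by
  rcases List.mem_cons.1 hg with rfl | hg
  · exact h
  · exact hF g hg

theorem MF.append {Fs Gs : List (X → CTree)} (h : MF Fs) (hG : MF Gs) : MF (Fs ++ Gs) :=
  fun g hg => by
    rcases List.mem_append.1 hg with hg | hg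
    · exact h g hg
    · exact hG g hg

theorem MF.head {f : X → CTree} {Fs : List (X → CTree)} (h : MF (f :: Fs)) : Measurable f :=
  h f (by simp)

theorem MF.tail {f : X → CTree} {Fs : List (X → CTree)} (h : MF (f :: Fs)) : MF Fs :=
  fun g hg => h g (by simp [hg])

omit [MeasurableSpace X] in
theorem ev_cons (f : X → CTree) (Fs : List (X → CTree)) (x : X) :
    ev (f :: Fs) x = f x :: ev Fs x := rfl

omit [MeasurableSpace X] in
theorem ev_append (Fs Gs : List (X → CTree)) (x : X) :
    ev (Fs ++ Gs) x = ev Fs x ++ ev Gs x := by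
  unfold ev; exact List.map_append

/-- Constant forests. -/
def cst (X : Type*) (F : List CTree) : List (X → CTree) := F.map fun T _ => T

omit [MeasurableSpace X] in
theorem ev_cst (F : List CTree) (x : X) : ev (cst X F) x = F := by
  unfold ev cst
  rw [List.map_map]
  exact List.map_id F

theorem MF.cst (F : List CTree) : MF (ML.cst X F) := fun f hf => by
  obtain ⟨T, -, rfl⟩ := List.mem_map.1 hf
  exact measurable_const

/-- Composition with a measurable map. -/
def pull {Y : Type*} (g : Y → X) (Fs : List (X → CTree)) : List (Y → CTree) :=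
  Fs.map fun f => f ∘ g

omit [MeasurableSpace X] in
theorem ev_pull {Y : Type*} (g : Y → X) (Fs : List (X → CTree)) (y : Y) :
    ev (pull g Fs) y = ev Fs (g y) := by
  unfold ev pull; simp

theorem MF.pull {Y : Type*} [MeasurableSpace Y] {g : Y → X} (hg : Measurable g)
    {Fs : List (X → CTree)} (h : MF Fs) : MF (ML.pull g Fs) := fun f hf => by
  obtain ⟨f', hf', rfl⟩ := List.mem_map.1 hf
  exact (h f' hf').comp hg

theorem RS.lvs {Fs : List (X → CTree)} (h : MF Fs) : RS fun x => lvs (ev Fs x) := by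
  induction Fs with
  | nil =>
    refine RS.empty.congr fun x => ?_
    exact lvs_nil
  | cons f Fs ih =>
    refine ((RS.leaves h.head).union (ih h.tail)).congr fun x => ?_
    rw [ev_cons, lvs_cons]

theorem measurableSet_okF (hΦ : IsPotential Φ) (hε : ε ≠ 0) {Fs : List (X → CTree)} (h : MF Fs) :
    MeasurableSet {x | OkF Φ ε L (ev Fs x)} := by
  induction Fs with
  | nil =>
    have : {x : X | OkF Φ ε L (ev ([] : List (X → CTree)) x)} = univ := by
      ext x
      simp [OkF, ev]
    rw [this]
    exact MeasurableSet.univ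
  | cons f Fs ih =>
    have h1 := (measurableSet_tree_ok hΦ hε h.head).inter
      (meas_depth h.head (measurableSet_Iic (a := L)))
    refine (h1.inter (ih h.tail)).congr ?_
    ext x
    simp only [mem_inter_iff, mem_ofPred_eq, ev_cons, okF_cons, mem_preimage, mem_Iic]

theorem SC.conF (hΦ : IsPotential Φ) (hε : ε ≠ 0) {Fs : List (X → CTree)} (h : MF Fs)
    {T' : X → CTree} (hT' : Measurable T') : SC fun x => conF Φ ε (ev Fs x) (T' x) := by
  induction Fs with
  | nil =>
    refine SC.false.congr fun x s => ?_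
    simp [ML.conF, ev]
  | cons f Fs ih =>
    refine ((SC.tree_hit hΦ hε h.head hT').or (ih h.tail)).congr fun x s => ?_
    simp only [ML.conF, ev_cons, List.mem_cons, mem_ofPred_eq]
    constructor
    · rintro ⟨T, rfl | hT, hs⟩
      · exact Or.inl hs
      · exact Or.inr ⟨T, hT, hs⟩
    · rintro (hs | ⟨T, hT, hs⟩)
      · exact ⟨_, Or.inl rfl, hs⟩
      · exact ⟨T, Or.inr hT, hs⟩

theorem measurable_ff (hΦ : IsPotential Φ) (hε : ε ≠ 0) {Fs : List (X → CTree)} (h : MF Fs)
    {T' : X → CTree} (hT' : Measurable T') : Measurable fun x => ff Φ ε (ev Fs x) (T' x) :=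
  (SC.conF hΦ hε h hT').measurable_sInf

theorem measurableSet_conF_nonempty (hΦ : IsPotential Φ) (hε : ε ≠ 0) {Fs : List (X → CTree)}
    (h : MF Fs) {T' : X → CTree} (hT' : Measurable T') :
    MeasurableSet {x | (conF Φ ε (ev Fs x) (T' x)).Nonempty} :=
  (SC.conF hΦ hε h hT').nonempty

theorem noHit_singleton_iff {W : Set Src} {T : CTree} {t : ℝ} (hT : ok Φ ε T) :
    NoHit Φ ε L W [T] t ↔ (t : EReal) ≤ ktm Φ ε L W T := by
  rw [noHit_singleton, ← coe_le_kt_iff]
  unfold ktm
  rw [if_pos hT]

/-- The forest is admissible and unhit before `t`. -/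
def Unhit (Φ : E3 → ℝ) (ε : ℝ) (L : ℕ) (W : Set Src) (F : List CTree) (t : ℝ) : Prop :=
  OkF Φ ε L F ∧ NoHit Φ ε L W F t

theorem unhit_cons {W : Set Src} {T : CTree} {F : List CTree} {t : ℝ} :
    Unhit Φ ε L W (T :: F) t ↔ Unhit Φ ε L W [T] t ∧ Unhit Φ ε L W F t := by
  unfold Unhit
  rw [noHit_cons, okF_cons, okF_cons (F := [])]
  have : OkF Φ ε L [] := fun T hT => absurd hT (by simp)
  tauto

theorem unhit_append {W : Set Src} {F G : List CTree} {t : ℝ} :
    Unhit Φ ε L W (F ++ G) t ↔ Unhit Φ ε L W F t ∧ Unhit Φ ε L W G t := by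
  unfold Unhit
  rw [noHit_append, okF_append]
  tauto

theorem Unhit.mono {W : Set Src} {F : List CTree} {s t : ℝ} (h : Unhit Φ ε L W F t)
    (hs : s ≤ t) : Unhit Φ ε L W F s := ⟨h.1, h.2.mono hs⟩

theorem measurableSet_unhit (hΦ : IsPotential Φ) (hε : 0 < ε) {Fs : List (X → CTree)} (h : MF Fs)
    {W : X → Set Src} (hW : RS W) {t : X → ℝ} (ht : Measurable t) :
    MeasurableSet {x | Unhit Φ ε L (W x) (ev Fs x) (t x)} := by
  induction Fs with
  | nil =>
    have : {x : X | Unhit Φ ε L (W x) (ev ([] : List (X → CTree)) x) (t x)} = univ := by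
      ext x
      simp [Unhit, OkF, NoHit, ev]
    rw [this]
    exact MeasurableSet.univ
  | cons f Fs ih =>
    have h1 := (measurableSet_tree_ok hΦ hε.ne' h.head).inter
      (meas_depth h.head (measurableSet_Iic (a := L)))
    have h2 : MeasurableSet {x | ((t x : ℝ) : EReal) ≤ ktm Φ ε L (W x) (f x)} :=
      measurableSet_le ht.coe_real_ereal (meas_ktm hΦ hε hW h.head)
    refine ((h1.inter h2).inter (ih h.tail)).congr ?_
    ext x
    simp only [mem_inter_iff, mem_ofPred_eq, ev_cons, mem_preimage, mem_Iic]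
    rw [unhit_cons]
    refine and_congr_left fun _ => ?_
    unfold Unhit OkF
    constructor
    · rintro ⟨⟨h3, h4⟩, h5⟩
      refine ⟨fun T hT => ?_, (noHit_singleton_iff h3).2 h5⟩
      rw [List.mem_singleton] at hT
      rw [hT]
      exact ⟨h3, h4⟩
    · rintro ⟨h3, h4⟩
      have h5 := h3 (f x) (by simp)
      exact ⟨h5, (noHit_singleton_iff h5.1).1 h4⟩

theorem measurableSet_firstHit (hΦ : IsPotential Φ) (hε : 0 < ε) {Fs : List (X → CTree)}
    (h : MF Fs) {W : X → Set Src} (hW : RS W) {T' : X → CTree} (hT' : Measurable T') :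
    MeasurableSet {x | OkF Φ ε L (ev Fs x) ∧ FirstHit Φ ε L (W x) (ev Fs x) (T' x)} := by
  have h1 := measurableSet_conF_nonempty hΦ hε.ne' h hT'
  have h2 := measurable_ff hΦ hε.ne' h hT'
  have h3 := measurableSet_tree_alive hΦ hε hW hT' h2 (L := L)
  have h4 := measurableSet_unhit hΦ hε h hW h2 (L := L)
  refine (h1.inter (h3.inter h4)).congr ?_
  ext x
  simp only [mem_inter_iff, mem_ofPred_eq, FirstHit, Unhit]
  tauto

end Vale.Agent.P119.ML
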