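import Vale.Agent.P119.KE.Damp

/-!
# P119, block ML (`helper388`): derivative of the damping factor

* `lintegral_en_add`: `∫_a^b ρ e^{-∫_a^s ρ} ds + e^{-∫_a^b ρ} = 1` for measurable `ρ`.
-/

open MeasureTheory Filter Topology Set
open scoped ENNReal NNReal

noncomputable section

namespace Vale.Agent.P119.ML

open KE

theorem absolutelyContinuous_exp_neg {G : ℝ → ℝ} {a b : ℝ}
    (hG : AbsolutelyContinuousOnInterval G a b) (h0 : ∀ x ∈ uIcc a b, 0 ≤ G x) :
    AbsolutelyContinuousOnInterval (fun x => Real.exp (-G x)) a b := by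
  have hlip : ∀ x y : ℝ, 0 ≤ x → 0 ≤ y → |Real.exp (-x) - Real.exp (-y)| ≤ |x - y| := by
    have key : ∀ x y : ℝ, 0 ≤ x → x ≤ y → |Real.exp (-x) - Real.exp (-y)| ≤ |x - y| := by
      intro x y hx hxy
      have h1 : Real.exp (-y) ≤ Real.exp (-x) := Real.exp_le_exp.2 (by linarith)
      rw [abs_of_nonneg (by linarith), abs_of_nonpos (by linarith)]
      have h2 : Real.exp (-y) = Real.exp (-x) * Real.exp (-(y - x)) := by
        rw [← Real.exp_add]; congr 1; ring
      have h3 := Real.add_one_le_exp (-(y - x))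
      have h4 : Real.exp (-x) ≤ 1 := Real.exp_le_one_iff.2 (by linarith)
      have h5 := Real.exp_pos (-x)
      rw [h2]
      nlinarith
    intro x y hx hy
    rcases le_total x y with h | h
    · exact key x y hx h
    · rw [abs_sub_comm, abs_sub_comm x y]
      exact key y x hy h
  rw [absolutelyContinuousOnInterval_iff] at hG ⊢
  intro ε hε
  obtain ⟨δ, hδ, h1⟩ := hG ε hε
  refine ⟨δ, hδ, fun E hE hs => (Finset.sum_le_sum fun i hi => ?_).trans_lt (h1 E hE hs)⟩
  rw [Real.dist_eq, Real.dist_eq]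
  have h2 := hE.1 i hi
  exact hlip _ _ (h0 _ h2.1) (h0 _ h2.2)

/-- **Derivative of the damping factor.** -/
theorem lintegral_en_add {ρ : ℝ → ℝ≥0∞} (hρ : Measurable ρ) {a b : ℝ} (hab : a ≤ b)
    (hfin : ∫⁻ s in Ioc a b, ρ s ≠ ∞) :
    (∫⁻ s in Ioc a b, ρ s * en (∫⁻ r in Ioc a s, ρ r)) + en (∫⁻ s in Ioc a b, ρ s) = 1 := by
  set g : ℝ → ℝ := fun s => (ρ s).toReal with hg
  have hgm : Measurable g := hρ.ennreal_toReal
  have hg0 : ∀ s, 0 ≤ g s := fun s => ENNReal.toReal_nonneg
  have hae : ∀ᵐ s ∂(volume.restrict (Ioc a b)), ρ s < ∞ := ae_lt_top hρ hfin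
  have hint : IntegrableOn g (Ioc a b) := integrable_toReal_of_lintegral_ne_top hρ.aemeasurable hfin
  have hii : IntervalIntegrable g volume a b := (intervalIntegrable_iff_integrableOn_Ioc_of_le hab).2 hint
  set G : ℝ → ℝ := fun x => ∫ v in a..x, g v with hG
  have hGac : AbsolutelyContinuousOnInterval G a b :=
    hii.absolutelyContinuousOnInterval_intervalIntegral left_mem_uIcc
  have hG0 : ∀ x ∈ uIcc a b, 0 ≤ G x := by
    intro x hx
    rw [uIcc_of_le hab] at hx
    exact intervalIntegral.integral_nonneg hx.1 fun u _ => hg0 u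
  have hF := absolutelyContinuous_exp_neg hGac hG0
  have h1 := hF.integral_deriv_eq_sub
  have h2 : ∀ᵐ x, x ∈ Ioc a b → deriv (fun x => Real.exp (-G x)) x = -(g x * Real.exp (-G x)) := by
    filter_upwards [hii.ae_hasDerivAt_integral] with x hx hxab
    have hx' : x ∈ uIcc a b := by
      rw [uIcc_of_le hab]; exact Ioc_subset_Icc_self hxab
    have h3 : HasDerivAt G (g x) x := hx hx' a left_mem_uIcc
    have h4 : HasDerivAt (fun x => Real.exp (-G x)) (Real.exp (-G x) * -g x) x := h3.neg.exp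
    rw [h4.deriv]
    ring
  have h3 : ∫ x in a..b, deriv (fun x => Real.exp (-G x)) x =
      ∫ x in a..b, -(g x * Real.exp (-G x)) := by
    rw [intervalIntegral.integral_of_le hab, intervalIntegral.integral_of_le hab]
    refine setIntegral_congr_ae measurableSet_Ioc ?_
    exact h2
  have hlint : ∀ s ∈ Icc a b, ∫⁻ r in Ioc a s, ρ r = ENNReal.ofReal (G s) := by
    intro s hs
    have hsub : Ioc a s ⊆ Ioc a b := Ioc_subset_Ioc_right hs.2
    rw [hG]
    simp only
    rw [intervalIntegral.integral_of_le hs.1, ofReal_integral_eq_lintegral_ofReal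
      (hint.mono_set hsub) (Eventually.of_forall fun x => hg0 x)]
    refine setLIntegral_congr_fun_ae measurableSet_Ioc ?_
    have h4 := (ae_restrict_iff' measurableSet_Ioc).1 hae
    filter_upwards [h4] with x hx hxs
    rw [hg]
    exact (ENNReal.ofReal_toReal (hx (hsub hxs)).ne).symm
  have hGb : ∀ s ∈ Icc a b, en (∫⁻ r in Ioc a s, ρ r) = ENNReal.ofReal (Real.exp (-G s)) := by
    intro s hs
    rw [hlint s hs, en_ofReal (hG0 s (by rw [uIcc_of_le hab]; exact hs))]
  have hGcont : ContinuousOn G (uIcc a b) := hGac.continuousOn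
  have h5 : ∫⁻ s in Ioc a b, ρ s * en (∫⁻ r in Ioc a s, ρ r) =
      ENNReal.ofReal (∫ s in a..b, g s * Real.exp (-G s)) := by
    have hi : IntegrableOn (fun s => g s * Real.exp (-G s)) (Ioc a b) := by
      have h6 := hii.mul_continuousOn (hGcont.neg.rexp)
      exact (intervalIntegrable_iff_integrableOn_Ioc_of_le hab).1 h6
    rw [intervalIntegral.integral_of_le hab, ofReal_integral_eq_lintegral_ofReal hi
      (Eventually.of_forall fun x => mul_nonneg (hg0 x) (Real.exp_nonneg _))]
    refine setLIntegral_congr_fun_ae measurableSet_Ioc ?_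
    have h4 := (ae_restrict_iff' measurableSet_Ioc).1 hae
    filter_upwards [h4] with x hx hxs
    rw [hGb x (Ioc_subset_Icc_self hxs), ENNReal.ofReal_mul (hg0 x), hg,
      ENNReal.ofReal_toReal (hx hxs).ne]
  rw [h5, hGb b (right_mem_Icc.2 hab)]
  have h6 : ∫ s in a..b, g s * Real.exp (-G s) = 1 - Real.exp (-G b) := by
    have h7 : G a = 0 := intervalIntegral.integral_same
    rw [h3, intervalIntegral.integral_neg, h7] at h1
    simp only [neg_zero, Real.exp_zero] at h1
    linarith
  have h8 : Real.exp (-G b) ≤ 1 := by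
    have := hG0 b right_mem_uIcc
    exact Real.exp_le_one_iff.2 (by linarith)
  rw [h6, ← ENNReal.ofReal_add (by linarith) (Real.exp_nonneg _)]
  simp

end Vale.Agent.P119.ML
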