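import Vale.Agent.P119.ML.InNdDef

/-!
# P119, block ML (In-I1, `helper667`): reduction of `InI1` to the convergence to `0` of the
probability of the coincidence (I1) for almost all parameters of the tree
-/

open MeasureTheory Filter Topology Set
open scoped ENNReal NNReal

noncomputable section

namespace Vale.Agent.P119.Cap

open KU M KT ML

variable {Φ : E3 → ℝ} {ε : ℝ} {f₀ : Ph → ℝ} {L : ℕ} {Tm : ℝ}

/-- The indicator of the coincidence (I1) for the tree with parameters `x`. -/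
@[irreducible] def Q1 (Φ : E3 → ℝ) (L : ℕ) (Tm : ℝ) (a b : Shape) (ε : ℝ)
    (x : Ph × (ℝ × XP a b)) (c : GC.Conf Ph) : ℝ≥0∞ :=
  ind (nt Φ ε a b x.2.1 x.1 x.2.2 ∈ I1 Φ ε L Tm (GC.pts c : Set Ph))

theorem Q1_def (a b : Shape) (ε : ℝ) (x : Ph × (ℝ × XP a b)) (c : GC.Conf Ph) :
    Q1 Φ L Tm a b ε x c =
      ind (nt Φ ε a b x.2.1 x.1 x.2.2 ∈ I1 Φ ε L Tm (GC.pts c : Set Ph)) := by
  unfold Q1
  rfl

theorem Q1_le_one (a b : Shape) (ε : ℝ) (x : Ph × (ℝ × XP a b)) (c : GC.Conf Ph) :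
    Q1 Φ L Tm a b ε x c ≤ 1 := by
  rw [Q1_def]
  exact ind_le_one _

/-- The probability of the coincidence (I1) for the tree with parameters `x`. -/
@[irreducible] def PI1 (Φ : E3 → ℝ) (f₀ : Ph → ℝ) (L : ℕ) (Tm : ℝ) (a b : Shape) (ε : ℝ)
    (x : Ph × (ℝ × XP a b)) : ℝ≥0∞ :=
  ∫⁻ c, Q1 Φ L Tm a b ε x c ∂(GC.PP f₀ ε)

theorem PI1_def (a b : Shape) (ε : ℝ) (x : Ph × (ℝ × XP a b)) : PI1 Φ f₀ L Tm a b ε x =
    ∫⁻ c, Q1 Φ L Tm a b ε x c ∂(GC.PP f₀ ε) := by
  unfold PI1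
  rfl

theorem measurable_ntx (hΦ : IsPotential Φ) (ε : ℝ) (a b : Shape) :
    Measurable fun x : Ph × (ℝ × XP a b) => nt Φ ε a b x.2.1 x.1 x.2.2 := by
  have h0 : Measurable fun x : Ph × (ℝ × XP a b) => ((x.2.1, x.1), x.2.2) := by fun_prop
  exact (measurable_nt hΦ ε a b).comp h0

theorem measurable_Q1 (hΦ : IsPotential Φ) (hε : 0 < ε) (a b : Shape) :
    Measurable fun p : (Ph × (ℝ × XP a b)) × GC.Conf Ph => Q1 Φ L Tm a b ε p.1 p.2 := by
  have hT : Measurable fun p : (Ph × (ℝ × XP a b)) × GC.Conf Ph =>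
      nt Φ ε a b p.1.2.1 p.1.1 p.1.2.2 := (measurable_ntx hΦ ε a b).comp measurable_fst
  have h := measurableSet_I1 (L := L) (Tm := Tm) hΦ hε
    (measurable_snd : Measurable fun p : (Ph × (ℝ × XP a b)) × GC.Conf Ph => p.2) hT
  simp only [Q1_def]
  exact measurable_ind h

theorem measurable_PI1 (hΦ : IsPotential Φ) (hε : 0 < ε) [SFinite (GC.PP f₀ ε)] (a b : Shape) :
    Measurable fun x => PI1 Φ f₀ L Tm a b ε x := by
  simp only [PI1_def]
  exact (measurable_Q1 hΦ hε a b).lintegral_prod_right'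

theorem PI1_le_one {κ : ℝ} (hg : GoodDatum f₀ κ) (a b : Shape) (x : Ph × (ℝ × XP a b)) :
    PI1 Φ f₀ L Tm a b ε x ≤ 1 := by
  have := GC.isProbability_PP (ε := ε) hg
  rw [PI1_def]
  calc ∫⁻ c, Q1 Φ L Tm a b ε x c ∂(GC.PP f₀ ε)
      ≤ ∫⁻ _, 1 ∂(GC.PP f₀ ε) := lintegral_mono fun c => Q1_le_one a b ε x c
    _ = 1 := by rw [lintegral_one, measure_univ]

/-- The trees of `I1` in backward parameters. -/
theorem law_I1 (hΦ : IsPotential Φ) (hε : 0 < ε) (hf : Measurable f₀) (c : GC.Conf Ph) (q L' : ℕ) :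
    ∫⁻ T in I1 Φ ε (L' + 1) Tm (GC.pts c : Set Ph), pw q (CTree.ln Φ ε T).2
        ∂(tree (GC.inten f₀ ε) (L' + 1)) ≤
      ∑ a ∈ shapes L', ∑ b ∈ shapes L', ENNReal.ofReal (mu ε) *
        ∫⁻ x : Ph × (ℝ × XP a b), pnW q (fh f₀) Φ ε a b x * Q1 Φ (L' + 1) Tm a b ε x c
            ∂((volume : Measure Ph).prod (tvol Tm a b)) := by
  simp only [Q1_def]
  set S : Set CTree := I1 Φ ε (L' + 1) Tm (GC.pts c : Set Ph) with hS
  have hSm : MeasurableSet S := measurableSet_I1 (c := fun _ : CTree => c) (T := id) hΦ hε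
    measurable_const measurable_id
  set G : CTree → ℝ≥0∞ := S.indicator fun T => pw q (CTree.ln Φ ε T).2 with hG
  have hGm : Measurable G := ((ML.measurable_cpw q).comp (measurable_ln hΦ hε.ne').snd).indicator hSm
  have hG0 : ∀ T, G T ≠ 0 → CTree.ok Φ ε T := by
    intro T hT
    have : T ∈ S := by
      by_contra h
      exact hT (indicator_of_notMem h _)
    exact AL_ok this.1
  rw [← lintegral_indicator hSm]
  have h1 : ∫⁻ T, G T ∂(tree (GC.inten f₀ ε) (L' + 1)) =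
      ∑ a ∈ shapes L', ∑ b ∈ shapes L', ENNReal.ofReal (mu ε) * ∫⁻ l : Ph, ∫⁻ t : ℝ, ∫⁻ ξ,
        nW (fh f₀) Φ ε a b t l ξ * G (nt Φ ε a b t l ξ) ∂(xvol a b) := by
    rw [lintegral_tree (L' + 1) hGm, sum_shapes_succ]
    have h2 : ∫⁻ z, G (Shape.leaf.ord z) ∂(Measure.pi fun _ : Fin Shape.leaf.card =>
        GC.inten f₀ ε) = 0 := by
      have h3 : ∀ z, G (Shape.leaf.ord z) = 0 := by
        intro z
        refine indicator_of_notMem ?_ _
        rintro ⟨-, A, B, h4, -⟩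
        have h5 : (Shape.leaf.ord z).depth = 0 := Shape.depth_ord _ _
        rw [h4] at h5
        exact Nat.succ_ne_zero _ h5
      simp only [h3, lintegral_zero]
    rw [h2, zero_add]
    exact Finset.sum_congr rfl fun a _ => Finset.sum_congr rfl fun b _ =>
      lintegral_node_shape hΦ hε hf a b hGm hG0
  change ∫⁻ T, G T ∂(tree (GC.inten f₀ ε) (L' + 1)) ≤ _
  rw [h1]
  refine Finset.sum_le_sum fun a _ => Finset.sum_le_sum fun b _ => mul_le_mul' le_rfl ?_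
  have hSx : MeasurableSet {x : Ph × (ℝ × XP a b) | nt Φ ε a b x.2.1 x.1 x.2.2 ∈ S} :=
    (measurable_ntx hΦ ε a b) hSm
  have hm : Measurable fun x : Ph × (ℝ × XP a b) => pnW q (fh f₀) Φ ε a b x *
      ind (nt Φ ε a b x.2.1 x.1 x.2.2 ∈ S) :=
    (measurable_pnW hΦ (measurable_fh hf) q ε a b).mul (measurable_ind hSx)
  rw [lintegral_prod _ hm.aemeasurable]
  refine lintegral_mono fun l => ?_
  have hml : Measurable fun z : ℝ × XP a b => pnW q (fh f₀) Φ ε a b (l, z) *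
      ind (nt Φ ε a b z.1 l z.2 ∈ S) :=
    hm.comp (measurable_const.prodMk measurable_id : Measurable fun z : ℝ × XP a b => (l, z))
  rw [lintegral_prod _ hml.aemeasurable, ← lintegral_indicator measurableSet_Icc]
  refine lintegral_mono fun t => ?_
  have h3 : ∀ ξ, nW (fh f₀) Φ ε a b t l ξ * G (nt Φ ε a b t l ξ) ≤
      (Icc 0 Tm).indicator (fun t => pnW q (fh f₀) Φ ε a b (l, (t, ξ)) *
        ind (nt Φ ε a b t l ξ ∈ S)) t := by
    intro ξ
    by_cases hw : nW (fh f₀) Φ ε a b t l ξ = 0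
    · rw [hw, zero_mul]; exact zero_le
    by_cases hT : nt Φ ε a b t l ξ ∈ S
    · have hv : nvw Φ a b l.2 ξ ≠ 0 := fun h0 => hw (by unfold nW; rw [h0, zero_mul])
      have he : CTree.ext Φ ε (nt Φ ε a b t l ξ) = t := ML.ext_node hΦ hε.ne' hv
      have hl : CTree.ln Φ ε (nt Φ ε a b t l ξ) = l := ML.ln_node hΦ hε.ne' hv
      have ht : t ∈ Icc 0 Tm := by
        have h4 := ext_nonneg hΦ hε (AL_ok hT.1)
        have h5 := hT.1.2
        rw [he] at h4 h5
        exact ⟨h4, h5⟩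
      rw [hG, indicator_of_mem hT, indicator_of_mem ht, ind_of_true hT, mul_one, hl]
      unfold pnW
      rw [mul_comm]
    · rw [hG, indicator_of_notMem hT, mul_zero]; exact zero_le
  refine (lintegral_mono h3).trans ?_
  by_cases ht : t ∈ Icc 0 Tm
  · simp only [indicator_of_mem ht]
    exact le_rfl
  · simp only [indicator_of_notMem ht, lintegral_zero]
    exact zero_le

theorem I1_zero (hΦ : IsPotential Φ) (hε : 0 < ε) [IsFiniteMeasure (GC.inten f₀ ε)]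
    (c : GC.Conf Ph) (q : ℕ) :
    ∫⁻ T in I1 Φ ε 0 Tm (GC.pts c : Set Ph), pw q (CTree.ln Φ ε T).2
        ∂(tree (GC.inten f₀ ε) 0) = 0 := by
  set S : Set CTree := I1 Φ ε 0 Tm (GC.pts c : Set Ph) with hS
  have hSm : MeasurableSet S := measurableSet_I1 (c := fun _ : CTree => c) (T := id) hΦ hε
    measurable_const measurable_id
  have hpm : Measurable fun T : CTree => pw q (CTree.ln Φ ε T).2 :=
    (ML.measurable_cpw q).comp (measurable_ln hΦ hε.ne').snd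
  rw [← lintegral_indicator hSm, lintegral_tree_zero (hpm.indicator hSm)]
  have h3 : ∀ z, S.indicator (fun T => pw q (CTree.ln Φ ε T).2) (CTree.leaf (src z)) = 0 := by
    intro z
    refine indicator_of_notMem ?_ _
    rintro ⟨-, A, B, h4, -⟩
    exact absurd h4 (by rintro ⟨⟩)
  simp only [h3, lintegral_zero]

theorem pnWI_ne_top {M β : ℝ} (hGD : GD (fh f₀) M β) (q : ℕ) (a b : Shape)
    (x : Ph × (ℝ × XP a b)) : pnW q (fh f₀) Φ ε a b x ≠ ∞ := by
  unfold pnW nW nlp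
  refine ENNReal.mul_ne_top (cpw_ne_top q _) (ENNReal.mul_ne_top (nvw_ne_top _ _)
    (ENNReal.mul_ne_top (ind_ne_top _) (ENNReal.mul_ne_top ?_ ?_)))
  · exact lprod_ne_top hGD.ne_top a _
  · exact lprod_ne_top hGD.ne_top b _

/-- Dominated convergence with the weights. -/
theorem tendsto_weight (hΦ : IsPotential Φ) {M β : ℝ} (hGD : GD (fh f₀) M β) (hT : 0 ≤ Tm) (q : ℕ)
    (a b : Shape) {P : ℝ → (Ph × (ℝ × XP a b)) → ℝ≥0∞} (hP : ∀ ε, 0 < ε → Measurable (P ε))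
    (hP1 : ∀ ε x, P ε x ≤ 1)
    (H : ∀ᵐ x : Ph × (ℝ × XP a b) ∂((volume : Measure Ph).prod (tvol Tm a b)),
        nW (fh f₀) Φ 0 a b x.2.1 x.1 x.2.2 ≠ 0 →
          Tendsto (fun ε => P ε x) (𝓝[>] 0) (𝓝 0)) :
    Tendsto (fun ε => ∫⁻ x : Ph × (ℝ × XP a b), pnW q (fh f₀) Φ ε a b x * P ε x
        ∂((volume : Measure Ph).prod (tvol Tm a b))) (𝓝[>] 0) (𝓝 0) := by
  set ν : Measure (Ph × (ℝ × XP a b)) := (volume : Measure Ph).prod (tvol Tm a b) with hν
  obtain ⟨h1, -, h3⟩ := tendsto_nW (l := 𝓝[>] (0 : ℝ)) (εs := fun ε => ε) (Φ := Φ) hΦ hGD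
    (tendsto_id.mono_right nhdsWithin_le_nhds)
    (by filter_upwards [self_mem_nhdsWithin] with ε hε using le_of_lt hε) q hT a b
  have h4 : Tendsto (fun ε => ∫⁻ x, pnW q (fh f₀) Φ 0 a b x * P ε x ∂ν) (𝓝[>] 0) (𝓝 0) := by
    have h5 := tendsto_lintegral_filter_of_dominated_convergence (μ := ν) (l := 𝓝[>] (0 : ℝ))
      (F := fun ε x => pnW q (fh f₀) Φ 0 a b x * P ε x)
      (f := fun _ => 0) (pnW q (fh f₀) Φ 0 a b) ?_ ?_ h3 ?_
    · simpa using h5
    · filter_upwards [self_mem_nhdsWithin] with ε hε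
      exact (measurable_pnW hΦ hGD.meas q 0 a b).mul (hP ε hε)
    · refine Eventually.of_forall fun ε => Eventually.of_forall fun x => ?_
      calc pnW q (fh f₀) Φ 0 a b x * P ε x ≤ pnW q (fh f₀) Φ 0 a b x * 1 := by
            gcongr; exact hP1 ε x
        _ = _ := mul_one _
    · filter_upwards [H] with x hx
      by_cases hw : nW (fh f₀) Φ 0 a b x.2.1 x.1 x.2.2 = 0
      · have h6 : pnW q (fh f₀) Φ 0 a b x = 0 := by unfold pnW; rw [hw, mul_zero]
        simp only [h6, zero_mul]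
        exact tendsto_const_nhds
      · have h7 := ENNReal.Tendsto.const_mul (a := pnW q (fh f₀) Φ 0 a b x) (hx hw)
          (Or.inr (pnWI_ne_top hGD q a b x))
        rw [mul_zero] at h7
        exact h7
  have h5 : Tendsto (fun ε => (∫⁻ x, ((pnW q (fh f₀) Φ ε a b x - pnW q (fh f₀) Φ 0 a b x) +
      (pnW q (fh f₀) Φ 0 a b x - pnW q (fh f₀) Φ ε a b x)) ∂ν) +
      ∫⁻ x, pnW q (fh f₀) Φ 0 a b x * P ε x ∂ν) (𝓝[>] 0) (𝓝 (0 + 0)) := Tendsto.add h1 h4
  rw [add_zero] at h5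
  refine tendsto_of_tendsto_of_tendsto_of_le_of_le' tendsto_const_nhds h5
    (Eventually.of_forall fun _ => zero_le) ?_
  filter_upwards [self_mem_nhdsWithin] with ε hε
  have hm0 := measurable_pnW (Φ := Φ) hΦ hGD.meas q 0 a b
  have hmε := measurable_pnW (Φ := Φ) hΦ hGD.meas q ε a b
  have hm1 : Measurable fun x => (pnW q (fh f₀) Φ ε a b x - pnW q (fh f₀) Φ 0 a b x) +
      (pnW q (fh f₀) Φ 0 a b x - pnW q (fh f₀) Φ ε a b x) :=
    (hmε.sub hm0).add (hm0.sub hmε)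
  rw [← lintegral_add_left hm1]
  refine lintegral_mono fun x => ?_
  have h8 := hP1 ε x
  calc pnW q (fh f₀) Φ ε a b x * P ε x
      ≤ ((pnW q (fh f₀) Φ ε a b x - pnW q (fh f₀) Φ 0 a b x) + pnW q (fh f₀) Φ 0 a b x) *
        P ε x := by
        gcongr
        exact le_tsub_add
    _ = (pnW q (fh f₀) Φ ε a b x - pnW q (fh f₀) Φ 0 a b x) * P ε x +
        pnW q (fh f₀) Φ 0 a b x * P ε x := add_mul _ _ _
    _ ≤ (pnW q (fh f₀) Φ ε a b x - pnW q (fh f₀) Φ 0 a b x) * 1 +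
        pnW q (fh f₀) Φ 0 a b x * P ε x := by gcongr
    _ ≤ _ := by
        rw [mul_one]
        gcongr
        exact le_self_add

/-- The expected number of trees in `I1`. -/
theorem lintegral_I1_le (hΦ : IsPotential Φ) (hε : 0 < ε) (hf : Measurable f₀)
    [SFinite (GC.PP f₀ ε)] (q L' : ℕ) :
    ∫⁻ c, ∫⁻ T in I1 Φ ε (L' + 1) Tm (GC.pts c : Set Ph), pw q (CTree.ln Φ ε T).2
      ∂(tree (GC.inten f₀ ε) (L' + 1)) ∂(GC.PP f₀ ε) ≤
      ENNReal.ofReal (mu ε) * ∑ a ∈ shapes L', ∑ b ∈ shapes L',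
      ∫⁻ x : Ph × (ℝ × XP a b), pnW q (fh f₀) Φ ε a b x * PI1 Φ f₀ (L' + 1) Tm a b ε x
        ∂((volume : Measure Ph).prod (tvol Tm a b)) := by
  refine (lintegral_mono fun c => law_I1 hΦ hε hf c q L').trans (le_of_eq ?_)
  have hJ : ∀ a b : Shape, Measurable fun p : GC.Conf Ph × (Ph × (ℝ × XP a b)) =>
      pnW q (fh f₀) Φ ε a b p.2 * Q1 Φ (L' + 1) Tm a b ε p.2 p.1 := by
    intro a b
    have h6 : Measurable fun p : GC.Conf Ph × (Ph × (ℝ × XP a b)) => pnW q (fh f₀) Φ ε a b p.2 :=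
      (measurable_pnW hΦ (measurable_fh hf) q ε a b).comp measurable_snd
    have h8 : Measurable fun p : GC.Conf Ph × (Ph × (ℝ × XP a b)) => (p.2, p.1) :=
      measurable_snd.prodMk measurable_fst
    have h9 : Measurable fun p : GC.Conf Ph × (Ph × (ℝ × XP a b)) =>
        Q1 Φ (L' + 1) Tm a b ε p.2 p.1 := (measurable_Q1 hΦ hε a b).comp h8
    exact h6.mul h9
  have hK : ∀ a b : Shape, Measurable fun c : GC.Conf Ph => ENNReal.ofReal (mu ε) *
      ∫⁻ x : Ph × (ℝ × XP a b), pnW q (fh f₀) Φ ε a b x * Q1 Φ (L' + 1) Tm a b ε x c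
          ∂((volume : Measure Ph).prod (tvol Tm a b)) := fun a b =>
    (hJ a b).lintegral_prod_right'.const_mul _
  rw [lintegral_finsetSum _ fun a _ => Finset.measurable_fun_sum _ fun b _ => hK a b,
    Finset.mul_sum]
  refine Finset.sum_congr rfl fun a _ => ?_
  rw [lintegral_finsetSum _ fun b _ => hK a b, Finset.mul_sum]
  refine Finset.sum_congr rfl fun b _ => ?_
  rw [lintegral_const_mul' _ _ ENNReal.ofReal_ne_top,
    lintegral_lintegral_swap (hJ a b).aemeasurable]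
  congr 1
  refine lintegral_congr fun x => ?_
  rw [PI1_def]
  have hx : Measurable fun c : GC.Conf Ph => Q1 Φ (L' + 1) Tm a b ε x c := by
    have h8 : Measurable fun c : GC.Conf Ph => (x, c) := measurable_const.prodMk measurable_id
    exact (measurable_Q1 hΦ hε a b).comp h8
  exact lintegral_const_mul _ hx

/-- **Reduction of (I1)** to the pointwise convergence of the probabilities. -/
theorem inI1_of_limits (hΦ : IsPotential Φ) {κ M β : ℝ} (hg : GoodDatum f₀ κ)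
    (hf : Measurable f₀) (hGD : GD (fh f₀) M β) (hT : 0 ≤ Tm)
    (H : ∀ a ∈ shapes (L - 1), ∀ b ∈ shapes (L - 1),
      ∀ᵐ x : Ph × (ℝ × XP a b) ∂((volume : Measure Ph).prod (tvol Tm a b)),
        nW (fh f₀) Φ 0 a b x.2.1 x.1 x.2.2 ≠ 0 →
          Tendsto (fun ε => PI1 Φ f₀ L Tm a b ε x) (𝓝[>] 0) (𝓝 0)) :
    InI1 Φ f₀ L Tm := by
  intro q
  rcases Nat.eq_zero_or_pos L with h0 | h0
  · subst h0
    refine tendsto_const_nhds.congr' ?_
    filter_upwards [self_mem_nhdsWithin] with ε hε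
    have : IsFiniteMeasure (GC.inten f₀ ε) := GC.isFiniteMeasure_inten hg
    simp only [I1_zero hΦ hε, lintegral_zero, mul_zero]
  obtain ⟨L', rfl⟩ : ∃ L', L = L' + 1 := ⟨L - 1, by omega⟩
  rw [Nat.add_sub_cancel] at H
  -- upper bound
  have hlim : Tendsto (fun ε => ∑ a ∈ shapes L', ∑ b ∈ shapes L',
      ∫⁻ x : Ph × (ℝ × XP a b), pnW q (fh f₀) Φ ε a b x * PI1 Φ f₀ (L' + 1) Tm a b ε x
        ∂((volume : Measure Ph).prod (tvol Tm a b))) (𝓝[>] 0) (𝓝 0) := by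
    have h7 : Tendsto (fun ε => ∑ a ∈ shapes L', ∑ b ∈ shapes L',
        ∫⁻ x : Ph × (ℝ × XP a b), pnW q (fh f₀) Φ ε a b x * PI1 Φ f₀ (L' + 1) Tm a b ε x
        ∂((volume : Measure Ph).prod (tvol Tm a b))) (𝓝[>] 0)
        (𝓝 (∑ a ∈ shapes L', ∑ b ∈ shapes L', (0 : ℝ≥0∞))) := by
      refine tendsto_finsetSum _ fun a ha => tendsto_finsetSum _ fun b hb => ?_
      refine tendsto_weight (P := PI1 Φ f₀ (L' + 1) Tm a b) hΦ hGD hT q a b (fun ε hε => ?_)
        (fun ε x => PI1_le_one hg a b x) (H a ha b hb)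
      have := GC.isProbability_PP (ε := ε) hg
      exact measurable_PI1 hΦ hε a b
    simpa using h7
  refine tendsto_of_tendsto_of_tendsto_of_le_of_le' tendsto_const_nhds hlim
    (Eventually.of_forall fun _ => zero_le) ?_
  filter_upwards [self_mem_nhdsWithin] with ε hε
  have hε' : 0 < ε := hε
  have := GC.isProbability_PP (ε := ε) hg
  have h6 := lintegral_I1_le (Φ := Φ) (Tm := Tm) hΦ hε' hf q L'
  refine (mul_le_mul' le_rfl h6).trans (le_of_eq ?_)
  have h9 : (ENNReal.ofReal (mu ε))⁻¹ * ENNReal.ofReal (mu ε) = 1 := by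
    refine ENNReal.inv_mul_cancel ?_ ENNReal.ofReal_ne_top
    intro h10
    have := mu_mul_sq hε'
    rw [h10, zero_mul] at this
    exact zero_ne_one this
  rw [← mul_assoc, h9, one_mul]

end Vale.Agent.P119.Cap
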