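import Vale.Agent.P119.ML.InI1a
import Vale.Agent.P119.ML.FH6

/-!
# P119, block ML (In-I1, `helper667`): the coincidence (I1) in terms of `Dp` and of `surv`
-/

open MeasureTheory Filter Topology Set
open scoped ENNReal NNReal

noncomputable section

namespace Vale.Agent.P119.Cap

open KU M KT ML GC

variable {Φ : E3 → ℝ} {ε : ℝ} {f₀ : Ph → ℝ} {L : ℕ} {Tm : ℝ}

theorem lvs_pair {A B : CTree} : lvs [A, B] = (CTree.node A B).leaves := by
  rw [lvs_cons, lvs_cons, lvs_nil, union_empty]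
  rfl

theorem lvs_pair' {A B : CTree} : lvs [B, A] = (CTree.node A B).leaves := by
  rw [lvs_cons, lvs_cons, lvs_nil, union_empty, union_comm]
  rfl

/-- The subtrees of the last node of an alive tree are unhit before the collision. -/
theorem unhit_pair (hΦ : IsPotential Φ) (hε : 0 < ε) {A B : CTree} {w : Finset Ph} {t h : ℝ}
    (ha : alive Φ ε L (world (w : Set Ph) ∪ (CTree.node A B).leaves) (CTree.node A B) t)
    (hh : h ≤ CTree.sig Φ ε (CTree.node A B)) :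
    Unhit Φ ε L (Wc [A, B] w) [A, B] h := by
  have hp := alive_pre ha
  have hok := hp.ok
  have hd : max A.depth B.depth + 1 ≤ L := hp.depth
  have hW : (world (w : Set Ph) ∪ (CTree.node A B).leaves).Finite := by
    have h1 : (Wc [A, B] w).Finite := Wc_finite
    unfold Wc at h1
    rwa [lvs_pair] at h1
  have hno := (alive_iff_noHit hΦ hε hW).1 ha
  have hse : CTree.sig Φ ε (CTree.node A B) < CTree.ext Φ ε (CTree.node A B) :=
    sig_lt_ext hΦ hε hok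
  have hst : CTree.sig Φ ε (CTree.node A B) < t := hse.trans_le hp.ext_le
  have hWc : Wc [A, B] w = world (w : Set Ph) ∪ (CTree.node A B).leaves := by
    unfold Wc
    rw [lvs_pair]
  rw [hWc]
  refine ⟨?_, ?_⟩
  · intro T hT
    rcases List.mem_cons.1 hT with rfl | hT
    · exact ⟨hok.1, by have := le_max_left T.depth B.depth; omega⟩
    · rw [List.mem_singleton] at hT
      rw [hT]
      exact ⟨hok.2.1, by have := le_max_right A.depth B.depth; omega⟩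
  · intro T hT T' s hs hh' hal
    have hs' : s < CTree.sig Φ ε (CTree.node A B) := hs.trans_le hh
    refine hno.2 (CTree.node A B) (List.mem_singleton_self _) T' s (hs'.trans hst) ?_ hal
    rcases List.mem_cons.1 hT with rfl | hT
    · exact Or.inl ⟨hs'.le, Or.inl ⟨hh', fun h' => hs'.ne h'.2⟩⟩
    · rw [List.mem_singleton] at hT
      rw [hT] at hh'
      exact Or.inl ⟨hs'.le, Or.inr ⟨hh', fun h' => hs'.ne h'.2⟩⟩

/-- An unhit tree is alive. -/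
theorem ALt_of_unhit (hΦ : IsPotential Φ) (hε : 0 < ε) {A : CTree} {w : Finset Ph} {s t : ℝ}
    (h : Unhit Φ ε L (Wc [A] w) [A] t) (hs : s ≤ t) (he : CTree.ext Φ ε A ≤ s) :
    ALt Φ ε L (w : Set Ph) A s := by
  unfold ALt
  have hWc : Wc [A] w = world (w : Set Ph) ∪ A.leaves := by
    unfold Wc
    rw [lvs_cons, lvs_nil, union_empty]
  have hW : (Wc [A] w).Finite := Wc_finite
  have h1 := alive_of_noHit hΦ hε hW h.1 lvs_subset_Wc (h.2.mono hs) (List.mem_singleton_self A) he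
  rwa [hWc] at h1

/-- **The coincidence (I1)**: deterministic part. -/
theorem I1_cases (hΦ : IsPotential Φ) (hε : 0 < ε) {A B : CTree} {w : Finset Ph} {h t : ℝ}
    (hI : CTree.node A B ∈ I1 Φ ε L Tm (w : Set Ph)) (hh : h ≤ CTree.sig Φ ε (CTree.node A B))
    (ht : CTree.sig Φ ε (CTree.node A B) ≤ t) :
    DpEv Φ ε L [B] [] A h w ∨ DpEv Φ ε L [A] [] B h w ∨
      (Unhit Φ ε L (Wc [A] w) [A] h ∧ ¬Unhit Φ ε L (Wc [A] w) [A] t) ∨
      (Unhit Φ ε L (Wc [B] w) [B] h ∧ ¬Unhit Φ ε L (Wc [B] w) [B] t) := by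
  obtain ⟨hAL, A', B', hAB, hn⟩ := hI
  obtain ⟨rfl, rfl⟩ := CTree.node.inj hAB
  have hok := AL_ok hAL
  have h1 := unhit_pair hΦ hε hAL.1 hh
  have hA1 : OkF Φ ε L [A] := fun T hT => h1.1 T (by
    rw [List.mem_singleton] at hT; rw [hT]; simp)
  have hB1 : OkF Φ ε L [B] := fun T hT => h1.1 T (by
    rw [List.mem_singleton] at hT; rw [hT]; simp)
  have hnil : ∀ W : Set Src, Unhit Φ ε L W [] h := fun W =>
    ⟨fun T hT => absurd hT (by simp), fun T hT => absurd hT (by simp)⟩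
  by_cases hA : Unhit Φ ε L (Wc [A] w) [A] h
  · by_cases hB : Unhit Φ ε L (Wc [B] w) [B] h
    · by_cases hA' : Unhit Φ ε L (Wc [A] w) [A] t
      · by_cases hB' : Unhit Φ ε L (Wc [B] w) [B] t
        · exfalso
          refine hn ⟨ALt_of_unhit hΦ hε hA' ht ?_, ALt_of_unhit hΦ hε hB' ht ?_⟩
          · exact hok.2.2.2.2.2.1.le
          · exact hok.2.2.2.2.2.2.le
        · exact Or.inr (Or.inr (Or.inr ⟨hB, hB'⟩))
      · exact Or.inr (Or.inr (Or.inl ⟨hA, hA'⟩))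
    · refine Or.inr (Or.inl ⟨?_, hnil _, fun hno => hB ⟨hB1, hno⟩⟩)
      exact h1
  · refine Or.inl ⟨?_, hnil _, fun hno => hA ⟨hA1, hno⟩⟩
    have h2 : Wc ([B] ++ [A]) w = Wc [A, B] w := Wc_congr (by
      change lvs [B, A] = lvs [A, B]
      rw [lvs_pair, lvs_pair']) w
    rw [h2]
    change Unhit Φ ε L _ [B, A] h
    rw [unhit_cons] at h1 ⊢
    exact ⟨h1.2, h1.1⟩

/-- The probability that the forest is too close to the configuration. -/
def ncmp (ε : ℝ) (f₀ : Ph → ℝ) (F : List CTree) : ℝ≥0∞ :=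
  ∫⁻ c, ind (¬CmpF ε F (pts c)) ∂(PP f₀ ε)

theorem measurable_ncmp (F : List CTree) :
    Measurable fun c : Conf Ph => ind (¬CmpF ε F (pts c)) := by
  have hFs := MF.cst (X := Conf Ph) F
  have h2 := measurableSet_cmpF (ε := ε) hFs measurable_id
  simp only [ev_cst] at h2
  exact measurable_ind h2.compl

theorem measurable_dpEv (hΦ : IsPotential Φ) (hε : 0 < ε) (A C : List CTree) (T : CTree) (t : ℝ) :
    Measurable fun c : Conf Ph => ind (CmpF ε (A ++ T :: C) (pts c)) *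
      ind (DpEv Φ ε L A C T t (pts c)) := by
  have h1 := measurableSet_DpEv (L := L) hΦ hε (MF.cst (X := Conf Ph) A)
    (MF.cst (X := Conf Ph) C) (measurable_const (a := T)) measurable_id (measurable_const (a := t))
  have h2 := measurableSet_cmpF (ε := ε) (MF.cst (X := Conf Ph) (A ++ T :: C)) measurable_id
  simp only [ev_cst] at h1 h2
  exact (measurable_ind h2).mul (measurable_ind h1)

/-- The loss between two times. -/
theorem loss_le (hΦ : IsPotential Φ) (hε : 0 < ε) {κ : ℝ} (hg : GoodDatum f₀ κ) (F : List CTree)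
    {h t : ℝ} (hht : h ≤ t) :
    ∫⁻ c, ind (CmpF ε F (pts c) ∧ Unhit Φ ε L (Wc F (pts c)) F h ∧
      ¬Unhit Φ ε L (Wc F (pts c)) F t) ∂(PP f₀ ε) ≤
      surv Φ ε L f₀ F h - surv Φ ε L f₀ F t := by
  have hfin : surv Φ ε L f₀ F t ≠ ∞ := by
    have := isProbability_PP (ε := ε) hg
    refine ((lintegral_mono fun c => ind_le_one _).trans_lt
      (show ∫⁻ _ : Conf Ph, 1 ∂(PP f₀ ε) < ∞ from ?_)).ne
    rw [lintegral_one, measure_univ]
    exact ENNReal.one_lt_top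
  refine ENNReal.le_sub_of_add_le_left hfin ?_
  unfold surv
  rw [← lintegral_add_left (measurable_indUnhit hΦ hε F t)]
  refine lintegral_mono fun c => ?_
  beta_reduce
  by_cases h1 : Unhit Φ ε L (Wc F (pts c)) F t
  · have h2 : ind (CmpF ε F (pts c) ∧ Unhit Φ ε L (Wc F (pts c)) F h ∧
        ¬Unhit Φ ε L (Wc F (pts c)) F t) = 0 := ind_of_false fun h' => h'.2.2 h1
    rw [h2, add_zero]
    exact ind_mono fun h' => ⟨h'.1, h'.2.mono hht⟩
  · have h2 : ind (CmpF ε F (pts c) ∧ Unhit Φ ε L (Wc F (pts c)) F t) = 0 :=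
      ind_of_false fun h' => h1 h'.2
    rw [h2, zero_add]
    exact ind_mono fun h' => ⟨h'.1, h'.2.1⟩

/-- **The coincidence (I1)**: the probability, for a fixed tree. -/
theorem PI1_le (hΦ : IsPotential Φ) (hε : 0 < ε) {κ : ℝ} (hg : GoodDatum f₀ κ) {a b : Shape}
    {x : Ph × (ℝ × XP a b)} (hv : nvw Φ a b x.1.2 x.2.2 ≠ 0) {h : ℝ}
    (hh : h ≤ x.2.1 - ε * dur Φ x.1.2 x.2.2.1) :
    PI1 Φ f₀ L Tm a b ε x ≤
      ncmp ε f₀ [nA Φ ε a b x.2.1 x.1 x.2.2, nB Φ ε a b x.2.1 x.1 x.2.2] +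
      (Dp Φ ε L f₀ [nB Φ ε a b x.2.1 x.1 x.2.2] [] (nA Φ ε a b x.2.1 x.1 x.2.2) h +
      (Dp Φ ε L f₀ [nA Φ ε a b x.2.1 x.1 x.2.2] [] (nB Φ ε a b x.2.1 x.1 x.2.2) h +
      ((surv Φ ε L f₀ [nA Φ ε a b x.2.1 x.1 x.2.2] h -
        surv Φ ε L f₀ [nA Φ ε a b x.2.1 x.1 x.2.2] x.2.1) +
      (surv Φ ε L f₀ [nB Φ ε a b x.2.1 x.1 x.2.2] h -
        surv Φ ε L f₀ [nB Φ ε a b x.2.1 x.1 x.2.2] x.2.1)))) := by
  set A := nA Φ ε a b x.2.1 x.1 x.2.2 with hA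
  set B := nB Φ ε a b x.2.1 x.1 x.2.2 with hB
  have hsig : CTree.sig Φ ε (CTree.node A B) = x.2.1 - ε * dur Φ x.1.2 x.2.2.1 :=
    sig_node hΦ hε.ne' hv
  have hdur : 0 < dur Φ x.1.2 x.2.2.1 := dur_pos hΦ hv
  have hht : h ≤ x.2.1 := hh.trans (by
    have := mul_pos hε hdur
    linarith)
  rw [PI1_def]
  have h1 := loss_le (L := L) hΦ hε hg [A] hht
  have h2 := loss_le (L := L) hΦ hε hg [B] hht
  rw [Dp_eq, Dp_eq]
  refine le_trans ?_ (add_le_add le_rfl (add_le_add le_rfl (add_le_add le_rfl (add_le_add h1 h2))))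
  unfold ncmp
  have m1 := measurable_ncmp (ε := ε) [A, B]
  have m2 := measurable_dpEv (L := L) hΦ hε [B] [] A h
  have m3 := measurable_dpEv (L := L) hΦ hε [A] [] B h
  have m4 : Measurable fun c : Conf Ph => ind (CmpF ε [A] (pts c) ∧
      Unhit Φ ε L (Wc [A] (pts c)) [A] h ∧ ¬Unhit Φ ε L (Wc [A] (pts c)) [A] x.2.1) := by
    have hFs := MF.cst (X := Conf Ph) [A]
    have e2 := measurableSet_cmpF (ε := ε) hFs measurable_id
    have e3 := measurableSet_unhit hΦ hε hFs (RS.Wc hFs measurable_id)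
      (measurable_const (a := h)) (L := L)
    have e4 := measurableSet_unhit hΦ hε hFs (RS.Wc hFs measurable_id)
      (measurable_const (a := x.2.1)) (L := L)
    simp only [ev_cst] at e2 e3 e4
    exact measurable_ind (e2.inter (e3.inter e4.compl))
  rw [← lintegral_add_left m4, ← lintegral_add_left m3, ← lintegral_add_left m2,
    ← lintegral_add_left m1]
  refine lintegral_mono fun c => ?_
  beta_reduce
  rw [Q1_def]
  by_cases hI : nt Φ ε a b x.2.1 x.1 x.2.2 ∈ I1 Φ ε L Tm (GC.pts c : Set Ph)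
  swap
  · rw [ind_of_false hI]
    exact zero_le
  rw [ind_of_true hI]
  by_cases hc : CmpF ε [A, B] (pts c)
  swap
  · rw [ind_of_true hc]
    exact le_self_add
  have hc' : CmpF ε ([B] ++ A :: []) (pts c) := cmpF_mono (by
    change lvs [B, A] ⊆ lvs [A, B]
    rw [lvs_pair, lvs_pair']) hc
  have hc'' : CmpF ε ([A] ++ B :: []) (pts c) := hc
  rw [cmpF_cons] at hc
  have hI' : CTree.node A B ∈ I1 Φ ε L Tm (GC.pts c : Set Ph) := hI
  rcases I1_cases hΦ hε hI' (h := h) (t := x.2.1) (by rw [hsig]; exact hh) (by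
      rw [hsig]
      have := mul_pos hε hdur
      linarith) with e | e | e | e
  · rw [ind_of_true hc', ind_of_true e, one_mul]
    exact (le_self_add (a := (1 : ℝ≥0∞))).trans le_add_self
  · rw [ind_of_true hc'', ind_of_true e, one_mul]
    exact ((le_self_add (a := (1 : ℝ≥0∞))).trans le_add_self).trans le_add_self
  · rw [ind_of_true (show CmpF ε [A] (pts c) ∧ Unhit Φ ε L (Wc [A] (pts c)) [A] h ∧
      ¬Unhit Φ ε L (Wc [A] (pts c)) [A] x.2.1 from ⟨hc.1, e⟩)]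
    exact (((le_self_add (a := (1 : ℝ≥0∞))).trans le_add_self).trans le_add_self).trans le_add_self
  · rw [ind_of_true (show CmpF ε [B] (pts c) ∧ Unhit Φ ε L (Wc [B] (pts c)) [B] h ∧
      ¬Unhit Φ ε L (Wc [B] (pts c)) [B] x.2.1 from ⟨hc.2, e⟩)]
    exact (((le_add_self (a := (1 : ℝ≥0∞))).trans le_add_self).trans le_add_self).trans le_add_self

theorem surv_le_one' {κ : ℝ} (hg : GoodDatum f₀ κ) (F : List CTree) (t : ℝ) :
    surv Φ ε L f₀ F t ≤ 1 := by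
  have := isProbability_PP (ε := ε) hg
  calc surv Φ ε L f₀ F t ≤ ∫⁻ _ : Conf Ph, 1 ∂(PP f₀ ε) := lintegral_mono fun c => ind_le_one _
    _ = 1 := by rw [lintegral_one, measure_univ]

/-- **The coincidence (I1)**: convergence of the probability to `0`, for a fixed tree. -/
theorem PI1_tendsto (hΦ : IsPotential Φ) {κ : ℝ} (hg : GoodDatum f₀ κ) {a b : Shape}
    {x : Ph × (ℝ × XP a b)} (hv : nvw Φ a b x.1.2 x.2.2 ≠ 0) (sA sB : ℝ → ℝ≥0∞)
    (hN : Tendsto (fun ε => ncmp ε f₀ [nA Φ ε a b x.2.1 x.1 x.2.2, nB Φ ε a b x.2.1 x.1 x.2.2])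
      (𝓝[>] 0) (𝓝 0))
    (hD1 : ∀ᶠ δ in 𝓝[>] (0 : ℝ), Tendsto (fun ε => Dp Φ ε L f₀ [nB Φ ε a b x.2.1 x.1 x.2.2] []
      (nA Φ ε a b x.2.1 x.1 x.2.2) (x.2.1 - δ)) (𝓝[>] 0) (𝓝 0))
    (hD2 : ∀ᶠ δ in 𝓝[>] (0 : ℝ), Tendsto (fun ε => Dp Φ ε L f₀ [nA Φ ε a b x.2.1 x.1 x.2.2] []
      (nB Φ ε a b x.2.1 x.1 x.2.2) (x.2.1 - δ)) (𝓝[>] 0) (𝓝 0))
    (hA : ∀ᶠ δ in 𝓝[>] (0 : ℝ), Tendsto (fun ε => surv Φ ε L f₀ [nA Φ ε a b x.2.1 x.1 x.2.2]
      (x.2.1 - δ)) (𝓝[>] 0) (𝓝 (sA (x.2.1 - δ))))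
    (hB : ∀ᶠ δ in 𝓝[>] (0 : ℝ), Tendsto (fun ε => surv Φ ε L f₀ [nB Φ ε a b x.2.1 x.1 x.2.2]
      (x.2.1 - δ)) (𝓝[>] 0) (𝓝 (sB (x.2.1 - δ))))
    (hA0 : Tendsto (fun ε => surv Φ ε L f₀ [nA Φ ε a b x.2.1 x.1 x.2.2] x.2.1) (𝓝[>] 0)
      (𝓝 (sA x.2.1)))
    (hB0 : Tendsto (fun ε => surv Φ ε L f₀ [nB Φ ε a b x.2.1 x.1 x.2.2] x.2.1) (𝓝[>] 0)
      (𝓝 (sB x.2.1)))
    (hAc : Tendsto (fun δ => sA (x.2.1 - δ)) (𝓝[>] 0) (𝓝 (sA x.2.1)))
    (hBc : Tendsto (fun δ => sB (x.2.1 - δ)) (𝓝[>] 0) (𝓝 (sB x.2.1))) :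
    Tendsto (fun ε => PI1 Φ f₀ L Tm a b ε x) (𝓝[>] 0) (𝓝 0) := by
  have fA : sA x.2.1 ≠ ∞ :=
    ((le_of_tendsto' hA0 fun ε => surv_le_one' hg _ _).trans_lt ENNReal.one_lt_top).ne
  have fB : sB x.2.1 ≠ ∞ :=
    ((le_of_tendsto' hB0 fun ε => surv_le_one' hg _ _).trans_lt ENNReal.one_lt_top).ne
  rw [ENNReal.tendsto_nhds_zero]
  intro η hη
  have h1 : Tendsto (fun δ => (sA (x.2.1 - δ) - sA x.2.1) + (sB (x.2.1 - δ) - sB x.2.1)) (𝓝[>] 0)
      (𝓝 0) := by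
    have e1 := ENNReal.Tendsto.sub hAc (tendsto_const_nhds (x := sA x.2.1)) (Or.inl fA)
    have e2 := ENNReal.Tendsto.sub hBc (tendsto_const_nhds (x := sB x.2.1)) (Or.inl fB)
    rw [tsub_self] at e1 e2
    have e3 := e1.add e2
    rw [add_zero] at e3
    exact e3
  have h2 : ∀ᶠ δ in 𝓝[>] (0 : ℝ),
      (sA (x.2.1 - δ) - sA x.2.1) + (sB (x.2.1 - δ) - sB x.2.1) < η := h1.eventually_lt_const hη
  obtain ⟨δ, ⟨⟨⟨⟨h3, h4⟩, h5⟩, h6⟩, h7⟩, hδ⟩ :=
    (((((h2.and hD1).and hD2).and hA).and hB).and self_mem_nhdsWithin).exists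
  have hδ0 : 0 < δ := hδ
  have e1 := ENNReal.Tendsto.sub h6 hA0 (Or.inr fA)
  have e2 := ENNReal.Tendsto.sub h7 hB0 (Or.inr fB)
  have e3 := hN.add (h4.add (h5.add (e1.add e2)))
  rw [zero_add, zero_add, zero_add] at e3
  have h8 := e3.eventually_lt_const h3
  have hdur : 0 < dur Φ x.1.2 x.2.2.1 := dur_pos hΦ hv
  have h9 : ∀ᶠ ε in 𝓝[>] (0 : ℝ), ε < δ / dur Φ x.1.2 x.2.2.1 :=
    nhdsWithin_le_nhds (gt_mem_nhds (by positivity))
  filter_upwards [h8, h9, self_mem_nhdsWithin] with ε h10 h11 h12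
  have hε : 0 < ε := h12
  refine (PI1_le (L := L) (Tm := Tm) hΦ hε hg hv (h := x.2.1 - δ) ?_).trans h10.le
  rw [lt_div_iff₀ hdur] at h11
  linarith

end Vale.Agent.P119.Cap
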