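import Vale.Agent.P119.ML.InRMain
import Vale.Agent.P119.KT.Gen

/-!
# P119, block ML (In-R, `helper755`): generic pairs of germs through one event

* `ae_prod4`: almost everywhere on a product of four measures;
* `meetAt_dG`, `nm_dG`: the lines of the two trees pass through the same point at the time `b`, with
  different velocities;
* `ae_pair_dG`: almost every pair of trees is generic.
-/

open MeasureTheory Filter Topology Set
open scoped ENNReal NNReal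

noncomputable section

namespace Vale.Agent.P119.Cap

open KU M KT ML GC

variable {Φ : E3 → ℝ} {ε : ℝ}

/-- Almost everywhere on a product of four measures. -/
theorem ae_prod4 {Y P Y' P' : Type*} [MeasurableSpace Y] [MeasurableSpace P] [MeasurableSpace Y']
    [MeasurableSpace P'] {μ : Measure Y} {ν : Measure P} {μ' : Measure Y'} {ν' : Measure P'}
    [SFinite μ] [SFinite ν] [SFinite μ'] [SFinite ν'] {S : (Y × P) × (Y' × P') → Prop}
    (hS : MeasurableSet {z | S z})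
    (h : ∀ᵐ y ∂μ, ∀ᵐ y' ∂μ', ∀ᵐ z ∂(ν.prod ν'), S ((y, z.1), (y', z.2))) :
    ∀ᵐ z ∂((μ.prod ν).prod (μ'.prod ν')), S z := by
  set I : (Y × P) × (Y' × P') → ℝ≥0∞ := fun z => ind (¬S z) with hI
  have hIm : Measurable I := measurable_ind hS.compl
  have key : ∫⁻ z, I z ∂((μ.prod ν).prod (μ'.prod ν')) = 0 := by
    have m1 : Measurable fun x : Y × P => ∫⁻ x', I (x, x') ∂(μ'.prod ν') :=
      hIm.lintegral_prod_right'
    rw [lintegral_prod _ hIm.aemeasurable, lintegral_prod _ m1.aemeasurable]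
    have e1 : ∀ y, ∫⁻ p, ∫⁻ x', I ((y, p), x') ∂(μ'.prod ν') ∂ν =
        ∫⁻ y', ∫⁻ z : P × P', I ((y, z.1), (y', z.2)) ∂(ν.prod ν') ∂μ' := by
      intro y
      have m2 : ∀ p : P, Measurable fun x' : Y' × P' => I ((y, p), x') := fun p =>
        hIm.comp measurable_prodMk_left
      have e2 : ∀ p : P, ∫⁻ x', I ((y, p), x') ∂(μ'.prod ν') =
          ∫⁻ y', ∫⁻ p', I ((y, p), (y', p')) ∂ν' ∂μ' := fun p =>
        lintegral_prod _ (m2 p).aemeasurable
      simp only [e2]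
      have m3 : Measurable fun z : (P × Y') × P' => I ((y, z.1.1), (z.1.2, z.2)) := by
        have h3 : Measurable fun z : (P × Y') × P' =>
            ((y, z.1.1), (z.1.2, z.2)) := by fun_prop
        exact hIm.comp h3
      rw [lintegral_lintegral_swap (f := fun p y' => ∫⁻ p', I ((y, p), (y', p')) ∂ν')
        m3.lintegral_prod_right'.aemeasurable]
      refine lintegral_congr fun y' => ?_
      have m4 : Measurable fun z : P × P' => I ((y, z.1), (y', z.2)) := by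
        have h3 : Measurable fun z : P × P' => ((y, z.1), (y', z.2)) := by fun_prop
        exact hIm.comp h3
      rw [lintegral_prod _ m4.aemeasurable]
    simp only [e1]
    refine lintegral_eq_zero_of_ae_eq_zero ?_
    filter_upwards [h] with y hy
    refine lintegral_eq_zero_of_ae_eq_zero ?_
    filter_upwards [hy] with y' hy'
    refine lintegral_eq_zero_of_ae_eq_zero ?_
    filter_upwards [hy'] with z hz
    exact ind_of_false (not_not.2 hz)
  have h1 := (lintegral_eq_zero_iff hIm).1 key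
  filter_upwards [h1] with z hz
  by_contra hcon
  rw [hI] at hz
  simp only [Pi.zero_apply] at hz
  rw [ind_of_true hcon] at hz
  exact one_ne_zero hz

/-! ### The lines of the trees -/

/-- The line of the tree passes through the point of the free line. -/
theorem free_dG (k : Bool) (L : Ph) (b : ℝ) (y : E3 × E2) :
    (KU.free b (dG Φ k L b y).1).1 = (KU.free b L).1 := by
  have h1 : (dG Φ k L b y).1 = tlk k (inLines Φ 0 L (b, y)) := rfl
  rw [h1, inLines_zero]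
  cases k
  · unfold tlk
    simp only [Bool.false_eq_true, if_false]
    rw [free_tilt]
    simp
  · unfold tlk
    simp only [if_true]
    rw [free_tilt]
    simp

theorem nm_of_meetAt {b : ℝ} {α β : Ph} (h : meetAt α β b) (hv : α.2 ≠ β.2) : nm b α β := by
  intro σ hσ h1
  have h0 : α.2 - β.2 ≠ 0 := sub_ne_zero.2 hv
  exact hσ.ne ((eq_mt h0 h1).trans (eq_mt h0 h).symm)

theorem nm_dG {k : Bool} {L : Ph} (b : ℝ) {y y' : E3 × E2} (h : dgn Φ k L.2 y)
    (h' : dgn Φ k L.2 y') (hy : y.1 ≠ y'.1) : nm b (dG Φ k L b y).1 (dG Φ k L b y').1 := by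
  refine nm_of_meetAt ?_ ?_
  · unfold meetAt
    rw [free_dG, free_dG]
  · rw [dG_vel_of_dgn b h, dG_vel_of_dgn b h']
    exact hy

/-! ### Genericity -/

theorem measurable_dG_fst (hΦ : IsPotential Φ) (k : Bool) (L : Ph) (b : ℝ) :
    Measurable fun y : E3 × E2 => (dG Φ k L b y).1 := by
  have h1 := (measurable_dG hΦ k).comp (by fun_prop : Measurable fun y : E3 × E2 =>
    ((L, b, y) : Ph × ℝ × (E3 × E2)))
  simp only [Function.comp_def] at h1
  exact h1.fst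

theorem measurableSet_dgn_snd (hΦ : IsPotential Φ) (k : Bool) (v : E3) :
    MeasurableSet {y : E3 × E2 | dgn Φ k v y} :=
  (measurable_prodMk_left (x := v)) (measurableSet_dgn hΦ k)

/-- Almost every tree does not meet itself. -/
theorem ae_self_dG (hΦ : IsPotential Φ) (k : Bool) (τ : Shape) (L : Ph) (b : ℝ) :
    ∀ᵐ x ∂(ro τ), Ordr τ x.2 → Self Φ τ (dG Φ k L b x.1).1 x.2 := by
  have hd := measurable_dG_fst hΦ k L b
  have m1 : MeasurableSet {x : PY τ | Ordr τ x.2} :=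
    (measurable_snd : Measurable fun x : PY τ => x.2) (measurableSet_ordr τ)
  have h2 : Measurable fun x : PY τ => ((dG Φ k L b x.1).1, x.2) :=
    (hd.comp measurable_fst).prodMk measurable_snd
  have m2 : MeasurableSet {x : PY τ | Self Φ τ (dG Φ k L b x.1).1 x.2} :=
    h2 (measurableSet_self hΦ τ)
  unfold ro
  exact (Measure.ae_prod_iff_ae_ae (measurableSet_imp m1 m2)).2
    (Eventually.of_forall fun y => ae_self hΦ τ (dG Φ k L b y).1)

theorem ae_fst_ne (v : E3) : ∀ᵐ y : E3 × E2, v ≠ y.1 := by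
  have h1 := (Measure.quasiMeasurePreserving_fst (μ := (volume : Measure E3))
    (ν := (volume : Measure E2))).ae (ae_ne v)
  filter_upwards [h1] with y hy hcon
  exact hy (sub_eq_zero.2 hcon)

/-- **Almost every pair of trees through one event is apart.** -/
theorem ae_pair_dG (hΦ : IsPotential Φ) (k : Bool) (τ τ' : Shape) (L : Ph) (b : ℝ) {t : ℝ}
    (ht : t ≤ b) :
    ∀ᵐ z ∂((ro τ).prod (ro τ')), dgn Φ k L.2 z.1.1 → dgn Φ k L.2 z.2.1 → Bef t τ z.1.2 →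
      Bef t τ' z.2.2 →
      Apart Φ t τ (dG Φ k L b z.1.1).1 z.1.2 τ' (dG Φ k L b z.2.1).1 z.2.2 := by
  have hd := measurable_dG_fst hΦ k L b
  have hdg := measurableSet_dgn_snd hΦ k L.2
  have m1 : MeasurableSet {z : PY τ × PY τ' | dgn Φ k L.2 z.1.1} :=
    (by fun_prop : Measurable fun z : PY τ × PY τ' => z.1.1) hdg
  have m2 : MeasurableSet {z : PY τ × PY τ' | dgn Φ k L.2 z.2.1} :=
    (by fun_prop : Measurable fun z : PY τ × PY τ' => z.2.1) hdg
  have m3 : MeasurableSet {z : PY τ × PY τ' | Bef t τ z.1.2} :=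
    (by fun_prop : Measurable fun z : PY τ × PY τ' => (t, z.1.2)) (measurableSet_bef τ)
  have m4 : MeasurableSet {z : PY τ × PY τ' | Bef t τ' z.2.2} :=
    (by fun_prop : Measurable fun z : PY τ × PY τ' => (t, z.2.2)) (measurableSet_bef τ')
  have m5 : MeasurableSet {z : PY τ × PY τ' |
      Apart Φ t τ (dG Φ k L b z.1.1).1 z.1.2 τ' (dG Φ k L b z.2.1).1 z.2.2} := by
    have h1 : Measurable fun z : PY τ × PY τ' =>
        (t, ((dG Φ k L b z.1.1).1, z.1.2), ((dG Φ k L b z.2.1).1, z.2.2)) := by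
      have h2 : Measurable fun z : PY τ × PY τ' => (dG Φ k L b z.1.1).1 :=
        hd.comp (by fun_prop : Measurable fun z : PY τ × PY τ' => z.1.1)
      have h3 : Measurable fun z : PY τ × PY τ' => (dG Φ k L b z.2.1).1 :=
        hd.comp (by fun_prop : Measurable fun z : PY τ × PY τ' => z.2.1)
      exact measurable_const.prodMk ((h2.prodMk (by fun_prop)).prodMk (h3.prodMk (by fun_prop)))
    exact h1 (measurableSet_apart hΦ τ τ')
  refine ae_prod4 (measurableSet_imp m1 (measurableSet_imp m2 (measurableSet_imp m3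
    (measurableSet_imp m4 m5)))) ?_
  refine Eventually.of_forall fun y => ?_
  filter_upwards [ae_restrict_of_ae (ae_fst_ne y.1)] with y' hy
  by_cases h1 : dgn Φ k L.2 y
  swap
  · exact Eventually.of_forall fun z h => absurd h h1
  by_cases h2 : dgn Φ k L.2 y'
  swap
  · exact Eventually.of_forall fun z _ h => absurd h h2
  have h3 := ae_apart hΦ τ τ' ((nm_dG b h1 h2 hy).mono ht)
  filter_upwards [h3] with z hz _ _ h4 h5
  exact hz h4 h5

/-- Almost every tree has generic exhausts. -/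
theorem ae_WNe_dG (hΦ : IsPotential Φ) (k : Bool) (τ : Shape) (L : Ph) (b : ℝ) :
    ∀ᵐ x ∂(ro τ), WNe Φ τ (dG Φ k L b x.1).1.2 x.2 := by
  have hd := measurable_dG_fst hΦ k L b
  have h2 : Measurable fun x : PY τ => ((dG Φ k L b x.1).1.2, x.2) :=
    (hd.snd.comp measurable_fst).prodMk measurable_snd
  have m2 : MeasurableSet {x : PY τ | WNe Φ τ (dG Φ k L b x.1).1.2 x.2} :=
    h2 (measurableSet_WNe hΦ τ)
  unfold ro
  exact (Measure.ae_prod_iff_ae_ae m2).2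
    (Eventually.of_forall fun y => ae_WNe hΦ τ (dG Φ k L b y).1.2)

/-- The parameters with a positive weight. -/
theorem of_wA0_ne_zero {g : Ph → ℝ≥0∞} {c₀ δ : ℝ} {k : Bool} {τ : Shape} {q : ℝ × Ph} {x : PY τ}
    (h : wA0 g Φ c₀ δ k τ q x ≠ 0) :
    stm τ x.2 < q.1 - δ ∧ dgn Φ k q.2.2 x.1 ∧ Tord τ x.2 ∧
      good Φ τ (dG Φ k q.2 q.1 x.1).1.2 x.2 := by
  unfold wA0 wW rwt at h
  have h1 := ind_ne_zero.1 (left_ne_zero_of_mul h)
  have h2 := right_ne_zero_of_mul (right_ne_zero_of_mul (right_ne_zero_of_mul h))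
  have h3 := (wt_ne_zero_iff τ _ _).1 (left_ne_zero_of_mul h2)
  have h4 := right_ne_zero_of_mul h2
  have h5 : x ∈ rset Φ 0 k τ q.2 q.1 := by
    by_contra hcon
    rw [indicator_of_notMem hcon] at h4
    exact h4 rfl
  obtain ⟨hd, ht, -⟩ := mem_rset_zero.1 h5
  exact ⟨h1, hd, (tok_zero_iff τ _ _).1 ht, h3⟩

/-! ### The input InR from the survival limits -/

section fin

variable {hΦ : IsPotential Φ} {f₀ : Ph → ℝ}
  {m₀ : Measurable fun p : E3 × E3 => K1.f0hat f₀ p.1 p.2} {T : ℝ} {f : ℝ → Ph → ℝ}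
  (K : KE.KinFamily hΦ f₀ m₀ T f) {κ : ℝ}

/-- The indicator that the germ is unhit until the time `t`. -/
def chi (Φ : E3 → ℝ) (Lm : ℕ) (G : TG) (t ε : ℝ) (c : Conf Ph) : ℝ≥0∞ :=
  ind (CmpF ε [G.tree Φ ε] (pts c) ∧ Unhit Φ ε Lm (Wc [G.tree Φ ε] (pts c)) [G.tree Φ ε] t)

/-- The survival limit for one germ. -/
def SL1 (K : KE.KinFamily hΦ f₀ m₀ T f) (Lm : ℕ) : Prop :=
  ∀ (G : TG) (t : ℝ), Gen Φ Lm [G] t → stm G.τ G.p < t → t ≤ T →
    Tendsto (fun ε => ∫⁻ c, chi Φ Lm G t ε c ∂(PP f₀ ε)) (𝓝[>] 0)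
      (𝓝 (KE.legW Φ (K.leg Lm) G.τ t G.ℓ.1 G.p))

/-- The survival limit for two germs in two worlds. -/
def SL2 (K : KE.KinFamily hΦ f₀ m₀ T f) (Lm : ℕ) : Prop :=
  ∀ (G G' : TG) (t : ℝ), Gen Φ Lm [G, G'] t → stm G.τ G.p < t → stm G'.τ G'.p < t → t ≤ T →
    Tendsto (fun ε => ∫⁻ c, chi Φ Lm G t ε c * chi Φ Lm G' t ε c ∂(PP f₀ ε)) (𝓝[>] 0)
      (𝓝 (KE.legW Φ (K.leg Lm) G.τ t G.ℓ.1 G.p * KE.legW Φ (K.leg Lm) G'.τ t G'.ℓ.1 G'.p))

theorem Xs_eq_chi {Lm : ℕ} {δ : ℝ} {k : Bool} {τ : Shape} (hε : 0 < ε) (c : Conf Ph)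
    (q : ℝ × Ph) (x : PY τ) :
    Xs Φ Lm δ k τ ε c q x = chi Φ Lm ⟨τ, dG Φ k q.2 q.1 x.1, x.2⟩ (q.1 - δ) ε c := by
  unfold Xs chi rT
  exact ind_congr ⟨fun h => h.2, fun h => ⟨hε, h⟩⟩

theorem hs1_of_sl1 {Lm : ℕ} {Tm : ℝ} (hTm : Tm ≤ T) (H : SL1 K Lm) {c₀ δ : ℝ} (hδ : 0 < δ)
    (k : Bool) {τ : Shape} (hτ : τ.depth ≤ Lm) : HS1 K Tm Lm c₀ δ k τ := by
  unfold HS1
  filter_upwards [ae_mQ_le Tm] with q hq
  filter_upwards [ae_self_dG hΦ k τ q.2 q.1, ae_WNe_dG hΦ k τ q.2 q.1] with x hx hw h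
  obtain ⟨h1, -, h3, h4⟩ := of_wA0_ne_zero h
  have hg : GenG Φ Lm (⟨τ, dG Φ k q.2 q.1 x.1, x.2⟩ : TG) := ⟨h4, h3, hx h3.ordr, hw, hτ⟩
  have h5 := H ⟨τ, dG Φ k q.2 q.1 x.1, x.2⟩ (q.1 - δ)
    ⟨(KT.stm_nonneg τ x.2 h3).trans_lt h1, fun G hG => by rw [List.mem_singleton.1 hG]; exact hg,
      List.pairwise_singleton _ _⟩ h1 (by linarith [hq.2])
  refine h5.congr' ?_
  filter_upwards [self_mem_nhdsWithin] with ε hε
  exact lintegral_congr fun c => (Xs_eq_chi hε c q x).symm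

theorem hs2_of_sl2 {Lm : ℕ} {Tm : ℝ} (hTm : Tm ≤ T) (H : SL2 K Lm) {c₀ δ : ℝ} (hδ : 0 < δ)
    (k : Bool) {τ : Shape} (hτ : τ.depth ≤ Lm) : HS2 K Tm Lm c₀ δ k τ := by
  unfold HS2
  filter_upwards [ae_mQ_le Tm] with q hq
  have e1 := (Measure.quasiMeasurePreserving_fst (μ := ro τ) (ν := ro τ)).ae
    ((ae_self_dG hΦ k τ q.2 q.1).and (ae_WNe_dG hΦ k τ q.2 q.1))
  have e2 := (Measure.quasiMeasurePreserving_snd (μ := ro τ) (ν := ro τ)).ae
    ((ae_self_dG hΦ k τ q.2 q.1).and (ae_WNe_dG hΦ k τ q.2 q.1))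
  filter_upwards [e1, e2, ae_pair_dG hΦ k τ τ q.2 q.1 (t := q.1) le_rfl] with
    z hz1 hz2 hz h h'
  obtain ⟨h1, h2, h3, h4⟩ := of_wA0_ne_zero h
  obtain ⟨h1', h2', h3', h4'⟩ := of_wA0_ne_zero h'
  have hlt : q.1 - δ < q.1 := by linarith
  have hap : ApartG Φ q.1 (⟨τ, dG Φ k q.2 q.1 z.1.1, z.1.2⟩ : TG)
      ⟨τ, dG Φ k q.2 q.1 z.2.1, z.2.2⟩ :=
    hz h2 h2' (h3.bef (h1.trans hlt)) (h3'.bef (h1'.trans hlt))
  have h5 := H ⟨τ, dG Φ k q.2 q.1 z.1.1, z.1.2⟩ ⟨τ, dG Φ k q.2 q.1 z.2.1, z.2.2⟩ (q.1 - δ)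
    ⟨(KT.stm_nonneg τ z.1.2 h3).trans_lt h1, fun G hG => ?_, ?_⟩ h1 h1' (by linarith [hq.2])
  · refine h5.congr' ?_
    filter_upwards [self_mem_nhdsWithin] with ε hε
    refine lintegral_congr fun c => ?_
    rw [Xs_eq_chi hε c q z.1, Xs_eq_chi hε c q z.2]
  · rcases List.mem_cons.1 hG with h6 | h6
    · rw [h6]
      exact ⟨h4, h3, hz1.1 h3.ordr, hz1.2, hτ⟩
    · rw [List.mem_singleton.1 h6]
      exact ⟨h4', h3', hz2.1 h3'.ordr, hz2.2, hτ⟩
  · rw [List.pairwise_cons]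
    refine ⟨fun G hG => ?_, List.pairwise_singleton _ _⟩
    rw [List.mem_singleton.1 hG]
    exact PairG.of_lt (ApT.of_apartG hap) hlt

/-- **In-R** from the survival limits of one and of two germs. -/
theorem inR_of_sl (h : GoodDatum f₀ κ) (gd : GD (fh f₀) K.M K.b) (hT : 0 ≤ T) {Lm : ℕ}
    (hL : K.L₀ ≤ Lm + 1) {Tm : ℝ} (hTm0 : 0 ≤ Tm) (hTm : Tm ≤ T) (H1 : SL1 K Lm)
    (H2 : SL2 K Lm) : InR Φ f₀ Lm Tm K.rr :=
  inR_of_surv K h gd hT hL hTm0 hTm
    (fun _ _ _ hδ k _ hτ => hs1_of_sl1 K hTm H1 hδ k (mem_shapes.1 hτ))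
    (fun _ _ _ hδ k _ hτ => hs2_of_sl2 K hTm H2 hδ k (mem_shapes.1 hτ))

end fin

end Vale.Agent.P119.Cap
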