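import Vale.Agent.P119.ML.TreeL1
import Vale.Agent.P119.KE.Depth

/-!
# P119, block ML (In-nd, `helper67`): the kinetic side of In-nd

* `measurable_legW`, `legW_le_one`, `tendsto_legW`;
* `tendsto_leg`: continuity of the survival weights of `KinFamily` in the horizon;
* `kin_node`: the limit weight of the nodes is bounded by the rate `K.nr`; `kin_nd_le`.
-/

open MeasureTheory Filter Topology Set ProbabilityTheory
open scoped ENNReal NNReal

noncomputable section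

namespace Vale.Agent.P119.ML

open KU M KT CTree KE

variable {Φ : E3 → ℝ}

/-! ### The product over the legs -/

theorem measurable_legW (hΦ : IsPotential Φ) {lg : ℝ → ℝ → Ph → ℝ≥0∞}
    (ml : Measurable fun x : ℝ × ℝ × Ph => lg x.1 x.2.1 x.2.2) :
    ∀ τ : Shape, Measurable fun x : ℝ × Ph × PD τ => legW Φ lg τ x.1 x.2.1 x.2.2
  | .leaf => ml.comp (by fun_prop : Measurable fun x : ℝ × Ph × Unit => ((0 : ℝ), x.1, x.2.1))
  | .node a b => by
    have ha := measurable_legW hΦ ml a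
    have hb := measurable_legW hΦ ml b
    have h0 : Measurable fun x : ℝ × Ph × (ND × PD a × PD b) => (x.2.1, x.2.2.1) := by fun_prop
    have h1 := (measurable_inLines hΦ 0).comp h0
    have h2 : Measurable fun x : ℝ × Ph × (ND × PD a × PD b) =>
        (x.2.2.1.1, (inLines Φ 0 x.2.1 x.2.2.1).1, x.2.2.2.1) :=
      (by fun_prop : Measurable fun x : ℝ × Ph × (ND × PD a × PD b) => x.2.2.1.1).prodMk
        (h1.fst.prodMk (by fun_prop))
    have h3 : Measurable fun x : ℝ × Ph × (ND × PD a × PD b) =>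
        (x.2.2.1.1, (inLines Φ 0 x.2.1 x.2.2.1).2, x.2.2.2.2) :=
      (by fun_prop : Measurable fun x : ℝ × Ph × (ND × PD a × PD b) => x.2.2.1.1).prodMk
        (h1.snd.prodMk (by fun_prop))
    have h5 : Measurable fun x : ℝ × Ph × (ND × PD a × PD b) => lg x.2.2.1.1 x.1 x.2.1 :=
      ml.comp (by fun_prop :
        Measurable fun x : ℝ × Ph × (ND × PD a × PD b) => (x.2.2.1.1, x.1, x.2.1))
    exact h5.mul ((ha.comp h2).mul (hb.comp h3))

theorem legW_le_one {lg : ℝ → ℝ → Ph → ℝ≥0∞} (h : ∀ s t L, lg s t L ≤ 1) :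
    ∀ (τ : Shape) (t : ℝ) (L : Ph) (p : PD τ), legW Φ lg τ t L p ≤ 1
  | .leaf, t, L, _ => h 0 t L
  | .node a b, _, _, _ =>
    mul_le_one' (h _ _ _) (mul_le_one' (legW_le_one h a _ _ _) (legW_le_one h b _ _ _))

/-- Only the last leg depends on the horizon. -/
theorem tendsto_legW {lg : ℝ → ℝ → Ph → ℝ≥0∞} (h1 : ∀ s t L, lg s t L ≤ 1) (τ : Shape) {t : ℝ}
    {L : Ph} {p : PD τ}
    (h : Tendsto (fun δ => lg (stm τ p) (t - δ) L) (𝓝[>] 0) (𝓝 (lg (stm τ p) t L))) :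
    Tendsto (fun δ => legW Φ lg τ (t - δ) L p) (𝓝[>] 0) (𝓝 (legW Φ lg τ t L p)) := by
  cases τ with
  | leaf => exact h
  | node a b =>
    refine ENNReal.Tendsto.mul_const h (Or.inr ?_)
    exact ne_top_of_le_ne_top ENNReal.one_ne_top
      (mul_le_one' (legW_le_one h1 a _ _ _) (legW_le_one h1 b _ _ _))

/-! ### The ordering of the times at `ε = 0` -/

theorem ordd_of_tok : ∀ (τ : Shape) (v : E3) (p : PD τ) (h : ℝ), tok Φ 0 τ v p → stm τ p < h →
    0 ≤ stm τ p ∧ ordd τ h p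
  | .leaf, _, _, _, _, _ => ⟨le_rfl, trivial⟩
  | .node a b, v, p, h, ht, hs => by
    change ((tok Φ 0 a (inVel Φ v p.1).1 p.2.1 ∧ tok Φ 0 b (inVel Φ v p.1).2 p.2.2) ∧
      ex 0 a (inVel Φ v p.1).1 p.2.1 < p.1.1 + 0 * tin (inRel Φ v p.1) ∧
      ex 0 b (inVel Φ v p.1).2 p.2.2 < p.1.1 + 0 * tin (inRel Φ v p.1)) at ht
    rw [ex_zero, ex_zero, zero_mul, add_zero] at ht
    obtain ⟨ha0, ha⟩ := ordd_of_tok a _ _ p.1.1 ht.1.1 ht.2.1
    obtain ⟨-, hb⟩ := ordd_of_tok b _ _ p.1.1 ht.1.2 ht.2.2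
    change p.1.1 < h at hs
    have hp : 0 < p.1.1 := ha0.trans_lt ht.2.1
    exact ⟨hp.le, ⟨hp, hs.le⟩, ha, hb⟩

theorem ntk_zero {a b : Shape} {t : ℝ} {v : E3} {ξ : XP a b} : ntk Φ 0 a b t v ξ ↔
    (tok Φ 0 a (nV Φ v ξ.1).1 ξ.2.1 ∧ tok Φ 0 b (nV Φ v ξ.1).2 ξ.2.2) ∧
      stm a ξ.2.1 < t ∧ stm b ξ.2.2 < t := by
  unfold ntk
  rw [ex_zero, ex_zero, zero_mul, sub_zero]

theorem lprod_eq_leafW (g : Ph → ℝ≥0∞) : ∀ (τ : Shape) (z : LD τ), lprod g τ z = leafW g τ z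
  | .leaf, _ => rfl
  | .node a b, z => by
    change lprod g a z.1 * lprod g b z.2 = leafW g a z.1 * leafW g b z.2
    rw [lprod_eq_leafW g a, lprod_eq_leafW g b]

theorem shn_zero (v : E3) (t : ℝ) (y : E3 × E2) : shn 0 v t y = (t, y) := by
  unfold shn
  rw [zero_mul, sub_zero]

theorem nL_zero (t : ℝ) (l : Ph) (y : E3 × E2) : nL Φ 0 t l y = inLines Φ 0 l (t, y) := by
  unfold nL
  rw [shn_zero]

/-- The weight at `ε = 0` with the survival of the legs. -/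
theorem nW_zero_le {lg : ℝ → ℝ → Ph → ℝ≥0∞} (g : Ph → ℝ≥0∞) (a b : Shape) (t : ℝ) (l : Ph)
    (ξ : XP a b) :
    nW g Φ 0 a b t l ξ * (legW Φ lg a t (nL Φ 0 t l ξ.1).1 ξ.2.1 *
      legW Φ lg b t (nL Φ 0 t l ξ.1).2 ξ.2.2) ≤
    nw Φ l.2 (t, ξ.1) * (kw Φ lg g a t (inLines Φ 0 l (t, ξ.1)).1 ξ.2.1 *
      kw Φ lg g b t (inLines Φ 0 l (t, ξ.1)).2 ξ.2.2) := by
  classical
  by_cases hk : ntk Φ 0 a b t l.2 ξ
  · have hk' := ntk_zero.1 hk
    have ha := (ordd_of_tok a _ _ t hk'.1.1 hk'.2.1).2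
    have hb := (ordd_of_tok b _ _ t hk'.1.2 hk'.2.2).2
    rw [kw_eq, kw_eq, if_pos ha, if_pos hb, one_mul, one_mul]
    unfold nW nlp nvw
    rw [ind_of_true hk, one_mul, lprod_eq_leafW, lprod_eq_leafW, ← nL_zero, (nL_snd _ _ _).1,
      (nL_snd _ _ _).2, nw_time l.2 0 t ξ.1]
    refine le_of_eq ?_
    ring
  · unfold nW
    rw [ind_of_false hk, zero_mul, mul_zero, zero_mul]
    exact zero_le

theorem lintegral_yvol {F : E3 × E2 → ℝ≥0∞} (hF : Measurable F) :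
    ∫⁻ y, F y ∂yvol = ∫⁻ w : E3, ∫⁻ b in {b : E2 | ‖b‖ < 1}, F (w, b) := by
  have hball : MeasurableSet {b : E2 | ‖b‖ < 1} := measurableSet_lt (by fun_prop) (by fun_prop)
  have hset : MeasurableSet {y : E3 × E2 | ‖y.2‖ < 1} :=
    measurableSet_lt (by fun_prop) (by fun_prop)
  unfold yvol
  rw [← lintegral_indicator hset, Measure.volume_eq_prod,
    lintegral_prod _ (hF.indicator hset).aemeasurable]
  refine lintegral_congr fun w => ?_
  rw [← lintegral_indicator hball]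
  refine lintegral_congr fun b => ?_
  by_cases hb : ‖b‖ < 1
  · rw [indicator_of_mem (by exact hb), indicator_of_mem (by exact hb)]
  · rw [indicator_of_notMem (by exact hb), indicator_of_notMem (by exact hb)]

section kin

variable {hΦ : IsPotential Φ} {f₀ : Ph → ℝ}
  {m₀ : Measurable fun p : E3 × E3 => K1.f0hat f₀ p.1 p.2} {T : ℝ} {f : ℝ → Ph → ℝ}
  (K : KinFamily hΦ f₀ m₀ T f)

theorem measurable_leg (L : ℕ) : Measurable fun x : ℝ × ℝ × Ph => K.leg L x.1 x.2.1 x.2.2 :=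
  measurable_dlg _ (K.u (L + 1)).2

/-- **The rate of the nodes of shapes `a`, `b`.** -/
theorem kin_node (L : ℕ) (a b : Shape) (t : ℝ) (l : Ph) :
    ∫⁻ ξ, nW (fh f₀) Φ 0 a b t l ξ * (legW Φ (K.leg L) a t (nL Φ 0 t l ξ.1).1 ξ.2.1 *
      legW Φ (K.leg L) b t (nL Φ 0 t l ξ.1).2 ξ.2.2) ∂(xvol a b) ≤ K.nr L a b t l := by
  refine (lintegral_mono fun ξ => nW_zero_le (lg := K.leg L) (fh f₀) a b t l ξ).trans ?_
  have mF : Measurable (fh f₀) := m₀
  have ml := measurable_leg K L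
  have ma := measurable_kw hΦ ml mF a
  have mb := measurable_kw hΦ ml mF b
  have mi : Measurable fun y : E3 × E2 => inLines Φ 0 l (t, y) :=
    (measurable_inLines hΦ 0).comp (by fun_prop : Measurable fun y : E3 × E2 => (l, ((t, y) : ND)))
  have mn : Measurable fun y : E3 × E2 => nw Φ l.2 (t, y) :=
    (measurable_nw hΦ).comp (by fun_prop : Measurable fun y : E3 × E2 => (l.2, ((t, y) : ND)))
  have m1 : Measurable fun ξ : XP a b => kw Φ (K.leg L) (fh f₀) a t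
      (inLines Φ 0 l (t, ξ.1)).1 ξ.2.1 :=
    ma.comp (measurable_const.prodMk ((mi.comp measurable_fst).fst.prodMk (by fun_prop)))
  have m2 : Measurable fun ξ : XP a b => kw Φ (K.leg L) (fh f₀) b t
      (inLines Φ 0 l (t, ξ.1)).2 ξ.2.2 :=
    mb.comp (measurable_const.prodMk ((mi.comp measurable_fst).snd.prodMk (by fun_prop)))
  have m0 : Measurable fun ξ : XP a b => nw Φ l.2 (t, ξ.1) *
      (kw Φ (K.leg L) (fh f₀) a t (inLines Φ 0 l (t, ξ.1)).1 ξ.2.1 *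
        kw Φ (K.leg L) (fh f₀) b t (inLines Φ 0 l (t, ξ.1)).2 ξ.2.2) :=
    (mn.comp measurable_fst).mul (m1.mul m2)
  unfold xvol
  rw [lintegral_prod _ m0.aemeasurable]
  have h1 : ∀ y : E3 × E2, ∫⁻ r : PD a × PD b, nw Φ l.2 (t, y) *
      (kw Φ (K.leg L) (fh f₀) a t (inLines Φ 0 l (t, y)).1 r.1 *
        kw Φ (K.leg L) (fh f₀) b t (inLines Φ 0 l (t, y)).2 r.2) ∂((pvol a).prod (pvol b)) =
      nw Φ l.2 (t, y) * (K.kd L a t (inLines Φ 0 l (t, y)).1 *
        K.kd L b t (inLines Φ 0 l (t, y)).2) := by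
    intro y
    have m3 : Measurable fun p : PD a => kw Φ (K.leg L) (fh f₀) a t
        (inLines Φ 0 l (t, y)).1 p :=
      ma.comp (by fun_prop : Measurable fun p : PD a => (t, (inLines Φ 0 l (t, y)).1, p))
    have m4 : Measurable fun p : PD b => kw Φ (K.leg L) (fh f₀) b t
        (inLines Φ 0 l (t, y)).2 p :=
      mb.comp (by fun_prop : Measurable fun p : PD b => (t, (inLines Φ 0 l (t, y)).2, p))
    have m5 : Measurable fun r : PD a × PD b =>
        kw Φ (K.leg L) (fh f₀) a t (inLines Φ 0 l (t, y)).1 r.1 *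
        kw Φ (K.leg L) (fh f₀) b t (inLines Φ 0 l (t, y)).2 r.2 :=
      (m3.comp measurable_fst).mul (m4.comp measurable_snd)
    rw [lintegral_const_mul _ m5, lintegral_prod_mul m3.aemeasurable m4.aemeasurable]
    rfl
  simp only [h1]
  have mka := K.measurable_kd L a
  have mkb := K.measurable_kd L b
  have m6 : Measurable fun y : E3 × E2 => nw Φ l.2 (t, y) *
      (K.kd L a t (inLines Φ 0 l (t, y)).1 * K.kd L b t (inLines Φ 0 l (t, y)).2) :=
    mn.mul ((mka.comp (measurable_const.prodMk mi.fst)).mul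
      (mkb.comp (measurable_const.prodMk mi.snd)))
  rw [lintegral_yvol m6]
  unfold KinFamily.nr
  rw [← lintegral_node_Q hΦ (K.measurable_kd_lineAt L a t (l.1 + t • l.2))
    (K.measurable_kd_lineAt L b t (l.1 + t • l.2)) l.2 t]
  have hlin : ∀ w bb, inLines Φ 0 l (t, w, bb) =
      (lineAt t (l.1 + t • l.2) (inVel Φ l.2 (t, w, bb)).1,
        lineAt t (l.1 + t • l.2) (inVel Φ l.2 (t, w, bb)).2) := fun w bb => inLines_zero l _
  simp only [hlin, le_refl]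

open Classical in
/-- **The kinetic bound of In-nd.** -/
theorem kin_nd_le {L : ℕ} (hL : K.L₀ ≤ L + 1) {d : ℕ} (hd : d ≤ L) {t : ℝ}
    (ht : t ∈ Icc 0 T) (l : Ph) :
    ∑ a ∈ shapes (L - 1), ∑ b ∈ shapes (L - 1), (if max a.depth b.depth + 1 = d then
      ∫⁻ ξ, nW (fh f₀) Φ 0 a b t l ξ * (legW Φ (K.leg L) a t (nL Φ 0 t l ξ.1).1 ξ.2.1 *
      legW Φ (K.leg L) b t (nL Φ 0 t l ξ.1).2 ξ.2.2) ∂(xvol a b) else 0) ≤
    Cap.gv (K.nn d) K.b l.2 := by
  refine le_trans ?_ (K.node_rate_le hL (hd.trans (Nat.le_succ L)) ht l)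
  have hsub : shapes (L - 1) ⊆ shapes L := shapes_mono (Nat.sub_le L 1)
  calc _ ≤ ∑ a ∈ shapes (L - 1), ∑ b ∈ shapes (L - 1),
        (if max a.depth b.depth + 1 = d then K.nr L a b t l else 0) := by
        refine Finset.sum_le_sum fun a _ => Finset.sum_le_sum fun b _ => ?_
        by_cases h : max a.depth b.depth + 1 = d
        · rw [if_pos h, if_pos h]
          exact kin_node K L a b t l
        · rw [if_neg h, if_neg h]
    _ ≤ ∑ a ∈ shapes L, ∑ b ∈ shapes (L - 1),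
        (if max a.depth b.depth + 1 = d then K.nr L a b t l else 0) :=
        Finset.sum_le_sum_of_subset hsub
    _ ≤ _ := Finset.sum_le_sum fun a _ => Finset.sum_le_sum_of_subset hsub

/-- The rate along a line. -/
def rhoK (L : ℕ) (l : Ph) (s : ℝ) : ℝ≥0∞ :=
  (K1.collOf hΦ).nu ((K.u (L + 1)).1 s (l.1 + s • l.2)) l.2

theorem leg_eqK (L : ℕ) (s t : ℝ) (l : Ph) :
    K.leg L s t l = en (∫⁻ τ in Ioc s t, rhoK K L l τ) := by
  unfold KinFamily.leg dlg Coll.damp Coll.dampArg rhoK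
  congr 1
  refine lintegral_congr fun τ => ?_
  have e : l.1 + t • l.2 - (t - τ) • l.2 = l.1 + τ • l.2 := by module
  rw [e]

theorem rhoK_le {L : ℕ} (hL : K.L₀ ≤ L + 1) (l : Ph) {s : ℝ} (hs : s ∈ Icc 0 T) :
    rhoK K L l s ≤ ENNReal.ofReal (K.M * ((K1.collOf hΦ).R (K.b / 2) * (1 + ‖l.2‖))) := by
  have hb := K.b0
  refine K.nu_le K.M0 (b := K.b) (by linarith) (fun w => ?_) l.2
  rw [← K.fix (L + 1) hL s hs]
  exact K.psi_le (L + 1) hL (L + 1) s hs _ _

/-- Continuity of the survival weights in the horizon. -/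
theorem tendsto_leg {L : ℕ} (hL : K.L₀ ≤ L + 1) (l : Ph) {s t : ℝ} (hs : 0 ≤ s)
    (ht : t ≤ T) :
    Tendsto (fun δ => K.leg L s (t - δ) l) (𝓝[>] 0) (𝓝 (K.leg L s t l)) := by
  set C : ℝ≥0∞ := ENNReal.ofReal (K.M * ((K1.collOf hΦ).R (K.b / 2) * (1 + ‖l.2‖))) with hC
  have h1 : ∀ δ, 0 < δ → K.leg L s t l ≤ K.leg L s (t - δ) l := by
    intro δ hδ
    rw [leg_eqK, leg_eqK]
    exact en_anti (lintegral_mono_set (Ioc_subset_Ioc_right (by linarith)))
  have h2 : ∀ δ, 0 < δ → K.leg L s (t - δ) l ≤ K.leg L s t l + C * ENNReal.ofReal δ := by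
    intro δ hδ
    rw [leg_eqK, leg_eqK]
    refine en_le_en_add ?_
    have h3 : ∫⁻ τ in Ioc s t, rhoK K L l τ ≤ ∫⁻ τ in Ioc s (t - δ) ∪ (Ioc s t ∩ Ioc (t - δ) t),
        rhoK K L l τ := by
      refine lintegral_mono_set fun τ hτ => ?_
      by_cases h : τ ≤ t - δ
      · exact Or.inl ⟨hτ.1, h⟩
      · exact Or.inr ⟨hτ, not_le.1 h, hτ.2⟩
    refine h3.trans ((lintegral_union_le _ _ _).trans (add_le_add le_rfl ?_))
    calc ∫⁻ τ in Ioc s t ∩ Ioc (t - δ) t, rhoK K L l τ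
        ≤ ∫⁻ _ in Ioc s t ∩ Ioc (t - δ) t, C := by
          refine setLIntegral_mono' (measurableSet_Ioc.inter measurableSet_Ioc) fun τ hτ => ?_
          exact rhoK_le K hL l ⟨hs.trans hτ.1.1.le, hτ.1.2.trans ht⟩
      _ = C * volume (Ioc s t ∩ Ioc (t - δ) t) := setLIntegral_const _ _
      _ ≤ C * volume (Ioc (t - δ) t) := by gcongr; exact inter_subset_right
      _ = C * ENNReal.ofReal δ := by
          rw [Real.volume_Ioc]
          congr 2
          ring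
  have h3 : Tendsto (fun δ : ℝ => K.leg L s t l + C * ENNReal.ofReal δ) (𝓝[>] 0)
      (𝓝 (K.leg L s t l + C * ENNReal.ofReal 0)) := by
    refine Tendsto.add tendsto_const_nhds (ENNReal.Tendsto.const_mul ?_
      (Or.inr ENNReal.ofReal_ne_top))
    exact (ENNReal.continuous_ofReal.tendsto 0).mono_left nhdsWithin_le_nhds
  rw [ENNReal.ofReal_zero, mul_zero, add_zero] at h3
  refine tendsto_of_tendsto_of_tendsto_of_le_of_le' tendsto_const_nhds h3 ?_ ?_
  · filter_upwards [self_mem_nhdsWithin] with δ hδ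
    exact h1 δ hδ
  · filter_upwards [self_mem_nhdsWithin] with δ hδ
    exact h2 δ hδ

end kin

end Vale.Agent.P119.ML
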