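import Vale.Agent.P119.ML.InI1b
import Vale.Agent.P119.ML.InRGen
import Vale.Agent.P119.ML.NdKin
import Vale.Agent.P119.KT.GenHit

/-!
# P119, block ML (In-I1, `helper667`): genericity of the two subtrees of a node

* `ncmp_tendsto`: the leaves of a tree are far from the configuration with high probability;
* `GAB`, `ae_GAB`, `gab_gen`: for almost all parameters the two subtrees form a generic forest;
* `inI1_of_gen`: `InI1` from the convergence of the survival probabilities and of the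
  probabilities `Dp` for generic forests.
-/

open MeasureTheory Filter Topology Set
open scoped ENNReal NNReal

noncomputable section

namespace Vale.Agent.P119.Cap

open KU M KT ML GC

variable {Φ : E3 → ℝ} {ε : ℝ} {f₀ : Ph → ℝ} {L : ℕ} {Tm : ℝ} {a b : Shape}

/-! ### Compatibility -/

theorem cmpF_ord {τ : Shape} {z : Fin τ.card → Ph} {w : Finset Ph} :
    CmpF ε [τ.ord z] w ↔ Cmp (Cx ε) z w := by
  unfold CmpF Cmp Cx
  constructor
  · intro h i a ha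
    rw [norm_sub_rev]
    exact h a ha (src (z i)) (by
      rw [lvs_cons, lvs_nil, union_empty]; exact mem_leaves_ord.2 ⟨i, rfl⟩)
  · intro h a ha σ hσ
    rw [lvs_cons, lvs_nil, union_empty] at hσ
    obtain ⟨i, rfl⟩ := mem_leaves_ord.1 hσ
    have := h i a ha
    rw [norm_sub_rev] at this
    exact this

theorem lintegral_indK {X : Type*} [MeasurableSpace X] {μ : Measure X} {P : X → Prop}
    (h : MeasurableSet {x | P x}) : ∫⁻ x, ind (P x) ∂μ = μ {x | P x} := by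
  have h1 : (fun x => ind (P x)) = {x | P x}.indicator fun _ => (1 : ℝ≥0∞) := by
    funext x
    by_cases hx : P x
    · rw [ind_of_true hx, indicator_of_mem (by exact hx)]
    · rw [ind_of_false hx, indicator_of_notMem (by exact hx)]
  rw [h1, lintegral_indicator h, lintegral_one, Measure.restrict_apply_univ]

theorem measurableSet_not_cmp {n : ℕ} (z : Fin n → Ph) :
    MeasurableSet {c : Conf Ph | ¬Cmp (Cx ε) z (pts c)} := by
  have h1 := measurableSet_Cmp (measurableSet_Cx ε) n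
  have h2 : Measurable fun c : Conf Ph => (z, c) := measurable_const.prodMk measurable_id
  exact (h2 h1).compl

theorem ncmp_mkL_le {κ : ℝ} (hg : GoodDatum f₀ κ) (hε : 0 < ε) (z : LD a) (z' : LD b) :
    ncmp ε f₀ [mkL a z, mkL b z'] ≤ (a.card : ℝ≥0∞) * ENNReal.ofReal (κ * ε) +
      (b.card : ℝ≥0∞) * ENNReal.ofReal (κ * ε) := by
  refine le_trans ?_ (add_le_add (prob_not_cmp_le hg hε (ldEquiv a z))
    (prob_not_cmp_le hg hε (ldEquiv b z')))
  unfold ncmp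
  rw [← lintegral_indK (measurableSet_not_cmp _), ← lintegral_indK (measurableSet_not_cmp _),
    ← lintegral_add_left (measurable_ind (measurableSet_not_cmp _))]
  refine lintegral_mono fun c => ?_
  rw [mkL_eq_ord, mkL_eq_ord]
  beta_reduce
  by_cases h : CmpF ε [a.ord (ldEquiv a z), b.ord (ldEquiv b z')] (pts c)
  · rw [ind_of_false (not_not.2 h)]
    exact zero_le
  rw [ind_of_true h]
  rw [cmpF_cons, cmpF_ord, cmpF_ord, not_and_or] at h
  rcases h with h | h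
  · rw [ind_of_true h]
    exact le_self_add
  · rw [ind_of_true (P := ¬Cmp (Cx ε) (ldEquiv b z') (pts c)) h]
    exact le_add_self

theorem ncmp_tendsto {κ : ℝ} (hg : GoodDatum f₀ κ) (z : ℝ → LD a) (z' : ℝ → LD b) :
    Tendsto (fun ε => ncmp ε f₀ [mkL a (z ε), mkL b (z' ε)]) (𝓝[>] 0) (𝓝 0) := by
  have h0 : Tendsto (fun ε : ℝ => ENNReal.ofReal (κ * ε)) (𝓝[>] 0) (𝓝 0) := by
    have h1 : Tendsto (fun ε : ℝ => κ * ε) (𝓝[>] 0) (𝓝 (κ * 0)) :=
      (tendsto_const_nhds.mul tendsto_id).mono_left nhdsWithin_le_nhds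
    rw [mul_zero] at h1
    have h2 := ENNReal.tendsto_ofReal h1
    rw [ENNReal.ofReal_zero] at h2
    exact h2
  have h1 : Tendsto (fun ε : ℝ => (a.card : ℝ≥0∞) * ENNReal.ofReal (κ * ε) +
      (b.card : ℝ≥0∞) * ENNReal.ofReal (κ * ε)) (𝓝[>] 0) (𝓝 (a.card * 0 + b.card * 0)) :=
    (ENNReal.Tendsto.const_mul h0 (Or.inr (ENNReal.natCast_ne_top _))).add
      (ENNReal.Tendsto.const_mul h0 (Or.inr (ENNReal.natCast_ne_top _)))
  rw [mul_zero, mul_zero, add_zero] at h1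
  refine tendsto_of_tendsto_of_tendsto_of_le_of_le' tendsto_const_nhds h1
    (Eventually.of_forall fun _ => zero_le) ?_
  filter_upwards [self_mem_nhdsWithin] with ε hε
  exact ncmp_mkL_le hg hε _ _

/-! ### Genericity -/

/-- The genericity of the two subtrees. -/
def GAB (Φ : E3 → ℝ) (a b : Shape) (t : ℝ) (l : Ph) (ξ : XP a b) : Prop :=
  (Self Φ a (dG Φ false l t ξ.1).1 ξ.2.1 ∧ WNe Φ a (dG Φ false l t ξ.1).1.2 ξ.2.1) ∧
  (Self Φ b (dG Φ true l t ξ.1).1 ξ.2.2 ∧ WNe Φ b (dG Φ true l t ξ.1).1.2 ξ.2.2) ∧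
  Apart Φ t a (dG Φ false l t ξ.1).1 ξ.2.1 b (dG Φ true l t ξ.1).1 ξ.2.2

/-- The times are ordered. -/
def OAB (a b : Shape) (t : ℝ) (ξ : XP a b) : Prop :=
  (Ordr a ξ.2.1 ∧ Ordr b ξ.2.2) ∧ Bef t a ξ.2.1 ∧ Bef t b ξ.2.2

theorem measurableSet_OAB (a b : Shape) :
    MeasurableSet {x : Ph × (ℝ × XP a b) | OAB a b x.2.1 x.2.2} := by
  have h1 : Measurable fun x : Ph × (ℝ × XP a b) => x.2.2.2.1 := by fun_prop
  have h2 : Measurable fun x : Ph × (ℝ × XP a b) => x.2.2.2.2 := by fun_prop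
  have h3 : Measurable fun x : Ph × (ℝ × XP a b) => (x.2.1, x.2.2.2.1) := by fun_prop
  have h4 : Measurable fun x : Ph × (ℝ × XP a b) => (x.2.1, x.2.2.2.2) := by fun_prop
  exact ((h1 (measurableSet_ordr a)).inter (h2 (measurableSet_ordr b))).inter
    ((h3 (measurableSet_bef a)).inter (h4 (measurableSet_bef b)))

theorem measurableSet_GAB (hΦ : IsPotential Φ) (a b : Shape) :
    MeasurableSet {x : Ph × (ℝ × XP a b) | GAB Φ a b x.2.1 x.1 x.2.2} := by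
  have h0 : Measurable fun x : Ph × (ℝ × XP a b) => ((x.1, x.2.1, x.2.2.1) :
      Ph × ℝ × (E3 × E2)) := by fun_prop
  have hA : Measurable fun x : Ph × (ℝ × XP a b) => (dG Φ false x.1 x.2.1 x.2.2.1).1 :=
    ((measurable_dG hΦ false).comp h0).fst
  have hB : Measurable fun x : Ph × (ℝ × XP a b) => (dG Φ true x.1 x.2.1 x.2.2.1).1 :=
    ((measurable_dG hΦ true).comp h0).fst
  have h1 : Measurable fun x : Ph × (ℝ × XP a b) => x.2.2.2.1 := by fun_prop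
  have h2 : Measurable fun x : Ph × (ℝ × XP a b) => x.2.2.2.2 := by fun_prop
  have h3 : Measurable fun x : Ph × (ℝ × XP a b) => x.2.1 := by fun_prop
  have e1 : MeasurableSet {x : Ph × (ℝ × XP a b) |
      Self Φ a (dG Φ false x.1 x.2.1 x.2.2.1).1 x.2.2.2.1} := (hA.prodMk h1) (measurableSet_self hΦ a)
  have e2 : MeasurableSet {x : Ph × (ℝ × XP a b) |
      WNe Φ a (dG Φ false x.1 x.2.1 x.2.2.1).1.2 x.2.2.2.1} :=
    (hA.snd.prodMk h1) (measurableSet_WNe hΦ a)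
  have e3 : MeasurableSet {x : Ph × (ℝ × XP a b) |
      Self Φ b (dG Φ true x.1 x.2.1 x.2.2.1).1 x.2.2.2.2} := (hB.prodMk h2) (measurableSet_self hΦ b)
  have e4 : MeasurableSet {x : Ph × (ℝ × XP a b) |
      WNe Φ b (dG Φ true x.1 x.2.1 x.2.2.1).1.2 x.2.2.2.2} :=
    (hB.snd.prodMk h2) (measurableSet_WNe hΦ b)
  have e5 : MeasurableSet {x : Ph × (ℝ × XP a b) |
      Apart Φ x.2.1 a (dG Φ false x.1 x.2.1 x.2.2.1).1 x.2.2.2.1 b
        (dG Φ true x.1 x.2.1 x.2.2.1).1 x.2.2.2.2} :=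
    (h3.prodMk ((hA.prodMk h1).prodMk (hB.prodMk h2))) (measurableSet_apart hΦ a b)
  exact (e1.inter e2).inter ((e3.inter e4).inter e5)

theorem measurableSet_OG (hΦ : IsPotential Φ) (a b : Shape) :
    MeasurableSet {x : Ph × (ℝ × XP a b) | OAB a b x.2.1 x.2.2 → GAB Φ a b x.2.1 x.1 x.2.2} :=
  measurableSet_imp (measurableSet_OAB a b) (measurableSet_GAB hΦ a b)

/-- Almost all parameters are generic, for a fixed root line and time. -/
theorem ae_GAB (hΦ : IsPotential Φ) (a b : Shape) (t : ℝ) (l : Ph) :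
    ∀ᵐ ξ ∂(xvol a b), OAB a b t ξ → GAB Φ a b t l ξ := by
  have hm : MeasurableSet {ξ : XP a b | OAB a b t ξ → GAB Φ a b t l ξ} :=
    (by fun_prop : Measurable fun ξ : XP a b => ((l, (t, ξ)) : Ph × (ℝ × XP a b)))
      (measurableSet_OG hΦ a b)
  unfold xvol
  refine (Measure.ae_prod_iff_ae_ae hm).2 ?_
  unfold yvol
  filter_upwards [ae_restrict_of_ae (ae_fst_ne l.2)] with y hy
  have hq : l.2 - ((t, y) : ND).2.1 ≠ 0 := sub_ne_zero.2 hy
  have h1 : nm t (dG Φ false l t y).1 (dG Φ true l t y).1 := fun σ hσ hm =>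
    absurd (nev_inLines hΦ hq hm) hσ.ne
  have q1 := Measure.quasiMeasurePreserving_fst (μ := pvol a) (ν := pvol b)
  have q2 := Measure.quasiMeasurePreserving_snd (μ := pvol a) (ν := pvol b)
  filter_upwards [ae_apart hΦ a b h1, q1.ae (ae_self hΦ a (dG Φ false l t y).1),
    q2.ae (ae_self hΦ b (dG Φ true l t y).1), q1.ae (ae_WNe hΦ a (dG Φ false l t y).1.2),
    q2.ae (ae_WNe hΦ b (dG Φ true l t y).1.2)] with p a1 a2 a3 a4 a5 ho
  exact ⟨⟨a2 ho.1.1, a4⟩, ⟨a3 ho.1.2, a5⟩, a1 ho.2.1 ho.2.2⟩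

/-- Almost all parameters are generic. -/
theorem ae_GAB' (hΦ : IsPotential Φ) (a b : Shape) (Tm : ℝ) :
    ∀ᵐ x : Ph × (ℝ × XP a b) ∂((volume : Measure Ph).prod (tvol Tm a b)),
      OAB a b x.2.1 x.2.2 → GAB Φ a b x.2.1 x.1 x.2.2 := by
  refine (Measure.ae_prod_iff_ae_ae (measurableSet_OG hΦ a b)).2 (Eventually.of_forall fun l => ?_)
  have hm : MeasurableSet {z : ℝ × XP a b | OAB a b z.1 z.2 → GAB Φ a b z.1 l z.2} :=
    (by fun_prop : Measurable fun z : ℝ × XP a b => ((l, z) : Ph × (ℝ × XP a b)))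
      (measurableSet_OG hΦ a b)
  unfold tvol
  exact (Measure.ae_prod_iff_ae_ae hm).2 (Eventually.of_forall fun t => ae_GAB hΦ a b t l)

theorem oab_of_nw {t : ℝ} {v : E3} {ξ : XP a b} (h : ntk Φ 0 a b t v ξ) :
    OAB a b t ξ ∧ Tord a ξ.2.1 ∧ Tord b ξ.2.2 ∧ stm a ξ.2.1 < t ∧ stm b ξ.2.2 < t := by
  obtain ⟨⟨h1, h2⟩, h3, h4⟩ := ntk_zero.1 h
  have t1 := (tok_zero_iff a _ _).1 h1
  have t2 := (tok_zero_iff b _ _).1 h2
  exact ⟨⟨⟨t1.ordr, t2.ordr⟩, t1.bef h3, t2.bef h4⟩, t1, t2, h3, h4⟩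

/-- The two subtrees of a generic node. -/
theorem gab_gen {t : ℝ} {l : Ph} {ξ : XP a b} (ha : a.depth ≤ L) (hb : b.depth ≤ L)
    (hv : nvw Φ a b l.2 ξ ≠ 0) (hk : ntk Φ 0 a b t l.2 ξ) (hG : GAB Φ a b t l ξ) :
    GenG Φ L (gA Φ a b t l ξ) ∧ GenG Φ L (gB Φ a b t l ξ) ∧
      ApartG Φ t (gA Φ a b t l ξ) (gB Φ a b t l ξ) := by
  obtain ⟨-, t1, t2, -, -⟩ := oab_of_nw hk
  obtain ⟨-, g1, g2⟩ := nvw_ne_zero hv
  refine ⟨⟨?_, t1, hG.1.1, hG.1.2, ha⟩, ⟨?_, t2, hG.2.1.1, hG.2.1.2, hb⟩, hG.2.2⟩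
  · have h1 : (dG Φ false l t ξ.1).1.2 = (nV Φ l.2 ξ.1).1 := by
      rw [dG_vel]; rfl
    change good Φ a (dG Φ false l t ξ.1).1.2 ξ.2.1
    rw [h1]
    exact g1
  · have h1 : (dG Φ true l t ξ.1).1.2 = (nV Φ l.2 ξ.1).2 := by
      rw [dG_vel]; rfl
    change good Φ b (dG Φ true l t ξ.1).1.2 ξ.2.2
    rw [h1]
    exact g2

/-- The forest of the two subtrees is generic before the collision. -/
theorem gab_gen2 {t h : ℝ} {l : Ph} {ξ : XP a b} (ha : a.depth ≤ L) (hb : b.depth ≤ L)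
    (hv : nvw Φ a b l.2 ξ ≠ 0) (hk : ntk Φ 0 a b t l.2 ξ) (hG : GAB Φ a b t l ξ) (h0 : 0 < h)
    (hh : h < t) : Gen Φ L [gA Φ a b t l ξ, gB Φ a b t l ξ] h := by
  obtain ⟨h1, h2, h3⟩ := gab_gen ha hb hv hk hG
  refine ⟨h0, fun G hG' => ?_, ?_⟩
  · rcases List.mem_cons.1 hG' with rfl | hG'
    · exact h1
    · rw [List.mem_singleton.1 hG']; exact h2
  · rw [List.pairwise_cons]
    refine ⟨fun G hG' => ?_, List.pairwise_singleton _ _⟩
    rw [List.mem_singleton.1 hG']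
    exact PairG.of_lt (ApT.of_apartG h3) hh

theorem gen_single {G : TG} {h : ℝ} (hG : GenG Φ L G) (h0 : 0 < h) : Gen Φ L [G] h :=
  ⟨h0, fun G' hG' => by rw [List.mem_singleton.1 hG']; exact hG, List.pairwise_singleton _ _⟩

/-! ### The reduction -/

/-- The limit of the survival probability of one generic germ. -/
def SurvLim (Φ : E3 → ℝ) (f₀ : Ph → ℝ) (L : ℕ) (Tm : ℝ) (lg : ℝ → ℝ → Ph → ℝ≥0∞) : Prop :=
  ∀ (G : TG) (t : ℝ), Gen Φ L [G] t → stm G.τ G.p < t → t ≤ Tm →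
    Tendsto (fun ε => surv Φ ε L f₀ [G.tree Φ ε] t) (𝓝[>] 0) (𝓝 (KE.legW Φ lg G.τ t G.ℓ.1 G.p))

/-- The decoupling of two generic germs. -/
def DpLim (Φ : E3 → ℝ) (f₀ : Ph → ℝ) (L : ℕ) (Tm : ℝ) : Prop :=
  ∀ (G G' : TG) (t : ℝ), Gen Φ L [G, G'] t → stm G.τ G.p < t → stm G'.τ G'.p < t → t ≤ Tm →
    Tendsto (fun ε => Dp Φ ε L f₀ [G.tree Φ ε] [] (G'.tree Φ ε) t) (𝓝[>] 0) (𝓝 0)

/-- **In-I1** from the limits for generic germs. -/
theorem inI1_of_gen (hΦ : IsPotential Φ) {κ M β : ℝ} (hg : GoodDatum f₀ κ)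
    (hf : Measurable f₀) (hGD : GD (fh f₀) M β) (hT : 0 ≤ Tm) {lg : ℝ → ℝ → Ph → ℝ≥0∞}
    (h1 : ∀ s t l, lg s t l ≤ 1) (hc : ∀ (l : Ph) (s t : ℝ), 0 ≤ s → t ≤ Tm →
      Tendsto (fun δ => lg s (t - δ) l) (𝓝[>] 0) (𝓝 (lg s t l)))
    (H1 : SurvLim Φ f₀ L Tm lg) (H2 : DpLim Φ f₀ L Tm) : InI1 Φ f₀ L Tm := by
  refine inI1_of_limits hΦ hg hf hGD hT fun a ha b hb => ?_
  have hda : a.depth ≤ L := (mem_shapes.1 ha).trans (Nat.sub_le _ _)
  have hdb : b.depth ≤ L := (mem_shapes.1 hb).trans (Nat.sub_le _ _)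
  have hmem : ∀ᵐ x ∂((volume : Measure Ph).prod (tvol Tm a b)), x.2.1 ∈ Icc 0 Tm :=
    Measure.quasiMeasurePreserving_snd.ae (ae_tvol_mem Tm a b)
  filter_upwards [ae_GAB' hΦ a b Tm, hmem] with x hx hxT hW
  obtain ⟨l, t, ξ⟩ := x
  simp only at hx hxT hW
  have hv : nvw Φ a b l.2 ξ ≠ 0 := fun h0 => hW (by unfold nW; rw [h0, zero_mul])
  have hk : ntk Φ 0 a b t l.2 ξ := by
    by_contra h0
    exact hW (by unfold nW; rw [ind_of_false h0, zero_mul, mul_zero])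
  obtain ⟨ho, t1, t2, s1, s2⟩ := oab_of_nw hk
  have hG := hx ho
  obtain ⟨gA', gB', -⟩ := gab_gen hda hdb hv hk hG
  have p1 : 0 ≤ stm a ξ.2.1 := KT.stm_nonneg a _ t1
  have p2 : 0 ≤ stm b ξ.2.2 := KT.stm_nonneg b _ t2
  have ht0 : 0 < t := p1.trans_lt s1
  -- small `δ`
  have hev : ∀ᶠ δ in 𝓝[>] (0 : ℝ), 0 < δ ∧ stm a ξ.2.1 < t - δ ∧ stm b ξ.2.2 < t - δ := by
    have e0 : Tendsto (fun δ : ℝ => t - δ) (𝓝[>] 0) (𝓝 t) := by
      have : Tendsto (fun δ : ℝ => t - δ) (𝓝[>] 0) (𝓝 (t - 0)) :=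
        (tendsto_const_nhds.sub tendsto_id).mono_left nhdsWithin_le_nhds
      rwa [sub_zero] at this
    filter_upwards [self_mem_nhdsWithin, e0.eventually_const_lt s1, e0.eventually_const_lt s2]
      with δ h1 h2 h3
    exact ⟨h1, h2, h3⟩
  have eA : ∀ ε, (gA Φ a b t l ξ).tree Φ ε = nA Φ ε a b t l ξ := fun ε => gA_tree
  have eB : ∀ ε, (gB Φ a b t l ξ).tree Φ ε = nB Φ ε a b t l ξ := fun ε => gB_tree
  refine PI1_tendsto hΦ hg hv
    (fun h => KE.legW Φ lg a h (dG Φ false l t ξ.1).1 ξ.2.1)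
    (fun h => KE.legW Φ lg b h (dG Φ true l t ξ.1).1 ξ.2.2) ?_ ?_ ?_ ?_ ?_ ?_ ?_ ?_ ?_
  · exact ncmp_tendsto hg (fun ε => bk Φ ε a (nL Φ ε t l ξ.1).1 ξ.2.1)
      (fun ε => bk Φ ε b (nL Φ ε t l ξ.1).2 ξ.2.2)
  · filter_upwards [hev] with δ hδ
    have hg2 := gab_gen2 (h := t - δ) hda hdb hv hk hG (p1.trans_lt hδ.2.1) (by linarith)
    have h3 := H2 (gB Φ a b t l ξ) (gA Φ a b t l ξ) (t - δ)
      (hg2.perm (List.Perm.swap _ _ _)) hδ.2.2 hδ.2.1 (by linarith [hxT.2])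
    simp only [eA, eB] at h3
    exact h3
  · filter_upwards [hev] with δ hδ
    have hg2 := gab_gen2 (h := t - δ) hda hdb hv hk hG (p1.trans_lt hδ.2.1) (by linarith)
    have h3 := H2 (gA Φ a b t l ξ) (gB Φ a b t l ξ) (t - δ) hg2 hδ.2.1 hδ.2.2
      (by linarith [hxT.2])
    simp only [eA, eB] at h3
    exact h3
  · filter_upwards [hev] with δ hδ
    have h3 := H1 (gA Φ a b t l ξ) (t - δ) (gen_single gA' (p1.trans_lt hδ.2.1)) hδ.2.1
      (by linarith [hxT.2])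
    simp only [eA] at h3
    exact h3
  · filter_upwards [hev] with δ hδ
    have h3 := H1 (gB Φ a b t l ξ) (t - δ) (gen_single gB' (p2.trans_lt hδ.2.2)) hδ.2.2
      (by linarith [hxT.2])
    simp only [eB] at h3
    exact h3
  · have h3 := H1 (gA Φ a b t l ξ) t (gen_single gA' ht0) s1 hxT.2
    simp only [eA] at h3
    exact h3
  · have h3 := H1 (gB Φ a b t l ξ) t (gen_single gB' ht0) s2 hxT.2
    simp only [eB] at h3
    exact h3
  · exact tendsto_legW h1 a (hc _ _ _ p1 hxT.2)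
  · exact tendsto_legW h1 b (hc _ _ _ p2 hxT.2)

end Vale.Agent.P119.Cap
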