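import Vale.Agent.P119.ML.InRForm
import Vale.Agent.P119.ML.FM
import Vale.Agent.P119.ML.Germ
import Vale.Agent.P119.KT.Shift
import Vale.Agent.P119.AU.World

/-!
# P119, block ML (In-R, `helper755`): the rate of degenerate collisions

* `bq ε v b y`: the node with exit time `b`; `sgt`: its contact time; `dG`: the germ of the line of
  the tree;
* `PY τ`, `ro τ`: parameters (node, tree) and their measure; `rwt`: the weight; `rT`: the tree;
* `Rr`: the rate.
-/

open MeasureTheory Filter Topology Set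
open scoped ENNReal NNReal

noncomputable section

namespace Vale.Agent.P119.Cap

open KU M KT ML

variable {Φ : E3 → ℝ} {ε : ℝ} {f₀ : Ph → ℝ}

/-! ### The node with a given exit time -/

/-- The node with exit time `b`. -/
def bq (ε : ℝ) (v : E3) (b : ℝ) (y : E3 × E2) : ND := (b - ε * half (outRel v (0, y)), y)

/-- The contact time of the node with exit time `b`. -/
def sgt (Φ : E3 → ℝ) (ε : ℝ) (v : E3) (b : ℝ) (y : E3 × E2) : ℝ :=
  b - ε * half (outRel v (0, y)) + ε * tin (inRel Φ v (0, y))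

theorem inRel_congr (v : E3) (s s' : ℝ) (y : E3 × E2) :
    inRel Φ v (s, y) = inRel Φ v (s', y) := by
  rw [inRel_def, inRel_def, outRel_congr v s s' y]

theorem inVel_congr (v : E3) (s s' : ℝ) (y : E3 × E2) :
    inVel Φ v (s, y) = inVel Φ v (s', y) := by
  rw [inVel_def, inVel_def, outRel_congr v s s' y, inRel_congr v s s' y]

theorem mem_gn_congr (v : E3) (s s' : ℝ) (y : E3 × E2) :
    ((s, y) : ND) ∈ gn Φ v ↔ ((s', y) : ND) ∈ gn Φ v := by
  have h : ∀ r : ℝ, ((r, y) : ND) ∈ gn Φ v ↔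
      (v - y.1 ≠ 0 ∧ ‖y.2‖ < 1 ∧ Exits Φ (rev (outRel v (r, y)))) := fun r => Iff.rfl
  rw [h, h, outRel_congr v s s' y]

theorem nw_congr (v : E3) (s s' : ℝ) (y : E3 × E2) : nw Φ v (s, y) = nw Φ v (s', y) := by
  by_cases h : ((s, y) : ND) ∈ gn Φ v
  · rw [nw_of_mem h, nw_of_mem ((mem_gn_congr v s s' y).1 h)]
  · rw [nw_of_notMem h, nw_of_notMem fun h' => h ((mem_gn_congr v s s' y).2 h')]

/-- The germ of the line of the tree. -/
def dG (Φ : E3 → ℝ) (k : Bool) (L : Ph) (b : ℝ) (y : E3 × E2) : LG :=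
  (tlk k (inLines Φ 0 L (b, y)),
    if k then -((half (outRel L.2 (0, y)) / 2) •
        ((outRel L.2 (0, y)).2 + (inRel Φ L.2 (0, y)).2)) -
        (1 / 2 : ℝ) • ((inRel Φ L.2 (0, y)).1 + (outRel L.2 (0, y)).1)
    else -((half (outRel L.2 (0, y)) / 2) •
        ((outRel L.2 (0, y)).2 - (inRel Φ L.2 (0, y)).2)) +
        (1 / 2 : ℝ) • ((inRel Φ L.2 (0, y)).1 - (outRel L.2 (0, y)).1))

theorem lat_dG (ε : ℝ) (k : Bool) (L : Ph) (b : ℝ) (y : E3 × E2) :
    lat ε (dG Φ k L b y) = tlk k (inLines Φ ε L (bq ε L.2 b y)) := by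
  have h1 := outRel_congr L.2 (b - ε * half (outRel L.2 (0, y))) 0 y
  have h2 := inRel_congr (Φ := Φ) L.2 (b - ε * half (outRel L.2 (0, y))) 0 y
  have h3 := inVel_congr (Φ := Φ) L.2 (b - ε * half (outRel L.2 (0, y))) 0 y
  have h4 := outRel_congr L.2 b 0 y
  have h5 := inRel_congr (Φ := Φ) L.2 b 0 y
  have h6 := inVel_congr (Φ := Φ) L.2 b 0 y
  cases k
  · unfold lat dG tlk bq
    simp only [inLines_def, Bool.false_eq_true, if_false, h1, h2, h3, h4, h5, h6]
    ext1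
    · simp only; module
    · rfl
  · unfold lat dG tlk bq
    simp only [inLines_def, if_true, h1, h2, h3, h4, h5, h6]
    ext1
    · simp only; module
    · rfl

/-- The velocity of the line of the tree. -/
theorem dG_vel (k : Bool) (L : Ph) (b : ℝ) (y : E3 × E2) :
    (dG Φ k L b y).1.2 = if k then (inVel Φ L.2 (0, y)).2 else (inVel Φ L.2 (0, y)).1 := by
  have h6 := inVel_congr (Φ := Φ) L.2 b 0 y
  cases k
  · unfold dG tlk
    simp only [Bool.false_eq_true, if_false]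
    rw [inLines_def]
    simp only [h6]
  · unfold dG tlk
    simp only [if_true]
    rw [inLines_def]
    simp only [h6]

/-- The outgoing particle keeps the velocity of the free line. -/
def dgn (Φ : E3 → ℝ) (k : Bool) (v : E3) (y : E3 × E2) : Prop :=
  (if k then (inVel Φ v (0, y)).1 else (inVel Φ v (0, y)).2) = v

theorem dG_vel_of_dgn {k : Bool} {L : Ph} (b : ℝ) {y : E3 × E2} (h : dgn Φ k L.2 y) :
    (dG Φ k L b y).1.2 = y.1 := by
  rw [dG_vel]
  have h1 := inVel_sum (Φ := Φ) L.2 ((0, y) : ND)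
  unfold dgn at h
  cases k
  · simp only [Bool.false_eq_true, if_false] at h ⊢
    rw [h] at h1
    have h2 : (inVel Φ L.2 (0, y)).1 + L.2 = y.1 + L.2 := by rw [h1]; exact add_comm _ _
    exact add_right_cancel h2
  · simp only [if_true] at h ⊢
    rw [h] at h1
    exact add_left_cancel h1

/-! ### Measurability -/

theorem measurable_outRel0 {X : Type*} [MeasurableSpace X] {v : X → E3} {y : X → E3 × E2}
    (hv : Measurable v) (hy : Measurable y) : Measurable fun x => outRel (v x) ((0 : ℝ), y x) :=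
  measurable_outRel.comp (hv.prodMk (measurable_const.prodMk hy))

theorem measurable_inRel0 {X : Type*} [MeasurableSpace X] (hΦ : IsPotential Φ) {v : X → E3}
    {y : X → E3 × E2} (hv : Measurable v) (hy : Measurable y) :
    Measurable fun x => inRel Φ (v x) ((0 : ℝ), y x) :=
  (measurable_inRel hΦ).comp (hv.prodMk (measurable_const.prodMk hy))

theorem measurable_inVel0 {X : Type*} [MeasurableSpace X] (hΦ : IsPotential Φ) {v : X → E3}
    {y : X → E3 × E2} (hv : Measurable v) (hy : Measurable y) :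
    Measurable fun x => inVel Φ (v x) ((0 : ℝ), y x) :=
  (measurable_inVel hΦ).comp (hv.prodMk (measurable_const.prodMk hy))

theorem measurable_sgt (hΦ : IsPotential Φ) (ε : ℝ) :
    Measurable fun x : E3 × ℝ × (E3 × E2) => sgt Φ ε x.1 x.2.1 x.2.2 := by
  have h1 : Measurable fun x : E3 × ℝ × (E3 × E2) => half (outRel x.1 ((0 : ℝ), x.2.2)) :=
    measurable_half.comp (measurable_outRel0 measurable_fst (by fun_prop))
  have h2 : Measurable fun x : E3 × ℝ × (E3 × E2) => tin (inRel Φ x.1 ((0 : ℝ), x.2.2)) :=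
    measurable_tin.comp (measurable_inRel0 hΦ measurable_fst (by fun_prop))
  have h3 : Measurable fun x : E3 × ℝ × (E3 × E2) => x.2.1 := by fun_prop
  exact (h3.sub (h1.const_mul ε)).add (h2.const_mul ε)

theorem measurable_bq (ε : ℝ) :
    Measurable fun x : E3 × ℝ × (E3 × E2) => bq ε x.1 x.2.1 x.2.2 := by
  have h1 : Measurable fun x : E3 × ℝ × (E3 × E2) => half (outRel x.1 ((0 : ℝ), x.2.2)) :=
    measurable_half.comp (measurable_outRel0 measurable_fst (by fun_prop))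
  have h3 : Measurable fun x : E3 × ℝ × (E3 × E2) => x.2.1 := by fun_prop
  exact (h3.sub (h1.const_mul ε)).prodMk (by fun_prop)

theorem measurableSet_dgn (hΦ : IsPotential Φ) (k : Bool) :
    MeasurableSet {x : E3 × (E3 × E2) | dgn Φ k x.1 x.2} := by
  have h1 := measurable_inVel0 hΦ (X := E3 × (E3 × E2)) measurable_fst measurable_snd
  cases k
  · exact measurableSet_eq_fun h1.snd measurable_fst
  · exact measurableSet_eq_fun h1.fst measurable_fst

theorem measurable_dG (hΦ : IsPotential Φ) (k : Bool) :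
    Measurable fun x : Ph × ℝ × (E3 × E2) => dG Φ k x.1 x.2.1 x.2.2 := by
  have hv : Measurable fun x : Ph × ℝ × (E3 × E2) => x.1.2 := by fun_prop
  have hy : Measurable fun x : Ph × ℝ × (E3 × E2) => x.2.2 := by fun_prop
  have ho := measurable_outRel0 hv hy
  have hi := measurable_inRel0 hΦ hv hy
  have hh := (measurable_half.comp ho).div_const 2
  simp only [Function.comp_def] at hh
  have hL : Measurable fun x : Ph × ℝ × (E3 × E2) =>
      inLines Φ 0 x.1 ((x.2.1, x.2.2) : ND) :=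
    (measurable_inLines hΦ 0).comp (by fun_prop)
  unfold dG
  refine ((measurable_tlk k).comp hL).prodMk ?_
  cases k
  · simp only [Bool.false_eq_true, if_false]
    exact ((hh.smul (ho.snd.sub hi.snd)).neg).add ((hi.fst.sub ho.fst).const_smul (1 / 2 : ℝ))
  · simp only [if_true]
    exact ((hh.smul (ho.snd.add hi.snd)).neg).sub ((hi.fst.add ho.fst).const_smul (1 / 2 : ℝ))

/-! ### The weight and the rate -/

/-- The parameters of the node and of the tree. -/
abbrev PY (τ : Shape) := (E3 × E2) × PD τ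

/-- The measure on the parameters. -/
def ro (τ : Shape) : Measure (PY τ) :=
  ((volume : Measure (E3 × E2)).restrict {y | ‖y.2‖ < 1}).prod (pvol τ)

instance instSigmaFiniteRo (τ : Shape) : SigmaFinite (ro τ) := by unfold ro; infer_instance

/-- The set of the admissible parameters. -/
def rset (Φ : E3 → ℝ) (ε : ℝ) (k : Bool) (τ : Shape) (L : Ph) (b : ℝ) : Set (PY τ) :=
  {x | dgn Φ k L.2 x.1 ∧ tok Φ ε τ (dG Φ k L b x.1).1.2 x.2 ∧
    ex ε τ (dG Φ k L b x.1).1.2 x.2 < sgt Φ ε L.2 b x.1}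

/-- The weight. -/
def rwt (g : Ph → ℝ≥0∞) (Φ : E3 → ℝ) (ε : ℝ) (k : Bool) (τ : Shape) (L : Ph) (b : ℝ)
    (x : PY τ) : ℝ≥0∞ :=
  nw Φ L.2 (0, x.1) * (KT.wt Φ τ (dG Φ k L b x.1).1.2 x.2 * (rset Φ ε k τ L b).indicator
    (fun x => lprod g τ (bk Φ ε τ (lat ε (dG Φ k L b x.1)) x.2)) x)

/-- The tree. -/
def rT (Φ : E3 → ℝ) (ε : ℝ) (k : Bool) (τ : Shape) (L : Ph) (b : ℝ) (x : PY τ) : CTree :=
  (⟨τ, dG Φ k L b x.1, x.2⟩ : TG).tree Φ ε

/-- The rate of the degenerate collisions. -/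
def Rr (Φ : E3 → ℝ) (f₀ : Ph → ℝ) (Lm j : ℕ) (k : Bool) (ε : ℝ) (c : GC.Conf Ph) (b : ℝ)
    (L : Ph) : ℝ≥0∞ :=
  ∑ τ ∈ (shapes Lm).filter (fun τ => τ.depth = j), ∫⁻ x, rwt (fun z => ENNReal.ofReal (f₀ z))
    Φ ε k τ L b x * ind (ALt Φ ε Lm (GC.pts c : Set Ph) (rT Φ ε k τ L b x)
      (sgt Φ ε L.2 b x.1)) ∂(ro τ)

theorem measurableSet_rset (hΦ : IsPotential Φ) (ε : ℝ) (k : Bool) (τ : Shape) :
    MeasurableSet {x : (ℝ × Ph) × PY τ | x.2 ∈ rset Φ ε k τ x.1.2 x.1.1} := by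
  have hG := (measurable_dG hΦ k).comp (by fun_prop : Measurable fun x : (ℝ × Ph) × PY τ =>
    ((x.1.2, x.1.1, x.2.1) : Ph × ℝ × (E3 × E2)))
  have hv : Measurable fun x : (ℝ × Ph) × PY τ => ((dG Φ k x.1.2 x.1.1 x.2.1).1.2, x.2.2) :=
    hG.fst.snd.prodMk (by fun_prop)
  have hs := (measurable_sgt hΦ ε).comp (by fun_prop : Measurable fun x : (ℝ × Ph) × PY τ =>
    ((x.1.2.2, x.1.1, x.2.1) : E3 × ℝ × (E3 × E2)))
  have hd : Measurable fun x : (ℝ × Ph) × PY τ => (x.1.2.2, x.2.1) := by fun_prop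
  exact (hd (measurableSet_dgn hΦ k)).inter ((hv (measurableSet_tok hΦ ε τ)).inter
    (measurableSet_lt ((measurable_ex ε τ).comp hv) hs))

theorem measurable_rwt (hΦ : IsPotential Φ) {g : Ph → ℝ≥0∞} (hg : Measurable g) (ε : ℝ)
    (k : Bool) (τ : Shape) :
    Measurable fun x : (ℝ × Ph) × PY τ => rwt g Φ ε k τ x.1.2 x.1.1 x.2 := by
  have hG := (measurable_dG hΦ k).comp (by fun_prop : Measurable fun x : (ℝ × Ph) × PY τ =>
    ((x.1.2, x.1.1, x.2.1) : Ph × ℝ × (E3 × E2)))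
  have hv : Measurable fun x : (ℝ × Ph) × PY τ => ((dG Φ k x.1.2 x.1.1 x.2.1).1.2, x.2.2) :=
    hG.fst.snd.prodMk (by fun_prop)
  have hb : Measurable fun x : (ℝ × Ph) × PY τ =>
      bk Φ ε τ (lat ε (dG Φ k x.1.2 x.1.1 x.2.1)) x.2.2 :=
    (measurable_bk hΦ ε τ).comp (((measurable_lat ε).comp hG).prodMk (by fun_prop))
  have hn0 : Measurable fun x : (ℝ × Ph) × PY τ => ((x.1.2.2, ((0 : ℝ), x.2.1)) : E3 × ND) := by
    fun_prop
  have hn : Measurable fun x : (ℝ × Ph) × PY τ => nw Φ x.1.2.2 ((0 : ℝ), x.2.1) :=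
    (measurable_nw hΦ).comp hn0
  have h1 : (fun x : (ℝ × Ph) × PY τ => (rset Φ ε k τ x.1.2 x.1.1).indicator
      (fun y => lprod g τ (bk Φ ε τ (lat ε (dG Φ k x.1.2 x.1.1 y.1)) y.2)) x.2) =
      {x : (ℝ × Ph) × PY τ | x.2 ∈ rset Φ ε k τ x.1.2 x.1.1}.indicator
      (fun x => lprod g τ (bk Φ ε τ (lat ε (dG Φ k x.1.2 x.1.1 x.2.1)) x.2.2)) := by
    funext x
    by_cases h : x.2 ∈ rset Φ ε k τ x.1.2 x.1.1
    · rw [indicator_of_mem h, indicator_of_mem (by exact h)]
    · rw [indicator_of_notMem h, indicator_of_notMem (by exact h)]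
  unfold rwt
  refine hn.mul (((KT.measurable_wt hΦ τ).comp hv).mul ?_)
  rw [h1]
  exact ((measurable_lprod hg τ).comp hb).indicator (measurableSet_rset hΦ ε k τ)

theorem measurable_rT (hΦ : IsPotential Φ) (ε : ℝ) (k : Bool) (τ : Shape) :
    Measurable fun x : (ℝ × Ph) × PY τ => rT Φ ε k τ x.1.2 x.1.1 x.2 := by
  have hG := (measurable_dG hΦ k).comp (by fun_prop : Measurable fun x : (ℝ × Ph) × PY τ =>
    ((x.1.2, x.1.1, x.2.1) : Ph × ℝ × (E3 × E2)))
  exact (measurable_tree_germ hΦ ε τ).comp (hG.prodMk (by fun_prop))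

theorem measurableSet_ALtk (hΦ : IsPotential Φ) (hε : 0 < ε) {X : Type*} [MeasurableSpace X]
    {c : X → GC.Conf Ph} {T : X → CTree} {t : X → ℝ} (hc : Measurable c) (hT : Measurable T)
    (ht : Measurable t) (Lm : ℕ) :
    MeasurableSet {x | ALt Φ ε Lm (GC.pts (c x) : Set Ph) (T x) (t x)} :=
  MM.measurableSet_tree_alive hΦ hε (MM.RS.union_leaves (MM.RS.world_pts hc) hT) hT ht

theorem measurable_rwt_ind (hΦ : IsPotential Φ) (hε : 0 < ε) {g : Ph → ℝ≥0∞} (hg : Measurable g)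
    (k : Bool) (Lm : ℕ) (τ : Shape) :
    Measurable fun x : (GC.Conf Ph × ℝ × Ph) × PY τ =>
      rwt g Φ ε k τ x.1.2.2 x.1.2.1 x.2 *
        ind (ALt Φ ε Lm (GC.pts x.1.1 : Set Ph) (rT Φ ε k τ x.1.2.2 x.1.2.1 x.2)
          (sgt Φ ε x.1.2.2.2 x.1.2.1 x.2.1)) := by
  have h0 : Measurable fun x : (GC.Conf Ph × ℝ × Ph) × PY τ => (x.1.2, x.2) := by fun_prop
  have h1 := (measurable_rwt hΦ hg ε k τ).comp h0
  have h2 := (measurable_rT hΦ ε k τ).comp h0
  have h3 := (measurable_sgt hΦ ε).comp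
    (by fun_prop : Measurable fun x : (GC.Conf Ph × ℝ × Ph) × PY τ =>
      ((x.1.2.2.2, x.1.2.1, x.2.1) : E3 × ℝ × (E3 × E2)))
  exact h1.mul (measurable_ind (measurableSet_ALtk hΦ hε (measurable_fst.comp measurable_fst)
    h2 h3 Lm))

theorem measurable_Rr (hΦ : IsPotential Φ) (hf : Measurable f₀) (Lm j : ℕ) (k : Bool)
    (hε : 0 < ε) : Measurable fun p : GC.Conf Ph × ℝ × Ph => Rr Φ f₀ Lm j k ε p.1 p.2.1 p.2.2 := by
  unfold Rr
  exact Finset.measurable_fun_sum _ fun τ _ =>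
    (measurable_rwt_ind hΦ hε hf.ennreal_ofReal k Lm τ).lintegral_prod_right'

end Vale.Agent.P119.Cap
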