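import Vale.Agent.P119.ML.TreeL1
import Vale.Agent.P119.ML.InRDef
import Vale.Agent.P119.ML.CapSplit

/-!
# P119, block ML (In-nd, `helper67`): the density of the nondegenerate alive trees

* `gA`, `gB`: the germs of the two subtrees of a node (`gA_tree`, `gB_tree`);
* `nt`: the tree; `ndv`: nondegenerate parameters;
* `Nab`, `Nd`: the density; `measurable_Nd`, `ndens_le`.
-/

open MeasureTheory Filter Topology Set
open scoped ENNReal NNReal

noncomputable section

namespace Vale.Agent.P119.Cap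

open KU M KT ML

variable {Φ : E3 → ℝ} {ε : ℝ} {f₀ : Ph → ℝ} {a b : Shape} {t : ℝ} {l : Ph} {ξ : XP a b}

/-- The germ of the first subtree. -/
def gA (Φ : E3 → ℝ) (a b : Shape) (t : ℝ) (l : Ph) (ξ : XP a b) : TG :=
  ⟨a, dG Φ false l t ξ.1, ξ.2.1⟩

/-- The germ of the second subtree. -/
def gB (Φ : E3 → ℝ) (a b : Shape) (t : ℝ) (l : Ph) (ξ : XP a b) : TG :=
  ⟨b, dG Φ true l t ξ.1, ξ.2.2⟩

theorem lat_dG_false (ε t : ℝ) (l : Ph) (y : E3 × E2) :
    lat ε (dG Φ false l t y) = (nL Φ ε t l y).1 := by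
  rw [lat_dG]
  rfl

theorem lat_dG_true (ε t : ℝ) (l : Ph) (y : E3 × E2) :
    lat ε (dG Φ true l t y) = (nL Φ ε t l y).2 := by
  rw [lat_dG]
  rfl

theorem gA_tree : (gA Φ a b t l ξ).tree Φ ε = nA Φ ε a b t l ξ := by
  rw [TG.tree_def]
  unfold gA nA
  simp only
  rw [lat_dG_false]

theorem gB_tree : (gB Φ a b t l ξ).tree Φ ε = nB Φ ε a b t l ξ := by
  rw [TG.tree_def]
  unfold gB nB
  simp only
  rw [lat_dG_true]

/-- The tree of the parameters. -/
def nt (Φ : E3 → ℝ) (ε : ℝ) (a b : Shape) (t : ℝ) (l : Ph) (ξ : XP a b) : CTree :=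
  .node (nA Φ ε a b t l ξ) (nB Φ ε a b t l ξ)

/-- The outgoing velocity is not an incoming velocity. -/
def ndv (Φ : E3 → ℝ) (v : E3) (y : E3 × E2) : Prop := v ≠ (nV Φ v y).1 ∧ v ≠ (nV Φ v y).2

theorem nondeg_nt (hΦ : IsPotential Φ) (hε : ε ≠ 0) (h : nvw Φ a b l.2 ξ ≠ 0) :
    nondeg Φ ε (nt Φ ε a b t l ξ) ↔ ndv Φ l.2 ξ.1 := by
  change ((CTree.ln Φ ε (.node (nA Φ ε a b t l ξ) (nB Φ ε a b t l ξ))).2 ≠
    (CTree.ln Φ ε (nA Φ ε a b t l ξ)).2 ∧
    (CTree.ln Φ ε (.node (nA Φ ε a b t l ξ) (nB Φ ε a b t l ξ))).2 ≠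
    (CTree.ln Φ ε (nB Φ ε a b t l ξ)).2) ↔ _
  unfold ndv
  rw [ML.ln_node hΦ hε h, ln_nA hΦ hε h, ln_nB hΦ hε h, (nL_snd _ _ _).1, (nL_snd _ _ _).2]

/-! ### Measurability -/

theorem measurable_nAx (hΦ : IsPotential Φ) (ε : ℝ) (a b : Shape) :
    Measurable fun x : (ℝ × Ph) × XP a b => nA Φ ε a b x.1.1 x.1.2 x.2 := by
  have h1 : Measurable fun x : (ℝ × Ph) × XP a b => ((x.1.2, x.1.1), x.2.1) := by fun_prop
  have h2 := (measurable_nL hΦ ε).comp h1
  exact (ML.measurable_mkL a).comp ((measurable_bk hΦ ε a).comp (h2.fst.prodMk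
    (by fun_prop : Measurable fun x : (ℝ × Ph) × XP a b => x.2.2.1)))

theorem measurable_nBx (hΦ : IsPotential Φ) (ε : ℝ) (a b : Shape) :
    Measurable fun x : (ℝ × Ph) × XP a b => nB Φ ε a b x.1.1 x.1.2 x.2 := by
  have h1 : Measurable fun x : (ℝ × Ph) × XP a b => ((x.1.2, x.1.1), x.2.1) := by fun_prop
  have h2 := (measurable_nL hΦ ε).comp h1
  exact (ML.measurable_mkL b).comp ((measurable_bk hΦ ε b).comp (h2.snd.prodMk
    (by fun_prop : Measurable fun x : (ℝ × Ph) × XP a b => x.2.2.2)))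

theorem measurable_nt (hΦ : IsPotential Φ) (ε : ℝ) (a b : Shape) :
    Measurable fun x : (ℝ × Ph) × XP a b => nt Φ ε a b x.1.1 x.1.2 x.2 :=
  measurable_node.comp ((measurable_nAx hΦ ε a b).prodMk (measurable_nBx hΦ ε a b))

theorem measurableSet_ndv (hΦ : IsPotential Φ) :
    MeasurableSet {x : E3 × (E3 × E2) | ndv Φ x.1 x.2} := by
  have h := measurable_nV (Φ := Φ) hΦ
  exact (measurableSet_eq_fun measurable_fst h.fst).compl.inter
    (measurableSet_eq_fun measurable_fst h.snd).compl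

/-! ### The density -/

variable (Φ f₀) in
/-- The density of the trees of shape `node a b`. -/
def Nab (L : ℕ) (Tm : ℝ) (a b : Shape) (ε : ℝ) (c : GC.Conf Ph) (t : ℝ) (l : Ph) : ℝ≥0∞ :=
  ∫⁻ ξ, nW (fh f₀) Φ ε a b t l ξ * ind (nt Φ ε a b t l ξ ∈ AL Φ ε L Tm (GC.pts c : Set Ph) ∧
    nondeg Φ ε (nt Φ ε a b t l ξ)) ∂(xvol a b)

variable (Φ f₀) in
/-- The density of the nondegenerate alive trees of depth `d`. -/
def Nd (L : ℕ) (Tm : ℝ) (d : ℕ) (ε : ℝ) (c : GC.Conf Ph) (t : ℝ) (l : Ph) : ℝ≥0∞ :=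
  ∑ a ∈ shapes (L - 1), ∑ b ∈ shapes (L - 1),
    if max a.depth b.depth + 1 = d then Nab Φ f₀ L Tm a b ε c t l else 0

theorem measurable_Nab (hΦ : IsPotential Φ) (hε : 0 < ε) (hf : Measurable f₀) (L : ℕ) (Tm : ℝ)
    (a b : Shape) :
    Measurable fun p : GC.Conf Ph × ℝ × Ph => Nab Φ f₀ L Tm a b ε p.1 p.2.1 p.2.2 := by
  unfold Nab
  have h0 : Measurable fun x : (GC.Conf Ph × ℝ × Ph) × XP a b => (x.1.2, x.2) := by fun_prop
  have hT := (measurable_nt hΦ ε a b).comp h0
  have hc : Measurable fun x : (GC.Conf Ph × ℝ × Ph) × XP a b => x.1.1 := by fun_prop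
  have h1 := measurableSet_AL (L := L) (Tm := Tm) hΦ hε hc hT
  have h2 := hT (measurableSet_nondeg hΦ hε.ne')
  have h3 : Measurable fun x : (GC.Conf Ph × ℝ × Ph) × XP a b =>
      nW (fh f₀) Φ ε a b x.1.2.1 x.1.2.2 x.2 :=
    (measurable_nW hΦ (measurable_fh hf) ε a b).comp
      (by fun_prop : Measurable fun x : (GC.Conf Ph × ℝ × Ph) × XP a b =>
        (x.1.2.2, (x.1.2.1, x.2)))
  have h4 : Measurable fun x : (GC.Conf Ph × ℝ × Ph) × XP a b =>
      ind (nt Φ ε a b x.1.2.1 x.1.2.2 x.2 ∈ AL Φ ε L Tm (GC.pts x.1.1 : Set Ph) ∧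
        nondeg Φ ε (nt Φ ε a b x.1.2.1 x.1.2.2 x.2)) := measurable_ind (h1.inter h2)
  exact (h3.mul h4).lintegral_prod_right'

theorem measurable_Nd (hΦ : IsPotential Φ) (hε : 0 < ε) (hf : Measurable f₀) (L : ℕ) (Tm : ℝ)
    (d : ℕ) : Measurable fun p : GC.Conf Ph × ℝ × Ph => Nd Φ f₀ L Tm d ε p.1 p.2.1 p.2.2 := by
  unfold Nd
  refine Finset.measurable_fun_sum _ fun a _ => Finset.measurable_fun_sum _ fun b _ => ?_
  by_cases h : max a.depth b.depth + 1 = d
  · simp only [if_pos h]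
    exact measurable_Nab hΦ hε hf L Tm a b
  · simp only [if_neg h]
    exact measurable_const

theorem depth_node_ord (a b : Shape) (z : Fin (Shape.node a b).card → Ph) :
    ((Shape.node a b).ord z).depth = max a.depth b.depth + 1 := Shape.depth_ord _ _

/-- **The law of the last node has the density `Nd`.** -/
theorem ndens_le (hΦ : IsPotential Φ) (hε : 0 < ε) (hf : Measurable f₀) {L : ℕ} {Tm : ℝ} {d : ℕ}
    (hd : 1 ≤ d) (hdL : d ≤ L) (c : GC.Conf Ph) {F : ℝ → Ph → ℝ≥0∞}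
    (hF : Measurable (Function.uncurry F)) :
    ∫⁻ T in {T | T ∈ AL Φ ε L Tm (GC.pts c : Set Ph) ∧ T.depth = d ∧ nondeg Φ ε T},
        F (CTree.ext Φ ε T) (CTree.ln Φ ε T) ∂(tree (GC.inten f₀ ε) L) ≤
      ENNReal.ofReal (mu ε) * ∫⁻ l, ∫⁻ b in Icc 0 Tm, Nd Φ f₀ L Tm d ε c b l * F b l := by
  obtain ⟨L', rfl⟩ : ∃ L', L = L' + 1 := ⟨L - 1, by omega⟩
  set S : Set CTree := {T | T ∈ AL Φ ε (L' + 1) Tm (GC.pts c : Set Ph) ∧ T.depth = d ∧
    nondeg Φ ε T} with hS
  have hSm : MeasurableSet S := (measurableSet_AL (c := fun _ : CTree => c) (T := id) hΦ hε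
    measurable_const measurable_id).inter ((measurable_depth (measurableSet_singleton d)).inter
      (measurableSet_nondeg hΦ hε.ne'))
  set G : CTree → ℝ≥0∞ := S.indicator fun T => F (CTree.ext Φ ε T) (CTree.ln Φ ε T) with hG
  have hGm : Measurable G := (hF.comp ((measurable_ext hΦ hε.ne').prodMk
    (measurable_ln hΦ hε.ne'))).indicator hSm
  have hG0 : ∀ T, G T ≠ 0 → CTree.ok Φ ε T := by
    intro T hT
    have : T ∈ S := by
      by_contra h
      exact hT (indicator_of_notMem h _)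
    exact AL_ok this.1
  rw [← lintegral_indicator hSm]
  have h1 : ∫⁻ T, G T ∂(tree (GC.inten f₀ ε) (L' + 1)) =
      ∑ a ∈ shapes L', ∑ b ∈ shapes L', ENNReal.ofReal (mu ε) * ∫⁻ l : Ph, ∫⁻ t : ℝ, ∫⁻ ξ,
        nW (fh f₀) Φ ε a b t l ξ * G (nt Φ ε a b t l ξ) ∂(xvol a b) := by
    rw [lintegral_tree (L' + 1) hGm, sum_shapes_succ]
    have h2 : ∫⁻ z, G (Shape.leaf.ord z) ∂(Measure.pi fun _ : Fin Shape.leaf.card =>
        GC.inten f₀ ε) = 0 := by
      have h3 : ∀ z, G (Shape.leaf.ord z) = 0 := by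
        intro z
        refine indicator_of_notMem ?_ _
        rintro ⟨-, h4, -⟩
        have h5 : (Shape.leaf.ord z).depth = 0 := Shape.depth_ord _ _
        omega
      simp only [h3, lintegral_zero]
    rw [h2, zero_add]
    exact Finset.sum_congr rfl fun a _ => Finset.sum_congr rfl fun b _ =>
      lintegral_node_shape hΦ hε hf a b hGm hG0
  change ∫⁻ T, G T ∂(tree (GC.inten f₀ ε) (L' + 1)) ≤ _
  rw [h1]
  -- the integrand of one pair of shapes
  have h2 : ∀ a b : Shape, ∫⁻ l : Ph, ∫⁻ t : ℝ, ∫⁻ ξ,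
        nW (fh f₀) Φ ε a b t l ξ * G (nt Φ ε a b t l ξ) ∂(xvol a b) ≤
      ∫⁻ l : Ph, ∫⁻ t in Icc 0 Tm, (if max a.depth b.depth + 1 = d then
        Nab Φ f₀ (L' + 1) Tm a b ε c t l else 0) * F t l := by
    intro a b
    refine lintegral_mono fun l => ?_
    rw [← lintegral_indicator measurableSet_Icc]
    refine lintegral_mono fun t => ?_
    have h3 : ∀ ξ, nW (fh f₀) Φ ε a b t l ξ * G (nt Φ ε a b t l ξ) ≤
        (Icc 0 Tm).indicator (fun t => (if max a.depth b.depth + 1 = d then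
          (nW (fh f₀) Φ ε a b t l ξ * ind (nt Φ ε a b t l ξ ∈ AL Φ ε (L' + 1) Tm
            (GC.pts c : Set Ph) ∧ nondeg Φ ε (nt Φ ε a b t l ξ))) else 0) * F t l) t := by
      intro ξ
      by_cases hw : nW (fh f₀) Φ ε a b t l ξ = 0
      · rw [hw, zero_mul]; exact zero_le
      by_cases hT : nt Φ ε a b t l ξ ∈ S
      · have hv : nvw Φ a b l.2 ξ ≠ 0 := fun h0 => hw (by unfold nW; rw [h0, zero_mul])
        have he : CTree.ext Φ ε (nt Φ ε a b t l ξ) = t := ML.ext_node hΦ hε.ne' hv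
        have hl : CTree.ln Φ ε (nt Φ ε a b t l ξ) = l := ML.ln_node hΦ hε.ne' hv
        have ht : t ∈ Icc 0 Tm := by
          have h4 := ext_nonneg hΦ hε (AL_ok hT.1)
          have h5 := hT.1.2
          rw [he] at h4 h5
          exact ⟨h4, h5⟩
        have hdep : max a.depth b.depth + 1 = d := by
          have h4 := hT.2.1
          unfold nt nA nB at h4
          rw [mkL_eq_ord, mkL_eq_ord] at h4
          change max (a.ord _).depth (b.ord _).depth + 1 = d at h4
          rw [Shape.depth_ord, Shape.depth_ord] at h4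
          exact h4
        rw [hG, indicator_of_mem hT, indicator_of_mem ht, if_pos hdep,
          ind_of_true ⟨hT.1, hT.2.2⟩, mul_one, he, hl]
      · rw [hG, indicator_of_notMem hT, mul_zero]; exact zero_le
    refine (lintegral_mono h3).trans ?_
    by_cases ht : t ∈ Icc 0 Tm
    · simp only [indicator_of_mem ht]
      by_cases hdep : max a.depth b.depth + 1 = d
      · simp only [if_pos hdep]
        unfold Nab
        have h0 : Measurable fun ξ : XP a b => ((t, l), ξ) := by fun_prop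
        have hT := (measurable_nt hΦ ε a b).comp h0
        have h1 := measurableSet_AL (L := L' + 1) (Tm := Tm) hΦ hε
          (measurable_const (a := c)) hT
        have h2 := hT (measurableSet_nondeg hΦ hε.ne')
        have h3 : Measurable fun ξ : XP a b => nW (fh f₀) Φ ε a b t l ξ :=
          (measurable_nW hΦ (measurable_fh hf) ε a b).comp
            (by fun_prop : Measurable fun ξ : XP a b => (l, (t, ξ)))
        have h4 : Measurable fun ξ : XP a b => ind (nt Φ ε a b t l ξ ∈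
            AL Φ ε (L' + 1) Tm (GC.pts c : Set Ph) ∧ nondeg Φ ε (nt Φ ε a b t l ξ)) :=
          measurable_ind (h1.inter h2)
        exact le_of_eq (lintegral_mul_const _ (h3.mul h4))
      · simp only [if_neg hdep, zero_mul, lintegral_zero, le_refl]
    · simp only [indicator_of_notMem ht, lintegral_zero, le_refl]
  have hFm : ∀ l, Measurable fun t => F t l := fun l =>
    hF.comp (measurable_id.prodMk measurable_const)
  have hm : ∀ a b : Shape, Measurable fun x : Ph × ℝ => (if max a.depth b.depth + 1 = d then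
        Nab Φ f₀ (L' + 1) Tm a b ε c x.2 x.1 else 0) * F x.2 x.1 := by
    intro a b
    have h5 : Measurable fun x : Ph × ℝ => F x.2 x.1 := hF.comp measurable_swap
    by_cases hdep : max a.depth b.depth + 1 = d
    · simp only [if_pos hdep]
      exact ((measurable_Nab hΦ hε hf (L' + 1) Tm a b).comp
        (by fun_prop : Measurable fun x : Ph × ℝ => (c, x.2, x.1))).mul h5
    · simp only [if_neg hdep, zero_mul]
      exact measurable_const
  have h5 : ∫⁻ l, ∫⁻ b in Icc 0 Tm, Nd Φ f₀ (L' + 1) Tm d ε c b l * F b l =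
      ∑ a ∈ shapes L', ∑ b ∈ shapes L', ∫⁻ l : Ph, ∫⁻ t in Icc 0 Tm,
        (if max a.depth b.depth + 1 = d then
        Nab Φ f₀ (L' + 1) Tm a b ε c t l else 0) * F t l := by
    have h6 : ∀ l : Ph, ∀ t : ℝ, Nd Φ f₀ (L' + 1) Tm d ε c t l * F t l =
        ∑ a ∈ shapes L', ∑ b ∈ shapes L', (if max a.depth b.depth + 1 = d then
        Nab Φ f₀ (L' + 1) Tm a b ε c t l else 0) * F t l := by
      intro l t
      unfold Nd
      rw [Finset.sum_mul]
      exact Finset.sum_congr rfl fun a _ => Finset.sum_mul _ _ _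
    simp only [h6]
    have hml : ∀ (a b : Shape) (l : Ph), Measurable fun t : ℝ =>
        (if max a.depth b.depth + 1 = d then
        Nab Φ f₀ (L' + 1) Tm a b ε c t l else 0) * F t l := fun a b l =>
      (hm a b).comp measurable_prodMk_left
    have h7 : ∀ l : Ph, ∫⁻ t in Icc 0 Tm, ∑ a ∈ shapes L', ∑ b ∈ shapes L',
        (if max a.depth b.depth + 1 = d then
        Nab Φ f₀ (L' + 1) Tm a b ε c t l else 0) * F t l =
        ∑ a ∈ shapes L', ∑ b ∈ shapes L', ∫⁻ t in Icc 0 Tm,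
        (if max a.depth b.depth + 1 = d then
        Nab Φ f₀ (L' + 1) Tm a b ε c t l else 0) * F t l := by
      intro l
      rw [lintegral_finsetSum _ fun a _ => Finset.measurable_fun_sum _ fun b _ => hml a b l]
      exact Finset.sum_congr rfl fun a _ => lintegral_finsetSum _ fun b _ => hml a b l
    simp only [h7]
    rw [lintegral_finsetSum _ fun a _ => Finset.measurable_fun_sum _ fun b _ =>
      (hm a b).lintegral_prod_right']
    exact Finset.sum_congr rfl fun a _ => lintegral_finsetSum _ fun b _ =>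
      (hm a b).lintegral_prod_right'
  rw [h5, Finset.mul_sum]
  refine Finset.sum_le_sum fun a _ => ?_
  rw [Finset.mul_sum]
  exact Finset.sum_le_sum fun b _ => mul_le_mul' le_rfl (h2 a b)

end Vale.Agent.P119.Cap
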