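import Mathlib

/-!
# P119: the abstract quenched lemma (`helper755`)

`X i ω q p ∈ [0,1]`: the tree `(q, p)` survives in the world `ω`; `m` is the measure of the event `q`,
`ν` the measure of the remaining parameters, `W i q p` the weight.  If the survival probabilities of
one tree and of two trees with the same `q` converge to `S q p` and `S q p * S q p'`, then the
quenched rate `∫ W X ν(dp)` converges to `∫ W S ν(dp)` in `L¹(P ⊗ m)`.
-/

open MeasureTheory Filter Topology Set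
open scoped ENNReal NNReal

noncomputable section

namespace Vale.Agent.P119.ML

/-- The second moment about a point. -/
theorem integral_sub_sq {Ω : Type*} [MeasurableSpace Ω] {Pr : Measure Ω} [IsProbabilityMeasure Pr]
    {Y : Ω → ℝ} (h1 : Integrable Y Pr) (h2 : Integrable (fun ω => Y ω ^ 2) Pr) (y : ℝ) :
    ∫ ω, (Y ω - y) ^ 2 ∂Pr = ∫ ω, Y ω ^ 2 ∂Pr - 2 * y * ∫ ω, Y ω ∂Pr + y ^ 2 := by
  have h3 : ∀ ω, (Y ω - y) ^ 2 = (Y ω ^ 2 - 2 * y * Y ω) + y ^ 2 := fun ω => by ring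
  simp_rw [h3]
  have h4 : Integrable (fun ω => 2 * y * Y ω) Pr := h1.const_mul _
  have h5 : Integrable (fun ω => Y ω ^ 2 - 2 * y * Y ω) Pr := h2.sub h4
  rw [integral_add h5 (integrable_const _), integral_sub h2 h4, integral_const_mul,
    integral_const, probReal_univ, one_smul]

section point

variable {Ω P ι : Type*} [MeasurableSpace Ω] [MeasurableSpace P] {l : Filter ι}
  [l.IsCountablyGenerated] {Pr : ι → Measure Ω} [∀ i, IsProbabilityMeasure (Pr i)]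
  {μ : Measure P} [IsFiniteMeasure μ] {X : ι → Ω → P → ℝ} {S : P → ℝ}

theorem abs_le_one_of {x : ℝ} (h0 : 0 ≤ x) (h1 : x ≤ 1) : ‖x‖ ≤ 1 := by
  rw [Real.norm_eq_abs, abs_of_nonneg h0]; exact h1

omit [l.IsCountablyGenerated] in
theorem quench_int (hX : ∀ i, Measurable fun z : Ω × P => X i z.1 z.2) (h0 : ∀ i ω p, 0 ≤ X i ω p)
    (h1 : ∀ i ω p, X i ω p ≤ 1) (i : ι) :
    Integrable (fun z : Ω × P => X i z.1 z.2) ((Pr i).prod μ) :=
  Integrable.of_bound (hX i).aestronglyMeasurable 1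
    (Eventually.of_forall fun z => abs_le_one_of (h0 i _ _) (h1 i _ _))

/-- **The quenched lemma for one event**, in `L²`. -/
theorem quench_sq [l.NeBot] (hX : ∀ i, Measurable fun z : Ω × P => X i z.1 z.2)
    (h0 : ∀ i ω p, 0 ≤ X i ω p) (h1 : ∀ i ω p, X i ω p ≤ 1)
    (hS1 : ∀ᵐ p ∂μ, Tendsto (fun i => ∫ ω, X i ω p ∂(Pr i)) l (𝓝 (S p)))
    (hS2 : ∀ᵐ z ∂(μ.prod μ), Tendsto (fun i => ∫ ω, X i ω z.1 * X i ω z.2 ∂(Pr i)) l
      (𝓝 (S z.1 * S z.2))) :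
    Tendsto (fun i => ∫ ω, (∫ p, X i ω p ∂μ - ∫ p, S p ∂μ) ^ 2 ∂(Pr i)) l (𝓝 0) := by
  set y : ℝ := ∫ p, S p ∂μ with hy
  -- first moment
  have hm1 : ∀ i, AEStronglyMeasurable (fun p => ∫ ω, X i ω p ∂(Pr i)) μ := fun i =>
    ((hX i).stronglyMeasurable.integral_prod_left' (μ := Pr i)).aestronglyMeasurable
  have hle1 : ∀ i p, ‖∫ ω, X i ω p ∂(Pr i)‖ ≤ 1 := fun i p => by
    refine (norm_integral_le_of_norm_le_const (C := 1)
      (Eventually.of_forall fun ω => abs_le_one_of (h0 i ω p) (h1 i ω p))).trans ?_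
    simp
  have e1 : Tendsto (fun i => ∫ p, ∫ ω, X i ω p ∂(Pr i) ∂μ) l (𝓝 y) :=
    tendsto_integral_filter_of_dominated_convergence (fun _ => 1)
      (Eventually.of_forall hm1) (Eventually.of_forall fun i => Eventually.of_forall (hle1 i))
      (integrable_const _) hS1
  have e1' : Tendsto (fun i => ∫ ω, ∫ p, X i ω p ∂μ ∂(Pr i)) l (𝓝 y) := by
    refine e1.congr fun i => ?_
    exact (integral_integral_swap (f := fun ω p => X i ω p) (quench_int hX h0 h1 i)).symm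
  -- second moment
  have hX2 : ∀ i, Measurable fun z : (P × P) × Ω => X i z.2 z.1.1 * X i z.2 z.1.2 := fun i =>
    ((hX i).comp (measurable_snd.prodMk (measurable_fst.comp measurable_fst))).mul
      ((hX i).comp (measurable_snd.prodMk (measurable_snd.comp measurable_fst)))
  have hm2 : ∀ i, AEStronglyMeasurable
      (fun z : P × P => ∫ ω, X i ω z.1 * X i ω z.2 ∂(Pr i)) (μ.prod μ) := fun i =>
    ((hX2 i).stronglyMeasurable.integral_prod_right' (ν := Pr i)).aestronglyMeasurable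
  have hb2 : ∀ i ω p p', ‖X i ω p * X i ω p'‖ ≤ 1 := fun i ω p p' => by
    rw [norm_mul]
    exact mul_le_one₀ (abs_le_one_of (h0 i ω p) (h1 i ω p)) (norm_nonneg _)
      (abs_le_one_of (h0 i ω p') (h1 i ω p'))
  have hle2 : ∀ i (z : P × P), ‖∫ ω, X i ω z.1 * X i ω z.2 ∂(Pr i)‖ ≤ 1 := fun i z => by
    refine (norm_integral_le_of_norm_le_const (C := 1)
      (Eventually.of_forall fun ω => hb2 i ω _ _)).trans ?_
    simp
  have e2 : Tendsto (fun i => ∫ z, ∫ ω, X i ω z.1 * X i ω z.2 ∂(Pr i) ∂(μ.prod μ)) l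
      (𝓝 (∫ z : P × P, S z.1 * S z.2 ∂(μ.prod μ))) :=
    tendsto_integral_filter_of_dominated_convergence (fun _ => 1)
      (Eventually.of_forall hm2) (Eventually.of_forall fun i => Eventually.of_forall (hle2 i))
      (integrable_const _) hS2
  rw [integral_prod_mul, ← hy] at e2
  have e2' : Tendsto (fun i => ∫ ω, (∫ p, X i ω p ∂μ) ^ 2 ∂(Pr i)) l (𝓝 (y * y)) := by
    refine e2.congr fun i => ?_
    have hI : Integrable (fun z : (P × P) × Ω => X i z.2 z.1.1 * X i z.2 z.1.2)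
        ((μ.prod μ).prod (Pr i)) :=
      Integrable.of_bound (hX2 i).aestronglyMeasurable 1
        (Eventually.of_forall fun z => hb2 i _ _ _)
    rw [integral_integral_swap (f := fun (z : P × P) ω => X i ω z.1 * X i ω z.2) hI]
    refine integral_congr_ae (Eventually.of_forall fun ω => ?_)
    change ∫ z : P × P, X i ω z.1 * X i ω z.2 ∂(μ.prod μ) = _
    rw [integral_prod_mul]
    exact (sq _).symm
  have hYm : ∀ i, Measurable fun ω => ∫ p, X i ω p ∂μ := fun i =>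
    ((hX i).stronglyMeasurable.integral_prod_right' (ν := μ)).measurable
  have hYb : ∀ i ω, ‖∫ p, X i ω p ∂μ‖ ≤ μ.real univ := fun i ω => by
    refine (norm_integral_le_of_norm_le_const (C := 1)
      (Eventually.of_forall fun p => abs_le_one_of (h0 i ω p) (h1 i ω p))).trans ?_
    rw [one_mul]
  have hY1 : ∀ i, Integrable (fun ω => ∫ p, X i ω p ∂μ) (Pr i) := fun i =>
    Integrable.of_bound (hYm i).aestronglyMeasurable _ (Eventually.of_forall (hYb i))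
  have hY2 : ∀ i, Integrable (fun ω => (∫ p, X i ω p ∂μ) ^ 2) (Pr i) := fun i =>
    Integrable.of_bound ((hYm i).pow_const 2).aestronglyMeasurable ((μ.real univ) ^ 2)
      (Eventually.of_forall fun ω => by
        rw [norm_pow]; exact pow_le_pow_left₀ (norm_nonneg _) (hYb i ω) 2)
  have e3 : ∀ i, ∫ ω, (∫ p, X i ω p ∂μ - y) ^ 2 ∂(Pr i) =
      ∫ ω, (∫ p, X i ω p ∂μ) ^ 2 ∂(Pr i) - 2 * y * ∫ ω, ∫ p, X i ω p ∂μ ∂(Pr i) + y ^ 2 :=
    fun i => integral_sub_sq (hY1 i) (hY2 i) y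
  have e4 := (e2'.sub (e1'.const_mul (2 * y))).add (tendsto_const_nhds (x := y ^ 2))
  rw [show y * y - 2 * y * y + y ^ 2 = 0 by ring] at e4
  exact e4.congr fun i => (e3 i).symm

/-- **The quenched lemma for one event**, in `L¹`. -/
theorem quench_abs [l.NeBot] (hX : ∀ i, Measurable fun z : Ω × P => X i z.1 z.2)
    (h0 : ∀ i ω p, 0 ≤ X i ω p) (h1 : ∀ i ω p, X i ω p ≤ 1)
    (hS1 : ∀ᵐ p ∂μ, Tendsto (fun i => ∫ ω, X i ω p ∂(Pr i)) l (𝓝 (S p)))
    (hS2 : ∀ᵐ z ∂(μ.prod μ), Tendsto (fun i => ∫ ω, X i ω z.1 * X i ω z.2 ∂(Pr i)) l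
      (𝓝 (S z.1 * S z.2))) :
    Tendsto (fun i => ∫ ω, |∫ p, X i ω p ∂μ - ∫ p, S p ∂μ| ∂(Pr i)) l (𝓝 0) := by
  have h := quench_sq hX h0 h1 hS1 hS2
  have hs := h.sqrt
  rw [Real.sqrt_zero] at hs
  refine squeeze_zero (fun i => integral_nonneg fun ω => abs_nonneg _) (fun i => ?_) hs
  set y : ℝ := ∫ p, S p ∂μ
  have hYm : Measurable fun ω => ∫ p, X i ω p ∂μ :=
    ((hX i).stronglyMeasurable.integral_prod_right' (ν := μ)).measurable
  have hYb : ∀ ω, ‖∫ p, X i ω p ∂μ‖ ≤ μ.real univ := fun ω => by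
    refine (norm_integral_le_of_norm_le_const (C := 1)
      (Eventually.of_forall fun p => abs_le_one_of (h0 i ω p) (h1 i ω p))).trans ?_
    rw [one_mul]
  set Z : Ω → ℝ := fun ω => |∫ p, X i ω p ∂μ - y| with hZ
  have hZm : Measurable Z := (hYm.sub measurable_const).abs
  have hZb : ∀ ω, ‖Z ω‖ ≤ μ.real univ + |y| := fun ω => by
    rw [hZ]
    simp only [Real.norm_eq_abs, abs_abs]
    have h5 := hYb ω
    rw [Real.norm_eq_abs] at h5
    exact (abs_sub _ _).trans (add_le_add h5 le_rfl)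
  have hZ1 : Integrable Z (Pr i) :=
    Integrable.of_bound hZm.aestronglyMeasurable _ (Eventually.of_forall hZb)
  have hZ2 : Integrable (fun ω => Z ω ^ 2) (Pr i) :=
    Integrable.of_bound (hZm.pow_const 2).aestronglyMeasurable ((μ.real univ + |y|) ^ 2)
      (Eventually.of_forall fun ω => by
        rw [norm_pow]; exact pow_le_pow_left₀ (norm_nonneg _) (hZb ω) 2)
  have hv : 0 ≤ ∫ ω, (Z ω - ∫ ω', Z ω' ∂(Pr i)) ^ 2 ∂(Pr i) := integral_nonneg fun ω => sq_nonneg _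
  have hv' : ∫ ω, (Z ω - ∫ ω', Z ω' ∂(Pr i)) ^ 2 ∂(Pr i) =
      ∫ ω, Z ω ^ 2 ∂(Pr i) - (∫ ω, Z ω ∂(Pr i)) ^ 2 := by
    rw [integral_sub_sq hZ1 hZ2]
    ring
  rw [hv'] at hv
  refine Real.le_sqrt_of_sq_le ?_
  have h6 : (∫ ω, Z ω ∂(Pr i)) ^ 2 ≤ ∫ ω, Z ω ^ 2 ∂(Pr i) := by linarith
  refine h6.trans (le_of_eq ?_)
  refine integral_congr_ae (Eventually.of_forall fun ω => ?_)
  simp only [hZ, sq_abs]

end point

section enn

variable {Ω P ι : Type*} [MeasurableSpace Ω] [MeasurableSpace P] {l : Filter ι}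
  [l.IsCountablyGenerated] {Pr : ι → Measure Ω} [∀ i, IsProbabilityMeasure (Pr i)]
  {μ : Measure P} [IsFiniteMeasure μ] {X : ι → Ω → P → ℝ≥0∞} {S : P → ℝ≥0∞}

theorem tendsto_toReal_of_le {f : ι → ℝ≥0∞} {a : ℝ≥0∞} (h : Tendsto f l (𝓝 a)) (ha : a ≠ ∞) :
    Tendsto (fun i => (f i).toReal) l (𝓝 a.toReal) :=
  (ENNReal.tendsto_toReal ha).comp h

/-- The quenched lemma for one event, `ENNReal` form. -/
theorem quench_enn [l.NeBot] (hX : ∀ i, Measurable fun z : Ω × P => X i z.1 z.2)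
    (h1 : ∀ i ω p, X i ω p ≤ 1) (hSm : AEMeasurable S μ)
    (hS1 : ∀ᵐ p ∂μ, Tendsto (fun i => ∫⁻ ω, X i ω p ∂(Pr i)) l (𝓝 (S p)))
    (hS2 : ∀ᵐ z ∂(μ.prod μ), Tendsto (fun i => ∫⁻ ω, X i ω z.1 * X i ω z.2 ∂(Pr i)) l
      (𝓝 (S z.1 * S z.2))) :
    Tendsto (fun i => ∫⁻ ω, ((∫⁻ p, X i ω p ∂μ - ∫⁻ p, S p ∂μ) +
      (∫⁻ p, S p ∂μ - ∫⁻ p, X i ω p ∂μ)) ∂(Pr i)) l (𝓝 0) := by
  have hXi : ∀ i p, ∫⁻ ω, X i ω p ∂(Pr i) ≤ 1 := fun i p =>
    (lintegral_mono fun ω => h1 i ω p).trans (by simp)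
  have hSle : ∀ᵐ p ∂μ, S p ≤ 1 := hS1.mono fun p hp =>
    le_of_tendsto' hp fun i => hXi i p
  have hXfin : ∀ i ω p, X i ω p ≠ ∞ := fun i ω p => ((h1 i ω p).trans_lt ENNReal.one_lt_top).ne
  have hr0 : ∀ i ω p, 0 ≤ (X i ω p).toReal := fun i ω p => ENNReal.toReal_nonneg
  have hr1 : ∀ i ω p, (X i ω p).toReal ≤ 1 := fun i ω p =>
    ENNReal.toReal_le_of_le_ofReal zero_le_one (by simpa using h1 i ω p)
  have hXr : ∀ i, Measurable fun z : Ω × P => (X i z.1 z.2).toReal := fun i =>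
    (hX i).ennreal_toReal
  have hXω : ∀ i p, Measurable fun ω => X i ω p := fun i p =>
    (hX i).comp (measurable_id.prodMk measurable_const)
  have hXp : ∀ i ω, Measurable fun p => X i ω p := fun i ω =>
    (hX i).comp (measurable_const.prodMk measurable_id)
  have hint : ∀ (i : ι) p, ∫ ω, (X i ω p).toReal ∂(Pr i) = (∫⁻ ω, X i ω p ∂(Pr i)).toReal :=
    fun i p => integral_toReal (hXω i p).aemeasurable
      (Eventually.of_forall fun ω => (hXfin i ω p).lt_top)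
  have hint2 : ∀ (i : ι) (z : P × P), ∫ ω, (X i ω z.1).toReal * (X i ω z.2).toReal ∂(Pr i) =
      (∫⁻ ω, X i ω z.1 * X i ω z.2 ∂(Pr i)).toReal := fun i z => by
    simp_rw [← ENNReal.toReal_mul]
    exact integral_toReal ((hXω i _).mul (hXω i _)).aemeasurable
      (Eventually.of_forall fun ω => ENNReal.mul_lt_top (hXfin i ω _).lt_top (hXfin i ω _).lt_top)
  have key := quench_abs (l := l) (Pr := Pr) (μ := μ) (X := fun i ω p => (X i ω p).toReal)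
    (S := fun p => (S p).toReal) hXr hr0 hr1
    (by
      filter_upwards [hS1, hSle] with p hp hp1
      simp_rw [hint]
      exact tendsto_toReal_of_le hp (hp1.trans_lt ENNReal.one_lt_top).ne)
    (by
      have h3 : ∀ᵐ z ∂(μ.prod μ), S z.1 ≤ 1 ∧ S z.2 ≤ 1 := by
        have h5 : ∀ᵐ z ∂(μ.prod μ), S z.1 ≤ 1 :=
          Measure.quasiMeasurePreserving_fst.ae hSle
        have h6 : ∀ᵐ z ∂(μ.prod μ), S z.2 ≤ 1 :=
          Measure.quasiMeasurePreserving_snd.ae hSle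
        filter_upwards [h5, h6] with z h7 h8 using ⟨h7, h8⟩
      filter_upwards [hS2, h3] with z hz hz1
      simp_rw [hint2, ← ENNReal.toReal_mul]
      exact tendsto_toReal_of_le hz (ENNReal.mul_lt_top (hz1.1.trans_lt ENNReal.one_lt_top)
        (hz1.2.trans_lt ENNReal.one_lt_top)).ne)
  have key2 := ENNReal.tendsto_ofReal key
  rw [ENNReal.ofReal_zero] at key2
  refine key2.congr fun i => ?_
  have hfS : ∫⁻ p, S p ∂μ ≠ ∞ :=
    ((lintegral_mono_ae hSle).trans_lt (by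
      rw [lintegral_one]; exact measure_lt_top μ univ)).ne
  have hfX : ∀ ω, ∫⁻ p, X i ω p ∂μ ≠ ∞ := fun ω =>
    ((lintegral_mono (h1 i ω)).trans_lt (by
      rw [lintegral_one]; exact measure_lt_top μ univ)).ne
  have e1 : ∀ ω, ∫ p, (X i ω p).toReal ∂μ = (∫⁻ p, X i ω p ∂μ).toReal := fun ω =>
    integral_toReal (hXp i ω).aemeasurable (Eventually.of_forall fun p => (hXfin i ω p).lt_top)
  have e2 : ∫ p, (S p).toReal ∂μ = (∫⁻ p, S p ∂μ).toReal :=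
    integral_toReal hSm (hSle.mono fun p hp => hp.trans_lt ENNReal.one_lt_top)
  simp_rw [e1, e2]
  have hYm : Measurable fun ω => ∫⁻ p, X i ω p ∂μ := (hX i).lintegral_prod_right'
  have hb : ∀ ω, |(∫⁻ p, X i ω p ∂μ).toReal - (∫⁻ p, S p ∂μ).toReal| ≤
      μ.real univ + (∫⁻ p, S p ∂μ).toReal := fun ω => by
    refine (abs_sub _ _).trans (add_le_add ?_ ?_)
    · rw [abs_of_nonneg ENNReal.toReal_nonneg]
      refine ENNReal.toReal_mono (measure_ne_top μ univ) ?_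
      exact (lintegral_mono (h1 i ω)).trans (by rw [lintegral_one])
    · rw [abs_of_nonneg ENNReal.toReal_nonneg]
  have hZm : Measurable fun ω => |(∫⁻ p, X i ω p ∂μ).toReal - (∫⁻ p, S p ∂μ).toReal| :=
    (hYm.ennreal_toReal.sub measurable_const).abs
  have hZi : Integrable (fun ω => |(∫⁻ p, X i ω p ∂μ).toReal - (∫⁻ p, S p ∂μ).toReal|) (Pr i) :=
    Integrable.of_bound hZm.aestronglyMeasurable
      (μ.real univ + (∫⁻ p, S p ∂μ).toReal) (Eventually.of_forall fun ω => by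
        rw [Real.norm_eq_abs, abs_abs]; exact hb ω)
  rw [ofReal_integral_eq_lintegral_ofReal hZi (Eventually.of_forall fun ω => abs_nonneg _)]
  refine lintegral_congr fun ω => ?_
  set a := ∫⁻ p, X i ω p ∂μ with ha
  set b := ∫⁻ p, S p ∂μ with hbb
  have ha' : a ≠ ∞ := hfX ω
  rcases le_total a b with h | h
  · rw [tsub_eq_zero_of_le h, zero_add, abs_of_nonpos (sub_nonpos.2 (ENNReal.toReal_mono hfS h)),
      neg_sub, ENNReal.ofReal_sub _ ENNReal.toReal_nonneg, ENNReal.ofReal_toReal hfS,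
      ENNReal.ofReal_toReal ha']
  · rw [tsub_eq_zero_of_le h, add_zero, abs_of_nonneg (sub_nonneg.2 (ENNReal.toReal_mono ha' h)),
      ENNReal.ofReal_sub _ ENNReal.toReal_nonneg, ENNReal.ofReal_toReal hfS,
      ENNReal.ofReal_toReal ha']

end enn

section main

variable {Ω Q P ι : Type*} [MeasurableSpace Ω] [MeasurableSpace Q] [MeasurableSpace P]
  {l : Filter ι} [l.IsCountablyGenerated] {Pr : ι → Measure Ω} [∀ i, IsProbabilityMeasure (Pr i)]
  {m : Measure Q} [SFinite m] {ν : Measure P} [SFinite ν]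
  {X : ι → Ω → Q → P → ℝ≥0∞} {S : Q → P → ℝ≥0∞} {W : ι → Q → P → ℝ≥0∞} {W₀ : Q → P → ℝ≥0∞}

/-- The quenched lemma with the limit weight. -/
theorem quench_limit [l.NeBot]
    (hX : ∀ i, Measurable fun z : Ω × Q × P => X i z.1 z.2.1 z.2.2)
    (h1 : ∀ i ω q p, X i ω q p ≤ 1) (hSm : Measurable fun z : Q × P => S z.1 z.2)
    (hW₀ : Measurable fun z : Q × P => W₀ z.1 z.2) (hfin : ∫⁻ q, ∫⁻ p, W₀ q p ∂ν ∂m ≠ ∞)
    (hS1 : ∀ᵐ q ∂m, ∀ᵐ p ∂ν, W₀ q p ≠ 0 →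
      Tendsto (fun i => ∫⁻ ω, X i ω q p ∂(Pr i)) l (𝓝 (S q p)))
    (hS2 : ∀ᵐ q ∂m, ∀ᵐ z ∂(ν.prod ν), W₀ q z.1 ≠ 0 → W₀ q z.2 ≠ 0 →
      Tendsto (fun i => ∫⁻ ω, X i ω q z.1 * X i ω q z.2 ∂(Pr i)) l (𝓝 (S q z.1 * S q z.2))) :
    Tendsto (fun i => ∫⁻ ω, ∫⁻ q,
      ((∫⁻ p, W₀ q p * X i ω q p ∂ν - ∫⁻ p, W₀ q p * S q p ∂ν) +
      (∫⁻ p, W₀ q p * S q p ∂ν - ∫⁻ p, W₀ q p * X i ω q p ∂ν)) ∂m ∂(Pr i)) l (𝓝 0) := by
  have hYm : ∀ i, Measurable fun z : Ω × Q => ∫⁻ p, W₀ z.2 p * X i z.1 z.2 p ∂ν := fun i => by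
    have h2 : Measurable fun z : (Ω × Q) × P => W₀ z.1.2 z.2 * X i z.1.1 z.1.2 z.2 :=
      (hW₀.comp ((measurable_snd.comp measurable_fst).prodMk measurable_snd)).mul
        ((hX i).comp ((measurable_fst.comp measurable_fst).prodMk
          ((measurable_snd.comp measurable_fst).prodMk measurable_snd)))
    exact h2.lintegral_prod_right'
  have hBm : Measurable fun q : Q => ∫⁻ p, W₀ q p * S q p ∂ν :=
    (hW₀.mul hSm).lintegral_prod_right'
  have hFm : ∀ i, Measurable fun z : Ω × Q =>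
      (∫⁻ p, W₀ z.2 p * X i z.1 z.2 p ∂ν - ∫⁻ p, W₀ z.2 p * S z.2 p ∂ν) +
      (∫⁻ p, W₀ z.2 p * S z.2 p ∂ν - ∫⁻ p, W₀ z.2 p * X i z.1 z.2 p ∂ν) := fun i =>
    ((hYm i).sub (hBm.comp measurable_snd)).add ((hBm.comp measurable_snd).sub (hYm i))
  have hsw : ∀ i, ∫⁻ ω, ∫⁻ q,
      ((∫⁻ p, W₀ q p * X i ω q p ∂ν - ∫⁻ p, W₀ q p * S q p ∂ν) +
      (∫⁻ p, W₀ q p * S q p ∂ν - ∫⁻ p, W₀ q p * X i ω q p ∂ν)) ∂m ∂(Pr i) =
      ∫⁻ q, ∫⁻ ω, ((∫⁻ p, W₀ q p * X i ω q p ∂ν - ∫⁻ p, W₀ q p * S q p ∂ν) +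
      (∫⁻ p, W₀ q p * S q p ∂ν - ∫⁻ p, W₀ q p * X i ω q p ∂ν)) ∂(Pr i) ∂m := fun i =>
    lintegral_lintegral_swap (hFm i).aemeasurable
  simp_rw [hsw]
  have hwm : Measurable fun q : Q => ∫⁻ p, W₀ q p ∂ν := hW₀.lintegral_prod_right'
  have hwfin : ∀ᵐ q ∂m, ∫⁻ p, W₀ q p ∂ν < ∞ := ae_lt_top hwm hfin
  -- the survival probabilities are at most `1`
  have hXi : ∀ i q p, ∫⁻ ω, X i ω q p ∂(Pr i) ≤ 1 := fun i q p =>
    (lintegral_mono fun ω => h1 i ω q p).trans (by simp)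
  have hSle : ∀ᵐ q ∂m, ∀ᵐ p ∂ν, W₀ q p ≠ 0 → S q p ≤ 1 := by
    filter_upwards [hS1] with q hq
    filter_upwards [hq] with p hp hne
    exact le_of_tendsto' (hp hne) fun i => hXi i q p
  rw [show (0 : ℝ≥0∞) = ∫⁻ _ : Q, 0 ∂m by rw [lintegral_zero]]
  refine tendsto_lintegral_filter_of_dominated_convergence
    (fun q => 2 * ∫⁻ p, W₀ q p ∂ν) ?_ ?_ ?_ ?_
  · exact Eventually.of_forall fun i => (hFm i).lintegral_prod_left'
  · refine Eventually.of_forall fun i => ?_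
    filter_upwards [hSle] with q hq
    have h3 : ∫⁻ p, W₀ q p * S q p ∂ν ≤ ∫⁻ p, W₀ q p ∂ν := by
      refine lintegral_mono_ae ?_
      filter_upwards [hq] with p hp
      by_cases h0 : W₀ q p = 0
      · rw [h0, zero_mul]
      · exact mul_le_of_le_one_right' (hp h0)
    have h4 : ∀ ω, ∫⁻ p, W₀ q p * X i ω q p ∂ν ≤ ∫⁻ p, W₀ q p ∂ν := fun ω =>
      lintegral_mono fun p => mul_le_of_le_one_right' (h1 i ω q p)
    calc _ ≤ ∫⁻ _ω, (∫⁻ p, W₀ q p ∂ν + ∫⁻ p, W₀ q p ∂ν) ∂(Pr i) :=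
          lintegral_mono fun ω => add_le_add (tsub_le_self.trans (h4 ω)) (tsub_le_self.trans h3)
      _ = 2 * ∫⁻ p, W₀ q p ∂ν := by
          rw [lintegral_const, measure_univ, mul_one, two_mul]
  · rw [lintegral_const_mul _ hwm]
    exact ENNReal.mul_ne_top (by norm_num) hfin
  · filter_upwards [hS1, hS2, hwfin] with q hq1 hq2 hqf
    set μ : Measure P := ν.withDensity (W₀ q) with hμ
    have hWq : Measurable (W₀ q) := hW₀.comp (measurable_const.prodMk measurable_id)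
    haveI : IsFiniteMeasure μ := isFiniteMeasure_withDensity hqf.ne
    have hSq : Measurable (S q) := hSm.comp (measurable_const.prodMk measurable_id)
    have hXq : ∀ i, Measurable fun z : Ω × P => X i z.1 q z.2 := fun i =>
      (hX i).comp (measurable_fst.prodMk (measurable_const.prodMk measurable_snd))
    have hXqω : ∀ i ω, Measurable fun p => X i ω q p := fun i ω =>
      (hXq i).comp (measurable_const.prodMk measurable_id)
    have e1 : ∀ i ω, ∫⁻ p, W₀ q p * X i ω q p ∂ν = ∫⁻ p, X i ω q p ∂μ := fun i ω => by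
      rw [hμ, lintegral_withDensity_eq_lintegral_mul _ hWq (hXqω i ω)]
      rfl
    have e2 : ∫⁻ p, W₀ q p * S q p ∂ν = ∫⁻ p, S q p ∂μ := by
      rw [hμ, lintegral_withDensity_eq_lintegral_mul _ hWq hSq]
      rfl
    simp_rw [e1, e2]
    refine quench_enn (μ := μ) (X := fun i ω p => X i ω q p) hXq (fun i ω p => h1 i ω q p)
      hSq.aemeasurable ?_ ?_
    · rw [hμ, ae_withDensity_iff hWq]
      exact hq1
    · rw [hμ, prod_withDensity hWq hWq, ae_withDensity_iff]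
      · filter_upwards [hq2] with z hz hne
        exact hz (left_ne_zero_of_mul hne) (right_ne_zero_of_mul hne)
      · exact (hWq.comp measurable_fst).mul (hWq.comp measurable_snd)

theorem tsub_mul_le {a b x : ℝ≥0∞} (hx : x ≤ 1) : a * x ≤ b * x + (a - b) := by
  rcases le_total a b with h | h
  · exact le_add_right (mul_le_mul_left h x)
  · calc a * x = (b + (a - b)) * x := by rw [add_tsub_cancel_of_le h]
      _ = b * x + (a - b) * x := add_mul _ _ _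
      _ ≤ _ := add_le_add le_rfl (mul_le_of_le_one_right' hx)

/-- **The abstract quenched lemma.** -/
theorem quench [l.NeBot]
    (hX : ∀ i, Measurable fun z : Ω × Q × P => X i z.1 z.2.1 z.2.2)
    (h1 : ∀ i ω q p, X i ω q p ≤ 1) (hSm : Measurable fun z : Q × P => S z.1 z.2)
    (hW : ∀ i, Measurable fun z : Q × P => W i z.1 z.2)
    (hW₀ : Measurable fun z : Q × P => W₀ z.1 z.2) (hfin : ∫⁻ q, ∫⁻ p, W₀ q p ∂ν ∂m ≠ ∞)
    (hWt : Tendsto (fun i => ∫⁻ q, ∫⁻ p, ((W i q p - W₀ q p) + (W₀ q p - W i q p)) ∂ν ∂m) l (𝓝 0))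
    (hS1 : ∀ᵐ q ∂m, ∀ᵐ p ∂ν, W₀ q p ≠ 0 →
      Tendsto (fun i => ∫⁻ ω, X i ω q p ∂(Pr i)) l (𝓝 (S q p)))
    (hS2 : ∀ᵐ q ∂m, ∀ᵐ z ∂(ν.prod ν), W₀ q z.1 ≠ 0 → W₀ q z.2 ≠ 0 →
      Tendsto (fun i => ∫⁻ ω, X i ω q z.1 * X i ω q z.2 ∂(Pr i)) l (𝓝 (S q z.1 * S q z.2))) :
    Tendsto (fun i => ∫⁻ ω, ∫⁻ q,
      ((∫⁻ p, W i q p * X i ω q p ∂ν - ∫⁻ p, W₀ q p * S q p ∂ν) +
      (∫⁻ p, W₀ q p * S q p ∂ν - ∫⁻ p, W i q p * X i ω q p ∂ν)) ∂m ∂(Pr i)) l (𝓝 0) := by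
  have h := (quench_limit hX h1 hSm hW₀ hfin hS1 hS2).add
    (ENNReal.Tendsto.const_mul (a := 2) hWt (Or.inr (by norm_num)))
  rw [mul_zero, zero_add] at h
  refine tendsto_of_tendsto_of_tendsto_of_le_of_le tendsto_const_nhds h (fun _ => zero_le)
    fun i => ?_
  set R : Q → ℝ≥0∞ := fun q => ∫⁻ p, ((W i q p - W₀ q p) + (W₀ q p - W i q p)) ∂ν with hR
  have hdm : Measurable fun z : Q × P => (W i z.1 z.2 - W₀ z.1 z.2) + (W₀ z.1 z.2 - W i z.1 z.2) :=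
    ((hW i).sub hW₀).add (hW₀.sub (hW i))
  have hRm : Measurable R := hdm.lintegral_prod_right'
  have hWq : ∀ q, Measurable (W i q) := fun q => (hW i).comp (measurable_const.prodMk measurable_id)
  have hW₀q : ∀ q, Measurable (W₀ q) := fun q => hW₀.comp (measurable_const.prodMk measurable_id)
  have hXq : ∀ ω q, Measurable (X i ω q) := fun ω q =>
    (hX i).comp (measurable_const.prodMk (measurable_const.prodMk measurable_id))
  have a1 : ∀ ω q, ∫⁻ p, W i q p * X i ω q p ∂ν ≤ ∫⁻ p, W₀ q p * X i ω q p ∂ν + R q := by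
    intro ω q
    have hm : Measurable fun p => W₀ q p * X i ω q p := (hW₀q q).mul (hXq ω q)
    simp only [hR]
    rw [← lintegral_add_left hm]
    refine lintegral_mono fun p => (tsub_mul_le (b := W₀ q p) (h1 i ω q p)).trans ?_
    exact add_le_add le_rfl (le_add_right le_rfl)
  have a2 : ∀ ω q, ∫⁻ p, W₀ q p * X i ω q p ∂ν ≤ ∫⁻ p, W i q p * X i ω q p ∂ν + R q := by
    intro ω q
    have hm : Measurable fun p => W i q p * X i ω q p := (hWq q).mul (hXq ω q)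
    simp only [hR]
    rw [← lintegral_add_left hm]
    refine lintegral_mono fun p => (tsub_mul_le (b := W i q p) (h1 i ω q p)).trans ?_
    exact add_le_add le_rfl (le_add_left le_rfl)
  calc _ ≤ ∫⁻ ω, ∫⁻ q, (((∫⁻ p, W₀ q p * X i ω q p ∂ν - ∫⁻ p, W₀ q p * S q p ∂ν) +
        (∫⁻ p, W₀ q p * S q p ∂ν - ∫⁻ p, W₀ q p * X i ω q p ∂ν)) + 2 * R q) ∂m ∂(Pr i) := by
        refine lintegral_mono fun ω => lintegral_mono fun q => ?_
        rw [two_mul, add_add_add_comm]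
        refine add_le_add ?_ ?_
        · rw [tsub_le_iff_right]
          refine (a1 ω q).trans ?_
          rw [add_right_comm]
          exact add_le_add le_tsub_add le_rfl
        · rw [tsub_le_iff_right]
          have := a2 ω q
          calc _ ≤ (∫⁻ p, W₀ q p * S q p ∂ν - ∫⁻ p, W₀ q p * X i ω q p ∂ν) +
                ∫⁻ p, W₀ q p * X i ω q p ∂ν := le_tsub_add
            _ ≤ (∫⁻ p, W₀ q p * S q p ∂ν - ∫⁻ p, W₀ q p * X i ω q p ∂ν) +
                (∫⁻ p, W i q p * X i ω q p ∂ν + R q) := add_le_add le_rfl this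
            _ = _ := by rw [add_comm (∫⁻ p, W i q p * X i ω q p ∂ν), add_assoc]
    _ = _ := by
        have e : ∀ ω, ∫⁻ q, (((∫⁻ p, W₀ q p * X i ω q p ∂ν - ∫⁻ p, W₀ q p * S q p ∂ν) +
            (∫⁻ p, W₀ q p * S q p ∂ν - ∫⁻ p, W₀ q p * X i ω q p ∂ν)) + 2 * R q) ∂m =
            ∫⁻ q, ((∫⁻ p, W₀ q p * X i ω q p ∂ν - ∫⁻ p, W₀ q p * S q p ∂ν) +
            (∫⁻ p, W₀ q p * S q p ∂ν - ∫⁻ p, W₀ q p * X i ω q p ∂ν)) ∂m + 2 * ∫⁻ q, R q ∂m := by
          intro ω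
          rw [lintegral_add_right _ (hRm.const_mul 2), lintegral_const_mul _ hRm]
        simp_rw [e]
        rw [lintegral_add_right _ measurable_const, lintegral_const, measure_univ, mul_one]

/-- The upper form: only the positive part of `W i - W₀` has to vanish. -/
theorem quench_upper [l.NeBot]
    (hX : ∀ i, Measurable fun z : Ω × Q × P => X i z.1 z.2.1 z.2.2)
    (h1 : ∀ i ω q p, X i ω q p ≤ 1) (hSm : Measurable fun z : Q × P => S z.1 z.2)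
    (hW : ∀ i, Measurable fun z : Q × P => W i z.1 z.2)
    (hW₀ : Measurable fun z : Q × P => W₀ z.1 z.2) (hfin : ∫⁻ q, ∫⁻ p, W₀ q p ∂ν ∂m ≠ ∞)
    (hWt : Tendsto (fun i => ∫⁻ q, ∫⁻ p, (W i q p - W₀ q p) ∂ν ∂m) l (𝓝 0))
    (hS1 : ∀ᵐ q ∂m, ∀ᵐ p ∂ν, W₀ q p ≠ 0 →
      Tendsto (fun i => ∫⁻ ω, X i ω q p ∂(Pr i)) l (𝓝 (S q p)))
    (hS2 : ∀ᵐ q ∂m, ∀ᵐ z ∂(ν.prod ν), W₀ q z.1 ≠ 0 → W₀ q z.2 ≠ 0 →
      Tendsto (fun i => ∫⁻ ω, X i ω q z.1 * X i ω q z.2 ∂(Pr i)) l (𝓝 (S q z.1 * S q z.2))) :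
    Tendsto (fun i => ∫⁻ ω, ∫⁻ q,
      (∫⁻ p, W i q p * X i ω q p ∂ν - ∫⁻ p, W₀ q p * S q p ∂ν) ∂m ∂(Pr i)) l (𝓝 0) := by
  have h := (quench_limit hX h1 hSm hW₀ hfin hS1 hS2).add hWt
  rw [zero_add] at h
  refine tendsto_of_tendsto_of_tendsto_of_le_of_le tendsto_const_nhds h (fun _ => zero_le)
    fun i => ?_
  set R : Q → ℝ≥0∞ := fun q => ∫⁻ p, (W i q p - W₀ q p) ∂ν with hR
  have hRm : Measurable R := ((hW i).sub hW₀).lintegral_prod_right'
  have hW₀q : ∀ q, Measurable (W₀ q) := fun q => hW₀.comp (measurable_const.prodMk measurable_id)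
  have hXq : ∀ ω q, Measurable (X i ω q) := fun ω q =>
    (hX i).comp (measurable_const.prodMk (measurable_const.prodMk measurable_id))
  have a1 : ∀ ω q, ∫⁻ p, W i q p * X i ω q p ∂ν ≤ ∫⁻ p, W₀ q p * X i ω q p ∂ν + R q := by
    intro ω q
    have hm : Measurable fun p => W₀ q p * X i ω q p := (hW₀q q).mul (hXq ω q)
    simp only [hR]
    rw [← lintegral_add_left hm]
    exact lintegral_mono fun p => tsub_mul_le (h1 i ω q p)
  calc _ ≤ ∫⁻ ω, ∫⁻ q, (((∫⁻ p, W₀ q p * X i ω q p ∂ν - ∫⁻ p, W₀ q p * S q p ∂ν) +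
        (∫⁻ p, W₀ q p * S q p ∂ν - ∫⁻ p, W₀ q p * X i ω q p ∂ν)) + R q) ∂m ∂(Pr i) := by
        refine lintegral_mono fun ω => lintegral_mono fun q => ?_
        rw [tsub_le_iff_right]
        refine (a1 ω q).trans ?_
        rw [add_right_comm]
        exact add_le_add (le_tsub_add.trans (add_le_add (le_add_right le_rfl) le_rfl)) le_rfl
    _ = _ := by
        have e : ∀ ω, ∫⁻ q, (((∫⁻ p, W₀ q p * X i ω q p ∂ν - ∫⁻ p, W₀ q p * S q p ∂ν) +
            (∫⁻ p, W₀ q p * S q p ∂ν - ∫⁻ p, W₀ q p * X i ω q p ∂ν)) + R q) ∂m =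
            ∫⁻ q, ((∫⁻ p, W₀ q p * X i ω q p ∂ν - ∫⁻ p, W₀ q p * S q p ∂ν) +
            (∫⁻ p, W₀ q p * S q p ∂ν - ∫⁻ p, W₀ q p * X i ω q p ∂ν)) ∂m + ∫⁻ q, R q ∂m := by
          intro ω
          rw [lintegral_add_right _ hRm]
        simp_rw [e]
        rw [lintegral_add_right _ measurable_const, lintegral_const, measure_univ, mul_one]

end main

end Vale.Agent.P119.ML
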