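import Vale.Agent.P119.ML.InNdDef
import Vale.Agent.P119.ML.NdKin
import Vale.Agent.P119.ML.Quench
import Vale.Agent.P119.ML.FH2

/-!
# P119, block ML (In-nd, `helper67`): the limit

* `uh`, `svF`, `Sv`: the forests are unhit, the limit of the probability, the second moment input;
* `NdIn`: the inputs for the pairs of nondegenerate nodes with the same root line and exit time;
* `tendsto_Jab`, `tendsto_Nd`: **the limit statement of In-nd** from `NdIn`.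
-/

open MeasureTheory Filter Topology Set
open scoped ENNReal NNReal

noncomputable section

namespace Vale.Agent.P119.Cap

open KU M KT ML KE

variable {Φ : E3 → ℝ} {ε : ℝ} {f₀ : Ph → ℝ} {a b : Shape} {t : ℝ} {l : Ph} {ξ : XP a b} {L : ℕ}
  {Tm : ℝ}

/-! ### The inputs -/

/-- The indicator that the forest of the germs is unhit until `h` in its own world. -/
def uh (Φ : E3 → ℝ) (ε : ℝ) (L : ℕ) (F : List TG) (h : ℝ) (c : GC.Conf Ph) : ℝ≥0∞ :=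
  ind (Unhit Φ ε L (Wc (trees Φ ε F) (GC.pts c)) (trees Φ ε F) h)

/-- The limit of the probability. -/
def svF (Φ : E3 → ℝ) (lg : ℝ → ℝ → Ph → ℝ≥0∞) (F : List TG) (h : ℝ) : ℝ≥0∞ :=
  (F.map fun G => KE.legW Φ lg G.τ h G.ℓ.1 G.p).prod

/-- The second moment input. -/
def Sv (Φ : E3 → ℝ) (f₀ : Ph → ℝ) (L : ℕ) (lg : ℝ → ℝ → Ph → ℝ≥0∞) (F₁ F₂ : List TG) (h : ℝ) :
    Prop :=
  Tendsto (fun ε => ∫⁻ c, uh Φ ε L F₁ h c * uh Φ ε L F₂ h c ∂(GC.PP f₀ ε)) (𝓝[>] 0)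
    (𝓝 (svF Φ lg F₁ h * svF Φ lg F₂ h))

/-- The good parameters at distance `δ`. -/
def gdp (Φ : E3 → ℝ) (δ : ℝ) (a b : Shape) (q : Ph × ℝ) (ξ : XP a b) : Prop :=
  (nvw Φ a b q.1.2 ξ ≠ 0 ∧ ntk Φ 0 a b q.2 q.1.2 ξ ∧ ndv Φ q.1.2 ξ.1) ∧
    stm a ξ.2.1 < q.2 - δ ∧ stm b ξ.2.2 < q.2 - δ

/-- The measure of the root line and of the exit time. -/
abbrev qvol (T : ℝ) : Measure (Ph × ℝ) := (volume : Measure Ph).prod (volume.restrict (Icc 0 T))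

/-- The inputs of In-nd. -/
def NdIn (Φ : E3 → ℝ) (f₀ : Ph → ℝ) (L : ℕ) (Tm : ℝ) (lg : ℝ → ℝ → Ph → ℝ≥0∞) (a b : Shape) :
    Prop :=
  ∀ δ : ℝ, 0 < δ →
    (∀ᵐ q ∂(qvol Tm), ∀ᵐ ξ ∂(xvol a b), gdp Φ δ a b q ξ →
      Sv Φ f₀ L lg [gA Φ a b q.2 q.1 ξ, gB Φ a b q.2 q.1 ξ] [] (q.2 - δ)) ∧
    (∀ᵐ q ∂(qvol Tm), ∀ᵐ z ∂((xvol a b).prod (xvol a b)), gdp Φ δ a b q z.1 →
      gdp Φ δ a b q z.2 →
      Sv Φ f₀ L lg [gA Φ a b q.2 q.1 z.1, gB Φ a b q.2 q.1 z.1]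
        [gA Φ a b q.2 q.1 z.2, gB Φ a b q.2 q.1 z.2] (q.2 - δ))

/-! ### Measurability and the first inequality -/

theorem trees_gAB : trees Φ ε [gA Φ a b t l ξ, gB Φ a b t l ξ] =
    [nA Φ ε a b t l ξ, nB Φ ε a b t l ξ] := by
  rw [trees_cons, trees_cons, gA_tree, gB_tree]
  rfl

theorem uh_nil (h : ℝ) (c : GC.Conf Ph) : uh Φ ε L [] h c = 1 := by
  unfold uh
  refine ind_of_true ⟨fun T hT => absurd hT (by simp [trees]), fun T hT => ?_⟩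
  exact absurd hT (by simp [trees])

theorem svF_nil (lg : ℝ → ℝ → Ph → ℝ≥0∞) (h : ℝ) : svF Φ lg [] h = 1 := rfl

theorem svF_gAB (lg : ℝ → ℝ → Ph → ℝ≥0∞) (h : ℝ) :
    svF Φ lg [gA Φ a b t l ξ, gB Φ a b t l ξ] h =
      KE.legW Φ lg a h (nL Φ 0 t l ξ.1).1 ξ.2.1 * KE.legW Φ lg b h (nL Φ 0 t l ξ.1).2 ξ.2.2 := by
  have h1 : (dG Φ false l t ξ.1).1 = (nL Φ 0 t l ξ.1).1 := by rw [← lat_dG_false, lat_zero]
  have h2 : (dG Φ true l t ξ.1).1 = (nL Φ 0 t l ξ.1).2 := by rw [← lat_dG_true, lat_zero]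
  rw [← h1, ← h2]
  unfold svF gA gB
  simp only [List.map_cons, List.map_nil, List.prod_cons, List.prod_nil, mul_one]

variable (Φ) in
/-- The indicator of the survival of the two subtrees. -/
def XX (L : ℕ) (δ : ℝ) (a b : Shape) (ε : ℝ) (c : GC.Conf Ph) (q : Ph × ℝ) (ξ : XP a b) :
    ℝ≥0∞ :=
  ind (Unhit Φ ε L (Wc [nA Φ ε a b q.2 q.1 ξ, nB Φ ε a b q.2 q.1 ξ] (GC.pts c))
    [nA Φ ε a b q.2 q.1 ξ, nB Φ ε a b q.2 q.1 ξ] (min (q.2 - δ) (q.2 - ε * dur Φ q.1.2 ξ.1)))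

theorem measurable_XX (hΦ : IsPotential Φ) (hε : 0 < ε) (L : ℕ) (δ : ℝ) (a b : Shape) :
    Measurable fun z : GC.Conf Ph × (Ph × ℝ) × XP a b => XX Φ L δ a b ε z.1 z.2.1 z.2.2 := by
  have h0 : Measurable fun z : GC.Conf Ph × (Ph × ℝ) × XP a b => ((z.2.1.2, z.2.1.1), z.2.2) := by
    fun_prop
  have hA := (measurable_nAx hΦ ε a b).comp h0
  have hB := (measurable_nBx hΦ ε a b).comp h0
  set Fs : List (GC.Conf Ph × (Ph × ℝ) × XP a b → CTree) :=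
    [fun z => nA Φ ε a b z.2.1.2 z.2.1.1 z.2.2, fun z => nB Φ ε a b z.2.1.2 z.2.1.1 z.2.2] with hFs
  have hF : MF Fs := MF.cons hA (MF.cons hB MF.nil)
  have hc : Measurable fun z : GC.Conf Ph × (Ph × ℝ) × XP a b => z.1 := measurable_fst
  have hW : MM.RS fun z => world ((GC.pts z.1 : Finset Ph) : Set Ph) ∪ lvs (ev Fs z) :=
    (MM.RS.world_pts hc).union (ML.RS.lvs hF)
  have hd : Measurable fun z : GC.Conf Ph × (Ph × ℝ) × XP a b => dur Φ z.2.1.1.2 z.2.2.1 := by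
    have h6 := (measurable_dur hΦ).comp (by fun_prop : Measurable
      fun z : GC.Conf Ph × (Ph × ℝ) × XP a b => (z.2.1.1.2, z.2.2.1))
    simp only [Function.comp_def] at h6
    exact h6
  have ht : Measurable fun z : GC.Conf Ph × (Ph × ℝ) × XP a b =>
      min (z.2.1.2 - δ) (z.2.1.2 - ε * dur Φ z.2.1.1.2 z.2.2.1) := by
    have h1 : Measurable fun z : GC.Conf Ph × (Ph × ℝ) × XP a b => z.2.1.2 := by fun_prop
    exact (h1.sub_const δ).min (h1.sub (hd.const_mul ε))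
  exact measurable_ind (measurableSet_unhit hΦ hε hF hW ht (L := L))

theorem XX_le_one (δ : ℝ) (a b : Shape) (ε : ℝ) (c : GC.Conf Ph) (q : Ph × ℝ) (ξ : XP a b) :
    XX Φ L δ a b ε c q ξ ≤ 1 := ind_le_one _

/-- The subtrees of an alive tree are unhit until the collision. -/
theorem unhit_of_AL (hΦ : IsPotential Φ) (hε : 0 < ε) {w : Finset Ph} {A B : CTree}
    (h : CTree.node A B ∈ AL Φ ε L Tm (w : Set Ph)) :
    Unhit Φ ε L (Wc [A, B] w) [A, B] (CTree.sig Φ ε (.node A B)) := by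
  have hW : Wc [A, B] w = world (w : Set Ph) ∪ (CTree.node A B).leaves := by
    unfold Wc
    rw [lvs_cons, lvs_cons, lvs_nil, union_empty]
    rfl
  have hfin : (world (w : Set Ph) ∪ (CTree.node A B).leaves).Finite :=
    ((w.finite_toSet).image _).union (CTree.node A B).leaves_finite
  have ha := alive_left hΦ hε hfin h.1
  have hb := alive_right hΦ hε hfin h.1
  have hp := alive_pre h.1
  have pa := alive_pre ha
  have pb := alive_pre hb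
  rw [hW]
  refine ⟨?_, ?_⟩
  · rw [okF_cons, okF_cons]
    exact ⟨⟨pa.ok, pa.depth⟩, ⟨pb.ok, pb.depth⟩, fun T hT => absurd hT (by simp)⟩
  · rw [noHit_cons]
    exact ⟨((alive_iff_noHit hΦ hε hfin).1 ha).2, ((alive_iff_noHit hΦ hε hfin).1 hb).2⟩

theorem ind_AL_le (hΦ : IsPotential Φ) (hε : 0 < ε) (δ : ℝ) (c : GC.Conf Ph)
    (hv : nvw Φ a b l.2 ξ ≠ 0) :
    ind (nt Φ ε a b t l ξ ∈ AL Φ ε L Tm (GC.pts c : Set Ph) ∧ nondeg Φ ε (nt Φ ε a b t l ξ)) ≤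
      ind (ndv Φ l.2 ξ.1) * XX Φ L δ a b ε c (l, t) ξ := by
  by_cases h : nt Φ ε a b t l ξ ∈ AL Φ ε L Tm (GC.pts c : Set Ph) ∧
      nondeg Φ ε (nt Φ ε a b t l ξ)
  · have h1 := (nondeg_nt hΦ hε.ne' hv).1 h.2
    have h2 := unhit_of_AL hΦ hε (w := GC.pts c) (A := nA Φ ε a b t l ξ) (B := nB Φ ε a b t l ξ)
      h.1
    rw [sig_node hΦ hε.ne' hv] at h2
    unfold XX
    rw [ind_of_true h, ind_of_true h1, one_mul,
      ind_of_true (h2.mono (min_le_right (t - δ) (t - ε * dur Φ l.2 ξ.1)))]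
  · rw [ind_of_false h]; exact zero_le

/-! ### The limit for one pair of shapes -/

/-- Comparison. -/
theorem tendsto_zero_of_approx {ι : Type*} {l : Filter ι} {J : ι → ℝ≥0∞} {B : ℝ → ℝ≥0∞}
    (h : ∀ δ : ℝ, 0 < δ → ∃ A : ι → ℝ≥0∞, Tendsto A l (𝓝 (B δ)) ∧ ∀ᶠ i in l, J i ≤ A i)
    (hB : Tendsto B (𝓝[>] 0) (𝓝 0)) : Tendsto J l (𝓝 0) := by
  rw [ENNReal.tendsto_nhds_zero]
  intro e he
  have h1 : ∀ᶠ δ in 𝓝[>] (0 : ℝ), B δ < e := hB.eventually_lt_const he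
  obtain ⟨δ, h2, h3⟩ := (h1.and self_mem_nhdsWithin).exists
  obtain ⟨A, hA, hJ⟩ := h δ h3
  filter_upwards [hA.eventually_lt_const h2, hJ] with i h4 h5
  exact h5.trans h4.le

/-- The parameters where the inner times are not too late. -/
def erl (δ : ℝ) (a b : Shape) (t : ℝ) (ξ : XP a b) : Prop :=
  stm a ξ.2.1 < t - δ ∧ stm b ξ.2.2 < t - δ

theorem measurableSet_erl (δ : ℝ) (a b : Shape) :
    MeasurableSet {x : Ph × (ℝ × XP a b) | erl δ a b x.2.1 x.2.2} := by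
  have h1 : Measurable fun x : Ph × (ℝ × XP a b) => stm a x.2.2.2.1 :=
    (measurable_stm a).comp (by fun_prop)
  have h2 : Measurable fun x : Ph × (ℝ × XP a b) => stm b x.2.2.2.2 :=
    (measurable_stm b).comp (by fun_prop)
  have h3 : Measurable fun x : Ph × (ℝ × XP a b) => x.2.1 - δ := by fun_prop
  exact (measurableSet_lt h1 h3).inter (measurableSet_lt h2 h3)

theorem measurableSet_ndx (hΦ : IsPotential Φ) (a b : Shape) :
    MeasurableSet {x : Ph × (ℝ × XP a b) | ndv Φ x.1.2 x.2.2.1} :=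
  (by fun_prop : Measurable fun x : Ph × (ℝ × XP a b) => (x.1.2, x.2.2.1))
    (measurableSet_ndv hΦ)

/-- From iterated integrals to the product. -/
theorem conv3 (T : ℝ) (a b : Shape) {F : Ph × (ℝ × XP a b) → ℝ≥0∞} (hF : Measurable F) :
    ∫⁻ q, ∫⁻ ξ, F (q.1, (q.2, ξ)) ∂(xvol a b) ∂(qvol T) =
      ∫⁻ x, F x ∂((volume : Measure Ph).prod (tvol T a b)) := by
  have h1 : Measurable fun z : (Ph × ℝ) × XP a b => F (z.1.1, (z.1.2, z.2)) :=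
    hF.comp (by fun_prop)
  have h2 : Measurable fun q : Ph × ℝ => ∫⁻ ξ, F (q.1, (q.2, ξ)) ∂(xvol a b) :=
    h1.lintegral_prod_right'
  rw [lintegral_prod _ h2.aemeasurable, lintegral_prod _ hF.aemeasurable]
  refine lintegral_congr fun l => ?_
  have h3 : Measurable fun z : ℝ × XP a b => F (l, z) := hF.comp measurable_prodMk_left
  rw [lintegral_prod _ h3.aemeasurable]

/-- The weight of the good parameters. -/
def fg (k : ℕ) (g : Ph → ℝ≥0∞) (Φ : E3 → ℝ) (δ ε : ℝ) (a b : Shape) (x : Ph × (ℝ × XP a b)) :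
    ℝ≥0∞ := pnW k g Φ ε a b x * ind (ndv Φ x.1.2 x.2.2.1 ∧ erl δ a b x.2.1 x.2.2)

/-- The weight of the bad parameters. -/
def fb (k : ℕ) (g : Ph → ℝ≥0∞) (Φ : E3 → ℝ) (δ ε : ℝ) (a b : Shape) (x : Ph × (ℝ × XP a b)) :
    ℝ≥0∞ := pnW k g Φ ε a b x * ind (¬erl δ a b x.2.1 x.2.2)

theorem measurable_fg (hΦ : IsPotential Φ) {g : Ph → ℝ≥0∞} (hg : Measurable g) (k : ℕ)
    (δ ε : ℝ) (a b : Shape) : Measurable (fg k g Φ δ ε a b) :=
  (measurable_pnW hΦ hg k ε a b).mul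
    (measurable_ind ((measurableSet_ndx hΦ a b).inter (measurableSet_erl δ a b)))

theorem measurable_fb (hΦ : IsPotential Φ) {g : Ph → ℝ≥0∞} (hg : Measurable g) (k : ℕ)
    (δ ε : ℝ) (a b : Shape) : Measurable (fb k g Φ δ ε a b) :=
  (measurable_pnW hΦ hg k ε a b).mul (measurable_ind (measurableSet_erl δ a b).compl)

theorem mul_ind_tsub_le {x y : ℝ≥0∞} (P : Prop) : x * ind P - y * ind P ≤ x - y := by
  by_cases h : P
  · rw [ind_of_true h, mul_one, mul_one]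
  · rw [ind_of_false h, mul_zero, mul_zero, tsub_zero]; exact zero_le

theorem mul_ind_le {x y : ℝ≥0∞} (P : Prop) : x * ind P ≤ y * ind P + (x - y) := by
  by_cases h : P
  · rw [ind_of_true h, mul_one, mul_one]; exact le_add_tsub
  · rw [ind_of_false h, mul_zero]; exact zero_le

theorem pnW_ne_top {g : Ph → ℝ≥0∞} (hg : ∀ z, g z ≠ ∞) (k : ℕ) (ε : ℝ) (a b : Shape)
    (x : Ph × (ℝ × XP a b)) : pnW k g Φ ε a b x ≠ ∞ := by
  unfold pnW nW nlp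
  exact ENNReal.mul_ne_top (cpw_ne_top k _) (ENNReal.mul_ne_top (nvw_ne_top _ _)
    (ENNReal.mul_ne_top (ind_ne_top _) (ENNReal.mul_ne_top (lprod_ne_top hg a _)
      (lprod_ne_top hg b _))))

theorem pnW_zero_ne {g : Ph → ℝ≥0∞} {k : ℕ} {ε : ℝ} {x : Ph × (ℝ × XP a b)}
    (h : pnW k g Φ ε a b x ≠ 0) :
    nvw Φ a b x.1.2 x.2.2 ≠ 0 ∧ ntk Φ ε a b x.2.1 x.1.2 x.2.2 := by
  unfold pnW nW at h
  refine ⟨fun h0 => h (by rw [h0, zero_mul, mul_zero]), ?_⟩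
  by_contra h0
  exact h (by rw [ind_of_false h0, zero_mul, mul_zero, mul_zero])

/-- The survival of the two subtrees in the limit, horizon `h`. -/
def S2 (Φ : E3 → ℝ) (lg : ℝ → ℝ → Ph → ℝ≥0∞) (a b : Shape) (h : ℝ) (q : Ph × ℝ) (ξ : XP a b) :
    ℝ≥0∞ :=
  KE.legW Φ lg a h (nL Φ 0 q.2 q.1 ξ.1).1 ξ.2.1 * KE.legW Φ lg b h (nL Φ 0 q.2 q.1 ξ.1).2 ξ.2.2

theorem measurable_S2 (hΦ : IsPotential Φ) {lg : ℝ → ℝ → Ph → ℝ≥0∞}
    (ml : Measurable fun x : ℝ × ℝ × Ph => lg x.1 x.2.1 x.2.2) (δ : ℝ) (a b : Shape) :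
    Measurable fun z : (Ph × ℝ) × XP a b => S2 Φ lg a b (z.1.2 - δ) z.1 z.2 := by
  have h0 : Measurable fun z : (Ph × ℝ) × XP a b => ((z.1.1, z.1.2), z.2.1) := by fun_prop
  have h1 := (measurable_nL hΦ 0).comp h0
  have h2 : Measurable fun z : (Ph × ℝ) × XP a b => z.1.2 - δ := by fun_prop
  exact ((measurable_legW hΦ ml a).comp (h2.prodMk (h1.fst.prodMk
    (by fun_prop : Measurable fun z : (Ph × ℝ) × XP a b => z.2.2.1)))).mul
    ((measurable_legW hΦ ml b).comp (h2.prodMk (h1.snd.prodMk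
    (by fun_prop : Measurable fun z : (Ph × ℝ) × XP a b => z.2.2.2))))

theorem S2_le_one {lg : ℝ → ℝ → Ph → ℝ≥0∞} (h1 : ∀ s t L, lg s t L ≤ 1) (h : ℝ) (q : Ph × ℝ)
    (ξ : XP a b) : S2 Φ lg a b h q ξ ≤ 1 :=
  mul_le_one' (legW_le_one h1 a _ _ _) (legW_le_one h1 b _ _ _)

/-- The properties of the survival weights of the legs. -/
structure LgOk (lg : ℝ → ℝ → Ph → ℝ≥0∞) (Tm : ℝ) : Prop where
  meas : Measurable fun x : ℝ × ℝ × Ph => lg x.1 x.2.1 x.2.2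
  le_one : ∀ s t L, lg s t L ≤ 1
  cont : ∀ (l : Ph) (s t : ℝ), 0 ≤ s → t ≤ Tm →
    Tendsto (fun δ => lg s (t - δ) l) (𝓝[>] 0) (𝓝 (lg s t l))

/-- The limit density. -/
def Mab (Φ : E3 → ℝ) (g : Ph → ℝ≥0∞) (lg : ℝ → ℝ → Ph → ℝ≥0∞) (a b : Shape) (q : Ph × ℝ) :
    ℝ≥0∞ := ∫⁻ ξ, nW g Φ 0 a b q.2 q.1 ξ * S2 Φ lg a b q.2 q ξ ∂(xvol a b)

/-- The mass that is lost by the restriction to the horizon `t - δ`. -/
def Bd (k : ℕ) (g : Ph → ℝ≥0∞) (Φ : E3 → ℝ) (lg : ℝ → ℝ → Ph → ℝ≥0∞) (Tm : ℝ) (a b : Shape)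
    (δ : ℝ) : ℝ≥0∞ :=
  ∫⁻ x, fb k g Φ δ 0 a b x ∂((volume : Measure Ph).prod (tvol Tm a b)) +
    ∫⁻ x, pnW k g Φ 0 a b x * (S2 Φ lg a b (x.2.1 - δ) (x.1, x.2.1) x.2.2 -
      S2 Φ lg a b x.2.1 (x.1, x.2.1) x.2.2) ∂((volume : Measure Ph).prod (tvol Tm a b))

theorem measurable_S2x (hΦ : IsPotential Φ) {lg : ℝ → ℝ → Ph → ℝ≥0∞}
    (ml : Measurable fun x : ℝ × ℝ × Ph => lg x.1 x.2.1 x.2.2) (δ : ℝ) (a b : Shape) :
    Measurable fun x : Ph × (ℝ × XP a b) => S2 Φ lg a b (x.2.1 - δ) (x.1, x.2.1) x.2.2 :=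
  (measurable_S2 hΦ ml δ a b).comp
    (by fun_prop : Measurable fun x : Ph × (ℝ × XP a b) => ((x.1, x.2.1), x.2.2))

theorem tendsto_Bd (hΦ : IsPotential Φ) {g : Ph → ℝ≥0∞} {M β : ℝ} (hg : GD g M β) (k : ℕ)
    (hT : 0 ≤ Tm) {lg : ℝ → ℝ → Ph → ℝ≥0∞} (hl : LgOk lg Tm) (a b : Shape) :
    Tendsto (Bd k g Φ lg Tm a b) (𝓝[>] 0) (𝓝 0) := by
  have hfin : ∫⁻ x, pnW k g Φ 0 a b x ∂((volume : Measure Ph).prod (tvol Tm a b)) ≠ ∞ :=
    (tendsto_nW (l := 𝓝[>] (0 : ℝ)) (εs := fun ε => ε) hΦ hg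
      (tendsto_id.mono_left nhdsWithin_le_nhds)
      (by filter_upwards [self_mem_nhdsWithin] with i hi; exact le_of_lt hi) k hT a b).2.2
  have hp := measurable_pnW hΦ hg.meas k 0 a b (Φ := Φ)
  have hmem : ∀ᵐ x ∂((volume : Measure Ph).prod (tvol Tm a b)), x.2.1 ∈ Icc 0 Tm :=
    Measure.quasiMeasurePreserving_snd.ae (ae_tvol_mem Tm a b)
  unfold Bd
  rw [show (0 : ℝ≥0∞) = 0 + 0 from (add_zero 0).symm]
  refine Tendsto.add ?_ ?_
  · have key := tendsto_lintegral_filter_of_dominated_convergence (l := 𝓝[>] (0 : ℝ))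
      (μ := (volume : Measure Ph).prod (tvol Tm a b)) (F := fun δ => fb k g Φ δ 0 a b)
      (f := fun _ => 0) (pnW k g Φ 0 a b)
      (Eventually.of_forall fun δ => measurable_fb hΦ hg.meas k δ 0 a b)
      (Eventually.of_forall fun δ => Eventually.of_forall fun x => by
        unfold fb
        exact mul_le_of_le_one_right' (ind_le_one _)) hfin
      (Eventually.of_forall fun x => ?_)
    · rw [lintegral_zero] at key
      exact key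
    · by_cases h0 : pnW k g Φ 0 a b x = 0
      · unfold fb
        simp only [h0, zero_mul]
        exact tendsto_const_nhds
      · have h1 := (ntk_zero.1 (pnW_zero_ne h0).2).2
        refine tendsto_const_nhds.congr' ?_
        have e1 : ∀ᶠ δ in 𝓝[>] (0 : ℝ), stm a x.2.2.2.1 < x.2.1 - δ := by
          have : Tendsto (fun δ : ℝ => x.2.1 - δ) (𝓝[>] 0) (𝓝 (x.2.1 - 0)) :=
            (tendsto_const_nhds.sub tendsto_id).mono_left nhdsWithin_le_nhds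
          rw [sub_zero] at this
          exact this.eventually_const_lt h1.1
        have e2 : ∀ᶠ δ in 𝓝[>] (0 : ℝ), stm b x.2.2.2.2 < x.2.1 - δ := by
          have : Tendsto (fun δ : ℝ => x.2.1 - δ) (𝓝[>] 0) (𝓝 (x.2.1 - 0)) :=
            (tendsto_const_nhds.sub tendsto_id).mono_left nhdsWithin_le_nhds
          rw [sub_zero] at this
          exact this.eventually_const_lt h1.2
        filter_upwards [e1, e2] with δ h2 h3
        unfold fb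
        rw [ind_of_false (fun h => h ⟨h2, h3⟩), mul_zero]
  · have key := tendsto_lintegral_filter_of_dominated_convergence (l := 𝓝[>] (0 : ℝ))
      (μ := (volume : Measure Ph).prod (tvol Tm a b))
      (F := fun δ x => pnW k g Φ 0 a b x * (S2 Φ lg a b (x.2.1 - δ) (x.1, x.2.1) x.2.2 -
        S2 Φ lg a b x.2.1 (x.1, x.2.1) x.2.2))
      (f := fun _ => 0) (pnW k g Φ 0 a b)
      (Eventually.of_forall fun δ => by
        have h1 := measurable_S2x hΦ hl.meas δ a b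
        have h2 := measurable_S2x hΦ hl.meas 0 a b
        simp only [sub_zero] at h2
        exact hp.mul (h1.sub h2))
      (Eventually.of_forall fun δ => Eventually.of_forall fun x =>
        mul_le_of_le_one_right' (tsub_le_self.trans (S2_le_one hl.le_one _ _ _))) hfin ?_
    · rw [lintegral_zero] at key
      exact key
    · filter_upwards [hmem] with x hx
      by_cases h0 : pnW k g Φ 0 a b x = 0
      · simp only [h0, zero_mul]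
        exact tendsto_const_nhds
      · have h1 := ntk_zero.1 (pnW_zero_ne h0).2
        have ha := (ordd_of_tok a _ _ x.2.1 h1.1.1 h1.2.1).1
        have hb := (ordd_of_tok b _ _ x.2.1 h1.1.2 h1.2.2).1
        have h2 := tendsto_legW (Φ := Φ) hl.le_one a (t := x.2.1)
          (hl.cont (nL Φ 0 x.2.1 x.1 x.2.2.1).1 _ _ ha hx.2)
        have h3 := tendsto_legW (Φ := Φ) hl.le_one b (t := x.2.1)
          (hl.cont (nL Φ 0 x.2.1 x.1 x.2.2.1).2 _ _ hb hx.2)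
        have n1 := ne_top_of_le_ne_top ENNReal.one_ne_top (legW_le_one (Φ := Φ) hl.le_one a x.2.1
          (nL Φ 0 x.2.1 x.1 x.2.2.1).1 x.2.2.2.1)
        have n2 := ne_top_of_le_ne_top ENNReal.one_ne_top (legW_le_one (Φ := Φ) hl.le_one b x.2.1
          (nL Φ 0 x.2.1 x.1 x.2.2.1).2 x.2.2.2.2)
        have h4 := ENNReal.Tendsto.mul h2 (Or.inr n2) h3 (Or.inr n1)
        have h5 := ENNReal.Tendsto.sub h4 (tendsto_const_nhds (x := S2 Φ lg a b x.2.1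
          (x.1, x.2.1) x.2.2)) (Or.inl (ENNReal.mul_ne_top n1 n2))
        have h6 := ENNReal.Tendsto.const_mul (a := pnW k g Φ 0 a b x) h5
          (Or.inr (pnW_ne_top hg.ne_top k 0 a b x))
        have e : legW Φ lg a x.2.1 (nL Φ 0 x.2.1 x.1 x.2.2.1).1 x.2.2.2.1 *
          legW Φ lg b x.2.1 (nL Φ 0 x.2.1 x.1 x.2.2.1).2 x.2.2.2.2 -
          S2 Φ lg a b x.2.1 (x.1, x.2.1) x.2.2 = 0 := tsub_self _
        rw [e, mul_zero] at h6
        exact h6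

/-! ### The positive numbers as an index set -/

/-- The filter `ε → 0+` on the positive numbers. -/
def posF : Filter (Ioi (0 : ℝ)) := comap Subtype.val (𝓝[>] (0 : ℝ))

theorem map_posF : map Subtype.val posF = 𝓝[>] (0 : ℝ) := by
  unfold posF
  refine map_comap_of_mem ?_
  rw [Subtype.range_coe]
  exact self_mem_nhdsWithin

instance : posF.NeBot := by
  unfold posF
  refine comap_neBot_iff.2 fun s hs => ?_
  obtain ⟨x, hx⟩ := Filter.nonempty_of_mem (Filter.inter_mem hs self_mem_nhdsWithin)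
  exact ⟨⟨x, hx.2⟩, hx.1⟩

instance : posF.IsCountablyGenerated := by unfold posF; infer_instance

theorem tendsto_val_posF : Tendsto (Subtype.val : Ioi (0 : ℝ) → ℝ) posF (𝓝[>] (0 : ℝ)) :=
  tendsto_comap

theorem tendsto_of_posF {J : ℝ → ℝ≥0∞} {x : ℝ≥0∞}
    (h : Tendsto (fun i : Ioi (0 : ℝ) => J i.1) posF (𝓝 x)) : Tendsto J (𝓝[>] 0) (𝓝 x) := by
  rw [← map_posF, tendsto_map'_iff]
  exact h

/-! ### The limit for one pair of shapes -/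

/-- The quenched part. -/
def Qn (k : ℕ) (g : Ph → ℝ≥0∞) (Φ : E3 → ℝ) (L : ℕ) (lg : ℝ → ℝ → Ph → ℝ≥0∞) (a b : Shape)
    (δ ε : ℝ) (c : GC.Conf Ph) (q : Ph × ℝ) : ℝ≥0∞ :=
  ∫⁻ ξ, fg k g Φ δ ε a b (q.1, (q.2, ξ)) * XX Φ L δ a b ε c q ξ ∂(xvol a b) -
    ∫⁻ ξ, fg k g Φ δ 0 a b (q.1, (q.2, ξ)) * S2 Φ lg a b (q.2 - δ) q ξ ∂(xvol a b)

/-- The remaining part. -/
def Rm (k : ℕ) (g : Ph → ℝ≥0∞) (Φ : E3 → ℝ) (lg : ℝ → ℝ → Ph → ℝ≥0∞) (a b : Shape)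
    (δ ε : ℝ) (q : Ph × ℝ) : ℝ≥0∞ :=
  ∫⁻ ξ, (fb k g Φ δ ε a b (q.1, (q.2, ξ)) +
    pnW k g Φ 0 a b (q.1, (q.2, ξ)) * (S2 Φ lg a b (q.2 - δ) q ξ -
      S2 Φ lg a b q.2 q ξ)) ∂(xvol a b)

theorem measurable_S20 (hΦ : IsPotential Φ) {lg : ℝ → ℝ → Ph → ℝ≥0∞}
    (ml : Measurable fun x : ℝ × ℝ × Ph => lg x.1 x.2.1 x.2.2) (a b : Shape) :
    Measurable fun z : (Ph × ℝ) × XP a b => S2 Φ lg a b z.1.2 z.1 z.2 := by
  have h := measurable_S2 hΦ ml 0 a b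
  simp only [sub_zero] at h
  exact h

theorem dens_upper (hΦ : IsPotential Φ) {M β : ℝ} (hg : GD (fh f₀) M β) (hε : 0 < ε) (k : ℕ)
    (δ : ℝ) (c : GC.Conf Ph) (q : Ph × ℝ) :
    Cap.pw k q.1.2 * Nab Φ f₀ L Tm a b ε c q.2 q.1 ≤
      ∫⁻ ξ, fg k (fh f₀) Φ δ ε a b (q.1, (q.2, ξ)) * XX Φ L δ a b ε c q ξ ∂(xvol a b) +
        ∫⁻ ξ, fb k (fh f₀) Φ δ ε a b (q.1, (q.2, ξ)) ∂(xvol a b) := by
  have hgq : Measurable fun ξ : XP a b => ((q.1, (q.2, ξ)) : Ph × (ℝ × XP a b)) := by fun_prop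
  have hfbm : Measurable fun ξ : XP a b => fb k (fh f₀) Φ δ ε a b (q.1, (q.2, ξ)) :=
    (measurable_fb hΦ hg.meas k δ ε a b).comp hgq
  unfold Nab
  rw [← lintegral_add_right _ hfbm, ← lintegral_const_mul' _ _ (cpw_ne_top k _)]
  refine lintegral_mono fun ξ => ?_
  rw [← mul_assoc]
  change pnW k (fh f₀) Φ ε a b (q.1, (q.2, ξ)) * _ ≤ _
  by_cases hv : nvw Φ a b q.1.2 ξ = 0
  · have e0 : pnW k (fh f₀) Φ ε a b (q.1, (q.2, ξ)) = 0 := by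
      unfold pnW nW
      simp only
      rw [hv, zero_mul, mul_zero]
    rw [e0, zero_mul]; exact zero_le
  · have h2 := ind_AL_le (L := L) (Tm := Tm) (t := q.2) (l := q.1) hΦ hε δ c hv
    refine (mul_le_mul' le_rfl h2).trans ?_
    change _ ≤ fg k (fh f₀) Φ δ ε a b (q.1, (q.2, ξ)) * XX Φ L δ a b ε c q ξ +
      fb k (fh f₀) Φ δ ε a b (q.1, (q.2, ξ))
    unfold fg fb
    simp only
    by_cases he : erl δ a b q.2 ξ
    · rw [ind_of_false (P := ¬erl δ a b q.2 ξ) (fun h => h he), mul_zero, add_zero]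
      by_cases hn : ndv Φ q.1.2 ξ.1
      · rw [ind_of_true hn, ind_of_true ⟨hn, he⟩, one_mul, mul_one]
      · rw [ind_of_false hn, zero_mul, mul_zero]; exact zero_le
    · rw [ind_of_true (P := ¬erl δ a b q.2 ξ) he, mul_one]
      refine le_trans ?_ le_add_self
      exact mul_le_of_le_one_right' (mul_le_one' (ind_le_one _) (XX_le_one δ a b ε c _ ξ))

theorem lim_lower (hΦ : IsPotential Φ) {g : Ph → ℝ≥0∞} {M β : ℝ} (hg : GD g M β) (k : ℕ) (δ : ℝ)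
    {lg : ℝ → ℝ → Ph → ℝ≥0∞} (ml : Measurable fun x : ℝ × ℝ × Ph => lg x.1 x.2.1 x.2.2)
    (q : Ph × ℝ) :
    ∫⁻ ξ, fg k g Φ δ 0 a b (q.1, (q.2, ξ)) * S2 Φ lg a b (q.2 - δ) q ξ ∂(xvol a b) ≤
      Cap.pw k q.1.2 * Mab Φ g lg a b q +
        ∫⁻ ξ, pnW k g Φ 0 a b (q.1, (q.2, ξ)) * (S2 Φ lg a b (q.2 - δ) q ξ -
          S2 Φ lg a b q.2 q ξ) ∂(xvol a b) := by
  have hgq : Measurable fun ξ : XP a b => ((q.1, (q.2, ξ)) : Ph × (ℝ × XP a b)) := by fun_prop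
  have hSq : Measurable fun ξ : XP a b => S2 Φ lg a b (q.2 - δ) q ξ :=
    (measurable_S2 hΦ ml δ a b).comp measurable_prodMk_left
  have hS0 : Measurable fun ξ : XP a b => S2 Φ lg a b q.2 q ξ :=
    (measurable_S20 hΦ ml a b).comp (measurable_prodMk_left (x := q))
  have hp0m : Measurable fun ξ : XP a b => pnW k g Φ 0 a b (q.1, (q.2, ξ)) :=
    (measurable_pnW hΦ hg.meas k 0 a b).comp hgq
  have hm0 : Measurable fun ξ : XP a b => pnW k g Φ 0 a b (q.1, (q.2, ξ)) *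
      (S2 Φ lg a b (q.2 - δ) q ξ - S2 Φ lg a b q.2 q ξ) := hp0m.mul (hSq.sub hS0)
  unfold Mab
  rw [← lintegral_const_mul' _ _ (cpw_ne_top k _), ← lintegral_add_right _ hm0]
  refine lintegral_mono fun ξ => ?_
  rw [← mul_assoc]
  change fg k g Φ δ 0 a b (q.1, (q.2, ξ)) * S2 Φ lg a b (q.2 - δ) q ξ ≤
    pnW k g Φ 0 a b (q.1, (q.2, ξ)) * S2 Φ lg a b q.2 q ξ + _
  rw [← mul_add]
  unfold fg
  exact mul_le_mul' (mul_le_of_le_one_right' (ind_le_one _)) le_add_tsub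

/-- The pointwise inequality. -/
theorem J_pt (hΦ : IsPotential Φ) {M β : ℝ} (hg : GD (fh f₀) M β) (hε : 0 < ε) (k : ℕ)
    (δ : ℝ) {lg : ℝ → ℝ → Ph → ℝ≥0∞}
    (ml : Measurable fun x : ℝ × ℝ × Ph => lg x.1 x.2.1 x.2.2) (c : GC.Conf Ph) (q : Ph × ℝ) :
    Cap.pw k q.1.2 * (Nab Φ f₀ L Tm a b ε c q.2 q.1 - Mab Φ (fh f₀) lg a b q) ≤
      Qn k (fh f₀) Φ L lg a b δ ε c q + Rm k (fh f₀) Φ lg a b δ ε q := by
  have hgq : Measurable fun ξ : XP a b => ((q.1, (q.2, ξ)) : Ph × (ℝ × XP a b)) := by fun_prop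
  have hfbm : Measurable fun ξ : XP a b => fb k (fh f₀) Φ δ ε a b (q.1, (q.2, ξ)) :=
    (measurable_fb hΦ hg.meas k δ ε a b).comp hgq
  have h1 := dens_upper (L := L) (Tm := Tm) (a := a) (b := b) hΦ hg hε k δ c q
  have h2 := lim_lower (a := a) (b := b) hΦ hg k δ ml q
  rw [ENNReal.mul_sub fun _ _ => cpw_ne_top k _, tsub_le_iff_right]
  unfold Rm
  rw [lintegral_add_left hfbm]
  have h3 : ∫⁻ ξ, fg k (fh f₀) Φ δ ε a b (q.1, (q.2, ξ)) * XX Φ L δ a b ε c q ξ ∂(xvol a b) ≤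
      Qn k (fh f₀) Φ L lg a b δ ε c q +
        ∫⁻ ξ, fg k (fh f₀) Φ δ 0 a b (q.1, (q.2, ξ)) * S2 Φ lg a b (q.2 - δ) q ξ ∂(xvol a b) :=
    le_tsub_add
  refine h1.trans ((add_le_add (h3.trans (add_le_add le_rfl h2)) le_rfl).trans (le_of_eq ?_))
  ring

theorem measurable_Rm (hΦ : IsPotential Φ) {g : Ph → ℝ≥0∞} {M β : ℝ} (hg : GD g M β) (k : ℕ)
    (δ ε : ℝ) {lg : ℝ → ℝ → Ph → ℝ≥0∞}
    (ml : Measurable fun x : ℝ × ℝ × Ph => lg x.1 x.2.1 x.2.2) (a b : Shape) :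
    Measurable (Rm k g Φ lg a b δ ε) := by
  have hgx : Measurable fun z : (Ph × ℝ) × XP a b => ((z.1.1, (z.1.2, z.2)) :
      Ph × (ℝ × XP a b)) := by fun_prop
  have h1 : Measurable fun z : (Ph × ℝ) × XP a b => fb k g Φ δ ε a b (z.1.1, (z.1.2, z.2)) +
      pnW k g Φ 0 a b (z.1.1, (z.1.2, z.2)) * (S2 Φ lg a b (z.1.2 - δ) z.1 z.2 -
        S2 Φ lg a b z.1.2 z.1 z.2) :=
    ((measurable_fb hΦ hg.meas k δ ε a b).comp hgx).add
      (((measurable_pnW hΦ hg.meas k 0 a b).comp hgx).mul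
        ((measurable_S2 hΦ ml δ a b).sub (measurable_S20 hΦ ml a b)))
  exact h1.lintegral_prod_right'

/-- The integral of the remaining part. -/
theorem lintegral_Rm_le (hΦ : IsPotential Φ) {g : Ph → ℝ≥0∞} {M β : ℝ} (hg : GD g M β) (k : ℕ)
    (δ ε : ℝ) {lg : ℝ → ℝ → Ph → ℝ≥0∞}
    (ml : Measurable fun x : ℝ × ℝ × Ph => lg x.1 x.2.1 x.2.2) (a b : Shape) :
    ∫⁻ q, Rm k g Φ lg a b δ ε q ∂(qvol Tm) ≤
      ∫⁻ x, ((pnW k g Φ ε a b x - pnW k g Φ 0 a b x) +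
        (pnW k g Φ 0 a b x - pnW k g Φ ε a b x))
          ∂((volume : Measure Ph).prod (tvol Tm a b)) + Bd k g Φ lg Tm a b δ := by
  have hS0x : Measurable fun x : Ph × (ℝ × XP a b) =>
      S2 Φ lg a b x.2.1 (x.1, x.2.1) x.2.2 := by
    have h := measurable_S2x hΦ ml 0 a b
    simp only [sub_zero] at h
    exact h
  have hm2 : Measurable fun x : Ph × (ℝ × XP a b) => pnW k g Φ 0 a b x *
      (S2 Φ lg a b (x.2.1 - δ) (x.1, x.2.1) x.2.2 - S2 Φ lg a b x.2.1 (x.1, x.2.1) x.2.2) :=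
    (measurable_pnW hΦ hg.meas k 0 a b).mul ((measurable_S2x hΦ ml δ a b).sub hS0x)
  have e := conv3 Tm a b (F := fun x => fb k g Φ δ ε a b x + pnW k g Φ 0 a b x *
      (S2 Φ lg a b (x.2.1 - δ) (x.1, x.2.1) x.2.2 - S2 Φ lg a b x.2.1 (x.1, x.2.1) x.2.2))
    ((measurable_fb hΦ hg.meas k δ ε a b).add hm2)
  refine (le_of_eq e).trans ?_
  rw [lintegral_add_left (measurable_fb hΦ hg.meas k δ ε a b)]
  unfold Bd
  rw [← add_assoc]
  refine add_le_add ?_ le_rfl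
  rw [← lintegral_add_right _ (measurable_fb hΦ hg.meas k δ 0 a b)]
  refine lintegral_mono fun x => ?_
  unfold fb
  rw [add_comm]
  refine (mul_ind_le (y := pnW k g Φ 0 a b x) _).trans (add_le_add le_rfl ?_)
  exact le_add_right le_rfl

theorem eventually_min {δ : ℝ} (hδ : 0 < δ) (q : Ph × ℝ) (ξ : XP a b) :
    ∀ᶠ i : Ioi (0 : ℝ) in posF, min (q.2 - δ) (q.2 - i.1 * dur Φ q.1.2 ξ.1) = q.2 - δ := by
  have hε : Tendsto (fun i : Ioi (0 : ℝ) => i.1) posF (𝓝 0) :=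
    tendsto_val_posF.mono_right nhdsWithin_le_nhds
  have h1 : Tendsto (fun i : Ioi (0 : ℝ) => i.1 * dur Φ q.1.2 ξ.1) posF (𝓝 0) := by
    have h2 := hε.mul_const (dur Φ q.1.2 ξ.1)
    rw [zero_mul] at h2
    exact h2
  filter_upwards [h1.eventually_lt_const hδ] with i hi
  exact min_eq_left (by linarith)

theorem eventually_XX {δ : ℝ} (hδ : 0 < δ) (q : Ph × ℝ) (ξ : XP a b) :
    ∀ᶠ i : Ioi (0 : ℝ) in posF, ∀ c, XX Φ L δ a b i.1 c q ξ =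
      uh Φ i.1 L [gA Φ a b q.2 q.1 ξ, gB Φ a b q.2 q.1 ξ] (q.2 - δ) c := by
  filter_upwards [eventually_min (Φ := Φ) hδ q ξ] with i hi c
  unfold XX uh
  rw [hi, trees_gAB]

theorem gdp_of_fg {k : ℕ} {g : Ph → ℝ≥0∞} {δ : ℝ} {q : Ph × ℝ} {ξ : XP a b}
    (h : fg k g Φ δ 0 a b (q.1, (q.2, ξ)) ≠ 0) : gdp Φ δ a b q ξ := by
  unfold fg at h
  rw [mul_ne_zero_iff, ind_ne_zero] at h
  have h1 := pnW_zero_ne h.1
  exact ⟨⟨h1.1, h1.2, h.2.1⟩, h.2.2⟩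

theorem tendsto_first {δ : ℝ} (hδ : 0 < δ) {lg : ℝ → ℝ → Ph → ℝ≥0∞} {q : Ph × ℝ} {ξ : XP a b}
    (h : Sv Φ f₀ L lg [gA Φ a b q.2 q.1 ξ, gB Φ a b q.2 q.1 ξ] [] (q.2 - δ)) :
    Tendsto (fun i : Ioi (0 : ℝ) => ∫⁻ c, XX Φ L δ a b i.1 c q ξ ∂(GC.PP f₀ i.1)) posF
      (𝓝 (S2 Φ lg a b (q.2 - δ) q ξ)) := by
  have h4 := h.comp tendsto_val_posF
  simp only [Function.comp_def, uh_nil, mul_one, svF_nil] at h4
  rw [svF_gAB] at h4
  refine h4.congr' ?_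
  filter_upwards [eventually_XX hδ q ξ] with i hi
  exact lintegral_congr fun c => (hi c).symm

theorem tendsto_second {δ : ℝ} (hδ : 0 < δ) {lg : ℝ → ℝ → Ph → ℝ≥0∞} {q : Ph × ℝ}
    {z : XP a b × XP a b}
    (h : Sv Φ f₀ L lg [gA Φ a b q.2 q.1 z.1, gB Φ a b q.2 q.1 z.1]
        [gA Φ a b q.2 q.1 z.2, gB Φ a b q.2 q.1 z.2] (q.2 - δ)) :
    Tendsto (fun i : Ioi (0 : ℝ) => ∫⁻ c, XX Φ L δ a b i.1 c q z.1 * XX Φ L δ a b i.1 c q z.2
      ∂(GC.PP f₀ i.1)) posF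
      (𝓝 (S2 Φ lg a b (q.2 - δ) q z.1 * S2 Φ lg a b (q.2 - δ) q z.2)) := by
  have h4 := h.comp tendsto_val_posF
  rw [svF_gAB, svF_gAB] at h4
  simp only [Function.comp_def] at h4
  refine h4.congr' ?_
  filter_upwards [eventually_XX hδ q z.1, eventually_XX hδ q z.2] with i hi hi'
  exact lintegral_congr fun c => by rw [hi c, hi' c]

theorem tendsto_pos_nW (hΦ : IsPotential Φ) {g : Ph → ℝ≥0∞} {M β : ℝ} (hg : GD g M β) (k : ℕ)
    (hT : 0 ≤ Tm) (a b : Shape) :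
    Tendsto (fun i : Ioi (0 : ℝ) => ∫⁻ x, ((pnW k g Φ i.1 a b x - pnW k g Φ 0 a b x) +
        (pnW k g Φ 0 a b x - pnW k g Φ i.1 a b x))
          ∂((volume : Measure Ph).prod (tvol Tm a b))) posF (𝓝 0) ∧
    ∫⁻ x, pnW k g Φ 0 a b x ∂((volume : Measure Ph).prod (tvol Tm a b)) ≠ ∞ := by
  have hε : Tendsto (fun i : Ioi (0 : ℝ) => i.1) posF (𝓝 0) :=
    tendsto_val_posF.mono_right nhdsWithin_le_nhds
  have h := tendsto_nW (l := posF) (εs := fun i => i.1) hΦ hg hε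
    (Eventually.of_forall fun i => (le_of_lt i.2)) k hT a b
  exact ⟨h.1, h.2.2⟩

/-- **The quenched part vanishes.** -/
theorem tendsto_Qn {κ : ℝ≥0} (hΦ : IsPotential Φ) (hgd : GoodDatum f₀ κ) {M β : ℝ}
    (hg : GD (fh f₀) M β) (k : ℕ) (hT : 0 ≤ Tm)
    {lg : ℝ → ℝ → Ph → ℝ≥0∞} (hl : LgOk lg Tm) (hN : NdIn Φ f₀ L Tm lg a b) {δ : ℝ}
    (hδ : 0 < δ) :
    Tendsto (fun i : Ioi (0 : ℝ) => ∫⁻ c, ∫⁻ q, Qn k (fh f₀) Φ L lg a b δ i.1 c q ∂(qvol Tm)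
      ∂(GC.PP f₀ i.1)) posF (𝓝 0) := by
  have hpr : ∀ i : Ioi (0 : ℝ), IsProbabilityMeasure (GC.PP f₀ i.1) := fun i =>
    GC.isProbability_PP hgd
  have hL1 := tendsto_pos_nW (Φ := Φ) hΦ hg k hT a b
  have hgx : Measurable fun z : (Ph × ℝ) × XP a b => ((z.1.1, (z.1.2, z.2)) :
      Ph × (ℝ × XP a b)) := by fun_prop
  refine quench_upper (Ω := GC.Conf Ph) (Q := Ph × ℝ) (P := XP a b) (l := posF)
    (Pr := fun i => GC.PP f₀ i.1) (m := qvol Tm) (ν := xvol a b)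
    (X := fun i c q ξ => XX Φ L δ a b i.1 c q ξ) (S := fun q ξ => S2 Φ lg a b (q.2 - δ) q ξ)
    (W := fun i q ξ => fg k (fh f₀) Φ δ i.1 a b (q.1, (q.2, ξ)))
    (W₀ := fun q ξ => fg k (fh f₀) Φ δ 0 a b (q.1, (q.2, ξ)))
    (fun i => measurable_XX hΦ i.2 L δ a b) (fun i c q ξ => XX_le_one δ a b i.1 c q ξ)
    (measurable_S2 hΦ hl.meas δ a b)
    (fun i => (measurable_fg hΦ hg.meas k δ i.1 a b).comp hgx)
    ((measurable_fg hΦ hg.meas k δ 0 a b).comp hgx) ?_ ?_ ?_ ?_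
  · -- finiteness
    rw [conv3 Tm a b (measurable_fg hΦ hg.meas k δ 0 a b)]
    refine ne_top_of_le_ne_top hL1.2 (lintegral_mono fun x => ?_)
    unfold fg
    exact mul_le_of_le_one_right' (ind_le_one _)
  · -- convergence of the weights
    refine tendsto_of_tendsto_of_tendsto_of_le_of_le tendsto_const_nhds hL1.1
      (fun _ => zero_le) fun i => ?_
    have e := conv3 Tm a b (F := fun x => fg k (fh f₀) Φ δ i.1 a b x - fg k (fh f₀) Φ δ 0 a b x)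
      ((measurable_fg hΦ hg.meas k δ i.1 a b).sub (measurable_fg hΦ hg.meas k δ 0 a b))
    refine (le_of_eq e).trans (lintegral_mono fun x => ?_)
    refine le_trans ?_ (le_add_right le_rfl)
    exact mul_ind_tsub_le _
  · filter_upwards [(hN δ hδ).1] with q h1
    filter_upwards [h1] with ξ h2 h3
    exact tendsto_first hδ (h2 (gdp_of_fg h3))
  · filter_upwards [(hN δ hδ).2] with q h1
    filter_upwards [h1] with z h2 h3 h3'
    exact tendsto_second hδ (h2 (gdp_of_fg h3) (gdp_of_fg h3'))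

/-- **The limit for one pair of shapes.** -/
theorem tendsto_Jab {κ : ℝ≥0} (hΦ : IsPotential Φ) (hgd : GoodDatum f₀ κ) {M β : ℝ}
    (hg : GD (fh f₀) M β) (k : ℕ) (hT : 0 ≤ Tm)
    {lg : ℝ → ℝ → Ph → ℝ≥0∞} (hl : LgOk lg Tm) (hN : NdIn Φ f₀ L Tm lg a b) :
    Tendsto (fun i : Ioi (0 : ℝ) => ∫⁻ c, ∫⁻ q, Cap.pw k q.1.2 *
      (Nab Φ f₀ L Tm a b i.1 c q.2 q.1 - Mab Φ (fh f₀) lg a b q) ∂(qvol Tm) ∂(GC.PP f₀ i.1))
      posF (𝓝 0) := by
  have hpr : ∀ i : Ioi (0 : ℝ), IsProbabilityMeasure (GC.PP f₀ i.1) := fun i =>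
    GC.isProbability_PP hgd
  have hL1 := tendsto_pos_nW (Φ := Φ) hΦ hg k hT a b
  refine tendsto_zero_of_approx (B := Bd k (fh f₀) Φ lg Tm a b) ?_ (tendsto_Bd hΦ hg k hT hl a b)
  intro δ hδ
  refine ⟨fun i => (∫⁻ c, ∫⁻ q, Qn k (fh f₀) Φ L lg a b δ i.1 c q ∂(qvol Tm)
      ∂(GC.PP f₀ i.1)) +
      (∫⁻ x, ((pnW k (fh f₀) Φ i.1 a b x - pnW k (fh f₀) Φ 0 a b x) +
        (pnW k (fh f₀) Φ 0 a b x - pnW k (fh f₀) Φ i.1 a b x))
          ∂((volume : Measure Ph).prod (tvol Tm a b)) + Bd k (fh f₀) Φ lg Tm a b δ), ?_, ?_⟩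
  · have h1 := (tendsto_Qn (Tm := Tm) hΦ hgd hg k hT hl hN hδ).add
      (hL1.1.add (tendsto_const_nhds (x := Bd k (fh f₀) Φ lg Tm a b δ)))
    rw [zero_add, zero_add] at h1
    exact h1
  refine Eventually.of_forall fun i => ?_
  have hR := measurable_Rm hΦ hg k δ i.1 hl.meas a b
  refine (lintegral_mono fun c => lintegral_mono fun q =>
    J_pt (L := L) (Tm := Tm) hΦ hg i.2 k δ hl.meas c q).trans ?_
  have e : ∀ c : GC.Conf Ph, ∫⁻ q, (Qn k (fh f₀) Φ L lg a b δ i.1 c q +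
      Rm k (fh f₀) Φ lg a b δ i.1 q) ∂(qvol Tm) =
      ∫⁻ q, Qn k (fh f₀) Φ L lg a b δ i.1 c q ∂(qvol Tm) +
        ∫⁻ q, Rm k (fh f₀) Φ lg a b δ i.1 q ∂(qvol Tm) := fun c => lintegral_add_right _ hR
  simp only [e]
  rw [lintegral_add_right _ measurable_const, lintegral_const, measure_univ, mul_one]
  exact add_le_add le_rfl (lintegral_Rm_le hΦ hg k δ i.1 hl.meas a b)

end Vale.Agent.P119.Cap
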