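import Mathlib

/-!
# P119, block ML (`helper755`): generalised dominated convergence (Pratt)
-/

open MeasureTheory Filter Topology Set
open scoped ENNReal NNReal

noncomputable section

namespace Vale.Agent.P119.ML

variable {α ι : Type*} [MeasurableSpace α] {μ : Measure α} {l : Filter ι}

theorem tendsto_zero_of_liminf {a v : ℕ → ℝ≥0∞} {A : ℝ≥0∞} (hA : A ≠ ∞)
    (ha : Tendsto a atTop (𝓝 A)) (hv : ∀ᶠ n in atTop, v n ≤ a n)
    (h : A ≤ liminf (fun n => a n - v n) atTop) : Tendsto v atTop (𝓝 0) := by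
  rw [ENNReal.tendsto_nhds_zero]
  intro η hη
  rcases eq_or_ne η ∞ with rfl | hη'
  · exact Eventually.of_forall fun _ => le_top
  set θ := η / 2 with hθ
  have hθ0 : 0 < θ := ENNReal.half_pos hη.ne'
  have hθη : θ + θ = η := ENNReal.add_halves η
  have hθt : θ ≠ ∞ := fun h0 => hη' (by rw [← hθη, h0, top_add])
  rcases eq_or_ne A 0 with hA0 | hA0
  · subst hA0
    filter_upwards [hv, ENNReal.tendsto_nhds_zero.1 ha η hη] with n h1 h2
    exact h1.trans h2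
  have h1 : A - θ < A := ENNReal.sub_lt_self hA hA0 hθ0.ne'
  have h2 := eventually_lt_of_lt_liminf (h1.trans_le h) (by isBoundedDefault)
  have h3 : ∀ᶠ n in atTop, a n < A + θ :=
    ha.eventually_lt_const (ENNReal.lt_add_right hA hθ0.ne')
  filter_upwards [hv, h2, h3] with n h4 h5 h6
  have h7 : a n ≠ ∞ := (h6.trans_le le_top).ne
  have h8 : v n = a n - (a n - v n) := (ENNReal.sub_sub_cancel h7 h4).symm
  rw [h8]
  calc a n - (a n - v n) ≤ (A + θ) - (A - θ) := tsub_le_tsub h6.le h5.le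
    _ ≤ η := by
        rw [tsub_le_iff_right, ← hθη]
        calc A + θ ≤ (A - θ + θ) + θ := by gcongr; exact le_tsub_add
          _ = θ + θ + (A - θ) := by ring

/-- Dominated convergence with varying dominating functions. -/
theorem pratt_zero [l.IsCountablyGenerated] {V E : ι → α → ℝ≥0∞} {E₀ : α → ℝ≥0∞}
    (hV : ∀ i, AEMeasurable (V i) μ) (hE : ∀ i, AEMeasurable (E i) μ)
    (hle : ∀ᶠ i in l, ∀ᵐ x ∂μ, V i x ≤ E i x) (hfin : ∫⁻ x, E₀ x ∂μ ≠ ∞)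
    (hE₀ : AEMeasurable E₀ μ)
    (hEi : Tendsto (fun i => ∫⁻ x, E i x ∂μ) l (𝓝 (∫⁻ x, E₀ x ∂μ)))
    (hEp : ∀ᵐ x ∂μ, Tendsto (fun i => E i x) l (𝓝 (E₀ x)))
    (hVp : ∀ᵐ x ∂μ, Tendsto (fun i => V i x) l (𝓝 0)) :
    Tendsto (fun i => ∫⁻ x, V i x ∂μ) l (𝓝 0) := by
  refine tendsto_of_seq_tendsto fun s hs => ?_
  have hle' := hs.eventually hle
  refine tendsto_zero_of_liminf hfin (hEi.comp hs) ?_ ?_
  · filter_upwards [hle'] with n hn
    exact lintegral_mono_ae hn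
  have hfinE : ∀ᶠ n in atTop, ∫⁻ x, E (s n) x ∂μ < ∞ :=
    (hEi.comp hs).eventually_lt_const (lt_top_iff_ne_top.2 hfin)
  have h1 : ∀ᶠ n in atTop, ∫⁻ x, (E (s n) x - V (s n) x) ∂μ =
      ∫⁻ x, E (s n) x ∂μ - ∫⁻ x, V (s n) x ∂μ := by
    filter_upwards [hle', hfinE] with n h2 h3
    exact lintegral_sub' (hV _) ((lintegral_mono_ae h2).trans_lt h3).ne h2
  have h2 : liminf (fun n => ((fun i => ∫⁻ x, E i x ∂μ) ∘ s) n - ∫⁻ x, V (s n) x ∂μ) atTop =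
      liminf (fun n => ∫⁻ x, (E (s n) x - V (s n) x) ∂μ) atTop :=
    liminf_congr (by filter_upwards [h1] with n hn; exact hn.symm)
  change _ ≤ liminf (fun n => ((fun i => ∫⁻ x, E i x ∂μ) ∘ s) n - ∫⁻ x, V (s n) x ∂μ) atTop
  rw [h2]
  refine le_trans ?_ (lintegral_liminf_le' fun n => (hE _).sub (hV _))
  refine lintegral_mono_ae ?_
  filter_upwards [hEp, hVp, ae_lt_top' hE₀ hfin] with x h3 h4 h5
  have h6 := ENNReal.Tendsto.sub (h3.comp hs) (h4.comp hs) (Or.inl h5.ne)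
  rw [tsub_zero] at h6
  exact le_of_eq h6.liminf_eq.symm

/-- **Generalised dominated convergence, upper part.** -/
theorem pratt_upper [l.IsCountablyGenerated] {W D : ι → α → ℝ≥0∞} {W₀ D₀ : α → ℝ≥0∞}
    (hW : ∀ i, AEMeasurable (W i) μ) (hD : ∀ i, AEMeasurable (D i) μ) (hW₀ : AEMeasurable W₀ μ)
    (hle : ∀ᶠ i in l, ∀ᵐ x ∂μ, W i x ≤ D i x) (hfin : ∫⁻ x, D₀ x ∂μ ≠ ∞)
    (hD₀ : AEMeasurable D₀ μ)
    (hDi : Tendsto (fun i => ∫⁻ x, D i x ∂μ) l (𝓝 (∫⁻ x, D₀ x ∂μ)))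
    (hDp : ∀ᵐ x ∂μ, Tendsto (fun i => D i x) l (𝓝 (D₀ x)))
    (hWp : ∀ᵐ x ∂μ, Tendsto (fun i => W i x - W₀ x) l (𝓝 0)) :
    Tendsto (fun i => ∫⁻ x, (W i x - W₀ x) ∂μ) l (𝓝 0) := by
  refine pratt_zero (E := D) (E₀ := D₀) (fun i => (hW i).sub hW₀) hD ?_ hfin hD₀ hDi hDp hWp
  filter_upwards [hle] with i hi
  filter_upwards [hi] with x hx
  exact tsub_le_self.trans hx

/-- **Generalised dominated convergence (Pratt).** -/
theorem pratt [l.NeBot] [l.IsCountablyGenerated] {W D : ι → α → ℝ≥0∞} {W₀ D₀ : α → ℝ≥0∞}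
    (hW : ∀ i, AEMeasurable (W i) μ) (hD : ∀ i, AEMeasurable (D i) μ) (hW₀ : AEMeasurable W₀ μ)
    (hle : ∀ᶠ i in l, ∀ᵐ x ∂μ, W i x ≤ D i x) (hfin : ∫⁻ x, D₀ x ∂μ ≠ ∞)
    (hD₀ : AEMeasurable D₀ μ)
    (hDi : Tendsto (fun i => ∫⁻ x, D i x ∂μ) l (𝓝 (∫⁻ x, D₀ x ∂μ)))
    (hDp : ∀ᵐ x ∂μ, Tendsto (fun i => D i x) l (𝓝 (D₀ x)))
    (hWp : ∀ᵐ x ∂μ, Tendsto (fun i => W i x) l (𝓝 (W₀ x))) :
    Tendsto (fun i => ∫⁻ x, ((W i x - W₀ x) + (W₀ x - W i x)) ∂μ) l (𝓝 0) ∧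
      Tendsto (fun i => ∫⁻ x, W i x ∂μ) l (𝓝 (∫⁻ x, W₀ x ∂μ)) ∧ ∫⁻ x, W₀ x ∂μ ≠ ∞ := by
  -- the limit is dominated
  have h0 : ∀ᵐ x ∂μ, W₀ x ≤ D₀ x := by
    obtain ⟨s, hs⟩ := exists_seq_tendsto l
    have h1 := hs.eventually hle
    rw [eventually_atTop] at h1
    obtain ⟨N, hN⟩ := h1
    have h2 : ∀ᵐ x ∂μ, ∀ n, N ≤ n → W (s n) x ≤ D (s n) x := by
      rw [ae_all_iff]
      intro n
      by_cases hn : N ≤ n
      · filter_upwards [hN n hn] with x hx _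
        exact hx
      · exact Eventually.of_forall fun x h => absurd h hn
    filter_upwards [h2, hDp, hWp] with x h3 h4 h5
    refine le_of_tendsto_of_tendsto (h5.comp hs) (h4.comp hs) ?_
    filter_upwards [eventually_ge_atTop N] with n hn
    exact h3 n hn
  have hW0 : ∫⁻ x, W₀ x ∂μ ≠ ∞ := ((lintegral_mono_ae h0).trans_lt (lt_top_iff_ne_top.2 hfin)).ne
  have key : Tendsto (fun i => ∫⁻ x, ((W i x - W₀ x) + (W₀ x - W i x)) ∂μ) l (𝓝 0) := by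
    refine pratt_zero (E := fun i x => D i x + D₀ x) (E₀ := fun x => D₀ x + D₀ x)
      (fun i => ((hW i).sub hW₀).add (hW₀.sub (hW i))) (fun i => (hD i).add hD₀) ?_ ?_
      (hD₀.add hD₀) ?_ ?_ ?_
    · filter_upwards [hle] with i hi
      filter_upwards [hi, h0] with x h1 h2
      exact add_le_add (tsub_le_self.trans h1) (tsub_le_self.trans h2)
    · rw [lintegral_add_left' hD₀]
      exact ENNReal.add_ne_top.2 ⟨hfin, hfin⟩
    · have h1 : ∀ i, ∫⁻ x, (D i x + D₀ x) ∂μ = ∫⁻ x, D i x ∂μ + ∫⁻ x, D₀ x ∂μ := fun i =>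
        lintegral_add_left' (hD i) _
      simp only [h1]
      rw [lintegral_add_left' hD₀]
      exact hDi.add_const _
    · filter_upwards [hDp] with x hx
      exact hx.add_const _
    · filter_upwards [hWp, h0, ae_lt_top' hD₀ hfin] with x h1 h2 h3
      have h4 : W₀ x ≠ ∞ := (h2.trans_lt h3).ne
      have h5 := (ENNReal.Tendsto.sub h1 (tendsto_const_nhds (x := W₀ x)) (Or.inr h4)).add
        (ENNReal.Tendsto.sub (tendsto_const_nhds (x := W₀ x)) h1 (Or.inl h4))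
      rw [tsub_self, add_zero] at h5
      exact h5
  refine ⟨key, ?_, hW0⟩
  -- convergence of the integrals
  have h1 : ∀ i, ∫⁻ x, W i x ∂μ ≤ ∫⁻ x, W₀ x ∂μ +
      ∫⁻ x, ((W i x - W₀ x) + (W₀ x - W i x)) ∂μ := fun i => by
    rw [← lintegral_add_left' hW₀]
    refine lintegral_mono fun x => ?_
    calc W i x ≤ W₀ x + (W i x - W₀ x) := le_add_tsub
      _ ≤ _ := by gcongr; exact le_self_add
  have h2 : ∀ i, ∫⁻ x, W₀ x ∂μ ≤ ∫⁻ x, W i x ∂μ +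
      ∫⁻ x, ((W i x - W₀ x) + (W₀ x - W i x)) ∂μ := fun i => by
    rw [← lintegral_add_left' (hW i)]
    refine lintegral_mono fun x => ?_
    calc W₀ x ≤ W i x + (W₀ x - W i x) := le_add_tsub
      _ ≤ _ := by gcongr; exact le_add_self
  refine ENNReal.tendsto_nhds hW0 |>.2 fun η hη => ?_
  filter_upwards [ENNReal.tendsto_nhds_zero.1 key η hη] with i hi
  refine ⟨?_, (h1 i).trans (by gcongr)⟩
  rw [tsub_le_iff_right]
  exact (h2 i).trans (by gcongr)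

end Vale.Agent.P119.ML
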