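import Vale.Agent.P119.ML.InRRate
import Vale.Agent.P119.ML.Pratt

/-!
# P119, block ML (In-R, `helper755`): domination and `L¹` convergence of the weights

* `mQ Tm`: the measure on (exit time, outgoing line); `ewt`: the Gaussian weight; `wW`: the weight;
* `dD`: the dominating functions, `wW_le`, `lintegral_dD` (the mass does not depend on `ε`),
  `lintegral_dD_ne_top`, `tendsto_dD`;
* `tendsto_wW`: pointwise convergence.
-/

open MeasureTheory Filter Topology Set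
open scoped ENNReal NNReal

noncomputable section

namespace Vale.Agent.P119.Cap

open KU M KT ML

variable {Φ : E3 → ℝ} {ε : ℝ} {g : Ph → ℝ≥0∞}

/-- The measure on the exit times and the outgoing lines. -/
def mQ (Tm : ℝ) : Measure (ℝ × Ph) := ((volume : Measure ℝ).restrict (Icc 0 Tm)).prod volume

instance instSigmaFiniteMQ (Tm : ℝ) : SigmaFinite (mQ Tm) := by unfold mQ; infer_instance

/-- The Gaussian weight. -/
def ewt (c₀ : ℝ) (v : E3) : ℝ≥0∞ := ENNReal.ofReal (Real.exp (-c₀ * ‖v‖ ^ 2))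

theorem measurable_ewt (c₀ : ℝ) : Measurable (ewt c₀) := by unfold ewt; fun_prop

theorem ewt_ne_top (c₀ : ℝ) (v : E3) : ewt c₀ v ≠ ∞ := ENNReal.ofReal_ne_top

/-- The weight. -/
def wW (g : Ph → ℝ≥0∞) (Φ : E3 → ℝ) (c₀ ε : ℝ) (k : Bool) (τ : Shape) (q : ℝ × Ph)
    (x : PY τ) : ℝ≥0∞ := ewt c₀ q.2.2 * rwt g Φ ε k τ q.2 q.1 x

theorem measurable_wW (hΦ : IsPotential Φ) (hg : Measurable g) (c₀ ε : ℝ) (k : Bool)
    (τ : Shape) : Measurable fun z : (ℝ × Ph) × PY τ => wW g Φ c₀ ε k τ z.1 z.2 :=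
  ((measurable_ewt c₀).comp (measurable_snd.comp (measurable_snd.comp measurable_fst))).mul
    (measurable_rwt hΦ hg ε k τ)

/-- The part of the dominating function which does not contain the datum. -/
def dD0 (Φ : E3 → ℝ) (Tm M β c₀ : ℝ) (k : Bool) (τ : Shape) (v : E3) (x : PY τ) : ℝ≥0∞ :=
  ewt c₀ v * (nw Φ v (0, x.1) * (ind (dgn Φ k v x.1) * (KT.wt Φ τ x.1.1 x.2 *
    (ind (win Tm Φ τ x.1.1 x.2) * ENNReal.ofReal (M ^ (τ.card - 1) *
      Real.exp (-β * (‖x.1.1‖ ^ 2 + enP τ x.2 - ‖flv Φ τ x.1.1 x.2‖ ^ 2)))))))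

/-- The dominating function. -/
def dD (g : Ph → ℝ≥0∞) (Φ : E3 → ℝ) (Tm M β c₀ ε : ℝ) (k : Bool) (τ : Shape) (q : ℝ × Ph)
    (x : PY τ) : ℝ≥0∞ := dD0 Φ Tm M β c₀ k τ q.2.2 x *
      g (fl τ (bk Φ ε τ ((lat ε (dG Φ k q.2 q.1 x.1)).1, x.1.1) x.2))

theorem wW_le (hΦ : IsPotential Φ) {M β Tm c₀ : ℝ} (hM : 0 ≤ M)
    (hg : ∀ x v, g (x, v) ≤ KE.gs M β v) (hε : 0 ≤ ε) (hε1 : ε ≤ 1) (k : Bool) (τ : Shape)
    {q : ℝ × Ph} (hq : q.1 ≤ Tm) (x : PY τ) :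
    wW g Φ c₀ ε k τ q x ≤ dD g Φ Tm M β c₀ ε k τ q x := by
  unfold wW rwt
  by_cases hr : x ∈ rset Φ ε k τ q.2 q.1
  swap
  · rw [indicator_of_notMem hr]
    simp only [mul_zero, zero_le]
  rw [indicator_of_mem hr]
  obtain ⟨hd, ht, hx⟩ := hr
  have hu := dG_vel_of_dgn (Φ := Φ) (k := k) (L := q.2) q.1 hd
  rw [hu] at ht hx
  have hlat : lat ε (dG Φ k q.2 q.1 x.1) = ((lat ε (dG Φ k q.2 q.1 x.1)).1, x.1.1) := by
    ext1
    · rfl
    · exact hu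
  rw [hu]
  by_cases hw : KT.wt Φ τ x.1.1 x.2 = 0
  · rw [hw]
    simp only [zero_mul, mul_zero, zero_le]
  by_cases hn : nw Φ q.2.2 (0, x.1) = 0
  · rw [hn]
    simp only [zero_mul, mul_zero, zero_le]
  have hgood := (wt_ne_zero_iff τ _ x.2).1 hw
  have hgn : ((0, x.1) : ND) ∈ gn Φ q.2.2 := nw_ne_zero_iff.1 hn
  have hsg : sgt Φ ε q.2.2 q.1 x.1 ≤ Tm := by
    have e2 := tin_inRel_lt hΦ hgn
    unfold sgt
    nlinarith
  have hwin : win Tm Φ τ x.1.1 x.2 := win_of_tok hΦ hε hε1 τ _ _ hgood ht (hx.le.trans hsg)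
  unfold dD dD0
  rw [ind_of_true hwin, ind_of_true hd, one_mul, one_mul]
  have h1 := lprod_le_fl (g := g) hM hg τ (bk Φ ε τ (lat ε (dG Φ k q.2 q.1 x.1)) x.2)
  rw [hlat] at h1 ⊢
  rw [enL_bk hΦ, fl_bk] at h1
  rw [fl_bk]
  simp only at h1 ⊢
  calc ewt c₀ q.2.2 * (nw Φ q.2.2 (0, x.1) * (KT.wt Φ τ x.1.1 x.2 *
        lprod g τ (bk Φ ε τ ((lat ε (dG Φ k q.2 q.1 x.1)).1, x.1.1) x.2)))
      ≤ ewt c₀ q.2.2 * (nw Φ q.2.2 (0, x.1) * (KT.wt Φ τ x.1.1 x.2 *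
        (g ((lat ε (dG Φ k q.2 q.1 x.1)).1 + fls Φ ε τ x.1.1 x.2, flv Φ τ x.1.1 x.2) *
          ENNReal.ofReal (M ^ (τ.card - 1) * Real.exp (-β * (‖x.1.1‖ ^ 2 + enP τ x.2 -
            ‖flv Φ τ x.1.1 x.2‖ ^ 2)))))) := by gcongr
    _ = _ := by ring

theorem measurable_dD0 (hΦ : IsPotential Φ) (Tm M β c₀ : ℝ) (k : Bool) (τ : Shape) :
    Measurable fun z : E3 × PY τ => dD0 Φ Tm M β c₀ k τ z.1 z.2 := by
  have h1 : Measurable fun z : E3 × PY τ => ((z.1, ((0 : ℝ), z.2.1)) : E3 × ND) := by fun_prop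
  have h2 : Measurable fun z : E3 × PY τ => (z.2.1.1, z.2.2) := by fun_prop
  have h3 : Measurable fun z : E3 × PY τ => (z.1, z.2.1) := by fun_prop
  have h4 : Measurable fun z : E3 × PY τ => ‖z.2.1.1‖ ^ 2 := by fun_prop
  have h5 : Measurable fun z : E3 × PY τ => enP τ z.2.2 := (measurable_enP τ).comp (by fun_prop)
  have h6 : Measurable fun z : E3 × PY τ => ‖flv Φ τ z.2.1.1 z.2.2‖ ^ 2 :=
    ((measurable_flv hΦ τ).comp h2).norm.pow_const 2
  unfold dD0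
  refine ((measurable_ewt c₀).comp measurable_fst).mul (((measurable_nw hΦ).comp h1).mul
    ((measurable_ind (h3 (measurableSet_dgn hΦ k))).mul
      (((KT.measurable_wt hΦ τ).comp h2).mul ((measurable_ind
        (h2 (measurableSet_win hΦ Tm τ))).mul ?_))))
  exact (((((h4.add h5).sub h6).const_mul (-β)).exp).const_mul _).ennreal_ofReal

theorem measurable_dD (hΦ : IsPotential Φ) (hg : Measurable g) (Tm M β c₀ ε : ℝ) (k : Bool)
    (τ : Shape) : Measurable fun z : (ℝ × Ph) × PY τ => dD g Φ Tm M β c₀ ε k τ z.1 z.2 := by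
  have hG := (measurable_dG hΦ k).comp (by fun_prop : Measurable fun x : (ℝ × Ph) × PY τ =>
    ((x.1.2, x.1.1, x.2.1) : Ph × ℝ × (E3 × E2)))
  have h1 := ((measurable_lat ε).comp hG).fst
  have h2 : Measurable fun z : (ℝ × Ph) × PY τ =>
      bk Φ ε τ ((lat ε (dG Φ k z.1.2 z.1.1 z.2.1)).1, z.2.1.1) z.2.2 :=
    (measurable_bk hΦ ε τ).comp ((h1.prodMk (by fun_prop)).prodMk (by fun_prop))
  have h3 : Measurable fun z : (ℝ × Ph) × PY τ => (z.1.2.2, z.2) := by fun_prop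
  exact ((measurable_dD0 hΦ Tm M β c₀ k τ).comp h3).mul (hg.comp ((measurable_fl τ).comp h2))

/-- The line of the tree is equivariant. -/
theorem lat_dG_add (k : Bool) (x v : E3) (b : ℝ) (y : E3 × E2) :
    (lat ε (dG Φ k (x, v) b y)).1 = x + (lat ε (dG Φ k (0, v) b y)).1 := by
  rw [lat_dG, lat_dG]
  have h := inLines_add (Φ := Φ) ε (0, v) x (bq ε v b y)
  simp only [zero_add] at h
  cases k
  · unfold tlk
    simp only [Bool.false_eq_true, if_false]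
    rw [h]
    exact add_comm _ _
  · unfold tlk
    simp only [if_true]
    rw [h]
    exact add_comm _ _

/-- The mass of the datum along the positions. -/
def rhov (g : Ph → ℝ≥0∞) (v : E3) : ℝ≥0∞ := ∫⁻ x, g (x, v)

theorem lintegral_dD_pos (Tm M β c₀ ε : ℝ) (k : Bool) (τ : Shape) (b : ℝ) (v : E3) (x : PY τ)
    (hg : Measurable g) :
    ∫⁻ x₀ : E3, dD g Φ Tm M β c₀ ε k τ (b, (x₀, v)) x =
      dD0 Φ Tm M β c₀ k τ v x * rhov g (flv Φ τ x.1.1 x.2) := by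
  unfold dD
  simp only
  have h1 : ∀ x₀ : E3, g (fl τ (bk Φ ε τ ((lat ε (dG Φ k (x₀, v) b x.1)).1, x.1.1) x.2)) =
      g (fl τ (bk Φ ε τ (x₀ + (lat ε (dG Φ k (0, v) b x.1)).1, x.1.1) x.2)) := fun x₀ => by
    rw [lat_dG_add k x₀ v]
  simp only [h1]
  have h2 : Measurable fun x₀ : E3 =>
      g (fl τ (bk Φ ε τ (x₀ + (lat ε (dG Φ k (0, v) b x.1)).1, x.1.1) x.2)) := by
    simp only [fl_bk]
    exact hg.comp (by fun_prop)
  rw [lintegral_const_mul _ h2, lintegral_fl_bk]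
  rfl

/-- The mass of the dominating function, which does not depend on `ε`. -/
def mD (g : Ph → ℝ≥0∞) (Φ : E3 → ℝ) (Tm M β c₀ : ℝ) (k : Bool) (τ : Shape) : ℝ≥0∞ :=
  ∫⁻ _b in Icc 0 Tm, ∫⁻ v : E3, ∫⁻ x,
    dD0 Φ Tm M β c₀ k τ v x * rhov g (flv Φ τ x.1.1 x.2) ∂(ro τ)

theorem lintegral_dD (hΦ : IsPotential Φ) (hg : Measurable g) (Tm M β c₀ ε : ℝ) (k : Bool)
    (τ : Shape) :
    ∫⁻ z, dD g Φ Tm M β c₀ ε k τ z.1 z.2 ∂((mQ Tm).prod (ro τ)) = mD g Φ Tm M β c₀ k τ := by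
  have hm := measurable_dD hΦ hg Tm M β c₀ ε k τ
  rw [lintegral_prod _ hm.aemeasurable]
  have hm1 : Measurable fun q : ℝ × Ph => ∫⁻ x, dD g Φ Tm M β c₀ ε k τ q x ∂(ro τ) :=
    hm.lintegral_prod_right'
  unfold mQ
  rw [lintegral_prod _ hm1.aemeasurable]
  unfold mD
  refine lintegral_congr fun b => ?_
  have hm2 : Measurable fun L : Ph => ∫⁻ x, dD g Φ Tm M β c₀ ε k τ (b, L) x ∂(ro τ) :=
    hm1.comp (measurable_prodMk_left (x := b))
  have e1 : ∫⁻ L : Ph, ∫⁻ x, dD g Φ Tm M β c₀ ε k τ (b, L) x ∂(ro τ) =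
      ∫⁻ v : E3, ∫⁻ x₀ : E3, ∫⁻ x, dD g Φ Tm M β c₀ ε k τ (b, (x₀, v)) x ∂(ro τ) := by
    rw [Measure.volume_eq_prod, lintegral_prod_symm _ hm2.aemeasurable]
  rw [e1]
  refine lintegral_congr fun v => ?_
  have hm3 : Measurable fun z : E3 × PY τ => dD g Φ Tm M β c₀ ε k τ (b, (z.1, v)) z.2 := by
    have h : Measurable fun z : E3 × PY τ => (((b, (z.1, v)), z.2) : (ℝ × Ph) × PY τ) := by
      fun_prop
    have h9 := hm.comp h
    simp only [Function.comp_def] at h9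
    exact h9
  have e2 : ∫⁻ x₀ : E3, ∫⁻ x, dD g Φ Tm M β c₀ ε k τ (b, (x₀, v)) x ∂(ro τ) =
      ∫⁻ x, ∫⁻ x₀ : E3, dD g Φ Tm M β c₀ ε k τ (b, (x₀, v)) x ∂volume ∂(ro τ) :=
    lintegral_lintegral_swap (f := fun x₀ x => dD g Φ Tm M β c₀ ε k τ (b, (x₀, v)) x)
      hm3.aemeasurable
  rw [e2]
  exact lintegral_congr fun x => lintegral_dD_pos Tm M β c₀ ε k τ b v x hg

/-- Integration over the parameters of a node of a function of the velocity. -/
theorem lintegral_ball_fst {h : E3 → ℝ≥0∞} (hh : Measurable h) :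
    ∫⁻ y in {y : E3 × E2 | ‖y.2‖ < 1}, h y.1 =
      volume {b : E2 | ‖b‖ < 1} * ∫⁻ u, h u := by
  have hb : {y : E3 × E2 | ‖y.2‖ < 1} = univ ×ˢ {b : E2 | ‖b‖ < 1} := by ext y; simp
  have h0 : (volume : Measure (E3 × E2)).restrict {y | ‖y.2‖ < 1} =
      (volume : Measure E3).prod ((volume : Measure E2).restrict {b | ‖b‖ < 1}) := by
    rw [hb, Measure.volume_eq_prod, ← Measure.prod_restrict, Measure.restrict_univ]
  rw [h0, lintegral_prod _ (by fun_prop)]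
  simp only [lintegral_const, Measure.restrict_apply_univ]
  rw [lintegral_mul_const _ hh, mul_comm]

/-- The mass of the dominating function is finite. -/
theorem mD_ne_top (hΦ : IsPotential Φ) {M β Tm c₀ : ℝ} (hM : 0 ≤ M) (hβ : 0 < β) (hT : 0 ≤ Tm)
    (hc : 0 < c₀) (hx : ∀ v, ∫⁻ x, g (x, v) ≤ KE.gs M β v) (k : Bool) (τ : Shape) :
    mD g Φ Tm M β c₀ k τ ≠ ∞ := by
  obtain ⟨C₁, hC₁, h1⟩ := lintegral_win_le hΦ (β := β) (t := Tm) hβ hT τ (β / 2) (by positivity)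
  set K : ℝ := M ^ τ.card * C₁ with hK
  have hK0 : 0 ≤ K := by positivity
  have hβ2 : 0 < β / 2 := by positivity
  set D : ℝ≥0∞ := volume {b : E2 | ‖b‖ < 1} with hD
  have hDt : D ≠ ∞ := volume_disc_lt_top.ne
  -- pointwise bound
  have h2 : ∀ (v : E3) (x : PY τ), dD0 Φ Tm M β c₀ k τ v x * rhov g (flv Φ τ x.1.1 x.2) ≤
      ewt c₀ v * (‖v - x.1.1‖ₑ * (ENNReal.ofReal (M ^ τ.card * Real.exp (-β * ‖x.1.1‖ ^ 2)) *
        (KT.wt Φ τ x.1.1 x.2 * {y : E3 × PD τ | win Tm Φ τ y.1 y.2}.indicator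
          (fun y => ENNReal.ofReal (Real.exp (-β * enP τ y.2))) (x.1.1, x.2)))) := by
    intro v x
    unfold dD0
    by_cases hw : win Tm Φ τ x.1.1 x.2
    swap
    · rw [ind_of_false hw]
      simp only [zero_mul, mul_zero, zero_le]
    rw [ind_of_true hw, indicator_of_mem (by exact hw), one_mul]
    have h3 : rhov g (flv Φ τ x.1.1 x.2) ≤ ENNReal.ofReal (M * Real.exp (-β *
        ‖flv Φ τ x.1.1 x.2‖ ^ 2)) := hx _
    have h4 : ENNReal.ofReal (M ^ (τ.card - 1) *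
      Real.exp (-β * (‖x.1.1‖ ^ 2 + enP τ x.2 - ‖flv Φ τ x.1.1 x.2‖ ^ 2))) *
        ENNReal.ofReal (M * Real.exp (-β * ‖flv Φ τ x.1.1 x.2‖ ^ 2)) =
        ENNReal.ofReal (M ^ τ.card * Real.exp (-β * ‖x.1.1‖ ^ 2)) *
          ENNReal.ofReal (Real.exp (-β * enP τ x.2)) := by
      rw [← ENNReal.ofReal_mul (by positivity), ← ENNReal.ofReal_mul (by positivity)]
      congr 1
      have e1 : M ^ τ.card = M ^ (τ.card - 1) * M := by
        rw [← pow_succ, Nat.sub_add_cancel (card_pos τ)]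
      have e2 : Real.exp (-β * (‖x.1.1‖ ^ 2 + enP τ x.2 - ‖flv Φ τ x.1.1 x.2‖ ^ 2)) *
          Real.exp (-β * ‖flv Φ τ x.1.1 x.2‖ ^ 2) =
          Real.exp (-β * ‖x.1.1‖ ^ 2) * Real.exp (-β * enP τ x.2) := by
        rw [← Real.exp_add, ← Real.exp_add]
        congr 1
        ring
      calc _ = M ^ (τ.card - 1) * M * (Real.exp (-β * (‖x.1.1‖ ^ 2 + enP τ x.2 -
            ‖flv Φ τ x.1.1 x.2‖ ^ 2)) * Real.exp (-β * ‖flv Φ τ x.1.1 x.2‖ ^ 2)) := by ring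
        _ = _ := by rw [e2, e1]; ring
    calc ewt c₀ v * (nw Φ v (0, x.1) * (ind (dgn Φ k v x.1) * (KT.wt Φ τ x.1.1 x.2 *
          (ENNReal.ofReal (M ^ (τ.card - 1) *
          Real.exp (-β * (‖x.1.1‖ ^ 2 + enP τ x.2 - ‖flv Φ τ x.1.1 x.2‖ ^ 2))))))) *
            rhov g (flv Φ τ x.1.1 x.2)
        ≤ ewt c₀ v * (‖v - x.1.1‖ₑ * (1 * (KT.wt Φ τ x.1.1 x.2 *
          (ENNReal.ofReal (M ^ (τ.card - 1) *
          Real.exp (-β * (‖x.1.1‖ ^ 2 + enP τ x.2 - ‖flv Φ τ x.1.1 x.2‖ ^ 2))))))) *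
            ENNReal.ofReal (M * Real.exp (-β * ‖flv Φ τ x.1.1 x.2‖ ^ 2)) := by
          gcongr
          · exact nw_le v (0, x.1)
          · exact ind_le_one _
      _ = ewt c₀ v * (‖v - x.1.1‖ₑ * (KT.wt Φ τ x.1.1 x.2 *
          (ENNReal.ofReal (M ^ (τ.card - 1) *
          Real.exp (-β * (‖x.1.1‖ ^ 2 + enP τ x.2 - ‖flv Φ τ x.1.1 x.2‖ ^ 2))) *
            ENNReal.ofReal (M * Real.exp (-β * ‖flv Φ τ x.1.1 x.2‖ ^ 2))))) := by ring
      _ = _ := by rw [h4]; ring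
  -- measurability
  have hWm : Measurable fun x : E3 × PD τ => KT.wt Φ τ x.1 x.2 *
        {y : E3 × PD τ | win Tm Φ τ y.1 y.2}.indicator
          (fun y => ENNReal.ofReal (Real.exp (-β * enP τ y.2))) (x.1, x.2) :=
    (KT.measurable_wt hΦ τ).mul (((measurable_enP τ).comp measurable_snd |>.const_mul (-β)
        |> Real.measurable_exp.comp |> ENNReal.measurable_ofReal.comp).indicator
        (measurableSet_win hΦ Tm τ))
  have h3 : ∀ v : E3, ∫⁻ x, dD0 Φ Tm M β c₀ k τ v x * rhov g (flv Φ τ x.1.1 x.2) ∂(ro τ) ≤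
      ewt c₀ v * (D * ENNReal.ofReal (K * Real.exp (1 / (4 * (β / 2 / 2))) *
        (Real.pi / (β / 2 / 2)) ^ (3 / 2 : ℝ) * (1 + ‖v‖))) := by
    intro v
    refine (lintegral_mono (h2 v)).trans ?_
    have hm1 : Measurable fun x : PY τ => (x.1.1, x.2) := by fun_prop
    have hm2 : Measurable fun x : PY τ =>
        ENNReal.ofReal (M ^ τ.card * Real.exp (-β * ‖x.1.1‖ ^ 2)) := by fun_prop
    have hm3 : Measurable fun x : PY τ => ‖v - x.1.1‖ₑ := by fun_prop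
    have hm4 : Measurable fun x : PY τ => ‖v - x.1.1‖ₑ *
        (ENNReal.ofReal (M ^ τ.card * Real.exp (-β * ‖x.1.1‖ ^ 2)) *
        (KT.wt Φ τ x.1.1 x.2 * {y : E3 × PD τ | win Tm Φ τ y.1 y.2}.indicator
          (fun y => ENNReal.ofReal (Real.exp (-β * enP τ y.2))) (x.1.1, x.2))) :=
      hm3.mul (hm2.mul (hWm.comp hm1))
    rw [lintegral_const_mul _ hm4]
    refine mul_le_mul' le_rfl ?_
    unfold ro
    rw [lintegral_prod _ hm4.aemeasurable]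
    have h4 : ∀ y : E3 × E2, ∫⁻ p, ‖v - y.1‖ₑ *
        (ENNReal.ofReal (M ^ τ.card * Real.exp (-β * ‖y.1‖ ^ 2)) *
        (KT.wt Φ τ y.1 p * {y : E3 × PD τ | win Tm Φ τ y.1 y.2}.indicator
          (fun y => ENNReal.ofReal (Real.exp (-β * enP τ y.2))) (y.1, p))) ∂(pvol τ) ≤
        ‖v - y.1‖ₑ * ENNReal.ofReal (K * Real.exp (-(β / 2) * ‖y.1‖ ^ 2)) := by
      intro y
      have hm5 : Measurable fun p : PD τ => KT.wt Φ τ y.1 p *
          {y : E3 × PD τ | win Tm Φ τ y.1 y.2}.indicator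
          (fun y => ENNReal.ofReal (Real.exp (-β * enP τ y.2))) (y.1, p) :=
        hWm.comp (measurable_prodMk_left (x := y.1))
      rw [lintegral_const_mul _ (hm5.const_mul _), lintegral_const_mul _ hm5]
      refine mul_le_mul' le_rfl ?_
      refine (mul_le_mul' le_rfl (h1 y.1)).trans ?_
      rw [← ENNReal.ofReal_mul (by positivity)]
      refine ENNReal.ofReal_le_ofReal (le_of_eq ?_)
      rw [hK]
      have e2 : Real.exp (-(β / 2) * ‖y.1‖ ^ 2) = Real.exp (-β * ‖y.1‖ ^ 2) *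
          Real.exp (β / 2 * ‖y.1‖ ^ 2) := by
        rw [← Real.exp_add]
        congr 1
        ring
      rw [e2]
      ring
    refine (lintegral_mono h4).trans ?_
    rw [lintegral_ball_fst (h := fun u => ‖v - u‖ₑ *
      ENNReal.ofReal (K * Real.exp (-(β / 2) * ‖u‖ ^ 2))) (by fun_prop)]
    refine mul_le_mul' le_rfl ?_
    exact lintegral_enorm_sub_gauss hβ2 hK0 v
  -- the integral over the velocity
  unfold mD
  rw [setLIntegral_const]
  refine ENNReal.mul_ne_top ?_ (by rw [Real.volume_Icc]; exact ENNReal.ofReal_ne_top)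
  refine ne_top_of_le_ne_top ?_ (lintegral_mono h3)
  set K' : ℝ := K * Real.exp (1 / (4 * (β / 2 / 2))) * (Real.pi / (β / 2 / 2)) ^ (3 / 2 : ℝ)
    with hK'
  have hK'0 : 0 ≤ K' := by positivity
  have hc2 : 0 < c₀ / 2 := by positivity
  have h5 : ∀ v : E3, ewt c₀ v * (D * ENNReal.ofReal (K' * (1 + ‖v‖))) ≤
      D * KE.gs (K' * Real.exp (1 / (4 * (c₀ / 2)))) (c₀ / 2) v := by
    intro v
    unfold ewt KE.gs
    rw [mul_left_comm]
    refine mul_le_mul' le_rfl ?_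
    rw [← ENNReal.ofReal_mul (Real.exp_nonneg _)]
    refine ENNReal.ofReal_le_ofReal ?_
    have e1 := one_add_le_exp_sq hc2 ‖v‖
    calc Real.exp (-c₀ * ‖v‖ ^ 2) * (K' * (1 + ‖v‖))
        ≤ Real.exp (-c₀ * ‖v‖ ^ 2) * (K' * (Real.exp (1 / (4 * (c₀ / 2))) *
          Real.exp (c₀ / 2 * ‖v‖ ^ 2))) := by gcongr
      _ = K' * Real.exp (1 / (4 * (c₀ / 2))) * (Real.exp (c₀ / 2 * ‖v‖ ^ 2) *
          Real.exp (-c₀ * ‖v‖ ^ 2)) := by ring
      _ = _ := by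
          rw [← Real.exp_add]
          congr 2
          ring
  refine ne_top_of_le_ne_top ?_ (lintegral_mono h5)
  rw [lintegral_const_mul _ (KE.measurable_gs _ _), KE.lintegral_gs (by positivity) hc2]
  exact ENNReal.mul_ne_top hDt ENNReal.ofReal_ne_top

end Vale.Agent.P119.Cap
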