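import Vale.Agent.P119.KT.Energy
import Vale.Agent.P119.ML.CapDef
import Vale.Agent.P119.ML.CapTree
import Vale.Agent.P119.MM.Stat

/-!
# P119, block ML (In-R, `helper755`): exact formula for the pairs (free line, tree)

* `tlk`, `flk`: the line of the tree and the free line in a pair;
* `lintegral_pair_tree`: the pairs (free line, tree of shape `τ`) in the parameters
  (outgoing line, node parameters, parameters of the tree).
-/

open MeasureTheory Filter Topology Set
open scoped ENNReal NNReal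

noncomputable section

namespace Vale.Agent.P119.Cap

open KU M KT

variable {Φ : E3 → ℝ} {ε : ℝ} {f₀ : Ph → ℝ}

/-- The line of the tree. -/
def tlk (k : Bool) (q : Ph × Ph) : Ph := if k then q.2 else q.1

/-- The free line. -/
def flk (k : Bool) (q : Ph × Ph) : Ph := if k then q.1 else q.2

theorem prt_flk_tlk (k : Bool) (q : Ph × Ph) : prt k (flk k q) (tlk k q) = q := by
  cases k <;> rfl

theorem flk_prt (k : Bool) (l l' : Ph) : flk k (prt k l l') = l := by cases k <;> rfl

theorem tlk_prt (k : Bool) (l l' : Ph) : tlk k (prt k l l') = l' := by cases k <;> rfl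

theorem measurable_tlk (k : Bool) : Measurable (tlk k) := by
  cases k
  · exact measurable_fst
  · exact measurable_snd

theorem measurable_flk (k : Bool) : Measurable (flk k) := by
  cases k
  · exact measurable_snd
  · exact measurable_fst

theorem measurable_prtk (k : Bool) : Measurable fun p : Ph × Ph => prt k p.1 p.2 := by
  cases k
  · exact measurable_snd.prodMk measurable_fst
  · exact measurable_fst.prodMk measurable_snd

/-- Integration over the pairs. -/
theorem lintegral_prt (k : Bool) {F : Ph × Ph → ℝ≥0∞} (hF : Measurable F) :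
    ∫⁻ l : Ph, ∫⁻ l' : Ph, F (prt k l l') = ∫⁻ q : Ph × Ph, F q := by
  cases k
  · have h1 : ∫⁻ q : Ph × Ph, F q = ∫⁻ l : Ph, ∫⁻ l' : Ph, F (l', l) := by
      rw [Measure.volume_eq_prod, lintegral_prod_symm _ hF.aemeasurable]
    rw [h1]
    rfl
  · have h1 : ∫⁻ q : Ph × Ph, F q = ∫⁻ l : Ph, ∫⁻ l' : Ph, F (l, l') := by
      rw [Measure.volume_eq_prod, lintegral_prod _ hF.aemeasurable]
    rw [h1]
    rfl

/-- **The pairs (free line, tree of shape `τ`).** -/
theorem lintegral_pair_tree (hΦ : IsPotential Φ) (hε : 0 < ε) (k : Bool) (τ : Shape)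
    {G : (Ph × Ph) × LD τ → ℝ≥0∞} (hG : Measurable G) :
    ∫⁻ l : Ph, ∫⁻ z, {z | CTree.ok Φ ε (mkL τ z) ∧
        (Meets ε (prt k l (CTree.ln Φ ε (mkL τ z))) ∧
          Exits Φ (KU.rel ε (prt k l (CTree.ln Φ ε (mkL τ z)))))}.indicator
        (fun z => G (prt k l (CTree.ln Φ ε (mkL τ z)), z)) z ∂vol τ =
      ENNReal.ofReal (ε ^ 2) ^ τ.card * ∫⁻ L : Ph, ∫⁻ q, nw Φ L.2 q *
        ∫⁻ p, KT.wt Φ τ (tlk k (inLines Φ ε L q)).2 p *
          {x : Ph × PD τ | tok Φ ε τ x.1.2 x.2}.indicator
            (fun x => G (inLines Φ ε L q, bk Φ ε τ x.1 x.2)) (tlk k (inLines Φ ε L q), p)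
          ∂pvol τ ∂nvol := by
  have hε0 := hε.ne'
  set HE : Set (Ph × Ph) := {q | Meets ε q ∧ Exits Φ (KU.rel ε q)} with hHE
  have hrel : Measurable (KU.rel ε) := (continuous_rel (ε := ε)).measurable
  have hHEm : MeasurableSet HE := measurableSet_meets.inter (hrel (measurableSet_exits hΦ))
  set G' : Ph → Ph × LD τ → ℝ≥0∞ := fun l y =>
    HE.indicator (fun q => G (q, y.2)) (prt k l y.1) with hG'
  have hG'm : Measurable fun x : Ph × (Ph × LD τ) => G' x.1 x.2 := by
    have h1 : Measurable fun x : Ph × (Ph × LD τ) => prt k x.1 x.2.1 :=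
      (measurable_prtk k).comp (measurable_fst.prodMk (measurable_fst.comp measurable_snd))
    have h2 : (fun x : Ph × (Ph × LD τ) => G' x.1 x.2) =
        {x : Ph × (Ph × LD τ) | prt k x.1 x.2.1 ∈ HE}.indicator
          (fun x => G (prt k x.1 x.2.1, x.2.2)) := by
      funext x
      rw [hG']
      by_cases h : prt k x.1 x.2.1 ∈ HE
      · rw [indicator_of_mem (s := {x : Ph × (Ph × LD τ) | prt k x.1 x.2.1 ∈ HE}) (by exact h)]
        simp only [indicator_of_mem h]
      · rw [indicator_of_notMem (s := {x : Ph × (Ph × LD τ) | prt k x.1 x.2.1 ∈ HE}) (by exact h)]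
        simp only [indicator_of_notMem h]
    rw [h2]
    exact (hG.comp (h1.prodMk (measurable_snd.comp measurable_snd))).indicator (h1 hHEm)
  have e1 : ∀ l : Ph, ∫⁻ z, {z | CTree.ok Φ ε (mkL τ z) ∧
        (Meets ε (prt k l (CTree.ln Φ ε (mkL τ z))) ∧
          Exits Φ (KU.rel ε (prt k l (CTree.ln Φ ε (mkL τ z)))))}.indicator
        (fun z => G (prt k l (CTree.ln Φ ε (mkL τ z)), z)) z ∂vol τ =
      ENNReal.ofReal (ε ^ 2) ^ (τ.card - 1) * ∫⁻ L' : Ph, ∫⁻ p, KT.wt Φ τ L'.2 p *
          {x : Ph × PD τ | tok Φ ε τ x.1.2 x.2}.indicator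
            (fun x => G' l (x.1, bk Φ ε τ x.1 x.2)) (L', p) ∂pvol τ := by
    intro l
    rw [← lintegral_ok hΦ hε τ (G := G' l) (hG'm.comp (measurable_const.prodMk measurable_id))]
    refine lintegral_congr fun z => ?_
    by_cases h1 : CTree.ok Φ ε (mkL τ z)
    · rw [indicator_of_mem (s := {z | CTree.ok Φ ε (mkL τ z)}) (by exact h1), hG']
      simp only
      by_cases h2 : prt k l (CTree.ln Φ ε (mkL τ z)) ∈ HE
      · rw [indicator_of_mem h2, indicator_of_mem (by exact ⟨h1, h2⟩)]
      · rw [indicator_of_notMem h2, indicator_of_notMem (fun h => h2 h.2)]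
    · rw [indicator_of_notMem (s := {z | CTree.ok Φ ε (mkL τ z)}) (by exact h1),
        indicator_of_notMem (fun h => h1 h.1)]
  simp only [e1]
  -- the function of the pair of lines
  set K : Ph × Ph → ℝ≥0∞ := fun q => ∫⁻ p, KT.wt Φ τ (tlk k q).2 p *
    {x : Ph × PD τ | tok Φ ε τ x.1.2 x.2}.indicator
      (fun x => G (q, bk Φ ε τ x.1 x.2)) (tlk k q, p) ∂pvol τ with hK
  have hv : Measurable fun x : Ph × PD τ => (x.1.2, x.2) := by fun_prop
  have htok : MeasurableSet {x : Ph × PD τ | tok Φ ε τ x.1.2 x.2} := hv (measurableSet_tok hΦ ε τ)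
  have hKi : Measurable fun x : (Ph × Ph) × PD τ => KT.wt Φ τ (tlk k x.1).2 x.2 *
      {x : Ph × PD τ | tok Φ ε τ x.1.2 x.2}.indicator
      (fun y => G (x.1, bk Φ ε τ y.1 y.2)) (tlk k x.1, x.2) := by
    have h1 : Measurable fun x : (Ph × Ph) × PD τ => (tlk k x.1, x.2) :=
      ((measurable_tlk k).comp measurable_fst).prodMk measurable_snd
    have h2 : Measurable fun x : (Ph × Ph) × PD τ => ((tlk k x.1).2, x.2) := hv.comp h1
    have h3 : (fun x : (Ph × Ph) × PD τ => {x : Ph × PD τ | tok Φ ε τ x.1.2 x.2}.indicator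
      (fun y => G (x.1, bk Φ ε τ y.1 y.2)) (tlk k x.1, x.2)) =
      {x : (Ph × Ph) × PD τ | tok Φ ε τ (tlk k x.1).2 x.2}.indicator
        (fun x => G (x.1, bk Φ ε τ (tlk k x.1) x.2)) := by
      funext x
      by_cases h : tok Φ ε τ (tlk k x.1).2 x.2
      · rw [indicator_of_mem (by exact h), indicator_of_mem (by exact h)]
      · rw [indicator_of_notMem (by exact h), indicator_of_notMem (by exact h)]
    refine ((KT.measurable_wt hΦ τ).comp h2).mul ?_
    rw [h3]
    exact (hG.comp (measurable_fst.prodMk ((measurable_bk hΦ ε τ).comp h1))).indicator (h1 htok)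
  have hKm : Measurable K := hKi.lintegral_prod_right'
  have e2 : ∀ l L' : Ph, ∫⁻ p, KT.wt Φ τ L'.2 p *
          {x : Ph × PD τ | tok Φ ε τ x.1.2 x.2}.indicator
            (fun x => G' l (x.1, bk Φ ε τ x.1 x.2)) (L', p) ∂pvol τ =
      (fun q => HE.indicator K q) (prt k l L') := by
    intro l L'
    simp only
    by_cases h2 : prt k l L' ∈ HE
    · rw [indicator_of_mem h2, hK]
      simp only [tlk_prt]
      refine lintegral_congr fun p => ?_
      congr 1
      by_cases h : tok Φ ε τ L'.2 p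
      · rw [indicator_of_mem (by exact h), indicator_of_mem (by exact h), hG']
        simp only [indicator_of_mem h2]
      · rw [indicator_of_notMem (by exact h), indicator_of_notMem (by exact h)]
    · rw [indicator_of_notMem h2]
      have h3 : ∀ p, KT.wt Φ τ L'.2 p * {x : Ph × PD τ | tok Φ ε τ x.1.2 x.2}.indicator
            (fun x => G' l (x.1, bk Φ ε τ x.1 x.2)) (L', p) = 0 := by
        intro p
        by_cases h : tok Φ ε τ L'.2 p
        · rw [indicator_of_mem (by exact h), hG']
          simp only [indicator_of_notMem h2, mul_zero]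
        · rw [indicator_of_notMem (by exact h), mul_zero]
      simp only [h3, lintegral_zero]
  simp only [e2]
  have hm2 : Measurable fun l : Ph => ∫⁻ L' : Ph, HE.indicator K (prt k l L') := by
    have h1 : Measurable fun x : Ph × Ph => HE.indicator K (prt k x.1 x.2) :=
      (hKm.indicator hHEm).comp (measurable_prtk k)
    exact h1.lintegral_prod_right'
  rw [lintegral_const_mul _ hm2, lintegral_prt k (hKm.indicator hHEm)]
  have e3 : HE = {q | Hit (KT.rel ε q) ∧ Exits Φ (KT.rel ε q)} := by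
    ext q
    rw [hHE]
    simp only [mem_ofPred_eq]
    rw [hit_iff_meets, rel_eq_KU]
  rw [e3, lintegral_node' hΦ hε hKm, ← mul_assoc, ← pow_succ, Nat.sub_add_cancel (card_pos τ)]

end Vale.Agent.P119.Cap
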