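import Vale.Agent.P119.ML.InRL1
import Vale.Agent.P119.KE.Depth

/-!
# P119, block ML (In-R, `helper755`): the kinetic bound of the limit

`sum_limit_le`: the limit of the rate of the degenerate collisions with the trees of depth `j` is at
most `K.rr j (1 + |v|)`.
-/

open MeasureTheory Filter Topology Set
open scoped ENNReal NNReal

noncomputable section

namespace Vale.Agent.P119.Cap

open KU M KT ML

variable {Φ : E3 → ℝ} {ε : ℝ} {g : Ph → ℝ≥0∞}

theorem vol_disc : volume {b : E2 | ‖b‖ < 1} = ENNReal.ofReal K1.disk := by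
  obtain ⟨V, hV⟩ := exists_ne (0 : E3)
  have h1 := KE.lintegral_fr hV (F := fun _ => 1) measurable_const
  rw [lintegral_one, lintegral_one, Measure.restrict_apply_univ] at h1
  rw [h1, K1.ofReal_disk, kappa_eq_hausdorff hV]
  have h2 := K1.lintegral_disc hV (fun _ => 1)
  rw [lintegral_one, lintegral_one] at h2
  exact h2

theorem leafW_eq (g : Ph → ℝ≥0∞) : ∀ (τ : Shape) (z : LD τ), KE.leafW g τ z = lprod g τ z
  | .leaf, _ => rfl
  | .node a b, z => by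
    change KE.leafW g a z.1 * KE.leafW g b z.2 = lprod g a z.1 * lprod g b z.2
    rw [leafW_eq g a, leafW_eq g b]

theorem stm_nonneg : ∀ (τ : Shape) (v : E3) (p : PD τ), tok Φ 0 τ v p → 0 ≤ stm τ p
  | .leaf, _, _, _ => le_rfl
  | .node a b, v, p, h => by
    have h1 := stm_nonneg a _ _ h.1.1
    have h2 := h.2.1
    rw [ex_zero, zero_mul, add_zero] at h2
    exact (h1.trans_lt h2).le

theorem ordd_of_tok : ∀ (τ : Shape) (v : E3) (p : PD τ) (t : ℝ), tok Φ 0 τ v p → stm τ p ≤ t →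
    KE.ordd τ t p
  | .leaf, _, _, _, _, _ => trivial
  | .node a b, v, p, t, h, ht => by
    have h1 := h.2.1
    have h2 := h.2.2
    rw [ex_zero, zero_mul, add_zero] at h1 h2
    have h3 := stm_nonneg a _ _ h.1.1
    exact ⟨⟨h3.trans_lt h1, ht⟩, ordd_of_tok a _ _ _ h.1.1 h1.le, ordd_of_tok b _ _ _ h.1.2 h2.le⟩

section lim

variable {hΦ : IsPotential Φ} {f₀ : Ph → ℝ}
  {m₀ : Measurable fun p : E3 × E3 => K1.f0hat f₀ p.1 p.2} {T : ℝ} {f : ℝ → Ph → ℝ}
  (K : KE.KinFamily hΦ f₀ m₀ T f)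

/-- The limit of the probability of survival. -/
def SR (K : KE.KinFamily hΦ f₀ m₀ T f) (Lm : ℕ) (δ : ℝ) (k : Bool) (τ : Shape) (q : ℝ × Ph)
    (x : PY τ) : ℝ≥0∞ :=
  KE.legW Φ (K.leg Lm) τ (q.1 - δ) (dG Φ k q.2 q.1 x.1).1 x.2

theorem fh_eq : (fun z : Ph => K1.f0hat f₀ z.1 z.2) = fh f₀ := rfl

/-- The integrand of the limit. -/
theorem wA0_SR_le (Lm : ℕ) (c₀ δ : ℝ) (k : Bool) (τ : Shape) (q : ℝ × Ph) (x : PY τ) :
    wA0 (fh f₀) Φ c₀ δ k τ q x * SR K Lm δ k τ q x ≤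
      ewt c₀ q.2.2 * (nw Φ q.2.2 (0, x.1) * (ind (dgn Φ k q.2.2 x.1 ∧ 0 < q.1 - δ) *
        KE.kw Φ (K.leg Lm) (fh f₀) τ (q.1 - δ) (dG Φ k q.2 q.1 x.1).1 x.2)) := by
  unfold wA0 wW rwt SR
  by_cases hs : stm τ x.2 < q.1 - δ
  swap
  · rw [ind_of_false hs]
    simp only [zero_mul, zero_le]
  rw [ind_of_true hs, one_mul]
  by_cases hr : x ∈ rset Φ 0 k τ q.2 q.1
  swap
  · rw [indicator_of_notMem hr]
    simp only [mul_zero, zero_mul, zero_le]
  rw [indicator_of_mem hr]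
  obtain ⟨hd, ht, -⟩ := mem_rset_zero.1 hr
  have h0 := stm_nonneg τ _ _ ht
  have hord := ordd_of_tok τ _ _ _ ht hs.le
  rw [ind_of_true ⟨hd, h0.trans_lt hs⟩, one_mul, KE.kw_eq, if_pos hord, one_mul, leafW_eq,
    lat_zero]
  refine le_of_eq ?_
  ring

theorem measurable_SR (Lm : ℕ) (δ : ℝ) (k : Bool) (τ : Shape) :
    Measurable fun z : (ℝ × Ph) × PY τ => SR K Lm δ k τ z.1 z.2 := by
  have ml := KE.measurable_dlg (K1.collOf hΦ) (K.u (Lm + 1)).2
  have h1 : ∀ τ : Shape, Measurable fun x : ℝ × Ph × PD τ =>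
      KE.legW Φ (K.leg Lm) τ x.1 x.2.1 x.2.2 := by
    intro τ
    induction τ with
    | leaf =>
      have h2 : Measurable fun x : ℝ × Ph × PD .leaf => ((0 : ℝ), x.1, x.2.1) := by fun_prop
      exact ml.comp h2
    | node a b ha hb =>
      have h0 : Measurable fun x : ℝ × Ph × (ND × PD a × PD b) => (x.2.1, x.2.2.1) := by fun_prop
      have h4 := (measurable_inLines hΦ 0).comp h0
      have h5 : Measurable fun x : ℝ × Ph × (ND × PD a × PD b) => (x.2.2.1.1, x.1, x.2.1) := by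
        fun_prop
      have h6 : Measurable fun x : ℝ × Ph × (ND × PD a × PD b) =>
          (x.2.2.1.1, (inLines Φ 0 x.2.1 x.2.2.1).1, x.2.2.2.1) :=
        (by fun_prop : Measurable fun x : ℝ × Ph × (ND × PD a × PD b) => x.2.2.1.1).prodMk
          (h4.fst.prodMk (by fun_prop))
      have h7 : Measurable fun x : ℝ × Ph × (ND × PD a × PD b) =>
          (x.2.2.1.1, (inLines Φ 0 x.2.1 x.2.2.1).2, x.2.2.2.2) :=
        (by fun_prop : Measurable fun x : ℝ × Ph × (ND × PD a × PD b) => x.2.2.1.1).prodMk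
          (h4.snd.prodMk (by fun_prop))
      exact (ml.comp h5).mul ((ha.comp h6).mul (hb.comp h7))
  have hG := (measurable_dG hΦ k).comp (by fun_prop : Measurable fun x : (ℝ × Ph) × PY τ =>
    ((x.1.2, x.1.1, x.2.1) : Ph × ℝ × (E3 × E2)))
  have h8 : Measurable fun z : (ℝ × Ph) × PY τ =>
      (z.1.1 - δ, (dG Φ k z.1.2 z.1.1 z.2.1).1, z.2.2) :=
    (by fun_prop : Measurable fun z : (ℝ × Ph) × PY τ => z.1.1 - δ).prodMk
      (hG.fst.prodMk (by fun_prop))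
  exact (h1 τ).comp h8

/-- **The limit of the rate.** -/
theorem sum_limit_le (hf : Measurable f₀) (hT : 0 ≤ T) {Lm : ℕ} (hL : K.L₀ ≤ Lm + 1) {j : ℕ}
    (hj : j ≤ Lm) {c₀ δ : ℝ} (hδ : 0 ≤ δ) (k : Bool) {q : ℝ × Ph} (hq : q.1 ≤ T) :
    ∑ τ ∈ (shapes Lm).filter (fun τ => τ.depth = j),
      ∫⁻ x, wA0 (fh f₀) Φ c₀ δ k τ q x * SR K Lm δ k τ q x ∂(ro τ) ≤
      ewt c₀ q.2.2 * ENNReal.ofReal (K.rr j * (1 + ‖q.2.2‖)) := by
  classical
  by_cases h0 : 0 < q.1 - δ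
  swap
  · have h1 : ∀ τ ∈ (shapes Lm).filter (fun τ => τ.depth = j),
        ∫⁻ x, wA0 (fh f₀) Φ c₀ δ k τ q x * SR K Lm δ k τ q x ∂(ro τ) = 0 := by
      intro τ _
      refine le_antisymm ((lintegral_mono fun x => wA0_SR_le K Lm c₀ δ k τ q x).trans ?_) zero_le
      have h2 : ∀ x : PY τ, ind (dgn Φ k q.2.2 x.1 ∧ 0 < q.1 - δ) = 0 := fun x =>
        ind_of_false fun h => h0 h.2
      simp only [h2, zero_mul, mul_zero, lintegral_zero, le_refl]
    rw [Finset.sum_congr rfl h1, Finset.sum_const_zero]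
    exact zero_le
  have hgm : Measurable (fh f₀) := measurable_fh hf
  have hkw := fun τ : Shape => KE.measurable_kw hΦ (KE.measurable_dlg (K1.collOf hΦ)
    (K.u (Lm + 1)).2) hgm τ
  have hkd := fun τ : Shape => KE.measurable_kd hΦ (KE.measurable_dlg (K1.collOf hΦ)
    (K.u (Lm + 1)).2) hgm τ
  have hGm : Measurable fun y : E3 × E2 => (dG Φ k q.2 q.1 y).1 := by
    have h1 := (measurable_dG hΦ k).comp (by fun_prop : Measurable fun y : E3 × E2 =>
      ((q.2, q.1, y) : Ph × ℝ × (E3 × E2)))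
    exact h1.fst
  have hnm : Measurable fun y : E3 × E2 => nw Φ q.2.2 ((0 : ℝ), y) := by
    have h1 : Measurable fun y : E3 × E2 => ((q.2.2, ((0 : ℝ), y)) : E3 × ND) := by fun_prop
    exact (measurable_nw hΦ).comp h1
  have hdm : Measurable fun y : E3 × E2 => ind (dgn Φ k q.2.2 y) :=
    measurable_ind ((measurable_prodMk_left (x := q.2.2)) (measurableSet_dgn hΦ k))
  -- one shape
  have h1 : ∀ τ : Shape, ∫⁻ x, wA0 (fh f₀) Φ c₀ δ k τ q x * SR K Lm δ k τ q x ∂(ro τ) ≤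
      ewt c₀ q.2.2 * ∫⁻ y in {y : E3 × E2 | ‖y.2‖ < 1}, nw Φ q.2.2 (0, y) *
        (ind (dgn Φ k q.2.2 y) * K.kd Lm τ (q.1 - δ) (dG Φ k q.2 q.1 y).1) := by
    intro τ
    refine (lintegral_mono fun x => wA0_SR_le K Lm c₀ δ k τ q x).trans ?_
    have hm0 : Measurable fun x : PY τ =>
        KE.kw Φ (K.leg Lm) (fh f₀) τ (q.1 - δ) (dG Φ k q.2 q.1 x.1).1 x.2 := by
      have h2 : Measurable fun x : PY τ => (q.1 - δ, (dG Φ k q.2 q.1 x.1).1, x.2) :=
        measurable_const.prodMk ((hGm.comp measurable_fst).prodMk measurable_snd)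
      exact (hkw τ).comp h2
    have hm1 : Measurable fun x : PY τ => nw Φ q.2.2 (0, x.1) * (ind (dgn Φ k q.2.2 x.1) *
        KE.kw Φ (K.leg Lm) (fh f₀) τ (q.1 - δ) (dG Φ k q.2 q.1 x.1).1 x.2) :=
      (hnm.comp measurable_fst).mul ((hdm.comp measurable_fst).mul hm0)
    have h3 : ∀ x : PY τ, ind (dgn Φ k q.2.2 x.1 ∧ 0 < q.1 - δ) = ind (dgn Φ k q.2.2 x.1) :=
      fun x => ind_congr ⟨fun h => h.1, fun h => ⟨h, h0⟩⟩
    simp only [h3]
    rw [lintegral_const_mul _ hm1]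
    refine mul_le_mul' le_rfl (le_of_eq ?_)
    unfold ro
    rw [lintegral_prod _ hm1.aemeasurable]
    refine lintegral_congr fun y => ?_
    have hm2 : Measurable fun p : PD τ =>
        KE.kw Φ (K.leg Lm) (fh f₀) τ (q.1 - δ) (dG Φ k q.2 q.1 y).1 p :=
      hm0.comp (measurable_prodMk_left (x := y))
    simp only
    rw [lintegral_const_mul _ (hm2.const_mul _), lintegral_const_mul _ hm2]
    rfl
  have hm3 : ∀ τ : Shape, Measurable fun y : E3 × E2 => nw Φ q.2.2 (0, y) *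
        (ind (dgn Φ k q.2.2 y) * K.kd Lm τ (q.1 - δ) (dG Φ k q.2 q.1 y).1) := fun τ => by
    have h2 : Measurable fun y : E3 × E2 => (q.1 - δ, (dG Φ k q.2 q.1 y).1) :=
      measurable_const.prodMk hGm
    exact hnm.mul (hdm.mul ((K.measurable_kd Lm τ).comp h2))
  calc ∑ τ ∈ (shapes Lm).filter (fun τ => τ.depth = j),
        ∫⁻ x, wA0 (fh f₀) Φ c₀ δ k τ q x * SR K Lm δ k τ q x ∂(ro τ)
      ≤ ∑ τ ∈ (shapes Lm).filter (fun τ => τ.depth = j),
        ewt c₀ q.2.2 * ∫⁻ y in {y : E3 × E2 | ‖y.2‖ < 1}, nw Φ q.2.2 (0, y) *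
        (ind (dgn Φ k q.2.2 y) * K.kd Lm τ (q.1 - δ) (dG Φ k q.2 q.1 y).1) :=
        Finset.sum_le_sum fun τ _ => h1 τ
    _ = ewt c₀ q.2.2 * ∫⁻ y in {y : E3 × E2 | ‖y.2‖ < 1},
        ∑ τ ∈ (shapes Lm).filter (fun τ => τ.depth = j), nw Φ q.2.2 (0, y) *
        (ind (dgn Φ k q.2.2 y) * K.kd Lm τ (q.1 - δ) (dG Φ k q.2 q.1 y).1) := by
        rw [← Finset.mul_sum, lintegral_finsetSum _ fun τ _ => hm3 τ]
    _ ≤ ewt c₀ q.2.2 * ∫⁻ y in {y : E3 × E2 | ‖y.2‖ < 1},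
        ‖q.2.2 - y.1‖ₑ * KE.gs (K.dc j) K.b y.1 := by
        refine mul_le_mul' le_rfl (lintegral_mono fun y => ?_)
        simp only
        rw [← Finset.mul_sum, ← Finset.mul_sum]
        refine mul_le_mul' (nw_le _ _) ?_
        by_cases hd : dgn Φ k q.2.2 y
        · rw [ind_of_true hd, one_mul]
          have h4 := K.xk_le hL hj (t := q.1 - δ) ⟨h0.le, by linarith⟩ (dG Φ k q.2 q.1 y).1
          rw [dG_vel_of_dgn q.1 hd] at h4
          refine le_trans (le_of_eq ?_) h4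
          unfold KE.KinFamily.xk
          exact Finset.sum_congr (by congr) fun _ _ => rfl
        · rw [ind_of_false hd, zero_mul]
          exact zero_le
    _ = ewt c₀ q.2.2 * (K1.collOf hΦ).nu (KE.gs (K.dc j) K.b) q.2.2 := by
        congr 1
        have hm4 : Measurable fun u : E3 => ‖q.2.2 - u‖ₑ * KE.gs (K.dc j) K.b u := by fun_prop
        rw [lintegral_ball_fst hm4, vol_disc, ← lintegral_const_mul _ hm4]
        unfold KE.Coll.nu
        refine lintegral_congr fun u => ?_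
        change _ = ENNReal.ofReal K1.disk * ‖q.2.2 - u‖ₑ * KE.gs (K.dc j) K.b u
        ring
    _ ≤ ewt c₀ q.2.2 * ENNReal.ofReal (K.rr j * (1 + ‖q.2.2‖)) := by
        refine mul_le_mul' le_rfl ?_
        refine (K.nu_le (K.dc_nonneg j) (b := K.b) (by linarith [K.b0])
          (fun w => le_rfl) _).trans (ENNReal.ofReal_le_ofReal ?_)
        have h1 := (K1.collOf hΦ).R_nonneg (K.b / 2)
        have h2 := K.gc_nonneg hT j
        unfold KE.KinFamily.rr
        have h3 : 0 ≤ (K1.collOf hΦ).R (K.b / 2) * (1 + ‖q.2.2‖) * K.gc j := by positivity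
        nlinarith

end lim

end Vale.Agent.P119.Cap
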