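import Vale.Agent.P119.ML.InRDom

/-!
# P119, block ML (In-R, `helper755`): `L¹` convergence of the weights

* `tendsto_dD`, `tendsto_wW`: pointwise convergence;
* `wA`, `wA0` (the parameters for which the horizon `b - δ` is between the tree and the collision),
  `wB`, `wB0` (the other parameters);
* `wA_L1`, `wB_L1`, `wW_L1`, `wB0_tendsto`.
-/

open MeasureTheory Filter Topology Set
open scoped ENNReal NNReal

noncomputable section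

namespace Vale.Agent.P119.Cap

open KU M KT ML

variable {Φ : E3 → ℝ} {ε : ℝ} {g : Ph → ℝ≥0∞}

theorem dD0_ne_top (Φ : E3 → ℝ) (Tm M β c₀ : ℝ) (k : Bool) (τ : Shape) (v : E3) (x : PY τ) :
    dD0 Φ Tm M β c₀ k τ v x ≠ ∞ := by
  unfold dD0
  exact ENNReal.mul_ne_top (ewt_ne_top _ _) (ENNReal.mul_ne_top (nw_ne_top _ _)
    (ENNReal.mul_ne_top (ind_ne_top _) (ENNReal.mul_ne_top (KT.wt_ne_top τ _ _)
      (ENNReal.mul_ne_top (ind_ne_top _) ENNReal.ofReal_ne_top))))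

theorem tendsto_lat {l : Filter ℝ} (hl : Tendsto (fun ε : ℝ => ε) l (𝓝 0)) (ℓ : LG) :
    Tendsto (fun ε => (lat ε ℓ).1) l (𝓝 (lat 0 ℓ).1) := by
  have h1 : Tendsto (fun ε : ℝ => ℓ.1.1 + ε • ℓ.2) l (𝓝 (ℓ.1.1 + (0 : ℝ) • ℓ.2)) :=
    tendsto_const_nhds.add (hl.smul_const _)
  exact h1

/-- Pointwise convergence of the dominating functions. -/
theorem tendsto_dD (hc : ∀ v : E3, Continuous fun x : E3 => g (x, v)) {l : Filter ℝ}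
    (hl : Tendsto (fun ε : ℝ => ε) l (𝓝 0)) (Tm M β c₀ : ℝ) (k : Bool) (τ : Shape)
    (q : ℝ × Ph) (x : PY τ) :
    Tendsto (fun ε => dD g Φ Tm M β c₀ ε k τ q x) l (𝓝 (dD g Φ Tm M β c₀ 0 k τ q x)) := by
  unfold dD
  refine ENNReal.Tendsto.const_mul ?_ (Or.inr (dD0_ne_top _ _ _ _ _ _ _ _ _))
  simp only [fl_bk]
  exact ((hc _).tendsto _).comp ((tendsto_lat hl _).add (tendsto_fls hl τ _ _))

theorem tendsto_sgt {l : Filter ℝ} (hl : Tendsto (fun ε : ℝ => ε) l (𝓝 0)) (v : E3) (b : ℝ)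
    (y : E3 × E2) : Tendsto (fun ε => sgt Φ ε v b y) l (𝓝 b) := by
  have h1 : Tendsto (fun ε : ℝ => b - ε * half (outRel v (0, y)) + ε * tin (inRel Φ v (0, y))) l
      (𝓝 (b - 0 * half (outRel v (0, y)) + 0 * tin (inRel Φ v (0, y)))) :=
    (tendsto_const_nhds.sub (hl.mul_const _)).add (hl.mul_const _)
  rw [zero_mul, zero_mul, sub_zero, add_zero] at h1
  exact h1

theorem sgt_zero (v : E3) (b : ℝ) (y : E3 × E2) : sgt Φ 0 v b y = b := by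
  unfold sgt
  rw [zero_mul, zero_mul, sub_zero, add_zero]

theorem mem_rset_zero {k : Bool} {τ : Shape} {L : Ph} {b : ℝ} {x : PY τ} :
    x ∈ rset Φ 0 k τ L b ↔ dgn Φ k L.2 x.1 ∧ tok Φ 0 τ (dG Φ k L b x.1).1.2 x.2 ∧
      stm τ x.2 < b := by
  unfold rset
  simp only [mem_ofPred_eq]
  rw [ex_zero, sgt_zero]

/-- Pointwise convergence of the weights. -/
theorem tendsto_wW (hc : ∀ v : E3, Continuous fun x : E3 => g (x, v)) (hfin : ∀ z, g z ≠ ∞)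
    {l : Filter ℝ} (hl : Tendsto (fun ε : ℝ => ε) l (𝓝 0)) (c₀ : ℝ) (k : Bool) (τ : Shape)
    {q : ℝ × Ph} {x : PY τ} (h1 : gent τ x.2) (h2 : stm τ x.2 ≠ q.1) :
    Tendsto (fun ε => wW g Φ c₀ ε k τ q x) l (𝓝 (wW g Φ c₀ 0 k τ q x)) := by
  have hset : ∀ᶠ ε in l, (x ∈ rset Φ ε k τ q.2 q.1 ↔ x ∈ rset Φ 0 k τ q.2 q.1) := by
    filter_upwards [tok_eventually (Φ := Φ) hl τ (dG Φ k q.2 q.1 x.1).1.2 x.2 h1,
      lt_iff_eventually (tendsto_ex hl τ (dG Φ k q.2 q.1 x.1).1.2 x.2)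
        (tendsto_sgt (Φ := Φ) hl q.2.2 q.1 x.1) h2] with ε e1 e2
    rw [mem_rset_zero]
    unfold rset
    simp only [mem_ofPred_eq]
    rw [e1, e2]
  have hbk : Tendsto (fun ε => lprod g τ (bk Φ ε τ (lat ε (dG Φ k q.2 q.1 x.1)) x.2)) l
      (𝓝 (lprod g τ (bk Φ 0 τ (lat 0 (dG Φ k q.2 q.1 x.1)) x.2))) :=
    tendsto_lprod_bk (Φ := Φ) hc hfin hl τ (dG Φ k q.2 q.1 x.1).1.2 x.2
      (fun ε => (lat ε (dG Φ k q.2 q.1 x.1)).1) (lat 0 (dG Φ k q.2 q.1 x.1)).1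
      (tendsto_lat hl _)
  unfold wW rwt
  refine ENNReal.Tendsto.const_mul (ENNReal.Tendsto.const_mul (ENNReal.Tendsto.const_mul ?_
    (Or.inr (KT.wt_ne_top τ _ _))) (Or.inr (nw_ne_top _ _))) (Or.inr (ewt_ne_top _ _))
  by_cases hx : x ∈ rset Φ 0 k τ q.2 q.1
  · rw [indicator_of_mem hx]
    refine hbk.congr' ?_
    filter_upwards [hset] with i hi
    rw [indicator_of_mem (hi.2 hx)]
  · rw [indicator_of_notMem hx]
    refine tendsto_const_nhds.congr' ?_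
    filter_upwards [hset] with i hi
    rw [indicator_of_notMem (fun h => hx (hi.1 h))]

/-! ### Generic parameters -/

theorem mQ_time_null (Tm c : ℝ) : mQ Tm {q : ℝ × Ph | q.1 = c} = 0 := by
  unfold mQ
  have h : {q : ℝ × Ph | q.1 = c} = {c} ×ˢ (univ : Set Ph) := by ext q; simp
  rw [h, Measure.prod_prod]
  have h2 : (volume.restrict (Icc 0 Tm)) {c} = 0 :=
    le_antisymm ((Measure.restrict_apply_le _ _).trans Real.volume_singleton.le) zero_le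
  rw [h2, zero_mul]

theorem ae_gent_prod (Tm : ℝ) (τ : Shape) :
    ∀ᵐ z : (ℝ × Ph) × PY τ ∂((mQ Tm).prod (ro τ)), gent τ z.2.2 ∧ stm τ z.2.2 ≠ z.1.1 ∧
      z.1.1 ≤ Tm := by
  have h1 : ∀ᵐ x : PY τ ∂(ro τ), gent τ x.2 := by
    unfold ro
    exact Measure.quasiMeasurePreserving_snd.ae (ae_gent τ)
  have h2 : ∀ᵐ z : (ℝ × Ph) × PY τ ∂((mQ Tm).prod (ro τ)), gent τ z.2.2 :=
    Measure.quasiMeasurePreserving_snd.ae h1
  have hm : MeasurableSet {z : (ℝ × Ph) × PY τ | stm τ z.2.2 = z.1.1} :=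
    measurableSet_eq_fun ((measurable_stm τ).comp (by fun_prop)) (by fun_prop)
  have h3 : ((mQ Tm).prod (ro τ)) {z : (ℝ × Ph) × PY τ | stm τ z.2.2 = z.1.1} = 0 := by
    rw [Measure.prod_apply_symm hm]
    have h4 : ∀ x : PY τ, mQ Tm ((fun q : ℝ × Ph => (q, x)) ⁻¹'
        {z : (ℝ × Ph) × PY τ | stm τ z.2.2 = z.1.1}) = 0 := fun x => by
      have h5 : ((fun q : ℝ × Ph => (q, x)) ⁻¹'
        {z : (ℝ × Ph) × PY τ | stm τ z.2.2 = z.1.1}) = {q : ℝ × Ph | q.1 = stm τ x.2} := by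
        ext q
        exact eq_comm
      rw [h5]
      exact mQ_time_null Tm _
    simp only [h4, lintegral_zero]
  have h6 : ∀ᵐ q : ℝ × Ph ∂(mQ Tm), q.1 ≤ Tm := by
    unfold mQ
    exact Measure.quasiMeasurePreserving_fst.ae
      ((ae_restrict_mem measurableSet_Icc).mono fun b hb => hb.2)
  have h7 : ∀ᵐ z : (ℝ × Ph) × PY τ ∂((mQ Tm).prod (ro τ)), z.1.1 ≤ Tm :=
    Measure.quasiMeasurePreserving_fst.ae h6
  filter_upwards [h2, measure_eq_zero_iff_ae_notMem.1 h3, h7] with z e1 e2 e3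
  exact ⟨e1, e2, e3⟩

/-! ### The two parts of the weights -/

/-- The horizon `b - δ` is after the tree and before the collision. -/
def hzn (Φ : E3 → ℝ) (ε δ : ℝ) (τ : Shape) (q : ℝ × Ph) (x : PY τ) : Prop :=
  stm τ x.2 < q.1 - δ ∧ q.1 - δ ≤ sgt Φ ε q.2.2 q.1 x.1

/-- The weights with a good horizon. -/
def wA (g : Ph → ℝ≥0∞) (Φ : E3 → ℝ) (c₀ δ ε : ℝ) (k : Bool) (τ : Shape) (q : ℝ × Ph)
    (x : PY τ) : ℝ≥0∞ := ind (hzn Φ ε δ τ q x) * wW g Φ c₀ ε k τ q x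

/-- The other weights. -/
def wB (g : Ph → ℝ≥0∞) (Φ : E3 → ℝ) (c₀ δ ε : ℝ) (k : Bool) (τ : Shape) (q : ℝ × Ph)
    (x : PY τ) : ℝ≥0∞ := ind (¬hzn Φ ε δ τ q x) * wW g Φ c₀ ε k τ q x

/-- The limit of the weights with a good horizon. -/
def wA0 (g : Ph → ℝ≥0∞) (Φ : E3 → ℝ) (c₀ δ : ℝ) (k : Bool) (τ : Shape) (q : ℝ × Ph)
    (x : PY τ) : ℝ≥0∞ := ind (stm τ x.2 < q.1 - δ) * wW g Φ c₀ 0 k τ q x

/-- The limit of the other weights. -/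
def wB0 (g : Ph → ℝ≥0∞) (Φ : E3 → ℝ) (c₀ δ : ℝ) (k : Bool) (τ : Shape) (q : ℝ × Ph)
    (x : PY τ) : ℝ≥0∞ := ind (¬stm τ x.2 < q.1 - δ) * wW g Φ c₀ 0 k τ q x

theorem wW_eq (c₀ δ : ℝ) (k : Bool) (τ : Shape) (q : ℝ × Ph) (x : PY τ) :
    wW g Φ c₀ ε k τ q x = wA g Φ c₀ δ ε k τ q x + wB g Φ c₀ δ ε k τ q x := by
  unfold wA wB
  by_cases h : hzn Φ ε δ τ q x
  · rw [ind_of_true h, ind_of_false (not_not.2 h), one_mul, zero_mul, add_zero]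
  · rw [ind_of_false h, ind_of_true h, one_mul, zero_mul, zero_add]

theorem measurableSet_hzn (hΦ : IsPotential Φ) (ε δ : ℝ) (τ : Shape) :
    MeasurableSet {z : (ℝ × Ph) × PY τ | hzn Φ ε δ τ z.1 z.2} := by
  have h1 : Measurable fun z : (ℝ × Ph) × PY τ => stm τ z.2.2 :=
    (measurable_stm τ).comp (by fun_prop)
  have h2 : Measurable fun z : (ℝ × Ph) × PY τ => z.1.1 - δ := by fun_prop
  have h3 := (measurable_sgt hΦ ε).comp (by fun_prop : Measurable fun x : (ℝ × Ph) × PY τ =>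
    ((x.1.2.2, x.1.1, x.2.1) : E3 × ℝ × (E3 × E2)))
  exact (measurableSet_lt h1 h2).inter (measurableSet_le h2 h3)

theorem measurable_wA (hΦ : IsPotential Φ) (hg : Measurable g) (c₀ δ ε : ℝ) (k : Bool)
    (τ : Shape) : Measurable fun z : (ℝ × Ph) × PY τ => wA g Φ c₀ δ ε k τ z.1 z.2 :=
  (measurable_ind (measurableSet_hzn hΦ ε δ τ)).mul (measurable_wW hΦ hg c₀ ε k τ)

theorem measurable_wB (hΦ : IsPotential Φ) (hg : Measurable g) (c₀ δ ε : ℝ) (k : Bool)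
    (τ : Shape) : Measurable fun z : (ℝ × Ph) × PY τ => wB g Φ c₀ δ ε k τ z.1 z.2 :=
  (measurable_ind (measurableSet_hzn hΦ ε δ τ).compl).mul (measurable_wW hΦ hg c₀ ε k τ)

theorem measurableSet_stm_lt (δ : ℝ) (τ : Shape) :
    MeasurableSet {z : (ℝ × Ph) × PY τ | stm τ z.2.2 < z.1.1 - δ} :=
  measurableSet_lt ((measurable_stm τ).comp (by fun_prop)) (by fun_prop)

theorem measurable_wA0 (hΦ : IsPotential Φ) (hg : Measurable g) (c₀ δ : ℝ) (k : Bool)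
    (τ : Shape) : Measurable fun z : (ℝ × Ph) × PY τ => wA0 g Φ c₀ δ k τ z.1 z.2 :=
  (measurable_ind (measurableSet_stm_lt δ τ)).mul (measurable_wW hΦ hg c₀ 0 k τ)

theorem measurable_wB0 (hΦ : IsPotential Φ) (hg : Measurable g) (c₀ δ : ℝ) (k : Bool)
    (τ : Shape) : Measurable fun z : (ℝ × Ph) × PY τ => wB0 g Φ c₀ δ k τ z.1 z.2 :=
  (measurable_ind (measurableSet_stm_lt δ τ).compl).mul (measurable_wW hΦ hg c₀ 0 k τ)

/-! ### Convergence -/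

section conv

variable {M β Tm c₀ δ : ℝ} {k : Bool} {τ : Shape}

theorem tendsto_id_zero : Tendsto (fun ε : ℝ => ε) (𝓝[>] 0) (𝓝 0) :=
  tendsto_nhdsWithin_of_tendsto_nhds tendsto_id

theorem eventually_small : ∀ᶠ ε : ℝ in 𝓝[>] 0, 0 ≤ ε ∧ ε ≤ 1 := by
  filter_upwards [self_mem_nhdsWithin, tendsto_id_zero.eventually (ge_mem_nhds zero_lt_one)]
    with ε h1 h2
  exact ⟨(le_of_lt h1), h2⟩

theorem le_of_ind_mul {P : Prop} {a b : ℝ≥0∞} (h : a ≤ b) : ind P * a ≤ b :=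
  (mul_le_mul' (ind_le_one P) h).trans (one_mul b).le

/-- The general form of the convergence. -/
theorem conv_aux (hΦ : IsPotential Φ) (hg : Measurable g)
    (hc : ∀ v : E3, Continuous fun x : E3 => g (x, v)) (hM : 0 ≤ M) (hβ : 0 < β) (hT : 0 ≤ Tm)
    (hc₀ : 0 < c₀) (hgs : ∀ x v, g (x, v) ≤ KE.gs M β v)
    (hx : ∀ v, ∫⁻ x, g (x, v) ≤ KE.gs M β v) {P : ℝ → (ℝ × Ph) × PY τ → Prop}
    {P₀ : (ℝ × Ph) × PY τ → Prop} (hP : ∀ ε, MeasurableSet {z | P ε z})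
    (hP₀ : MeasurableSet {z | P₀ z}) (hPe : ∀ z, ∀ᶠ ε in 𝓝[>] (0 : ℝ), (P ε z ↔ P₀ z)) :
    Tendsto (fun ε => ∫⁻ z, ((ind (P ε z) * wW g Φ c₀ ε k τ z.1 z.2 -
        ind (P₀ z) * wW g Φ c₀ 0 k τ z.1 z.2) + (ind (P₀ z) * wW g Φ c₀ 0 k τ z.1 z.2 -
        ind (P ε z) * wW g Φ c₀ ε k τ z.1 z.2)) ∂((mQ Tm).prod (ro τ))) (𝓝[>] 0) (𝓝 0) ∧
      Tendsto (fun ε => ∫⁻ z, ind (P ε z) * wW g Φ c₀ ε k τ z.1 z.2 ∂((mQ Tm).prod (ro τ)))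
        (𝓝[>] 0) (𝓝 (∫⁻ z, ind (P₀ z) * wW g Φ c₀ 0 k τ z.1 z.2 ∂((mQ Tm).prod (ro τ)))) ∧
      ∫⁻ z, ind (P₀ z) * wW g Φ c₀ 0 k τ z.1 z.2 ∂((mQ Tm).prod (ro τ)) ≠ ∞ := by
  have hfin : ∀ z, g z ≠ ∞ := fun z => ((hgs z.1 z.2).trans_lt (KE.gs_lt_top _ _ _)).ne
  have hmass := mD_ne_top hΦ hM hβ hT hc₀ hx k τ
  refine pratt (D := fun ε z => dD g Φ Tm M β c₀ ε k τ z.1 z.2)
    (D₀ := fun z => dD g Φ Tm M β c₀ 0 k τ z.1 z.2)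
    (W := fun ε z => ind (P ε z) * wW g Φ c₀ ε k τ z.1 z.2)
    (W₀ := fun z => ind (P₀ z) * wW g Φ c₀ 0 k τ z.1 z.2)
    (fun ε => ((measurable_ind (hP ε)).mul (measurable_wW hΦ hg c₀ ε k τ)).aemeasurable)
    (fun ε => (measurable_dD hΦ hg Tm M β c₀ ε k τ).aemeasurable)
    ((measurable_ind hP₀).mul (measurable_wW hΦ hg c₀ 0 k τ)).aemeasurable ?_ ?_
    (measurable_dD hΦ hg Tm M β c₀ 0 k τ).aemeasurable ?_ ?_ ?_
  · filter_upwards [eventually_small] with ε hε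
    filter_upwards [ae_gent_prod Tm τ] with z hz
    exact le_of_ind_mul (wW_le hΦ hM hgs hε.1 hε.2 k τ hz.2.2 z.2)
  · rw [lintegral_dD hΦ hg]
    exact hmass
  · simp only [lintegral_dD hΦ hg]
    exact tendsto_const_nhds
  · exact Eventually.of_forall fun z => tendsto_dD hc tendsto_id_zero Tm M β c₀ k τ z.1 z.2
  · filter_upwards [ae_gent_prod Tm τ] with z hz
    have h1 := tendsto_wW (Φ := Φ) hc hfin tendsto_id_zero c₀ k τ hz.1 hz.2.1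
    by_cases h : P₀ z
    · have h2 : Tendsto (fun ε => ind (P ε z) * wW g Φ c₀ ε k τ z.1 z.2) (𝓝[>] 0)
          (𝓝 (wW g Φ c₀ 0 k τ z.1 z.2)) := by
        refine h1.congr' ?_
        filter_upwards [hPe z] with ε hε
        rw [ind_of_true (hε.2 h), one_mul]
      rw [ind_of_true h, one_mul]
      exact h2
    · rw [ind_of_false h, zero_mul]
      refine tendsto_const_nhds.congr' ?_
      filter_upwards [hPe z] with ε hε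
      rw [ind_of_false (fun h' => h (hε.1 h')), zero_mul]

theorem hzn_eventually (hδ : 0 < δ) (z : (ℝ × Ph) × PY τ) :
    ∀ᶠ ε in 𝓝[>] (0 : ℝ), (hzn Φ ε δ τ z.1 z.2 ↔ stm τ z.2.2 < z.1.1 - δ) := by
  have h1 := (tendsto_sgt (Φ := Φ) tendsto_id_zero z.1.2.2 z.1.1 z.2.1).eventually
    (lt_mem_nhds (show z.1.1 - δ < z.1.1 by linarith))
  filter_upwards [h1] with ε hε
  exact ⟨fun h => h.1, fun h => ⟨h, hε.le⟩⟩

theorem wA_L1 (hΦ : IsPotential Φ) (hg : Measurable g)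
    (hc : ∀ v : E3, Continuous fun x : E3 => g (x, v)) (hM : 0 ≤ M) (hβ : 0 < β) (hT : 0 ≤ Tm)
    (hc₀ : 0 < c₀) (hgs : ∀ x v, g (x, v) ≤ KE.gs M β v)
    (hx : ∀ v, ∫⁻ x, g (x, v) ≤ KE.gs M β v) (hδ : 0 < δ) :
    Tendsto (fun ε => ∫⁻ q, ∫⁻ x, (wA g Φ c₀ δ ε k τ q x - wA0 g Φ c₀ δ k τ q x) ∂(ro τ)
      ∂(mQ Tm)) (𝓝[>] 0) (𝓝 0) ∧ ∫⁻ q, ∫⁻ x, wA0 g Φ c₀ δ k τ q x ∂(ro τ) ∂(mQ Tm) ≠ ∞ := by
  obtain ⟨h1, -, h3⟩ := conv_aux (Tm := Tm) (c₀ := c₀) (k := k) (τ := τ) hΦ hg hc hM hβ hT hc₀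
    hgs hx (P := fun ε z => hzn Φ ε δ τ z.1 z.2) (P₀ := fun z => stm τ z.2.2 < z.1.1 - δ)
    (fun ε => measurableSet_hzn hΦ ε δ τ) (measurableSet_stm_lt δ τ) (fun z => hzn_eventually hδ z)
  constructor
  · refine tendsto_of_tendsto_of_tendsto_of_le_of_le tendsto_const_nhds h1
      (fun _ => zero_le) fun ε => ?_
    have hm := ((measurable_wA hΦ hg c₀ δ ε k τ).sub (measurable_wA0 hΦ hg c₀ δ k τ))
    have e1 := lintegral_prod (μ := mQ Tm) (ν := ro τ) _ hm.aemeasurable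
    simp only [Pi.sub_apply] at e1
    rw [← e1]
    exact lintegral_mono fun z => le_self_add
  · have hm := measurable_wA0 hΦ hg c₀ δ k τ
    rw [← lintegral_prod (μ := mQ Tm) (ν := ro τ)
      (fun z => wA0 g Φ c₀ δ k τ z.1 z.2) hm.aemeasurable]
    exact h3

theorem wB_L1 (hΦ : IsPotential Φ) (hg : Measurable g)
    (hc : ∀ v : E3, Continuous fun x : E3 => g (x, v)) (hM : 0 ≤ M) (hβ : 0 < β) (hT : 0 ≤ Tm)
    (hc₀ : 0 < c₀) (hgs : ∀ x v, g (x, v) ≤ KE.gs M β v)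
    (hx : ∀ v, ∫⁻ x, g (x, v) ≤ KE.gs M β v) (hδ : 0 < δ) :
    Tendsto (fun ε => ∫⁻ q, ∫⁻ x, wB g Φ c₀ δ ε k τ q x ∂(ro τ) ∂(mQ Tm)) (𝓝[>] 0)
      (𝓝 (∫⁻ q, ∫⁻ x, wB0 g Φ c₀ δ k τ q x ∂(ro τ) ∂(mQ Tm))) := by
  obtain ⟨-, h2, -⟩ := conv_aux (Tm := Tm) (c₀ := c₀) (k := k) (τ := τ) hΦ hg hc hM hβ hT hc₀
    hgs hx (P := fun ε z => ¬hzn Φ ε δ τ z.1 z.2) (P₀ := fun z => ¬stm τ z.2.2 < z.1.1 - δ)
    (fun ε => (measurableSet_hzn hΦ ε δ τ).compl) (measurableSet_stm_lt δ τ).compl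
    (fun z => (hzn_eventually hδ z).mono fun ε h => not_congr h)
  have e1 : ∀ ε, ∫⁻ q, ∫⁻ x, wB g Φ c₀ δ ε k τ q x ∂(ro τ) ∂(mQ Tm) =
      ∫⁻ z, ind (¬hzn Φ ε δ τ z.1 z.2) * wW g Φ c₀ ε k τ z.1 z.2 ∂((mQ Tm).prod (ro τ)) :=
    fun ε => (lintegral_prod (μ := mQ Tm) (ν := ro τ)
      (fun z => wB g Φ c₀ δ ε k τ z.1 z.2) (measurable_wB hΦ hg c₀ δ ε k τ).aemeasurable).symm
  have e2 : ∫⁻ q, ∫⁻ x, wB0 g Φ c₀ δ k τ q x ∂(ro τ) ∂(mQ Tm) =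
      ∫⁻ z, ind (¬stm τ z.2.2 < z.1.1 - δ) * wW g Φ c₀ 0 k τ z.1 z.2
        ∂((mQ Tm).prod (ro τ)) :=
    (lintegral_prod (μ := mQ Tm) (ν := ro τ)
      (fun z => wB0 g Φ c₀ δ k τ z.1 z.2) (measurable_wB0 hΦ hg c₀ δ k τ).aemeasurable).symm
  simp only [e1, e2]
  exact h2

theorem wW_L1 (hΦ : IsPotential Φ) (hg : Measurable g)
    (hc : ∀ v : E3, Continuous fun x : E3 => g (x, v)) (hM : 0 ≤ M) (hβ : 0 < β) (hT : 0 ≤ Tm)
    (hc₀ : 0 < c₀) (hgs : ∀ x v, g (x, v) ≤ KE.gs M β v)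
    (hx : ∀ v, ∫⁻ x, g (x, v) ≤ KE.gs M β v) :
    Tendsto (fun ε => ∫⁻ q, ∫⁻ x, wW g Φ c₀ ε k τ q x ∂(ro τ) ∂(mQ Tm)) (𝓝[>] 0)
      (𝓝 (∫⁻ q, ∫⁻ x, wW g Φ c₀ 0 k τ q x ∂(ro τ) ∂(mQ Tm))) ∧
      ∫⁻ q, ∫⁻ x, wW g Φ c₀ 0 k τ q x ∂(ro τ) ∂(mQ Tm) ≠ ∞ := by
  obtain ⟨-, h2, h3⟩ := conv_aux (Tm := Tm) (c₀ := c₀) (k := k) (τ := τ) hΦ hg hc hM hβ hT hc₀
    hgs hx (P := fun _ _ => True) (P₀ := fun _ => True)
    (fun ε => by simp) (by simp) (fun z => Eventually.of_forall fun _ => Iff.rfl)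
  simp only [ind_of_true trivial, one_mul] at h2 h3
  have e1 : ∀ ε, ∫⁻ q, ∫⁻ x, wW g Φ c₀ ε k τ q x ∂(ro τ) ∂(mQ Tm) =
      ∫⁻ z, wW g Φ c₀ ε k τ z.1 z.2 ∂((mQ Tm).prod (ro τ)) :=
    fun ε => (lintegral_prod (μ := mQ Tm) (ν := ro τ)
      (fun z => wW g Φ c₀ ε k τ z.1 z.2) (measurable_wW hΦ hg c₀ ε k τ).aemeasurable).symm
  simp only [e1]
  exact ⟨h2, h3⟩

/-- The limit of the other weights is small. -/
theorem wB0_tendsto (hΦ : IsPotential Φ) (hg : Measurable g)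
    (hfin : ∫⁻ q, ∫⁻ x, wW g Φ c₀ 0 k τ q x ∂(ro τ) ∂(mQ Tm) ≠ ∞) :
    Tendsto (fun δ => ∫⁻ q, ∫⁻ x, wB0 g Φ c₀ δ k τ q x ∂(ro τ) ∂(mQ Tm)) (𝓝[>] 0) (𝓝 0) := by
  have hm := measurable_wW hΦ hg c₀ 0 k τ
  have e1 : ∀ δ, ∫⁻ q, ∫⁻ x, wB0 g Φ c₀ δ k τ q x ∂(ro τ) ∂(mQ Tm) =
      ∫⁻ z, wB0 g Φ c₀ δ k τ z.1 z.2 ∂((mQ Tm).prod (ro τ)) := fun δ =>
    (lintegral_prod (μ := mQ Tm) (ν := ro τ)
      (fun z => wB0 g Φ c₀ δ k τ z.1 z.2) (measurable_wB0 hΦ hg c₀ δ k τ).aemeasurable).symm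
  simp only [e1]
  have h0 : (0 : ℝ≥0∞) = ∫⁻ z : (ℝ × Ph) × PY τ, 0 ∂((mQ Tm).prod (ro τ)) := by
    rw [lintegral_zero]
  rw [h0]
  refine tendsto_lintegral_filter_of_dominated_convergence
    (fun z => wW g Φ c₀ 0 k τ z.1 z.2)
    (Eventually.of_forall fun δ => measurable_wB0 hΦ hg c₀ δ k τ)
    (Eventually.of_forall fun δ => Eventually.of_forall fun z => le_of_ind_mul le_rfl) ?_ ?_
  · rw [lintegral_prod _ hm.aemeasurable]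
    exact hfin
  · refine Eventually.of_forall fun z => ?_
    by_cases hr : z.2 ∈ rset Φ 0 k τ z.1.2 z.1.1
    · have h1 : stm τ z.2.2 < z.1.1 := (mem_rset_zero.1 hr).2.2
      refine tendsto_const_nhds.congr' ?_
      have h2 : Tendsto (fun δ : ℝ => z.1.1 - δ) (𝓝[>] 0) (𝓝 z.1.1) := by
        have := (tendsto_const_nhds (x := z.1.1)).sub tendsto_id_zero
        rwa [sub_zero] at this
      filter_upwards [h2.eventually (lt_mem_nhds h1)] with δ hδ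
      unfold wB0
      rw [ind_of_false (not_not.2 hδ), zero_mul]
    · have h3 : wW g Φ c₀ 0 k τ z.1 z.2 = 0 := by
        unfold wW rwt
        rw [indicator_of_notMem hr]
        simp only [mul_zero]
      unfold wB0
      simp only [h3, mul_zero]
      exact tendsto_const_nhds

end conv

end Vale.Agent.P119.Cap
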