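import Vale.Agent.P119.ML.InRDef
import Vale.Agent.P119.ML.TreeInt

/-!
# P119, block ML (In-R, `helper755`): the rate formula

`Rr_formula`: the second clause of `InR` for `Rr`.
-/

open MeasureTheory Filter Topology Set
open scoped ENNReal NNReal

noncomputable section

namespace Vale.Agent.P119.Cap

open KU M KT ML

variable {Φ : E3 → ℝ} {ε : ℝ} {f₀ : Ph → ℝ}

theorem bq_sep (v : E3) (b : ℝ) (y : E3 × E2) :
    (bq ε v b y).1 + ε * half (outRel v (bq ε v b y)) = b := by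
  unfold bq
  rw [outRel_congr v (b - ε * half (outRel v (0, y))) 0 y]
  simp only
  ring

theorem bq_hit (v : E3) (b : ℝ) (y : E3 × E2) :
    (bq ε v b y).1 + ε * tin (inRel Φ v (bq ε v b y)) = sgt Φ ε v b y := by
  unfold bq sgt
  rw [inRel_congr v (b - ε * half (outRel v (0, y))) 0 y]

theorem bq_gn {v : E3} {b : ℝ} {y : E3 × E2} :
    bq ε v b y ∈ gn Φ v ↔ ((0, y) : ND) ∈ gn Φ v := mem_gn_congr v _ _ y

theorem bq_nw (v : E3) (b : ℝ) (y : E3 × E2) : nw Φ v (bq ε v b y) = nw Φ v (0, y) :=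
  nw_congr v _ _ y

theorem flk_inLines_snd (k : Bool) (L : Ph) (b : ℝ) (y : E3 × E2) :
    (flk k (inLines Φ ε L (bq ε L.2 b y))).2 =
      if k then (inVel Φ L.2 (0, y)).1 else (inVel Φ L.2 (0, y)).2 := by
  have h := inLines_vel (Φ := Φ) ε L (bq ε L.2 b y)
  have h6 : inVel Φ L.2 (bq ε L.2 b y) = inVel Φ L.2 (0, y) := inVel_congr L.2 _ _ y
  cases k
  · change (inLines Φ ε L (bq ε L.2 b y)).2.2 = (inVel Φ L.2 (0, y)).2
    rw [h.2, h6]
  · change (inLines Φ ε L (bq ε L.2 b y)).1.2 = (inVel Φ L.2 (0, y)).1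
    rw [h.1, h6]

theorem dgn_iff (k : Bool) (L : Ph) (b : ℝ) (y : E3 × E2) :
    L.2 = (flk k (inLines Φ ε L (bq ε L.2 b y))).2 ↔ dgn Φ k L.2 y := by
  rw [flk_inLines_snd]
  unfold dgn
  exact eq_comm

/-- Integration over the parameters of a node, with the exit time. -/
theorem lintegral_nvol_bq (ε : ℝ) (v : E3) {H : ND → ℝ≥0∞} (hH : Measurable H) :
    ∫⁻ q, H q ∂nvol = ∫⁻ b : ℝ, ∫⁻ y in {y : E3 × E2 | ‖y.2‖ < 1}, H (bq ε v b y) := by
  have hc : Measurable fun y : E3 × E2 => -(ε * half (outRel v (0, y))) :=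
    ((measurable_half.comp (measurable_outRel0 measurable_const measurable_id)).const_mul ε).neg
  rw [← lintegral_nvol_shift hc hH, nvol_eq]
  have hm : Measurable fun q : ℝ × (E3 × E2) =>
      H (q.1 + -(ε * half (outRel v (0, q.2))), q.2) :=
    hH.comp ((measurable_fst.add (hc.comp measurable_snd)).prodMk measurable_snd)
  rw [lintegral_prod _ hm.aemeasurable]
  refine lintegral_congr fun b => lintegral_congr fun y => ?_
  unfold bq
  rw [sub_eq_add_neg]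

/-- The integrand over the pairs (free line, tree). -/
def gI (Φ : E3 → ℝ) (ε Tm : ℝ) (Lm j : ℕ) (k : Bool) (c : GC.Conf Ph) (F : ℝ → Ph → ℝ≥0∞)
    (l : Ph) (T : CTree) : ℝ≥0∞ :=
  ind (ALt Φ ε Lm (GC.pts c : Set Ph) T (hitT ε (prt k l (CTree.ln Φ ε T))) ∧ T.depth = j ∧
    (l, T) ∈ dgSet Φ ε Tm k) * F (sepT Φ ε (prt k l (CTree.ln Φ ε T)))
      (sc2 Φ ε (prt k l (CTree.ln Φ ε T))).1

theorem measurableSet_gI (hΦ : IsPotential Φ) (hε : 0 < ε) (Tm : ℝ) (Lm j : ℕ) (k : Bool)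
    (c : GC.Conf Ph) : MeasurableSet {x : Ph × CTree |
      ALt Φ ε Lm (GC.pts c : Set Ph) x.2 (hitT ε (prt k x.1 (CTree.ln Φ ε x.2))) ∧
      x.2.depth = j ∧ (x.1, x.2) ∈ dgSet Φ ε Tm k} := by
  have hln : Measurable fun x : Ph × CTree => CTree.ln Φ ε x.2 :=
    (measurable_ln hΦ hε.ne').comp measurable_snd
  have hp : Measurable fun x : Ph × CTree => prt k x.1 (CTree.ln Φ ε x.2) :=
    (measurable_prtk k).comp (measurable_fst.prodMk hln)
  have hh := (measurable_hitT (ε := ε)).comp hp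
  have hs := (measurable_sepT (ε := ε) hΦ).comp hp
  have hc := ((measurable_sc2 hΦ hε.ne').comp hp).fst.snd
  have hrel : Measurable (KU.rel ε) := (continuous_rel (ε := ε)).measurable
  have he : Measurable fun x : Ph × CTree => CTree.ext Φ ε x.2 :=
    (measurable_ext hΦ hε.ne').comp measurable_snd
  simp only [Function.comp_def] at hh hs hc
  refine (measurableSet_ALtk hΦ hε measurable_const measurable_snd hh Lm).inter
    (((measurable_depth.comp measurable_snd) (measurableSet_singleton j)).inter ?_)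
  exact (hp measurableSet_meets).inter (((hrel.comp hp) (measurableSet_exits hΦ)).inter
    ((measurableSet_lt he hh).inter ((measurableSet_le hs measurable_const).inter
      (measurableSet_eq_fun hc (by fun_prop)))))

theorem measurable_gI (hΦ : IsPotential Φ) (hε : 0 < ε) (Tm : ℝ) (Lm j : ℕ) (k : Bool)
    (c : GC.Conf Ph) {F : ℝ → Ph → ℝ≥0∞} (hF : Measurable (Function.uncurry F)) :
    Measurable fun x : Ph × CTree => gI Φ ε Tm Lm j k c F x.1 x.2 := by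
  have hln : Measurable fun x : Ph × CTree => CTree.ln Φ ε x.2 :=
    (measurable_ln hΦ hε.ne').comp measurable_snd
  have hp : Measurable fun x : Ph × CTree => prt k x.1 (CTree.ln Φ ε x.2) :=
    (measurable_prtk k).comp (measurable_fst.prodMk hln)
  have hs := (measurable_sepT (ε := ε) hΦ).comp hp
  have hc := ((measurable_sc2 hΦ hε.ne').comp hp).fst
  exact (measurable_ind (measurableSet_gI hΦ hε Tm Lm j k c)).mul (hF.comp (hs.prodMk hc))

/-- The value of the integrand at a node. -/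
theorem gI_node (hΦ : IsPotential Φ) (hε : 0 < ε) {Tm : ℝ} {Lm j : ℕ} {k : Bool}
    {c : GC.Conf Ph} {F : ℝ → Ph → ℝ≥0∞} {τ : Shape} {L : Ph} {b : ℝ} {y : E3 × E2}
    {p : PD τ} (hy : ((0, y) : ND) ∈ gn Φ L.2) (hp : good Φ τ (dG Φ k L b y).1.2 p)
    (ht : tok Φ ε τ (dG Φ k L b y).1.2 p) :
    gI Φ ε Tm Lm j k c F (flk k (inLines Φ ε L (bq ε L.2 b y)))
      (mkL τ (bk Φ ε τ (lat ε (dG Φ k L b y)) p)) ≤
    ind (ALt Φ ε Lm (GC.pts c : Set Ph) (rT Φ ε k τ L b (y, p)) (sgt Φ ε L.2 b y)) *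
      (ind (τ.depth = j ∧ dgn Φ k L.2 y ∧ ex ε τ (dG Φ k L b y).1.2 p < sgt Φ ε L.2 b y) *
        (Icc 0 Tm).indicator (fun b => F b L) b) := by
  have hε0 := hε.ne'
  have hq : bq ε L.2 b y ∈ gn Φ L.2 := bq_gn.2 hy
  have hln : CTree.ln Φ ε (mkL τ (bk Φ ε τ (lat ε (dG Φ k L b y)) p)) =
      tlk k (inLines Φ ε L (bq ε L.2 b y)) := by
    rw [ln_mkL_bk hΦ hε0 τ (lat ε (dG Φ k L b y)) p hp, lat_dG]
  have hext : CTree.ext Φ ε (mkL τ (bk Φ ε τ (lat ε (dG Φ k L b y)) p)) =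
      ex ε τ (dG Φ k L b y).1.2 p := by
    rw [ext_mkL, exL_bk hΦ hε0 τ (lat ε (dG Φ k L b y)) p hp]
    rfl
  have hhit : hitT ε (inLines Φ ε L (bq ε L.2 b y)) = sgt Φ ε L.2 b y := by
    rw [hitT_inLines hΦ hε0 hq, bq_hit]
  have hsep : sepT Φ ε (inLines Φ ε L (bq ε L.2 b y)) = b := by
    rw [sepT_inLines hΦ hε0 hq, bq_sep]
  have hsc : (sc2 Φ ε (inLines Φ ε L (bq ε L.2 b y))).1 = L := by
    rw [← pm_eq_sc2, pm_inLines hΦ hε0 L hq.2.2]
  unfold gI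
  rw [hln, prt_flk_tlk, hhit, hsep, hsc]
  by_cases hP : ALt Φ ε Lm (GC.pts c : Set Ph) (mkL τ (bk Φ ε τ (lat ε (dG Φ k L b y)) p))
      (sgt Φ ε L.2 b y) ∧
      (mkL τ (bk Φ ε τ (lat ε (dG Φ k L b y)) p)).depth = j ∧
      (flk k (inLines Φ ε L (bq ε L.2 b y)), mkL τ (bk Φ ε τ (lat ε (dG Φ k L b y)) p)) ∈
        dgSet Φ ε Tm k
  swap
  · rw [ind_of_false hP, zero_mul]; exact zero_le
  rw [ind_of_true hP, one_mul]
  obtain ⟨h1, h2, h3, h4, h5, h6, h7⟩ := hP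
  simp only [hln, prt_flk_tlk, hhit, hsep, hsc, hext] at h3 h4 h5 h6 h7
  have hd : τ.depth = j := by
    rw [← h2, mkL_eq_ord, Shape.depth_ord]
  have hdg : dgn Φ k L.2 y := (dgn_iff k L b y).1 h7
  have hb0 : 0 ≤ b := by
    have e1 := ex_nonneg hΦ hε.le τ _ p hp ht
    have e2 := tin_inRel_lt hΦ hy
    have e3 : sgt Φ ε L.2 b y ≤ b := by
      unfold sgt
      nlinarith
    linarith
  have e1 : ALt Φ ε Lm (GC.pts c : Set Ph) (rT Φ ε k τ L b (y, p)) (sgt Φ ε L.2 b y) := h1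
  rw [ind_of_true e1, one_mul, ind_of_true ⟨hd, hdg, h5⟩, one_mul,
    indicator_of_mem (show b ∈ Icc 0 Tm from ⟨hb0, h6⟩)]

/-- The integrand over the pairs of lines. -/
def kk (g : Ph → ℝ≥0∞) (Φ : E3 → ℝ) (ε Tm : ℝ) (Lm j : ℕ) (k : Bool) (c : GC.Conf Ph)
    (F : ℝ → Ph → ℝ≥0∞) (τ : Shape) (q : Ph × Ph) (p : PD τ) : ℝ≥0∞ :=
  KT.wt Φ τ (tlk k q).2 p * {x : Ph × PD τ | tok Φ ε τ x.1.2 x.2}.indicator
    (fun x => lprod g τ (bk Φ ε τ x.1 x.2) *
      gI Φ ε Tm Lm j k c F (flk k q) (mkL τ (bk Φ ε τ x.1 x.2))) (tlk k q, p)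

theorem measurable_kk (hΦ : IsPotential Φ) (hε : 0 < ε) {g : Ph → ℝ≥0∞} (hg : Measurable g)
    (Tm : ℝ) (Lm j : ℕ) (k : Bool) (c : GC.Conf Ph) {F : ℝ → Ph → ℝ≥0∞}
    (hF : Measurable (Function.uncurry F)) (τ : Shape) :
    Measurable fun x : (Ph × Ph) × PD τ => kk g Φ ε Tm Lm j k c F τ x.1 x.2 := by
  have h1 : Measurable fun x : (Ph × Ph) × PD τ => (tlk k x.1, x.2) :=
    ((measurable_tlk k).comp measurable_fst).prodMk measurable_snd
  have hv : Measurable fun x : Ph × PD τ => (x.1.2, x.2) := by fun_prop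
  have h2 : Measurable fun x : (Ph × Ph) × PD τ => ((tlk k x.1).2, x.2) := hv.comp h1
  have hb := (measurable_bk hΦ ε τ).comp h1
  have hf : Measurable fun x : (Ph × Ph) × PD τ => flk k x.1 :=
    (measurable_flk k).comp measurable_fst
  have h3 : (fun x : (Ph × Ph) × PD τ => {y : Ph × PD τ | tok Φ ε τ y.1.2 y.2}.indicator
      (fun y => lprod g τ (bk Φ ε τ y.1 y.2) *
        gI Φ ε Tm Lm j k c F (flk k x.1) (mkL τ (bk Φ ε τ y.1 y.2))) (tlk k x.1, x.2)) =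
      {x : (Ph × Ph) × PD τ | tok Φ ε τ (tlk k x.1).2 x.2}.indicator
        (fun x => lprod g τ (bk Φ ε τ (tlk k x.1) x.2) *
          gI Φ ε Tm Lm j k c F (flk k x.1) (mkL τ (bk Φ ε τ (tlk k x.1) x.2))) := by
    funext x
    by_cases h : tok Φ ε τ (tlk k x.1).2 x.2
    · rw [indicator_of_mem (by exact h), indicator_of_mem (by exact h)]
    · rw [indicator_of_notMem (by exact h), indicator_of_notMem (by exact h)]
  unfold kk
  refine ((KT.measurable_wt hΦ τ).comp h2).mul ?_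
  rw [h3]
  exact (((measurable_lprod hg τ).comp hb).mul
    ((measurable_gI hΦ hε Tm Lm j k c hF).comp (hf.prodMk ((ML.measurable_mkL τ).comp hb)))).indicator
      (h2 (measurableSet_tok hΦ ε τ))

/-- The integrand vanishes if the lines do not meet. -/
theorem kk_eq_zero (hΦ : IsPotential Φ) (hε : 0 < ε) {g : Ph → ℝ≥0∞} {Tm : ℝ} {Lm j : ℕ}
    {k : Bool} {c : GC.Conf Ph} {F : ℝ → Ph → ℝ≥0∞} {τ : Shape} {q : Ph × Ph} {p : PD τ}
    (h : ¬(Meets ε q ∧ Exits Φ (KU.rel ε q))) : kk g Φ ε Tm Lm j k c F τ q p = 0 := by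
  unfold kk
  by_cases hw : KT.wt Φ τ (tlk k q).2 p = 0
  · rw [hw, zero_mul]
  have hgood := (wt_ne_zero_iff τ _ p).1 hw
  by_cases ht : tok Φ ε τ (tlk k q).2 p
  · rw [indicator_of_mem (by exact ht)]
    have h1 : gI Φ ε Tm Lm j k c F (flk k q) (mkL τ (bk Φ ε τ (tlk k q) p)) = 0 := by
      unfold gI
      rw [ind_of_false, zero_mul]
      rintro ⟨-, -, h3, h4, -⟩
      simp only [ln_mkL_bk hΦ hε.ne' τ (tlk k q) p hgood, prt_flk_tlk] at h3 h4
      exact h ⟨h3, h4⟩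
    simp only [h1, mul_zero]
  · rw [indicator_of_notMem (by exact ht), mul_zero]

/-- The integrand at a node. -/
theorem kk_node (hΦ : IsPotential Φ) (hε : 0 < ε) {g : Ph → ℝ≥0∞} {Tm : ℝ} {Lm j : ℕ}
    {k : Bool} {c : GC.Conf Ph} {F : ℝ → Ph → ℝ≥0∞} {τ : Shape} {L : Ph} {b : ℝ} {y : E3 × E2}
    {p : PD τ} (hy : ((0, y) : ND) ∈ gn Φ L.2) :
    nw Φ L.2 (0, y) * kk g Φ ε Tm Lm j k c F τ (inLines Φ ε L (bq ε L.2 b y)) p ≤
      rwt g Φ ε k τ L b (y, p) * ind (ALt Φ ε Lm (GC.pts c : Set Ph) (rT Φ ε k τ L b (y, p))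
        (sgt Φ ε L.2 b y)) * (ind (τ.depth = j) * (Icc 0 Tm).indicator (fun b => F b L) b) := by
  have e1 : tlk k (inLines Φ ε L (bq ε L.2 b y)) = lat ε (dG Φ k L b y) := (lat_dG ε k L b y).symm
  unfold kk rwt
  rw [e1]
  have e2 : (lat ε (dG Φ k L b y)).2 = (dG Φ k L b y).1.2 := rfl
  rw [e2]
  by_cases hw : KT.wt Φ τ (dG Φ k L b y).1.2 p = 0
  · simp only [hw, zero_mul, mul_zero, le_refl]
  have hgood := (wt_ne_zero_iff τ _ p).1 hw
  by_cases ht : tok Φ ε τ (dG Φ k L b y).1.2 p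
  · rw [indicator_of_mem (s := {x : Ph × PD τ | tok Φ ε τ x.1.2 x.2}) (by exact ht)]
    have h1 := gI_node (Tm := Tm) (Lm := Lm) (j := j) (c := c) (F := F) hΦ hε hy hgood ht
    simp only
    by_cases hr : (y, p) ∈ rset Φ ε k τ L b
    · rw [indicator_of_mem hr]
      have h2 : ind (τ.depth = j ∧ dgn Φ k L.2 y ∧ ex ε τ (dG Φ k L b y).1.2 p <
          sgt Φ ε L.2 b y) ≤ ind (τ.depth = j) := ind_mono fun h => h.1
      calc nw Φ L.2 (0, y) * (KT.wt Φ τ (dG Φ k L b y).1.2 p *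
            (lprod g τ (bk Φ ε τ (lat ε (dG Φ k L b y)) p) *
            gI Φ ε Tm Lm j k c F (flk k (inLines Φ ε L (bq ε L.2 b y)))
              (mkL τ (bk Φ ε τ (lat ε (dG Φ k L b y)) p))))
          ≤ nw Φ L.2 (0, y) * (KT.wt Φ τ (dG Φ k L b y).1.2 p *
            (lprod g τ (bk Φ ε τ (lat ε (dG Φ k L b y)) p) *
            (ind (ALt Φ ε Lm (GC.pts c : Set Ph) (rT Φ ε k τ L b (y, p)) (sgt Φ ε L.2 b y)) *
              (ind (τ.depth = j) * (Icc 0 Tm).indicator (fun b => F b L) b)))) := by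
            gcongr
            refine h1.trans ?_
            gcongr
        _ = _ := by ring
    · rw [indicator_of_notMem hr]
      have h2 : ¬(τ.depth = j ∧ dgn Φ k L.2 y ∧ ex ε τ (dG Φ k L b y).1.2 p <
          sgt Φ ε L.2 b y) := fun h => hr ⟨h.2.1, ht, h.2.2⟩
      rw [ind_of_false h2, zero_mul, mul_zero] at h1
      rw [le_zero_iff.1 h1]
      simp only [mul_zero, zero_mul, le_refl]
  · rw [indicator_of_notMem (s := {x : Ph × PD τ | tok Φ ε τ x.1.2 x.2}) (by exact ht)]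
    simp only [mul_zero, zero_le]

/-- **The rate formula.** -/
theorem Rr_formula (hΦ : IsPotential Φ) (hε : 0 < ε) (hf : Measurable f₀) (Tm : ℝ) (Lm j : ℕ)
    (k : Bool) (c : GC.Conf Ph) {F : ℝ → Ph → ℝ≥0∞} (hF : Measurable (Function.uncurry F)) :
    ∫⁻ l : Ph, ∫⁻ T in {T | ALt Φ ε Lm (GC.pts c : Set Ph) T
          (hitT ε (prt k l (CTree.ln Φ ε T))) ∧ T.depth = j ∧ (l, T) ∈ dgSet Φ ε Tm k},
          F (sepT Φ ε (prt k l (CTree.ln Φ ε T))) (sc2 Φ ε (prt k l (CTree.ln Φ ε T))).1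
            ∂(tree (GC.inten f₀ ε) Lm) ≤
      ∫⁻ l, ∫⁻ b in Icc 0 Tm, Rr Φ f₀ Lm j k ε c b l * F b l := by
  have hε0 := hε.ne'
  have hgm : Measurable (fh f₀) := measurable_fh hf
  have hG := measurable_gI hΦ hε Tm Lm j k c hF
  have hGl : ∀ l, Measurable fun T => gI Φ ε Tm Lm j k c F l T := fun l =>
    hG.comp (measurable_prodMk_left (x := l))
  have h1 : ∀ l, ∫⁻ T in {T | ALt Φ ε Lm (GC.pts c : Set Ph) T
          (hitT ε (prt k l (CTree.ln Φ ε T))) ∧ T.depth = j ∧ (l, T) ∈ dgSet Φ ε Tm k},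
          F (sepT Φ ε (prt k l (CTree.ln Φ ε T))) (sc2 Φ ε (prt k l (CTree.ln Φ ε T))).1
            ∂(tree (GC.inten f₀ ε) Lm) =
      ∫⁻ T, gI Φ ε Tm Lm j k c F l T ∂(tree (GC.inten f₀ ε) Lm) := by
    intro l
    have hS : MeasurableSet {T | ALt Φ ε Lm (GC.pts c : Set Ph) T
          (hitT ε (prt k l (CTree.ln Φ ε T))) ∧ T.depth = j ∧ (l, T) ∈ dgSet Φ ε Tm k} :=
      (measurable_prodMk_left (x := l)) (measurableSet_gI hΦ hε Tm Lm j k c)
    rw [← lintegral_indicator hS]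
    refine lintegral_congr fun T => ?_
    unfold gI
    by_cases h : ALt Φ ε Lm (GC.pts c : Set Ph) T
          (hitT ε (prt k l (CTree.ln Φ ε T))) ∧ T.depth = j ∧ (l, T) ∈ dgSet Φ ε Tm k
    · rw [indicator_of_mem (by exact h), ind_of_true h, one_mul]
    · rw [indicator_of_notMem (by exact h), ind_of_false h, zero_mul]
  simp only [h1]
  have hok : ∀ l T, gI Φ ε Tm Lm j k c F l T ≠ 0 → CTree.ok Φ ε T := by
    intro l T h
    have h2 : ALt Φ ε Lm (GC.pts c : Set Ph) T (hitT ε (prt k l (CTree.ln Φ ε T))) := by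
      by_contra h3
      refine h ?_
      unfold gI
      rw [ind_of_false fun h4 => h3 h4.1, zero_mul]
    exact (alive_even h2 0).ok
  have h2 : ∀ l, ∫⁻ T, gI Φ ε Tm Lm j k c F l T ∂(tree (GC.inten f₀ ε) Lm) =
      ∑ τ ∈ shapes Lm, ENNReal.ofReal (mu ε) *
        ∫⁻ l' : Ph, ∫⁻ p, kk (fh f₀) Φ ε Tm Lm j k c F τ (prt k l l') p ∂(pvol τ) := by
    intro l
    rw [M.lintegral_tree Lm (hGl l)]
    refine Finset.sum_congr rfl fun τ _ => ?_
    rw [lintegral_shape hΦ hε hf τ (hGl l) (hok l)]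
    congr 1
    refine lintegral_congr fun l' => lintegral_congr fun p => ?_
    unfold kk
    rw [tlk_prt, flk_prt]
  simp only [h2]
  have hkk : ∀ τ, Measurable fun q => ∫⁻ p, kk (fh f₀) Φ ε Tm Lm j k c F τ q p ∂(pvol τ) :=
    fun τ => (measurable_kk hΦ hε hgm Tm Lm j k c hF τ).lintegral_prod_right'
  have hkk2 : ∀ τ, Measurable fun l : Ph => ∫⁻ l' : Ph,
      ∫⁻ p, kk (fh f₀) Φ ε Tm Lm j k c F τ (prt k l l') p ∂(pvol τ) := fun τ => by
    have h3 := (hkk τ).comp (measurable_prtk k)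
    exact h3.lintegral_prod_right'
  rw [lintegral_finsetSum _ fun τ _ => (hkk2 τ).const_mul _]
  -- one shape
  have h3 : ∀ τ, ∫⁻ l : Ph, ENNReal.ofReal (mu ε) * ∫⁻ l' : Ph,
      ∫⁻ p, kk (fh f₀) Φ ε Tm Lm j k c F τ (prt k l l') p ∂(pvol τ) =
      ∫⁻ L : Ph, ∫⁻ b : ℝ, ∫⁻ y in {y : E3 × E2 | ‖y.2‖ < 1}, nw Φ L.2 (0, y) *
        ∫⁻ p, kk (fh f₀) Φ ε Tm Lm j k c F τ (inLines Φ ε L (bq ε L.2 b y)) p ∂(pvol τ) := by
    intro τ
    rw [lintegral_const_mul _ (hkk2 τ), lintegral_prt k (hkk τ)]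
    have e1 : ∫⁻ q, (∫⁻ p, kk (fh f₀) Φ ε Tm Lm j k c F τ q p ∂(pvol τ)) =
        ∫⁻ q, {q | Hit (KT.rel ε q) ∧ Exits Φ (KT.rel ε q)}.indicator
          (fun q => ∫⁻ p, kk (fh f₀) Φ ε Tm Lm j k c F τ q p ∂(pvol τ)) q := by
      refine lintegral_congr fun q => ?_
      by_cases h : Hit (KT.rel ε q) ∧ Exits Φ (KT.rel ε q)
      · rw [indicator_of_mem (by exact h)]
      · rw [indicator_of_notMem (by exact h)]
        have h4 : ¬(Meets ε q ∧ Exits Φ (KU.rel ε q)) := fun h5 =>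
          h ⟨(hit_iff_meets ε q).2 h5.1, h5.2⟩
        simp only [kk_eq_zero hΦ hε h4, lintegral_zero]
    rw [e1, lintegral_node' hΦ hε (hkk τ), ← mul_assoc, mu_mul_sq hε, one_mul]
    refine lintegral_congr fun L => ?_
    have hm : Measurable fun q : ND => nw Φ L.2 q *
        ∫⁻ p, kk (fh f₀) Φ ε Tm Lm j k c F τ (inLines Φ ε L q) p ∂(pvol τ) :=
      ((measurable_nw hΦ).comp measurable_prodMk_left).mul
        ((hkk τ).comp ((measurable_inLines hΦ ε).comp measurable_prodMk_left))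
    rw [lintegral_nvol_bq ε L.2 hm]
    refine lintegral_congr fun b => lintegral_congr fun y => ?_
    rw [bq_nw]
  simp only [h3]
  -- the bound of the integrand
  have hrm : ∀ τ, Measurable fun x : (ℝ × Ph) × PY τ =>
      rwt (fh f₀) Φ ε k τ x.1.2 x.1.1 x.2 *
        ind (ALt Φ ε Lm (GC.pts c : Set Ph) (rT Φ ε k τ x.1.2 x.1.1 x.2)
          (sgt Φ ε x.1.2.2 x.1.1 x.2.1)) := fun τ => by
    have h4 := measurable_rwt_ind hΦ hε hgm k Lm τ
    have h5 : Measurable fun x : (ℝ × Ph) × PY τ => (((c, x.1.1, x.1.2), x.2) :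
        (GC.Conf Ph × ℝ × Ph) × PY τ) := by fun_prop
    exact h4.comp h5
  have h4 : ∀ (τ : Shape) (L : Ph) (b : ℝ), ∫⁻ y in {y : E3 × E2 | ‖y.2‖ < 1}, nw Φ L.2 (0, y) *
      ∫⁻ p, kk (fh f₀) Φ ε Tm Lm j k c F τ (inLines Φ ε L (bq ε L.2 b y)) p ∂(pvol τ) ≤
      (Icc 0 Tm).indicator (fun b => ind (τ.depth = j) * ((∫⁻ x, rwt (fh f₀) Φ ε k τ L b x *
        ind (ALt Φ ε Lm (GC.pts c : Set Ph) (rT Φ ε k τ L b x) (sgt Φ ε L.2 b x.1)) ∂(ro τ)) *
          F b L)) b := by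
    intro τ L b
    have hr : Measurable fun x : PY τ => rwt (fh f₀) Φ ε k τ L b x *
        ind (ALt Φ ε Lm (GC.pts c : Set Ph) (rT Φ ε k τ L b x) (sgt Φ ε L.2 b x.1)) :=
      (hrm τ).comp (measurable_prodMk_left (x := (b, L)))
    have e1 : ∀ y : E3 × E2, nw Φ L.2 (0, y) *
        ∫⁻ p, kk (fh f₀) Φ ε Tm Lm j k c F τ (inLines Φ ε L (bq ε L.2 b y)) p ∂(pvol τ) ≤
        (∫⁻ p, rwt (fh f₀) Φ ε k τ L b (y, p) *
          ind (ALt Φ ε Lm (GC.pts c : Set Ph) (rT Φ ε k τ L b (y, p)) (sgt Φ ε L.2 b y))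
            ∂(pvol τ)) * (ind (τ.depth = j) * (Icc 0 Tm).indicator (fun b => F b L) b) := by
      intro y
      by_cases hy : ((0, y) : ND) ∈ gn Φ L.2
      · have hry : Measurable fun p : PD τ => rwt (fh f₀) Φ ε k τ L b (y, p) *
            ind (ALt Φ ε Lm (GC.pts c : Set Ph) (rT Φ ε k τ L b (y, p)) (sgt Φ ε L.2 b y)) :=
          hr.comp (measurable_prodMk_left (x := y))
        rw [← lintegral_const_mul' _ _ (nw_ne_top _ _), ← lintegral_mul_const _ hry]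
        exact lintegral_mono fun p => kk_node hΦ hε hy
      · rw [nw_of_notMem hy, zero_mul]
        exact zero_le
    refine (lintegral_mono e1).trans ?_
    have e2 : Measurable fun y : E3 × E2 => ∫⁻ p, rwt (fh f₀) Φ ε k τ L b (y, p) *
          ind (ALt Φ ε Lm (GC.pts c : Set Ph) (rT Φ ε k τ L b (y, p)) (sgt Φ ε L.2 b y))
            ∂(pvol τ) := hr.lintegral_prod_right'
    rw [lintegral_mul_const _ e2]
    have e3 : ∫⁻ y in {y : E3 × E2 | ‖y.2‖ < 1}, (∫⁻ p, rwt (fh f₀) Φ ε k τ L b (y, p) *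
          ind (ALt Φ ε Lm (GC.pts c : Set Ph) (rT Φ ε k τ L b (y, p)) (sgt Φ ε L.2 b y))
            ∂(pvol τ)) = ∫⁻ x, rwt (fh f₀) Φ ε k τ L b x *
        ind (ALt Φ ε Lm (GC.pts c : Set Ph) (rT Φ ε k τ L b x) (sgt Φ ε L.2 b x.1)) ∂(ro τ) := by
      unfold ro
      rw [lintegral_prod _ hr.aemeasurable]
    rw [e3]
    by_cases hb : b ∈ Icc 0 Tm
    · rw [indicator_of_mem hb, indicator_of_mem hb]
      refine le_of_eq ?_
      ring
    · rw [indicator_of_notMem hb, indicator_of_notMem hb, mul_zero, mul_zero]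
  have hkb : ∀ τ, Measurable fun x : Ph × ℝ => (Icc 0 Tm).indicator (fun b =>
      ind (τ.depth = j) * ((∫⁻ y, rwt (fh f₀) Φ ε k τ x.1 b y *
        ind (ALt Φ ε Lm (GC.pts c : Set Ph) (rT Φ ε k τ x.1 b y) (sgt Φ ε x.1.2 b y.1)) ∂(ro τ)) *
          F b x.1)) x.2 := by
    intro τ
    have e1 : Measurable fun x : Ph × ℝ => ∫⁻ y, rwt (fh f₀) Φ ε k τ x.1 x.2 y *
        ind (ALt Φ ε Lm (GC.pts c : Set Ph) (rT Φ ε k τ x.1 x.2 y) (sgt Φ ε x.1.2 x.2 y.1))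
          ∂(ro τ) := by
      have e0 := (hrm τ).lintegral_prod_right' (ν := ro τ)
      exact e0.comp (measurable_snd.prodMk measurable_fst)
    have e2 : Measurable fun x : Ph × ℝ => F x.2 x.1 :=
      hF.comp (measurable_snd.prodMk measurable_fst)
    have e3 : (fun x : Ph × ℝ => (Icc 0 Tm).indicator (fun b =>
      ind (τ.depth = j) * ((∫⁻ y, rwt (fh f₀) Φ ε k τ x.1 b y *
        ind (ALt Φ ε Lm (GC.pts c : Set Ph) (rT Φ ε k τ x.1 b y) (sgt Φ ε x.1.2 b y.1)) ∂(ro τ)) *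
          F b x.1)) x.2) = {x : Ph × ℝ | x.2 ∈ Icc 0 Tm}.indicator (fun x =>
      ind (τ.depth = j) * ((∫⁻ y, rwt (fh f₀) Φ ε k τ x.1 x.2 y *
        ind (ALt Φ ε Lm (GC.pts c : Set Ph) (rT Φ ε k τ x.1 x.2 y)
          (sgt Φ ε x.1.2 x.2 y.1)) ∂(ro τ)) * F x.2 x.1)) := by
      funext x
      by_cases h : x.2 ∈ Icc 0 Tm
      · rw [indicator_of_mem h, indicator_of_mem (by exact h)]
      · rw [indicator_of_notMem h, indicator_of_notMem (by exact h)]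
    rw [e3]
    exact ((e1.mul e2).const_mul _).indicator (measurable_snd measurableSet_Icc)
  calc ∑ τ ∈ shapes Lm, ∫⁻ L : Ph, ∫⁻ b : ℝ, ∫⁻ y in {y : E3 × E2 | ‖y.2‖ < 1},
        nw Φ L.2 (0, y) *
        ∫⁻ p, kk (fh f₀) Φ ε Tm Lm j k c F τ (inLines Φ ε L (bq ε L.2 b y)) p ∂(pvol τ)
      ≤ ∑ τ ∈ shapes Lm, ∫⁻ L : Ph, ∫⁻ b : ℝ, (Icc 0 Tm).indicator (fun b =>
        ind (τ.depth = j) * ((∫⁻ x, rwt (fh f₀) Φ ε k τ L b x *
        ind (ALt Φ ε Lm (GC.pts c : Set Ph) (rT Φ ε k τ L b x) (sgt Φ ε L.2 b x.1)) ∂(ro τ)) *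
          F b L)) b :=
        Finset.sum_le_sum fun τ _ => lintegral_mono fun L => lintegral_mono fun b => h4 τ L b
    _ = ∫⁻ L : Ph, ∫⁻ b : ℝ, ∑ τ ∈ shapes Lm, (Icc 0 Tm).indicator (fun b =>
        ind (τ.depth = j) * ((∫⁻ x, rwt (fh f₀) Φ ε k τ L b x *
        ind (ALt Φ ε Lm (GC.pts c : Set Ph) (rT Φ ε k τ L b x) (sgt Φ ε L.2 b x.1)) ∂(ro τ)) *
          F b L)) b := by
        rw [← lintegral_finsetSum _ fun τ _ => (hkb τ).lintegral_prod_right']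
        refine lintegral_congr fun L => ?_
        exact (lintegral_finsetSum _ fun τ _ =>
          (hkb τ).comp (measurable_prodMk_left (x := L))).symm
    _ = ∫⁻ L, ∫⁻ b in Icc 0 Tm, Rr Φ f₀ Lm j k ε c b L * F b L := by
        refine lintegral_congr fun L => ?_
        rw [← lintegral_indicator measurableSet_Icc]
        refine lintegral_congr fun b => ?_
        by_cases hb : b ∈ Icc 0 Tm
        · simp only [indicator_of_mem hb]
          unfold Rr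
          rw [Finset.sum_mul, Finset.sum_filter]
          refine Finset.sum_congr rfl fun τ _ => ?_
          by_cases hd : τ.depth = j
          · rw [ind_of_true hd, if_pos hd, one_mul]
            rfl
          · rw [ind_of_false hd, if_neg hd, zero_mul]
        · simp only [indicator_of_notMem hb, Finset.sum_const_zero]

end Vale.Agent.P119.Cap
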