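import Vale.Agent.P119.ML.TreeInt
import Vale.Agent.P119.ML.Pratt
import Vale.Agent.P119.ML.CapDef
import Vale.Agent.P119.KT.Shift
import Vale.Agent.P119.KE.Family

/-!
# P119, block ML (`helper67`): convergence of the weights of the trees in `L¹`

* `GD`: the properties of the datum that are used;
* `l1_abs`: the abstract statement (translations in the position of the root line);
* `tendsto_tW`: the weights `tW` of the trees of a shape `τ` in backward parameters;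
* `tendsto_nW`: the weights `nW` of the nodes with exact exit time.
-/

open MeasureTheory Filter Topology Set ProbabilityTheory
open scoped ENNReal NNReal

noncomputable section

namespace Vale.Agent.P119.ML

open KU M KT CTree

variable {Φ : E3 → ℝ} {ε : ℝ} {f₀ : Ph → ℝ}

/-- The properties of the datum. -/
structure GD (g : Ph → ℝ≥0∞) (M β : ℝ) : Prop where
  meas : Measurable g
  cont : ∀ v : E3, Continuous fun x : E3 => g (x, v)
  le : ∀ x v, g (x, v) ≤ KE.gs M β v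
  mass : ∀ v, ∫⁻ x, g (x, v) ≤ KE.gs M β v
  M0 : 0 ≤ M
  β0 : 0 < β

theorem GD.ne_top {g : Ph → ℝ≥0∞} {M β : ℝ} (h : GD g M β) (z : Ph) : g z ≠ ∞ :=
  ((h.le z.1 z.2).trans_lt (KE.gs_lt_top _ _ _)).ne

/-- The datum of a kinetic family. -/
theorem gd_of_kin {β' T : ℝ} {f : ℝ → Ph → ℝ} (hΦ : IsPotential Φ) (hd : IsDatum β' f₀)
    {m₀ : Measurable fun p : E3 × E3 => K1.f0hat f₀ p.1 p.2} (K : KE.KinFamily hΦ f₀ m₀ T f) :
    GD (fh f₀) K.M K.b where
  meas := measurable_fh hd.contDiff.continuous.measurable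
  cont := fun v => by
    have h : Continuous fun x : E3 => f₀ (x, v) :=
      hd.contDiff.continuous.comp (continuous_id.prodMk continuous_const)
    exact ENNReal.continuous_ofReal.comp h
  le := fun x v => K.f0_le x v
  mass := fun v => K.f0_mass v
  M0 := K.M0
  β0 := K.b0

section abs

variable {ι : Type*} {l : Filter ι} {P : Type*} [MeasurableSpace P] {ν : Measure P} [SFinite ν]

/-- The integral of a function which is a translate in the position. -/
theorem lintegral_translate {g : Ph → ℝ≥0∞} (hgm : Measurable g) {s u : E3 × P → E3}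
    (hs : Measurable s) (hu : Measurable u) {k : E3 × P → ℝ≥0∞} (hk : Measurable k) :
    ∫⁻ x : Ph × P, g (x.1.1 + s (x.1.2, x.2), u (x.1.2, x.2)) * k (x.1.2, x.2)
        ∂((volume : Measure Ph).prod ν) =
      ∫⁻ z : E3 × P, (∫⁻ x, g (x, u z)) * k z ∂((volume : Measure E3).prod ν) := by
  have hv : Measurable fun x : Ph × P => (x.1.2, x.2) := by fun_prop
  have hgm1 : Measurable fun x : Ph × P => g (x.1.1 + s (x.1.2, x.2), u (x.1.2, x.2)) :=
    hgm.comp ((Measurable.add (by fun_prop) (hs.comp hv)).prodMk (hu.comp hv))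
  have hD : Measurable fun x : Ph × P =>
      g (x.1.1 + s (x.1.2, x.2), u (x.1.2, x.2)) * k (x.1.2, x.2) := hgm1.mul (hk.comp hv)
  rw [lintegral_prod _ hD.aemeasurable, Measure.volume_eq_prod,
    lintegral_prod _ hD.lintegral_prod_right'.aemeasurable,
    lintegral_lintegral_swap hD.lintegral_prod_right'.aemeasurable]
  have hgu : Measurable fun y : (E3 × P) × E3 => g (y.2, u y.1) :=
    hgm.comp (measurable_snd.prodMk (hu.comp measurable_fst))
  have hR : Measurable fun z : E3 × P => (∫⁻ x, g (x, u z)) * k z :=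
    hgu.lintegral_prod_right'.mul hk
  rw [lintegral_prod _ hR.aemeasurable]
  refine lintegral_congr fun v => ?_
  have hm : Measurable fun y : E3 × P => g (y.1 + s (v, y.2), u (v, y.2)) * k (v, y.2) :=
    hD.comp ((measurable_fst.prodMk measurable_const).prodMk measurable_snd :
      Measurable fun y : E3 × P => (((y.1, v) : Ph), y.2))
  rw [lintegral_lintegral_swap hm.aemeasurable]
  refine lintegral_congr fun p => ?_
  simp only
  have hm1 : Measurable fun x : E3 => g (x + s (v, p), u (v, p)) :=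
    hgm.comp ((measurable_id.add_const _).prodMk measurable_const)
  rw [lintegral_mul_const _ hm1]
  congr 1
  exact lintegral_add_right_eq_self (fun x => g (x, u (v, p))) (s (v, p))

/-- **The abstract statement.** -/
theorem l1_abs [l.NeBot] [l.IsCountablyGenerated] {g : Ph → ℝ≥0∞} (hgm : Measurable g)
    (hc : ∀ v : E3, Continuous fun x : E3 => g (x, v))
    {W : ι → Ph × P → ℝ≥0∞} {W₀ : Ph × P → ℝ≥0∞} (hW : ∀ i, Measurable (W i))
    (hW₀ : Measurable W₀) {s : ι → E3 × P → E3} {s₀ u : E3 × P → E3}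
    (hsm : ∀ i, Measurable (s i)) (hs₀m : Measurable s₀) (hum : Measurable u)
    {k : E3 × P → ℝ≥0∞} (hk : Measurable k) (hkfin : ∀ z, k z ≠ ∞)
    (hs : ∀ z, Tendsto (fun i => s i z) l (𝓝 (s₀ z)))
    (hle : ∀ᶠ i in l, ∀ᵐ x ∂((volume : Measure Ph).prod ν), W i x ≤
      g (x.1.1 + s i (x.1.2, x.2), u (x.1.2, x.2)) * k (x.1.2, x.2))
    (hfin : ∫⁻ z : E3 × P, (∫⁻ x, g (x, u z)) * k z ∂((volume : Measure E3).prod ν) ≠ ∞)
    (hWp : ∀ᵐ x ∂((volume : Measure Ph).prod ν), Tendsto (fun i => W i x) l (𝓝 (W₀ x))) :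
    Tendsto (fun i => ∫⁻ x, ((W i x - W₀ x) + (W₀ x - W i x)) ∂((volume : Measure Ph).prod ν)) l
      (𝓝 0) ∧
    Tendsto (fun i => ∫⁻ x, W i x ∂((volume : Measure Ph).prod ν)) l
      (𝓝 (∫⁻ x, W₀ x ∂((volume : Measure Ph).prod ν))) ∧
    ∫⁻ x, W₀ x ∂((volume : Measure Ph).prod ν) ≠ ∞ := by
  have hv : Measurable fun x : Ph × P => (x.1.2, x.2) := by fun_prop
  have hDm : ∀ s' : E3 × P → E3, Measurable s' → Measurable fun x : Ph × P =>
      g (x.1.1 + s' (x.1.2, x.2), u (x.1.2, x.2)) * k (x.1.2, x.2) := fun s' hs' =>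
    (hgm.comp ((Measurable.add (by fun_prop) (hs'.comp hv)).prodMk (hum.comp hv))).mul
      (hk.comp hv)
  refine pratt (D := fun i x => g (x.1.1 + s i (x.1.2, x.2), u (x.1.2, x.2)) * k (x.1.2, x.2))
    (D₀ := fun x => g (x.1.1 + s₀ (x.1.2, x.2), u (x.1.2, x.2)) * k (x.1.2, x.2))
    (fun i => (hW i).aemeasurable) (fun i => (hDm _ (hsm i)).aemeasurable) hW₀.aemeasurable
    hle ?_ (hDm _ hs₀m).aemeasurable ?_ ?_ hWp
  · rw [lintegral_translate hgm hs₀m hum hk]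
    exact hfin
  · simp only [lintegral_translate hgm (hsm _) hum hk, lintegral_translate hgm hs₀m hum hk]
    exact tendsto_const_nhds
  · refine Eventually.of_forall fun x => ?_
    refine ENNReal.Tendsto.mul_const ?_ (Or.inr (hkfin _))
    exact ((hc _).tendsto _).comp (tendsto_const_nhds.add (hs (x.1.2, x.2)))

end abs

/-! ### Gaussian weights -/

theorem measurable_cpw (q : ℕ) : Measurable (Cap.pw q) := by unfold Cap.pw; fun_prop

theorem cpw_ne_top (q : ℕ) (v : E3) : Cap.pw q v ≠ ∞ := ENNReal.ofReal_ne_top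

theorem pw_mul_gs_le (q : ℕ) {A c : ℝ} (hA : 0 ≤ A) (hc : 0 < c) : ∃ B : ℝ, 0 ≤ B ∧
    ∀ v : E3, Cap.pw q v * KE.gs A c v ≤ KE.gs B (c / 2) v := by
  set γ : ℝ := c / (2 * (q + 1)) with hγ
  have hγ0 : 0 < γ := by positivity
  refine ⟨A * Real.exp (1 / (4 * γ)) ^ q, by positivity, fun v => ?_⟩
  unfold Cap.pw KE.gs
  rw [← ENNReal.ofReal_mul (by positivity)]
  refine ENNReal.ofReal_le_ofReal ?_
  have h1 := one_add_le_exp_sq hγ0 ‖v‖
  have h2 : (1 + ‖v‖) ^ q ≤ (Real.exp (1 / (4 * γ)) * Real.exp (γ * ‖v‖ ^ 2)) ^ q :=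
    pow_le_pow_left₀ (by positivity) h1 q
  have h3 : Real.exp (γ * ‖v‖ ^ 2) ^ q ≤ Real.exp (c / 2 * ‖v‖ ^ 2) := by
    rw [← Real.exp_nat_mul]
    refine Real.exp_le_exp.2 ?_
    have h4 : (q : ℝ) * γ ≤ c / 2 := by
      rw [hγ, mul_div_assoc', div_le_div_iff₀ (by positivity) (by positivity)]
      nlinarith
    nlinarith [sq_nonneg ‖v‖]
  have h5 : Real.exp (-(c / 2) * ‖v‖ ^ 2) = Real.exp (c / 2 * ‖v‖ ^ 2) *
      Real.exp (-c * ‖v‖ ^ 2) := by
    rw [← Real.exp_add]; congr 1; ring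
  calc (1 + ‖v‖) ^ q * (A * Real.exp (-c * ‖v‖ ^ 2))
      ≤ (Real.exp (1 / (4 * γ)) * Real.exp (γ * ‖v‖ ^ 2)) ^ q * (A * Real.exp (-c * ‖v‖ ^ 2)) :=
        mul_le_mul_of_nonneg_right h2 (by positivity)
    _ = A * Real.exp (1 / (4 * γ)) ^ q * (Real.exp (γ * ‖v‖ ^ 2) ^ q *
          Real.exp (-c * ‖v‖ ^ 2)) := by rw [mul_pow]; ring
    _ ≤ A * Real.exp (1 / (4 * γ)) ^ q * (Real.exp (c / 2 * ‖v‖ ^ 2) *
          Real.exp (-c * ‖v‖ ^ 2)) := by gcongr
    _ = _ := by rw [h5]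

theorem lintegral_pw_gs_ne_top (q : ℕ) {A c : ℝ} (hA : 0 ≤ A) (hc : 0 < c) :
    ∫⁻ v : E3, Cap.pw q v * KE.gs A c v ≠ ∞ := by
  obtain ⟨B, hB, h⟩ := pw_mul_gs_le q hA hc
  refine ne_top_of_le_ne_top ?_ (lintegral_mono h)
  rw [KE.lintegral_gs hB (by positivity)]
  exact ENNReal.ofReal_ne_top

/-! ### Trees of a shape -/

/-- The dominating factor. -/
def tk (q : ℕ) (Φ : E3 → ℝ) (T M β : ℝ) (τ : Shape) (z : E3 × PD τ) : ℝ≥0∞ :=
  Cap.pw q z.1 * (KT.wt Φ τ z.1 z.2 * {y : E3 × PD τ | win T Φ τ y.1 y.2}.indicator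
    (fun y => ENNReal.ofReal (M ^ (τ.card - 1) *
      Real.exp (-β * (‖y.1‖ ^ 2 + enP τ y.2 - ‖flv Φ τ y.1 y.2‖ ^ 2)))) z)

theorem measurable_tk (hΦ : IsPotential Φ) (q : ℕ) (T M β : ℝ) (τ : Shape) :
    Measurable (tk q Φ T M β τ) := by
  have h1 : Measurable fun y : E3 × PD τ => ‖y.1‖ ^ 2 + enP τ y.2 - ‖flv Φ τ y.1 y.2‖ ^ 2 :=
    ((measurable_fst.norm.pow_const 2).add ((measurable_enP τ).comp measurable_snd)).sub
      ((measurable_flv hΦ τ).norm.pow_const 2)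
  exact ((measurable_cpw q).comp measurable_fst).mul ((KT.measurable_wt hΦ τ).mul
    (((h1.const_mul (-β)).exp.const_mul _).ennreal_ofReal.indicator (measurableSet_win hΦ T τ)))

theorem tk_ne_top (q : ℕ) (T M β : ℝ) (τ : Shape) (z : E3 × PD τ) : tk q Φ T M β τ z ≠ ∞ := by
  refine ENNReal.mul_ne_top (cpw_ne_top q _) (ENNReal.mul_ne_top (KT.wt_ne_top τ _ _) ?_)
  by_cases h : win T Φ τ z.1 z.2
  · rw [indicator_of_mem (by exact h)]; exact ENNReal.ofReal_ne_top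
  · rw [indicator_of_notMem (by exact h)]; exact ENNReal.zero_ne_top

/-- The integral of the weights over the trees with the windows is finite. -/
theorem lintegral_win_ne_top (hΦ : IsPotential Φ) (q : ℕ) {T A β : ℝ} (hT : 0 ≤ T) (hA : 0 ≤ A)
    (hβ : 0 < β) (τ : Shape) :
    ∫⁻ z : E3 × PD τ, Cap.pw q z.1 * (KE.gs A β z.1 * (KT.wt Φ τ z.1 z.2 *
      {y : E3 × PD τ | win T Φ τ y.1 y.2}.indicator
        (fun y => ENNReal.ofReal (Real.exp (-β * enP τ y.2))) z))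
      ∂((volume : Measure E3).prod (pvol τ)) ≠ ∞ := by
  obtain ⟨C, hC, h1⟩ := lintegral_win_le hΦ (β := β) (t := T) hβ hT τ (β / 2) (by positivity)
  have hWm : Measurable fun z : E3 × PD τ => KT.wt Φ τ z.1 z.2 *
      {y : E3 × PD τ | win T Φ τ y.1 y.2}.indicator
        (fun y => ENNReal.ofReal (Real.exp (-β * enP τ y.2))) z :=
    (KT.measurable_wt hΦ τ).mul
      ((((measurable_enP τ).comp measurable_snd).const_mul (-β)).exp.ennreal_ofReal.indicator
        (measurableSet_win hΦ T τ))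
  have hm : Measurable fun z : E3 × PD τ => Cap.pw q z.1 * (KE.gs A β z.1 * (KT.wt Φ τ z.1 z.2 *
      {y : E3 × PD τ | win T Φ τ y.1 y.2}.indicator
        (fun y => ENNReal.ofReal (Real.exp (-β * enP τ y.2))) z)) :=
    ((measurable_cpw q).comp measurable_fst).mul
      (((KE.measurable_gs A β).comp measurable_fst).mul hWm)
  refine ne_top_of_le_ne_top (lintegral_pw_gs_ne_top q (A := A * C) (c := β / 2) (by positivity)
    (by positivity)) ?_
  rw [lintegral_prod _ hm.aemeasurable]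
  refine lintegral_mono fun v => ?_
  have hWv : Measurable fun p : PD τ => KT.wt Φ τ v p *
      {y : E3 × PD τ | win T Φ τ y.1 y.2}.indicator
        (fun y => ENNReal.ofReal (Real.exp (-β * enP τ y.2))) (v, p) :=
    hWm.comp measurable_prodMk_left
  simp only
  rw [lintegral_const_mul _ (hWv.const_mul _), lintegral_const_mul _ hWv]
  refine mul_le_mul' le_rfl ((mul_le_mul' le_rfl (h1 v)).trans (le_of_eq ?_))
  unfold KE.gs
  rw [← ENNReal.ofReal_mul (by positivity)]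
  congr 1
  have e : Real.exp (-(β / 2) * ‖v‖ ^ 2) = Real.exp (-β * ‖v‖ ^ 2) *
      Real.exp (β / 2 * ‖v‖ ^ 2) := by
    rw [← Real.exp_add]; congr 1; ring
  rw [e]; ring

/-- Cancellation of the first factor. -/
theorem gs_mul_fl {M β A : ℝ} (hM : 0 ≤ M) (u v : E3) (E : ℝ) (hA : 0 ≤ A) :
    KE.gs M β u * ENNReal.ofReal (A * Real.exp (-β * (‖v‖ ^ 2 + E - ‖u‖ ^ 2))) =
      KE.gs (M * A) β v * ENNReal.ofReal (Real.exp (-β * E)) := by
  unfold KE.gs
  rw [← ENNReal.ofReal_mul (by positivity), ← ENNReal.ofReal_mul (by positivity)]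
  congr 1
  have e : Real.exp (-β * (‖v‖ ^ 2 + E - ‖u‖ ^ 2)) * Real.exp (-β * ‖u‖ ^ 2) =
      Real.exp (-β * ‖v‖ ^ 2) * Real.exp (-β * E) := by
    rw [← Real.exp_add, ← Real.exp_add]; congr 1; ring
  calc M * Real.exp (-β * ‖u‖ ^ 2) * (A * Real.exp (-β * (‖v‖ ^ 2 + E - ‖u‖ ^ 2)))
      = M * A * (Real.exp (-β * (‖v‖ ^ 2 + E - ‖u‖ ^ 2)) * Real.exp (-β * ‖u‖ ^ 2)) := by ring
    _ = _ := by rw [e]; ring

theorem lintegral_tk_ne_top (hΦ : IsPotential Φ) {g : Ph → ℝ≥0∞} {M β : ℝ} (hg : GD g M β)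
    (q : ℕ) {T : ℝ} (hT : 0 ≤ T) (τ : Shape) :
    ∫⁻ z : E3 × PD τ, (∫⁻ x, g (x, flv Φ τ z.1 z.2)) * tk q Φ T M β τ z
      ∂((volume : Measure E3).prod (pvol τ)) ≠ ∞ := by
  refine ne_top_of_le_ne_top (lintegral_win_ne_top hΦ q (A := M * M ^ (τ.card - 1)) hT
    (mul_nonneg hg.M0 (pow_nonneg hg.M0 _)) hg.β0 τ) (lintegral_mono fun z => ?_)
  refine (mul_le_mul' (hg.mass _) le_rfl).trans ?_
  unfold tk
  by_cases h : win T Φ τ z.1 z.2
  · rw [indicator_of_mem (by exact h), indicator_of_mem (by exact h)]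
    have e := gs_mul_fl (β := β) hg.M0 (flv Φ τ z.1 z.2) z.1 (enP τ z.2)
      (pow_nonneg hg.M0 (τ.card - 1))
    calc _ = Cap.pw q z.1 * (KT.wt Φ τ z.1 z.2 * (KE.gs M β (flv Φ τ z.1 z.2) *
          ENNReal.ofReal (M ^ (τ.card - 1) *
            Real.exp (-β * (‖z.1‖ ^ 2 + enP τ z.2 - ‖flv Φ τ z.1 z.2‖ ^ 2))))) := by ring
      _ ≤ _ := by rw [e]; exact le_of_eq (by ring)
  · rw [indicator_of_notMem (by exact h), mul_zero, mul_zero, mul_zero]
    exact zero_le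

/-- The weight of the trees of shape `τ` with the last exit before `T`. -/
def tW (g : Ph → ℝ≥0∞) (Φ : E3 → ℝ) (ε T : ℝ) (τ : Shape) (x : Ph × PD τ) : ℝ≥0∞ :=
  KT.wt Φ τ x.1.2 x.2 * {x : Ph × PD τ | tok Φ ε τ x.1.2 x.2 ∧ ex ε τ x.1.2 x.2 ≤ T}.indicator
    (fun x => lprod g τ (bk Φ ε τ x.1 x.2)) x

theorem measurable_tW (hΦ : IsPotential Φ) {g : Ph → ℝ≥0∞} (hg : Measurable g) (ε T : ℝ)
    (τ : Shape) : Measurable (tW g Φ ε T τ) := by
  have h1 : Measurable fun x : Ph × PD τ => (x.1.2, x.2) := by fun_prop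
  exact ((KT.measurable_wt hΦ τ).comp h1).mul
    (((measurable_lprod hg τ).comp (measurable_bk hΦ ε τ)).indicator
      ((h1 (measurableSet_tok hΦ ε τ)).inter
        (measurableSet_le ((measurable_ex ε τ).comp h1) measurable_const)))

/-- The shift of the first leaf. -/
theorem measurable_fls (hΦ : IsPotential Φ) (ε : ℝ) (τ : Shape) :
    Measurable fun z : E3 × PD τ => fls Φ ε τ z.1 z.2 := by
  have h : (fun z : E3 × PD τ => fls Φ ε τ z.1 z.2) =
      fun z : E3 × PD τ => (fl τ (bk Φ ε τ (0, z.1) z.2)).1 := by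
    funext z
    rw [fl_bk]
    simp only
    rw [zero_add]
  rw [h]
  exact ((measurable_fl τ).comp ((measurable_bk hΦ ε τ).comp
    ((measurable_const.prodMk measurable_fst).prodMk measurable_snd))).fst

theorem tW_le (hΦ : IsPotential Φ) {g : Ph → ℝ≥0∞} {M β : ℝ} (hg : GD g M β) (hε : 0 ≤ ε)
    (hε1 : ε ≤ 1) (q : ℕ) (T : ℝ) (τ : Shape) (x : Ph × PD τ) :
    Cap.pw q x.1.2 * tW g Φ ε T τ x ≤
      g (x.1.1 + fls Φ ε τ x.1.2 x.2, flv Φ τ x.1.2 x.2) * tk q Φ T M β τ (x.1.2, x.2) := by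
  unfold tW tk
  by_cases hw : KT.wt Φ τ x.1.2 x.2 = 0
  · rw [hw, zero_mul, mul_zero]; exact zero_le
  have hgood := (wt_ne_zero_iff τ x.1.2 x.2).1 hw
  by_cases hx : tok Φ ε τ x.1.2 x.2 ∧ ex ε τ x.1.2 x.2 ≤ T
  · have hwin : win T Φ τ x.1.2 x.2 := win_of_tok hΦ hε hε1 τ _ _ hgood hx.1 hx.2
    rw [indicator_of_mem (by exact hx), indicator_of_mem (by exact hwin)]
    have h2 := lprod_le_fl hg.M0 hg.le τ (bk Φ ε τ x.1 x.2)
    rw [enL_bk hΦ, fl_bk] at h2
    simp only at h2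
    refine (mul_le_mul' le_rfl (mul_le_mul' le_rfl h2)).trans (le_of_eq ?_)
    ring
  · rw [indicator_of_notMem (by exact hx), mul_zero, mul_zero]; exact zero_le

theorem tendsto_tW_point {ι : Type*} {l : Filter ι} {εs : ι → ℝ} {g : Ph → ℝ≥0∞} {M β : ℝ}
    (hg : GD g M β) (hε : Tendsto εs l (𝓝 0)) (T : ℝ) (τ : Shape) {x : Ph × PD τ}
    (h1 : gent τ x.2) (h2 : stm τ x.2 ≠ T) :
    Tendsto (fun i => tW g Φ (εs i) T τ x) l (𝓝 (tW g Φ 0 T τ x)) := by
  have hset : ∀ᶠ i in l, ((tok Φ (εs i) τ x.1.2 x.2 ∧ ex (εs i) τ x.1.2 x.2 ≤ T) ↔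
      (tok Φ 0 τ x.1.2 x.2 ∧ ex 0 τ x.1.2 x.2 ≤ T)) := by
    filter_upwards [tok_eventually (Φ := Φ) hε τ x.1.2 x.2 h1,
      le_iff_eventually (tendsto_ex hε τ x.1.2 x.2) (tendsto_const_nhds (x := T)) h2] with i e1 e2
    rw [e1, e2, ex_zero]
  have hbk : Tendsto (fun i => lprod g τ (bk Φ (εs i) τ x.1 x.2)) l
      (𝓝 (lprod g τ (bk Φ 0 τ x.1 x.2))) :=
    tendsto_lprod_bk (Φ := Φ) hg.cont hg.ne_top hε τ x.1.2 x.2 (fun _ => x.1.1) x.1.1
      tendsto_const_nhds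
  unfold tW
  refine ENNReal.Tendsto.const_mul ?_ (Or.inr (KT.wt_ne_top τ _ _))
  by_cases hx : tok Φ 0 τ x.1.2 x.2 ∧ ex 0 τ x.1.2 x.2 ≤ T
  · rw [indicator_of_mem (by exact hx)]
    refine hbk.congr' ?_
    filter_upwards [hset] with i hi
    rw [indicator_of_mem (by exact hi.2 hx)]
  · rw [indicator_of_notMem (by exact hx)]
    refine tendsto_const_nhds.congr' ?_
    filter_upwards [hset] with i hi
    rw [indicator_of_notMem (by exact fun h => hx (hi.1 h))]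

theorem ae_stm_ne (τ : Shape) {T : ℝ} (hT : T ≠ 0 ∨ τ ≠ .leaf) :
    ∀ᵐ p ∂pvol τ, stm τ p ≠ T := by
  cases τ with
  | leaf =>
    refine Eventually.of_forall fun p => ?_
    change (0 : ℝ) ≠ T
    rcases hT with h | h
    · exact h.symm
    · exact absurd rfl h
  | node a b =>
    have h := ae_time_ne (ν := (pvol a).prod (pvol b)) (c := fun _ => T) measurable_const
    exact h

/-- **Convergence of the weights of the trees of shape `τ`.** -/
theorem tendsto_tW {ι : Type*} {l : Filter ι} [l.NeBot] [l.IsCountablyGenerated] {εs : ι → ℝ}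
    (hΦ : IsPotential Φ) {g : Ph → ℝ≥0∞} {M β : ℝ} (hg : GD g M β)
    (hε : Tendsto εs l (𝓝 0)) (hε0 : ∀ᶠ i in l, 0 ≤ εs i) (q : ℕ) {T : ℝ} (hT : 0 < T)
    (τ : Shape) :
    Tendsto (fun i => ∫⁻ x : Ph × PD τ,
        ((Cap.pw q x.1.2 * tW g Φ (εs i) T τ x - Cap.pw q x.1.2 * tW g Φ 0 T τ x) +
        (Cap.pw q x.1.2 * tW g Φ 0 T τ x - Cap.pw q x.1.2 * tW g Φ (εs i) T τ x))
          ∂((volume : Measure Ph).prod (pvol τ))) l (𝓝 0) ∧
    Tendsto (fun i => ∫⁻ x : Ph × PD τ, Cap.pw q x.1.2 * tW g Φ (εs i) T τ x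
      ∂((volume : Measure Ph).prod (pvol τ))) l (𝓝 (∫⁻ x : Ph × PD τ,
        Cap.pw q x.1.2 * tW g Φ 0 T τ x ∂((volume : Measure Ph).prod (pvol τ)))) ∧
    ∫⁻ x : Ph × PD τ, Cap.pw q x.1.2 * tW g Φ 0 T τ x
      ∂((volume : Measure Ph).prod (pvol τ)) ≠ ∞ := by
  have hp : Measurable fun x : Ph × PD τ => Cap.pw q x.1.2 := (measurable_cpw q).comp (by fun_prop)
  refine l1_abs (g := g) (s := fun i z => fls Φ (εs i) τ z.1 z.2)
    (s₀ := fun z => fls Φ 0 τ z.1 z.2) (u := fun z => flv Φ τ z.1 z.2) (k := tk q Φ T M β τ)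
    (W := fun i x => Cap.pw q x.1.2 * tW g Φ (εs i) T τ x)
    (W₀ := fun x => Cap.pw q x.1.2 * tW g Φ 0 T τ x)
    hg.meas hg.cont (fun i => hp.mul (measurable_tW hΦ hg.meas _ T τ))
    (hp.mul (measurable_tW hΦ hg.meas _ T τ)) (fun i => measurable_fls hΦ _ τ)
    (measurable_fls hΦ _ τ) (measurable_flv hΦ τ) (measurable_tk hΦ q T M β τ)
    (tk_ne_top q T M β τ) (fun z => tendsto_fls hε τ z.1 z.2) ?_
    (lintegral_tk_ne_top hΦ hg q hT.le τ) ?_
  · filter_upwards [hε0, hε.eventually (ge_mem_nhds zero_lt_one)] with i e0 e1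
    exact Eventually.of_forall fun x => tW_le hΦ hg e0 e1 q T τ x
  · have g1 : ∀ᵐ x ∂((volume : Measure Ph).prod (pvol τ)), gent τ x.2 :=
      Measure.quasiMeasurePreserving_snd.ae (ae_gent τ)
    have g2 : ∀ᵐ x ∂((volume : Measure Ph).prod (pvol τ)), stm τ x.2 ≠ T :=
      Measure.quasiMeasurePreserving_snd.ae (ae_stm_ne τ (Or.inl hT.ne'))
    filter_upwards [g1, g2] with x h1 h2
    exact ENNReal.Tendsto.const_mul (tendsto_tW_point hg hε T τ h1 h2) (Or.inr (cpw_ne_top q _))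

/-! ### Nodes with exact exit time -/

section node

variable {a b : Shape}

/-- The incoming velocities as a function of `(v, y)`. -/
theorem measurable_nV (hΦ : IsPotential Φ) : Measurable fun x : E3 × (E3 × E2) => nV Φ x.1 x.2 := by
  have h1 : Measurable fun x : E3 × (E3 × E2) => ((x.1, ((0 : ℝ), x.2)) : E3 × ND) :=
    measurable_fst.prodMk (measurable_const.prodMk measurable_snd)
  exact (measurable_inVel hΦ).comp h1

theorem measurable_nvw (hΦ : IsPotential Φ) (a b : Shape) :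
    Measurable fun x : E3 × XP a b => nvw Φ a b x.1 x.2 := by
  have h1 : Measurable fun x : E3 × XP a b => ((x.1, ((0 : ℝ), x.2.1)) : E3 × ND) :=
    measurable_fst.prodMk (measurable_const.prodMk (measurable_fst.comp measurable_snd))
  have h2 : Measurable fun x : E3 × XP a b => nV Φ x.1 x.2.1 :=
    (measurable_nV hΦ).comp (measurable_fst.prodMk (measurable_fst.comp measurable_snd))
  exact ((measurable_nw hΦ).comp h1).mul
    (((KT.measurable_wt hΦ a).comp (h2.fst.prodMk (by fun_prop : Measurable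
      fun x : E3 × XP a b => x.2.2.1))).mul
    ((KT.measurable_wt hΦ b).comp (h2.snd.prodMk (by fun_prop : Measurable
      fun x : E3 × XP a b => x.2.2.2))))

theorem nvw_ne_top (v : E3) (ξ : XP a b) : nvw Φ a b v ξ ≠ ∞ :=
  ENNReal.mul_ne_top (nw_ne_top v _)
    (ENNReal.mul_ne_top (KT.wt_ne_top a _ _) (KT.wt_ne_top b _ _))

/-- The windows of the two subtrees. -/
def nwin (T : ℝ) (Φ : E3 → ℝ) (a b : Shape) (v : E3) (ξ : XP a b) : Prop :=
  win T Φ a (nV Φ v ξ.1).1 ξ.2.1 ∧ win T Φ b (nV Φ v ξ.1).2 ξ.2.2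

theorem measurableSet_nwin (hΦ : IsPotential Φ) (T : ℝ) (a b : Shape) :
    MeasurableSet {x : E3 × XP a b | nwin T Φ a b x.1 x.2} := by
  have h2 : Measurable fun x : E3 × XP a b => nV Φ x.1 x.2.1 :=
    (measurable_nV hΦ).comp (measurable_fst.prodMk (measurable_fst.comp measurable_snd))
  have h3 : Measurable fun x : E3 × XP a b => ((nV Φ x.1 x.2.1).1, x.2.2.1) :=
    h2.fst.prodMk (by fun_prop)
  have h4 : Measurable fun x : E3 × XP a b => ((nV Φ x.1 x.2.1).2, x.2.2.2) :=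
    h2.snd.prodMk (by fun_prop)
  exact (h3 (measurableSet_win hΦ T a)).inter (h4 (measurableSet_win hΦ T b))

/-- The energy of the exhausts. -/
def nen (a b : Shape) (ξ : XP a b) : ℝ := ‖ξ.1.1‖ ^ 2 + (enP a ξ.2.1 + enP b ξ.2.2)

theorem measurable_nen (a b : Shape) : Measurable (nen a b) := by
  have h1 : Measurable fun ξ : XP a b => ‖ξ.1.1‖ ^ 2 := by fun_prop
  exact h1.add (((measurable_enP a).comp (by fun_prop : Measurable fun ξ : XP a b => ξ.2.1)).add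
    ((measurable_enP b).comp (by fun_prop : Measurable fun ξ : XP a b => ξ.2.2)))

/-- The velocity of the first leaf. -/
def nflv (Φ : E3 → ℝ) (a b : Shape) (v : E3) (ξ : XP a b) : E3 := flv Φ a (nV Φ v ξ.1).1 ξ.2.1

theorem measurable_nflv (hΦ : IsPotential Φ) (a b : Shape) :
    Measurable fun x : E3 × XP a b => nflv Φ a b x.1 x.2 := by
  have h2 : Measurable fun x : E3 × XP a b => nV Φ x.1 x.2.1 :=
    (measurable_nV hΦ).comp (measurable_fst.prodMk (measurable_fst.comp measurable_snd))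
  exact (measurable_flv hΦ a).comp (h2.fst.prodMk (by fun_prop))

/-- The displacement of the first leaf. -/
def nfls (Φ : E3 → ℝ) (ε : ℝ) (a b : Shape) (t : ℝ) (v : E3) (ξ : XP a b) : E3 :=
  (nL Φ ε t (0, v) ξ.1).1.1 + fls Φ ε a (nV Φ v ξ.1).1 ξ.2.1

theorem measurable_nL (hΦ : IsPotential Φ) (ε : ℝ) :
    Measurable fun x : (Ph × ℝ) × (E3 × E2) => nL Φ ε x.1.2 x.1.1 x.2 := by
  have h1 : Measurable fun x : (Ph × ℝ) × (E3 × E2) => ((x.1.1.2, x.1.2), x.2) := by fun_prop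
  have h2 := (measurable_shn (ε := ε)).comp h1
  have h3 : Measurable fun x : (Ph × ℝ) × (E3 × E2) => x.1.1 := by fun_prop
  exact (measurable_inLines hΦ ε).comp (h3.prodMk h2)

theorem measurable_nfls (hΦ : IsPotential Φ) (ε : ℝ) (a b : Shape) :
    Measurable fun x : E3 × (ℝ × XP a b) => nfls Φ ε a b x.2.1 x.1 x.2.2 := by
  have h1 : Measurable fun x : E3 × (ℝ × XP a b) => ((((0 : E3), x.1), x.2.1), x.2.2.1) :=
    ((measurable_const.prodMk measurable_fst).prodMk (by fun_prop)).prodMk (by fun_prop)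
  have h2 := (measurable_nL hΦ ε).comp h1
  have h3 : Measurable fun x : E3 × (ℝ × XP a b) => nV Φ x.1 x.2.2.1 :=
    (measurable_nV hΦ).comp (measurable_fst.prodMk (by fun_prop))
  exact (h2.fst.fst).add ((measurable_fls hΦ ε a).comp (h3.fst.prodMk (by fun_prop)))

/-- Equivariance of the incoming lines. -/
theorem nL_add (ε t : ℝ) (l : Ph) (y : E3 × E2) : nL Φ ε t l y =
    ((l.1 + (nL Φ ε t (0, l.2) y).1.1, (nV Φ l.2 y).1),
      (l.1 + (nL Φ ε t (0, l.2) y).2.1, (nV Φ l.2 y).2)) := by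
  have h := inLines_add (Φ := Φ) ε (0, l.2) l.1 (shn ε l.2 t y)
  simp only [zero_add] at h
  unfold nL
  have hv := nL_snd (Φ := Φ) (ε := ε) t (0, l.2) y
  unfold nL at hv
  simp only at hv ⊢
  rw [← hv.1, ← hv.2, add_comm l.1, add_comm l.1]
  exact h

theorem tendsto_nL {ι : Type*} {l : Filter ι} {εs : ι → ℝ} (hε : Tendsto εs l (𝓝 0)) (t : ℝ)
    (L : Ph) (y : E3 × E2) : Tendsto (fun i => nL Φ (εs i) t L y) l (𝓝 (nL Φ 0 t L y)) := by
  have hs : Tendsto (fun i => (shn (εs i) L.2 t y).1) l (𝓝 (shn 0 L.2 t y).1) := by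
    unfold shn
    simp only
    exact (tendsto_const_nhds (x := t)).sub (hε.mul_const _)
  have h2 : Tendsto (fun i => εs i / 2) l (𝓝 (0 / 2)) := hε.div_const 2
  have e1 : ∀ ε' : ℝ, outRel L.2 (shn ε' L.2 t y) = outRel L.2 (0, y) := fun ε' =>
    outRel_congr L.2 _ _ y
  have e2 : ∀ ε' : ℝ, inRel Φ L.2 (shn ε' L.2 t y) = inRel Φ L.2 (0, y) := fun ε' =>
    inRel_time L.2 _ _ y
  have e3 : ∀ ε' : ℝ, inVel Φ L.2 (shn ε' L.2 t y) = inVel Φ L.2 (0, y) := fun ε' =>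
    inVel_time L.2 _ _ y
  unfold nL
  simp only [inLines_def, e1, e2, e3]
  have h3 := hs.div_const 2
  exact ((((tendsto_const_nhds (x := L.1)).add (h3.smul_const _)).add
    (h2.smul_const _)).prodMk_nhds tendsto_const_nhds).prodMk_nhds
    ((((tendsto_const_nhds (x := L.1)).add (h3.smul_const _)).sub
    (h2.smul_const _)).prodMk_nhds tendsto_const_nhds)

/-- The dominating factor of the nodes. -/
def nk (q : ℕ) (Φ : E3 → ℝ) (T M β : ℝ) (a b : Shape) (z : E3 × (ℝ × XP a b)) : ℝ≥0∞ :=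
  Cap.pw q z.1 * (nvw Φ a b z.1 z.2.2 * {y : E3 × XP a b | nwin T Φ a b y.1 y.2}.indicator
    (fun y => ENNReal.ofReal (M ^ ((a.card - 1) + b.card) *
      Real.exp (-β * (‖y.1‖ ^ 2 + nen a b y.2 - ‖nflv Φ a b y.1 y.2‖ ^ 2)))) (z.1, z.2.2))

theorem measurable_nk (hΦ : IsPotential Φ) (q : ℕ) (T M β : ℝ) (a b : Shape) :
    Measurable (nk q Φ T M β a b) := by
  have h0 : Measurable fun z : E3 × (ℝ × XP a b) => (z.1, z.2.2) := by fun_prop
  have h1 : Measurable fun y : E3 × XP a b => ‖y.1‖ ^ 2 + nen a b y.2 -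
      ‖nflv Φ a b y.1 y.2‖ ^ 2 :=
    ((measurable_fst.norm.pow_const 2).add ((measurable_nen a b).comp measurable_snd)).sub
      ((measurable_nflv hΦ a b).norm.pow_const 2)
  exact ((measurable_cpw q).comp measurable_fst).mul (((measurable_nvw hΦ a b).comp h0).mul
    ((((h1.const_mul (-β)).exp.const_mul _).ennreal_ofReal.indicator
      (measurableSet_nwin hΦ T a b)).comp h0))

theorem nk_ne_top (q : ℕ) (T M β : ℝ) (a b : Shape) (z : E3 × (ℝ × XP a b)) :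
    nk q Φ T M β a b z ≠ ∞ := by
  refine ENNReal.mul_ne_top (cpw_ne_top q _) (ENNReal.mul_ne_top (nvw_ne_top _ _) ?_)
  by_cases h : nwin T Φ a b z.1 z.2.2
  · rw [indicator_of_mem (by exact h)]; exact ENNReal.ofReal_ne_top
  · rw [indicator_of_notMem (by exact h)]; exact ENNReal.zero_ne_top

/-- The times of the parameters of a node. -/
theorem lintegral_icc_le (hΦ : IsPotential Φ) {T : ℝ} (β : ℝ) (a b : Shape) (v : E3) :
    ∫⁻ z : ℝ × XP a b, nvw Φ a b v z.2 * {y : E3 × XP a b | nwin T Φ a b y.1 y.2}.indicator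
        (fun y => ENNReal.ofReal (Real.exp (-β * nen a b y.2))) (v, z.2)
        ∂((volume.restrict (Icc 0 T)).prod (xvol a b)) ≤
      ∫⁻ p, KT.wt Φ (.node a b) v p * {y : E3 × PD (.node a b) |
        win T Φ (.node a b) y.1 y.2}.indicator
        (fun y => ENNReal.ofReal (Real.exp (-β * enP (.node a b) y.2))) (v, p)
        ∂(pvol (.node a b)) := by
  set F : PD (.node a b) → ℝ≥0∞ := fun p => KT.wt Φ (.node a b) v p *
    {y : E3 × PD (.node a b) | win T Φ (.node a b) y.1 y.2}.indicator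
        (fun y => ENNReal.ofReal (Real.exp (-β * enP (.node a b) y.2))) (v, p) with hF
  have hFm : Measurable F :=
    ((KT.measurable_wt hΦ (.node a b)).comp measurable_prodMk_left).mul
      (((((measurable_enP (.node a b)).comp measurable_snd).const_mul
        (-β)).exp.ennreal_ofReal.indicator (measurableSet_win hΦ T (.node a b))).comp
        measurable_prodMk_left)
  have h4 : ∫⁻ p, F p ∂(pvol (.node a b)) =
      ∫⁻ t : ℝ, ∫⁻ ξ, F (shn 0 v t ξ.1, ξ.2) ∂(xvol a b) :=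
    lintegral_pvol_node 0 v a b (H := F) hFm
  have hm0 : Measurable fun z : ℝ × XP a b => nvw Φ a b v z.2 *
      {y : E3 × XP a b | nwin T Φ a b y.1 y.2}.indicator
        (fun y => ENNReal.ofReal (Real.exp (-β * nen a b y.2))) (v, z.2) := by
    have h0 : Measurable fun z : ℝ × XP a b => (v, z.2) := by fun_prop
    have h5 : Measurable fun y : E3 × XP a b => nen a b y.2 :=
      (measurable_nen a b).comp measurable_snd
    exact ((measurable_nvw hΦ a b).comp h0).mul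
      ((((h5.const_mul (-β)).exp).ennreal_ofReal.indicator (measurableSet_nwin hΦ T a b)).comp h0)
  rw [h4, lintegral_prod _ hm0.aemeasurable, ← lintegral_indicator measurableSet_Icc]
  refine lintegral_mono fun t => ?_
  by_cases ht : t ∈ Icc 0 T
  · rw [indicator_of_mem ht]
    refine lintegral_mono fun ξ => ?_
    rw [hF]
    simp only
    rw [wt_shn]
    refine mul_le_mul' le_rfl ?_
    by_cases h : nwin T Φ a b v ξ
    · have e : (shn 0 v t ξ.1).1 = t := by unfold shn; simp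
      have hw : win T Φ (.node a b) v (shn 0 v t ξ.1, ξ.2) := by
        change (-‖v - ξ.1.1‖⁻¹ ≤ (shn 0 v t ξ.1).1 ∧ (shn 0 v t ξ.1).1 ≤ T + ‖v - ξ.1.1‖⁻¹) ∧
          win T Φ a (inVel Φ v (shn 0 v t ξ.1)).1 ξ.2.1 ∧
          win T Φ b (inVel Φ v (shn 0 v t ξ.1)).2 ξ.2.2
        rw [e, nV_shn]
        have h0 : 0 ≤ ‖v - ξ.1.1‖⁻¹ := by positivity
        exact ⟨⟨by linarith [ht.1], by linarith [ht.2]⟩, h⟩
      rw [indicator_of_mem (by exact h), indicator_of_mem (by exact hw)]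
      exact le_rfl
    · rw [indicator_of_notMem (by exact h)]; exact zero_le
  · rw [indicator_of_notMem ht]; exact zero_le

theorem lintegral_nk_ne_top (hΦ : IsPotential Φ) {g : Ph → ℝ≥0∞} {M β : ℝ} (hg : GD g M β)
    (q : ℕ) {T : ℝ} (hT : 0 ≤ T) (a b : Shape) :
    ∫⁻ z : E3 × (ℝ × XP a b), (∫⁻ x, g (x, nflv Φ a b z.1 z.2.2)) * nk q Φ T M β a b z
      ∂((volume : Measure E3).prod ((volume.restrict (Icc 0 T)).prod (xvol a b))) ≠ ∞ := by
  set A : ℝ := M * M ^ ((a.card - 1) + b.card) with hA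
  have hA0 : 0 ≤ A := mul_nonneg hg.M0 (pow_nonneg hg.M0 _)
  set W : E3 × (ℝ × XP a b) → ℝ≥0∞ := fun z => nvw Φ a b z.1 z.2.2 *
    {y : E3 × XP a b | nwin T Φ a b y.1 y.2}.indicator
        (fun y => ENNReal.ofReal (Real.exp (-β * nen a b y.2))) (z.1, z.2.2) with hW
  have hWm : Measurable W := by
    have h0 : Measurable fun z : E3 × (ℝ × XP a b) => (z.1, z.2.2) := by fun_prop
    have h5 : Measurable fun y : E3 × XP a b => nen a b y.2 :=
      (measurable_nen a b).comp measurable_snd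
    exact ((measurable_nvw hΦ a b).comp h0).mul
      ((((h5.const_mul (-β)).exp).ennreal_ofReal.indicator (measurableSet_nwin hΦ T a b)).comp h0)
  have h1 : ∀ z : E3 × (ℝ × XP a b), (∫⁻ x, g (x, nflv Φ a b z.1 z.2.2)) * nk q Φ T M β a b z ≤
      Cap.pw q z.1 * (KE.gs A β z.1 * W z) := by
    intro z
    refine (mul_le_mul' (hg.mass _) le_rfl).trans ?_
    unfold nk
    rw [hW]
    simp only
    by_cases h : nwin T Φ a b z.1 z.2.2
    · rw [indicator_of_mem (by exact h), indicator_of_mem (by exact h)]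
      simp only
      have e := gs_mul_fl (β := β) hg.M0 (nflv Φ a b z.1 z.2.2) z.1 (nen a b z.2.2)
        (pow_nonneg hg.M0 ((a.card - 1) + b.card))
      calc _ = Cap.pw q z.1 * (nvw Φ a b z.1 z.2.2 * (KE.gs M β (nflv Φ a b z.1 z.2.2) *
            ENNReal.ofReal (M ^ ((a.card - 1) + b.card) *
              Real.exp (-β * (‖z.1‖ ^ 2 + nen a b z.2.2 -
                ‖nflv Φ a b z.1 z.2.2‖ ^ 2))))) := by ring
        _ ≤ _ := by rw [e]; exact le_of_eq (by ring)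
    · rw [indicator_of_notMem (by exact h), mul_zero, mul_zero, mul_zero]
      exact zero_le
  obtain ⟨C, hC, h2⟩ := lintegral_win_le hΦ (β := β) (t := T) hg.β0 hT (.node a b) (β / 2)
    (by have := hg.β0; positivity)
  have hβ := hg.β0
  refine ne_top_of_le_ne_top (lintegral_pw_gs_ne_top q (A := A * C) (c := β / 2)
    (mul_nonneg hA0 hC) (by positivity)) ((lintegral_mono h1).trans ?_)
  have hm : Measurable fun z : E3 × (ℝ × XP a b) => Cap.pw q z.1 * (KE.gs A β z.1 * W z) :=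
    ((measurable_cpw q).comp measurable_fst).mul
      (((KE.measurable_gs A β).comp measurable_fst).mul hWm)
  rw [lintegral_prod _ hm.aemeasurable]
  refine lintegral_mono fun v => ?_
  have hWv : Measurable fun p : ℝ × XP a b => W (v, p) := hWm.comp measurable_prodMk_left
  simp only
  rw [lintegral_const_mul _ (hWv.const_mul _), lintegral_const_mul _ hWv]
  refine mul_le_mul' le_rfl ((mul_le_mul' le_rfl
    ((lintegral_icc_le hΦ (T := T) β a b v).trans (h2 v))).trans (le_of_eq ?_))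
  unfold KE.gs
  rw [← ENNReal.ofReal_mul (by positivity)]
  congr 1
  have e : Real.exp (-(β / 2) * ‖v‖ ^ 2) = Real.exp (-β * ‖v‖ ^ 2) *
      Real.exp (β / 2 * ‖v‖ ^ 2) := by
    rw [← Real.exp_add]; congr 1; ring
  rw [e]; ring

theorem measurable_dur (hΦ : IsPotential Φ) : Measurable fun x : E3 × (E3 × E2) =>
    dur Φ x.1 x.2 := by
  have h6 : Measurable fun x : E3 × (E3 × E2) => ((x.1, ((0 : ℝ), x.2)) : E3 × ND) :=
    measurable_fst.prodMk (measurable_const.prodMk measurable_snd)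
  have h7 := (measurable_tin_inRel hΦ).comp h6
  simp only [Function.comp_def] at h7
  exact measurable_half_zero.sub h7

theorem measurableSet_ntk (hΦ : IsPotential Φ) (ε : ℝ) (a b : Shape) :
    MeasurableSet {x : E3 × (ℝ × XP a b) | ntk Φ ε a b x.2.1 x.1 x.2.2} := by
  have h2 : Measurable fun x : E3 × (ℝ × XP a b) => nV Φ x.1 x.2.2.1 :=
    (measurable_nV hΦ).comp (measurable_fst.prodMk (by fun_prop))
  have h3 : Measurable fun x : E3 × (ℝ × XP a b) => ((nV Φ x.1 x.2.2.1).1, x.2.2.2.1) :=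
    h2.fst.prodMk (by fun_prop)
  have h4 : Measurable fun x : E3 × (ℝ × XP a b) => ((nV Φ x.1 x.2.2.1).2, x.2.2.2.2) :=
    h2.snd.prodMk (by fun_prop)
  have h5 : Measurable fun x : E3 × (ℝ × XP a b) => dur Φ x.1 x.2.2.1 := by
    have h6 := (measurable_dur hΦ).comp (by fun_prop : Measurable
      fun x : E3 × (ℝ × XP a b) => (x.1, x.2.2.1))
    simp only [Function.comp_def] at h6
    exact h6
  have h7 : Measurable fun x : E3 × (ℝ × XP a b) => x.2.1 - ε * dur Φ x.1 x.2.2.1 :=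
    (by fun_prop : Measurable fun x : E3 × (ℝ × XP a b) => x.2.1).sub (h5.const_mul ε)
  have A1 : MeasurableSet {x : E3 × (ℝ × XP a b) | tok Φ ε a (nV Φ x.1 x.2.2.1).1 x.2.2.2.1} :=
    h3 (measurableSet_tok hΦ ε a)
  have A2 : MeasurableSet {x : E3 × (ℝ × XP a b) | tok Φ ε b (nV Φ x.1 x.2.2.1).2 x.2.2.2.2} :=
    h4 (measurableSet_tok hΦ ε b)
  have A3 : MeasurableSet {x : E3 × (ℝ × XP a b) |
      ex ε a (nV Φ x.1 x.2.2.1).1 x.2.2.2.1 < x.2.1 - ε * dur Φ x.1 x.2.2.1} :=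
    measurableSet_lt ((measurable_ex ε a).comp h3) h7
  have A4 : MeasurableSet {x : E3 × (ℝ × XP a b) |
      ex ε b (nV Φ x.1 x.2.2.1).2 x.2.2.2.2 < x.2.1 - ε * dur Φ x.1 x.2.2.1} :=
    measurableSet_lt ((measurable_ex ε b).comp h4) h7
  exact (A1.inter A2).inter (A3.inter A4)

theorem measurable_nlp (hΦ : IsPotential Φ) {g : Ph → ℝ≥0∞} (hg : Measurable g) (ε : ℝ)
    (a b : Shape) :
    Measurable fun x : Ph × (ℝ × XP a b) => nlp g Φ ε a b x.2.1 x.1 x.2.2 := by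
  have h1 : Measurable fun x : Ph × (ℝ × XP a b) => ((x.1, x.2.1), x.2.2.1) := by fun_prop
  have h2 := (measurable_nL hΦ ε).comp h1
  exact ((measurable_lprod hg a).comp ((measurable_bk hΦ ε a).comp (h2.fst.prodMk
    (by fun_prop : Measurable fun x : Ph × (ℝ × XP a b) => x.2.2.2.1)))).mul
    ((measurable_lprod hg b).comp ((measurable_bk hΦ ε b).comp (h2.snd.prodMk
    (by fun_prop : Measurable fun x : Ph × (ℝ × XP a b) => x.2.2.2.2))))

theorem measurable_nW (hΦ : IsPotential Φ) {g : Ph → ℝ≥0∞} (hg : Measurable g) (ε : ℝ)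
    (a b : Shape) :
    Measurable fun x : Ph × (ℝ × XP a b) => nW g Φ ε a b x.2.1 x.1 x.2.2 := by
  have h1 : Measurable fun x : Ph × (ℝ × XP a b) => (x.1.2, x.2.2) := by fun_prop
  have h2 : Measurable fun x : Ph × (ℝ × XP a b) => (x.1.2, x.2) := by fun_prop
  have h3 : Measurable fun x : Ph × (ℝ × XP a b) => ind (ntk Φ ε a b x.2.1 x.1.2 x.2.2) :=
    measurable_ind (h2 (measurableSet_ntk hΦ ε a b))
  exact ((measurable_nvw hΦ a b).comp h1).mul (h3.mul (measurable_nlp hΦ hg ε a b))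

theorem nW_le (hΦ : IsPotential Φ) {g : Ph → ℝ≥0∞} {M β : ℝ} (hg : GD g M β) (hε : 0 ≤ ε)
    (hε1 : ε ≤ 1) (q : ℕ) {T : ℝ} (x : Ph × (ℝ × XP a b)) (hx : x.2.1 ≤ T) :
    Cap.pw q x.1.2 * nW g Φ ε a b x.2.1 x.1 x.2.2 ≤
      g (x.1.1 + nfls Φ ε a b x.2.1 x.1.2 x.2.2, nflv Φ a b x.1.2 x.2.2) *
        nk q Φ T M β a b (x.1.2, x.2) := by
  unfold nW nk
  simp only
  by_cases hw : nvw Φ a b x.1.2 x.2.2 = 0
  · rw [hw, zero_mul, mul_zero]; exact zero_le
  have hgood := nvw_ne_zero (l := x.1) hw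
  by_cases hk : ntk Φ ε a b x.2.1 x.1.2 x.2.2
  · have hd := dur_pos (l := x.1) hΦ hw
    have hd' : x.2.1 - ε * dur Φ x.1.2 x.2.2.1 ≤ T := by nlinarith [mul_nonneg hε hd.le]
    have hwin : nwin T Φ a b x.1.2 x.2.2 :=
      ⟨win_of_tok hΦ hε hε1 a _ _ hgood.2.1 hk.1.1 (hk.2.1.le.trans hd'),
        win_of_tok hΦ hε hε1 b _ _ hgood.2.2 hk.1.2 (hk.2.2.le.trans hd')⟩
    rw [ind_of_true hk, one_mul, indicator_of_mem (by exact hwin)]
    have h2 := mul_le_mul' (lprod_le_fl hg.M0 hg.le a (bk Φ ε a (nL Φ ε x.2.1 x.1 x.2.2.1).1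
      x.2.2.2.1)) (lprod_le hg.M0 hg.le b (bk Φ ε b (nL Φ ε x.2.1 x.1 x.2.2.1).2 x.2.2.2.2))
    rw [enL_bk hΦ, enL_bk hΦ, fl_bk, (nL_snd _ _ _).1, (nL_snd _ _ _).2] at h2
    simp only at h2
    have hn : nlp g Φ ε a b x.2.1 x.1 x.2.2 ≤ _ := h2
    refine (mul_le_mul' le_rfl (mul_le_mul' le_rfl hn)).trans (le_of_eq ?_)
    have e1 : (nL Φ ε x.2.1 x.1 x.2.2.1).1.1 + fls Φ ε a (nV Φ x.1.2 x.2.2.1).1 x.2.2.2.1 =
        x.1.1 + nfls Φ ε a b x.2.1 x.1.2 x.2.2 := by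
      rw [nL_add]
      unfold nfls
      simp only
      rw [add_assoc]
    have e2 : ENNReal.ofReal (M ^ (a.card - 1) * Real.exp (-β * (‖(nV Φ x.1.2 x.2.2.1).1‖ ^ 2 +
          enP a x.2.2.2.1 - ‖flv Φ a (nV Φ x.1.2 x.2.2.1).1 x.2.2.2.1‖ ^ 2))) *
        ENNReal.ofReal (M ^ b.card * Real.exp (-β * (‖(nV Φ x.1.2 x.2.2.1).2‖ ^ 2 +
          enP b x.2.2.2.2))) =
        ENNReal.ofReal (M ^ ((a.card - 1) + b.card) * Real.exp (-β * (‖x.1.2‖ ^ 2 +
          nen a b x.2.2 - ‖nflv Φ a b x.1.2 x.2.2‖ ^ 2))) := by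
      have hM := hg.M0
      rw [← ENNReal.ofReal_mul (by positivity)]
      congr 1
      have e3 : Real.exp (-β * (‖x.1.2‖ ^ 2 + nen a b x.2.2 - ‖nflv Φ a b x.1.2 x.2.2‖ ^ 2)) =
          Real.exp (-β * (‖(nV Φ x.1.2 x.2.2.1).1‖ ^ 2 +
          enP a x.2.2.2.1 - ‖flv Φ a (nV Φ x.1.2 x.2.2.1).1 x.2.2.2.1‖ ^ 2)) *
          Real.exp (-β * (‖(nV Φ x.1.2 x.2.2.1).2‖ ^ 2 + enP b x.2.2.2.2)) := by
        rw [← Real.exp_add]
        congr 1
        have e4 := inVel_energy hΦ x.1.2 ((0, x.2.2.1) : ND)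
        unfold nen nflv nV
        simp only at e4
        linear_combination (-β) * (-1) * e4
      rw [e3, pow_add]
      ring
    rw [e1]
    rw [← e2]
    unfold nflv
    ring
  · rw [ind_of_false hk, zero_mul, mul_zero, mul_zero]; exact zero_le

theorem ae_time_ne' {ν : Measure (XP a b)} [SFinite ν] (T : ℝ) {c : XP a b → ℝ}
    (hc : Measurable c) :
    ∀ᵐ z : ℝ × XP a b ∂((volume.restrict (Icc 0 T)).prod ν), c z.2 ≠ z.1 := by
  have hm : MeasurableSet {z : ℝ × XP a b | c z.2 = z.1} :=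
    measurableSet_eq_fun (hc.comp measurable_snd) measurable_fst
  have h1 : ((volume.restrict (Icc 0 T)).prod ν) {z : ℝ × XP a b | c z.2 = z.1} = 0 := by
    rw [Measure.prod_apply_symm hm]
    have h2 : ∀ y : XP a b, (volume.restrict (Icc 0 T))
        ((fun x : ℝ => (x, y)) ⁻¹' {z : ℝ × XP a b | c z.2 = z.1}) = 0 := by
      intro y
      have h3 : (fun x : ℝ => (x, y)) ⁻¹' {z : ℝ × XP a b | c z.2 = z.1} = {c y} := by
        ext x
        simp [eq_comm]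
      rw [h3]
      exact measure_singleton _
    simp only [h2, lintegral_zero]
  exact measure_eq_zero_iff_ae_notMem.1 h1

theorem tendsto_nW_point {ι : Type*} {l : Filter ι} {εs : ι → ℝ} {g : Ph → ℝ≥0∞} {M β : ℝ}
    (hg : GD g M β) (hε : Tendsto εs l (𝓝 0)) {t : ℝ} {L : Ph} {ξ : XP a b}
    (h1 : gent a ξ.2.1) (h2 : gent b ξ.2.2) (h3 : stm a ξ.2.1 ≠ t) (h4 : stm b ξ.2.2 ≠ t) :
    Tendsto (fun i => nW g Φ (εs i) a b t L ξ) l (𝓝 (nW g Φ 0 a b t L ξ)) := by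
  have ht : Tendsto (fun i => t - εs i * dur Φ L.2 ξ.1) l (𝓝 t) := by
    have h := (tendsto_const_nhds (x := t)).sub (hε.mul_const (dur Φ L.2 ξ.1))
    rw [zero_mul, sub_zero] at h
    exact h
  have hset : ∀ᶠ i in l, (ntk Φ (εs i) a b t L.2 ξ ↔ ntk Φ 0 a b t L.2 ξ) := by
    filter_upwards [tok_eventually (Φ := Φ) hε a (nV Φ L.2 ξ.1).1 ξ.2.1 h1,
      tok_eventually (Φ := Φ) hε b (nV Φ L.2 ξ.1).2 ξ.2.2 h2,
      lt_iff_eventually (tendsto_ex hε a (nV Φ L.2 ξ.1).1 ξ.2.1) ht h3,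
      lt_iff_eventually (tendsto_ex hε b (nV Φ L.2 ξ.1).2 ξ.2.2) ht h4] with i e1 e2 e3 e4
    unfold ntk
    rw [e1, e2, e3, e4, ex_zero, ex_zero, zero_mul, sub_zero]
  have hL := tendsto_nL (Φ := Φ) hε t L ξ.1
  have e1 : ∀ ε' : ℝ, (nL Φ ε' t L ξ.1).1 = ((nL Φ ε' t L ξ.1).1.1, (nV Φ L.2 ξ.1).1) := by
    intro ε'
    ext1
    · rfl
    · exact (nL_snd _ _ _).1
  have e2 : ∀ ε' : ℝ, (nL Φ ε' t L ξ.1).2 = ((nL Φ ε' t L ξ.1).2.1, (nV Φ L.2 ξ.1).2) := by
    intro ε'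
    ext1
    · rfl
    · exact (nL_snd _ _ _).2
  have ha : Tendsto (fun i => lprod g a (bk Φ (εs i) a (nL Φ (εs i) t L ξ.1).1 ξ.2.1)) l
      (𝓝 (lprod g a (bk Φ 0 a (nL Φ 0 t L ξ.1).1 ξ.2.1))) := by
    have h := tendsto_lprod_bk (Φ := Φ) hg.cont hg.ne_top hε a (nV Φ L.2 ξ.1).1 ξ.2.1
      (fun i => (nL Φ (εs i) t L ξ.1).1.1) (nL Φ 0 t L ξ.1).1.1 hL.fst_nhds.fst_nhds
    simp only [← e1] at h
    exact h
  have hb : Tendsto (fun i => lprod g b (bk Φ (εs i) b (nL Φ (εs i) t L ξ.1).2 ξ.2.2)) l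
      (𝓝 (lprod g b (bk Φ 0 b (nL Φ 0 t L ξ.1).2 ξ.2.2))) := by
    have h := tendsto_lprod_bk (Φ := Φ) hg.cont hg.ne_top hε b (nV Φ L.2 ξ.1).2 ξ.2.2
      (fun i => (nL Φ (εs i) t L ξ.1).2.1) (nL Φ 0 t L ξ.1).2.1 hL.snd_nhds.fst_nhds
    simp only [← e2] at h
    exact h
  have hlp : Tendsto (fun i => nlp g Φ (εs i) a b t L ξ) l (𝓝 (nlp g Φ 0 a b t L ξ)) :=
    ENNReal.Tendsto.mul ha (Or.inr (lprod_ne_top hg.ne_top b _)) hb
      (Or.inr (lprod_ne_top hg.ne_top a _))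
  unfold nW
  refine ENNReal.Tendsto.const_mul ?_ (Or.inr (nvw_ne_top _ _))
  by_cases hx : ntk Φ 0 a b t L.2 ξ
  · rw [ind_of_true hx, one_mul]
    refine hlp.congr' ?_
    filter_upwards [hset] with i hi
    rw [ind_of_true (hi.2 hx), one_mul]
  · rw [ind_of_false hx, zero_mul]
    refine tendsto_const_nhds.congr' ?_
    filter_upwards [hset] with i hi
    rw [ind_of_false (fun h => hx (hi.1 h)), zero_mul]

/-- The measure of the parameters `(t, ξ)`. -/
abbrev tvol (T : ℝ) (a b : Shape) : Measure (ℝ × XP a b) :=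
  (volume.restrict (Icc 0 T)).prod (xvol a b)

theorem ae_tvol_gen (T : ℝ) (a b : Shape) : ∀ᵐ z : ℝ × XP a b ∂(tvol T a b),
    (gent a z.2.2.1 ∧ gent b z.2.2.2) ∧ stm a z.2.2.1 ≠ z.1 ∧ stm b z.2.2.2 ≠ z.1 := by
  have ga : ∀ᵐ ξ : XP a b ∂(xvol a b), gent a ξ.2.1 ∧ gent b ξ.2.2 := by
    have h3 : ∀ᵐ y : PD a × PD b ∂((pvol a).prod (pvol b)), gent a y.1 ∧ gent b y.2 := by
      filter_upwards [Measure.quasiMeasurePreserving_fst.ae (ae_gent a),
        Measure.quasiMeasurePreserving_snd.ae (ae_gent b)] with y ha hb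
      exact ⟨ha, hb⟩
    exact Measure.quasiMeasurePreserving_snd.ae h3
  have g1 : ∀ᵐ z : ℝ × XP a b ∂(tvol T a b),
      gent a z.2.2.1 ∧ gent b z.2.2.2 := Measure.quasiMeasurePreserving_snd.ae ga
  have g2 := ae_time_ne' (ν := xvol a b) T (c := fun ξ : XP a b => stm a ξ.2.1)
    ((measurable_stm a).comp (by fun_prop : Measurable fun ξ : XP a b => ξ.2.1))
  have g3 := ae_time_ne' (ν := xvol a b) T (c := fun ξ : XP a b => stm b ξ.2.2)
    ((measurable_stm b).comp (by fun_prop : Measurable fun ξ : XP a b => ξ.2.2))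
  filter_upwards [g1, g2, g3] with z h1 h2 h3
  exact ⟨h1, h2, h3⟩

theorem ae_tvol_mem (T : ℝ) (a b : Shape) : ∀ᵐ z : ℝ × XP a b ∂(tvol T a b), z.1 ∈ Icc 0 T :=
  Measure.quasiMeasurePreserving_fst.ae (ae_restrict_mem measurableSet_Icc)

/-- The weight with the polynomial factor. -/
def pnW (q : ℕ) (g : Ph → ℝ≥0∞) (Φ : E3 → ℝ) (ε : ℝ) (a b : Shape) (x : Ph × (ℝ × XP a b)) :
    ℝ≥0∞ := Cap.pw q x.1.2 * nW g Φ ε a b x.2.1 x.1 x.2.2

theorem measurable_pnW (hΦ : IsPotential Φ) {g : Ph → ℝ≥0∞} (hg : Measurable g) (q : ℕ) (ε : ℝ)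
    (a b : Shape) : Measurable (pnW q g Φ ε a b) :=
  ((measurable_cpw q).comp (by fun_prop : Measurable fun x : Ph × (ℝ × XP a b) => x.1.2)).mul
    (measurable_nW hΦ hg ε a b)

/-- The displacement of the first leaf, as a function of all the parameters. -/
def nfz (Φ : E3 → ℝ) (ε : ℝ) (a b : Shape) (z : E3 × (ℝ × XP a b)) : E3 :=
  nfls Φ ε a b z.2.1 z.1 z.2.2

theorem measurable_nfz (hΦ : IsPotential Φ) (ε : ℝ) (a b : Shape) :
    Measurable (nfz Φ ε a b) := measurable_nfls hΦ ε a b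

/-- The velocity of the first leaf, as a function of all the parameters. -/
def nfv (Φ : E3 → ℝ) (a b : Shape) (z : E3 × (ℝ × XP a b)) : E3 := nflv Φ a b z.1 z.2.2

theorem measurable_nfv (hΦ : IsPotential Φ) (a b : Shape) : Measurable (nfv Φ a b) := by
  have h := (measurable_nflv hΦ a b).comp (by fun_prop : Measurable
      fun z : E3 × (ℝ × XP a b) => (z.1, z.2.2))
  simp only [Function.comp_def] at h
  exact h

theorem tendsto_nfz {ι : Type*} {l : Filter ι} {εs : ι → ℝ} (hε : Tendsto εs l (𝓝 0))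
    (z : E3 × (ℝ × XP a b)) : Tendsto (fun i => nfz Φ (εs i) a b z) l (𝓝 (nfz Φ 0 a b z)) :=
  (tendsto_nL (Φ := Φ) hε z.2.1 (0, z.1) z.2.2.1).fst_nhds.fst_nhds.add
    (tendsto_fls hε a _ _)

/-- **Convergence of the weights of the nodes with exact exit time.** -/
theorem tendsto_nW {ι : Type*} {l : Filter ι} [l.NeBot] [l.IsCountablyGenerated] {εs : ι → ℝ}
    (hΦ : IsPotential Φ) {g : Ph → ℝ≥0∞} {M β : ℝ} (hg : GD g M β)
    (hε : Tendsto εs l (𝓝 0)) (hε0 : ∀ᶠ i in l, 0 ≤ εs i) (q : ℕ) {T : ℝ} (hT : 0 ≤ T)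
    (a b : Shape) :
    Tendsto (fun i => ∫⁻ x, ((pnW q g Φ (εs i) a b x - pnW q g Φ 0 a b x) +
        (pnW q g Φ 0 a b x - pnW q g Φ (εs i) a b x))
          ∂((volume : Measure Ph).prod (tvol T a b))) l (𝓝 0) ∧
    Tendsto (fun i => ∫⁻ x, pnW q g Φ (εs i) a b x ∂((volume : Measure Ph).prod (tvol T a b))) l
      (𝓝 (∫⁻ x, pnW q g Φ 0 a b x ∂((volume : Measure Ph).prod (tvol T a b)))) ∧
    ∫⁻ x, pnW q g Φ 0 a b x ∂((volume : Measure Ph).prod (tvol T a b)) ≠ ∞ := by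
  refine l1_abs (ν := tvol T a b) (g := g) (s := fun i => nfz Φ (εs i) a b)
    (s₀ := nfz Φ 0 a b) (u := nfv Φ a b) (k := nk q Φ T M β a b)
    (W := fun i => pnW q g Φ (εs i) a b) (W₀ := pnW q g Φ 0 a b)
    hg.meas hg.cont (fun i => measurable_pnW hΦ hg.meas q _ a b)
    (measurable_pnW hΦ hg.meas q _ a b) (fun i => measurable_nfz hΦ _ a b)
    (measurable_nfz hΦ _ a b) (measurable_nfv hΦ a b) (measurable_nk hΦ q T M β a b)
    (nk_ne_top q T M β a b) (tendsto_nfz hε) ?_ (lintegral_nk_ne_top hΦ hg q hT a b) ?_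
  · filter_upwards [hε0, hε.eventually (ge_mem_nhds zero_lt_one)] with i e0 e1
    have h2 : ∀ᵐ x : Ph × (ℝ × XP a b) ∂((volume : Measure Ph).prod (tvol T a b)),
        x.2.1 ∈ Icc 0 T := Measure.quasiMeasurePreserving_snd.ae (ae_tvol_mem T a b)
    filter_upwards [h2] with x hx
    exact nW_le hΦ hg e0 e1 q x hx.2
  · have g5 : ∀ᵐ x : Ph × (ℝ × XP a b) ∂((volume : Measure Ph).prod (tvol T a b)),
        (gent a x.2.2.2.1 ∧ gent b x.2.2.2.2) ∧ stm a x.2.2.2.1 ≠ x.2.1 ∧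
          stm b x.2.2.2.2 ≠ x.2.1 := Measure.quasiMeasurePreserving_snd.ae (ae_tvol_gen T a b)
    filter_upwards [g5] with x hx
    exact ENNReal.Tendsto.const_mul (tendsto_nW_point hg hε hx.1.1 hx.1.2 hx.2.1 hx.2.2)
      (Or.inr (cpw_ne_top q _))

end node

end Vale.Agent.P119.ML
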