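import Vale.Agent.P119.ML.InRKin
import Vale.Agent.P119.ML.InRRate
import Vale.Agent.P119.ML.FH3
import Vale.Agent.P119.ML.Quench
import Vale.Agent.P119.ML.TreeL1

/-!
# P119, block ML (In-R, `helper755`): the main estimate

`Xs`: the tree is unhit until the time `b - δ`; `HS1`, `HS2`: the convergence of the survival
probabilities of one tree and of two trees; `inR_of_surv`: the input `InR` of CAP0.
-/

open MeasureTheory Filter Topology Set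
open scoped ENNReal NNReal

noncomputable section

namespace Vale.Agent.P119.Cap

open KU M KT ML GC

variable {Φ : E3 → ℝ} {ε : ℝ} {g : Ph → ℝ≥0∞} {f₀ : Ph → ℝ}

/-- The tree is unhit until the time `b - δ`. -/
def Xs (Φ : E3 → ℝ) (Lm : ℕ) (δ : ℝ) (k : Bool) (τ : Shape) (ε : ℝ) (c : Conf Ph) (q : ℝ × Ph)
    (x : PY τ) : ℝ≥0∞ :=
  ind (0 < ε ∧ CmpF ε [rT Φ ε k τ q.2 q.1 x] (pts c) ∧
    Unhit Φ ε Lm (Wc [rT Φ ε k τ q.2 q.1 x] (pts c)) [rT Φ ε k τ q.2 q.1 x] (q.1 - δ))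

/-- The tree is incompatible with the configuration. -/
def Ys (Φ : E3 → ℝ) (k : Bool) (τ : Shape) (ε : ℝ) (c : Conf Ph) (q : ℝ × Ph)
    (x : PY τ) : ℝ≥0∞ := ind (¬CmpF ε [rT Φ ε k τ q.2 q.1 x] (pts c))

theorem Xs_le_one (Lm : ℕ) (δ : ℝ) (k : Bool) (τ : Shape) (ε : ℝ) (c : Conf Ph) (q : ℝ × Ph)
    (x : PY τ) : Xs Φ Lm δ k τ ε c q x ≤ 1 := ind_le_one _

theorem lvs_single (T : CTree) : lvs [T] = T.leaves := by
  rw [lvs_cons, lvs_nil, union_empty]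

theorem measurableSet_cmpRT (hΦ : IsPotential Φ) (ε : ℝ) (k : Bool) (τ : Shape) :
    MeasurableSet {z : Conf Ph × (ℝ × Ph) × PY τ |
      CmpF ε [rT Φ ε k τ z.2.1.2 z.2.1.1 z.2.2] (pts z.1)} := by
  have hT : Measurable fun z : Conf Ph × (ℝ × Ph) × PY τ =>
      rT Φ ε k τ z.2.1.2 z.2.1.1 z.2.2 := (measurable_rT hΦ ε k τ).comp measurable_snd
  exact measurableSet_cmpF (ε := ε) (MF.cons hT MF.nil) measurable_fst

theorem measurable_Xs (hΦ : IsPotential Φ) (Lm : ℕ) (δ : ℝ) (k : Bool) (τ : Shape) (ε : ℝ) :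
    Measurable fun z : Conf Ph × (ℝ × Ph) × PY τ => Xs Φ Lm δ k τ ε z.1 z.2.1 z.2.2 := by
  unfold Xs
  by_cases hε : 0 < ε
  swap
  · simp only [ind_of_false (fun h : 0 < ε ∧ _ => hε h.1)]
    exact measurable_const
  have hT : Measurable fun z : Conf Ph × (ℝ × Ph) × PY τ =>
      rT Φ ε k τ z.2.1.2 z.2.1.1 z.2.2 := (measurable_rT hΦ ε k τ).comp measurable_snd
  have hF := MF.cons hT MF.nil
  have ht : Measurable fun z : Conf Ph × (ℝ × Ph) × PY τ => z.2.1.1 - δ := by fun_prop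
  have h1 := measurableSet_cmpF (ε := ε) hF measurable_fst
  have h2 := measurableSet_unhit hΦ hε hF (RS.Wc hF measurable_fst) ht (L := Lm)
  refine measurable_ind ?_
  refine (h1.inter h2).congr ?_
  ext z
  simp only [mem_inter_iff, mem_ofPred_eq, hε, true_and]
  rfl

theorem measurable_Ys (hΦ : IsPotential Φ) (k : Bool) (τ : Shape) (ε : ℝ) :
    Measurable fun z : Conf Ph × (ℝ × Ph) × PY τ => Ys Φ k τ ε z.1 z.2.1 z.2.2 :=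
  measurable_ind (measurableSet_cmpRT hΦ ε k τ).compl

/-- **The pointwise bound.** -/
theorem rate_le (hΦ : IsPotential Φ) (hε : 0 < ε) (c₀ δ : ℝ) (Lm : ℕ) (k : Bool) (τ : Shape)
    (c : Conf Ph) (q : ℝ × Ph) (x : PY τ) :
    ewt c₀ q.2.2 * (rwt g Φ ε k τ q.2 q.1 x * ind (ALt Φ ε Lm (pts c : Set Ph)
      (rT Φ ε k τ q.2 q.1 x) (sgt Φ ε q.2.2 q.1 x.1))) ≤
    wA g Φ c₀ δ ε k τ q x * Xs Φ Lm δ k τ ε c q x +
      (wW g Φ c₀ ε k τ q x * Ys Φ k τ ε c q x + wB g Φ c₀ δ ε k τ q x) := by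
  by_cases hA : ALt Φ ε Lm (pts c : Set Ph) (rT Φ ε k τ q.2 q.1 x) (sgt Φ ε q.2.2 q.1 x.1)
  swap
  · rw [ind_of_false hA, mul_zero, mul_zero]; exact zero_le
  rw [ind_of_true hA, mul_one]
  have h0 : ewt c₀ q.2.2 * rwt g Φ ε k τ q.2 q.1 x = wW g Φ c₀ ε k τ q x := rfl
  rw [h0]
  by_cases hC : CmpF ε [rT Φ ε k τ q.2 q.1 x] (pts c)
  swap
  · refine le_add_left (le_add_right ?_)
    unfold Ys
    rw [ind_of_true hC, mul_one]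
  by_cases hz : hzn Φ ε δ τ q x
  swap
  · refine le_add_left (le_add_left ?_)
    unfold wB
    rw [ind_of_true hz, one_mul]
  refine le_add_right ?_
  have hX : Xs Φ Lm δ k τ ε c q x = 1 := by
    unfold Xs
    refine ind_of_true ⟨hε, hC, ?_⟩
    have h1 : alive Φ ε Lm (Wc [rT Φ ε k τ q.2 q.1 x] (pts c)) (rT Φ ε k τ q.2 q.1 x)
        (sgt Φ ε q.2.2 q.1 x.1) := by
      unfold Wc
      rw [lvs_single]
      exact hA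
    exact (unhit_singleton_of_alive hΦ hε Wc_finite h1).mono hz.2
  rw [hX, mul_one]
  unfold wA
  rw [ind_of_true hz, one_mul]

/-! ### The hypotheses -/

section hyp

variable {hΦ : IsPotential Φ} {m₀ : Measurable fun p : E3 × E3 => K1.f0hat f₀ p.1 p.2} {T : ℝ}
  {f : ℝ → Ph → ℝ}

/-- The convergence of the survival probability of one tree. -/
def HS1 (K : KE.KinFamily hΦ f₀ m₀ T f) (Tm : ℝ) (Lm : ℕ) (c₀ δ : ℝ) (k : Bool) (τ : Shape) :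
    Prop :=
  ∀ᵐ q ∂(mQ Tm), ∀ᵐ x ∂(ro τ), wA0 (fh f₀) Φ c₀ δ k τ q x ≠ 0 →
    Tendsto (fun ε => ∫⁻ c, Xs Φ Lm δ k τ ε c q x ∂(PP f₀ ε)) (𝓝[>] 0)
      (𝓝 (SR K Lm δ k τ q x))

/-- The convergence of the survival probability of two trees. -/
def HS2 (K : KE.KinFamily hΦ f₀ m₀ T f) (Tm : ℝ) (Lm : ℕ) (c₀ δ : ℝ) (k : Bool) (τ : Shape) :
    Prop :=
  ∀ᵐ q ∂(mQ Tm), ∀ᵐ z ∂((ro τ).prod (ro τ)), wA0 (fh f₀) Φ c₀ δ k τ q z.1 ≠ 0 →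
    wA0 (fh f₀) Φ c₀ δ k τ q z.2 ≠ 0 →
    Tendsto (fun ε => ∫⁻ c, Xs Φ Lm δ k τ ε c q z.1 * Xs Φ Lm δ k τ ε c q z.2 ∂(PP f₀ ε))
      (𝓝[>] 0) (𝓝 (SR K Lm δ k τ q z.1 * SR K Lm δ k τ q z.2))

end hyp

/-! ### The estimate -/

section main

variable {hΦ : IsPotential Φ} {m₀ : Measurable fun p : E3 × E3 => K1.f0hat f₀ p.1 p.2} {T : ℝ}
  {f : ℝ → Ph → ℝ} (K : KE.KinFamily hΦ f₀ m₀ T f) {κ : ℝ}

theorem lintegral_Ys_le (h : GoodDatum f₀ κ) (hε : 0 < ε) (k : Bool) (τ : Shape) (q : ℝ × Ph)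
    (x : PY τ) :
    ∫⁻ c, Ys Φ k τ ε c q x ∂(PP f₀ ε) ≤ τ.card * ENNReal.ofReal (κ * ε) := by
  have h1 : rT Φ ε k τ q.2 q.1 x =
      τ.ord (ldEquiv τ (bk Φ ε τ (lat ε (dG Φ k q.2 q.1 x.1)) x.2)) := by
    unfold rT
    rw [TG.tree_def, mkL_eq_ord]
  have h2 : ∀ c : Conf Ph, Ys Φ k τ ε c q x =
      {c : Conf Ph | ¬Cmp (Cx ε) (ldEquiv τ (bk Φ ε τ (lat ε (dG Φ k q.2 q.1 x.1)) x.2))
        (pts c)}.indicator (fun _ => (1 : ℝ≥0∞)) c := by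
    intro c
    unfold Ys
    rw [h1, cmpF_ord]
    by_cases hc : Cmp (Cx ε) (ldEquiv τ (bk Φ ε τ (lat ε (dG Φ k q.2 q.1 x.1)) x.2)) (pts c)
    · rw [ind_of_false (not_not.2 hc), indicator_of_notMem (by exact not_not.2 hc)]
    · rw [ind_of_true hc, indicator_of_mem (by exact hc)]
  simp only [h2]
  refine (lintegral_indicator_one_le _).trans ?_
  exact prob_not_cmp_le h hε _

theorem measurable_wAX (hΦ : IsPotential Φ) (hg : Measurable g) (c₀ δ ε : ℝ) (Lm : ℕ) (k : Bool)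
    (τ : Shape) : Measurable fun z : (Conf Ph × (ℝ × Ph)) × PY τ =>
      wA g Φ c₀ δ ε k τ z.1.2 z.2 * Xs Φ Lm δ k τ ε z.1.1 z.1.2 z.2 := by
  have h0 : Measurable fun z : (Conf Ph × (ℝ × Ph)) × PY τ => (z.1.2, z.2) := by fun_prop
  have h1 : Measurable fun z : (Conf Ph × (ℝ × Ph)) × PY τ => (z.1.1, z.1.2, z.2) := by fun_prop
  have h2 := (measurable_wA hΦ hg c₀ δ ε k τ).comp h0
  have h3 := (measurable_Xs hΦ Lm δ k τ ε).comp h1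
  simp only [Function.comp_def] at h2 h3
  exact h2.mul h3

theorem measurable_wWY (hΦ : IsPotential Φ) (hg : Measurable g) (c₀ ε : ℝ) (k : Bool)
    (τ : Shape) : Measurable fun z : (Conf Ph × (ℝ × Ph)) × PY τ =>
      wW g Φ c₀ ε k τ z.1.2 z.2 * Ys Φ k τ ε z.1.1 z.1.2 z.2 := by
  have h0 : Measurable fun z : (Conf Ph × (ℝ × Ph)) × PY τ => (z.1.2, z.2) := by fun_prop
  have h1 : Measurable fun z : (Conf Ph × (ℝ × Ph)) × PY τ => (z.1.1, z.1.2, z.2) := by fun_prop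
  have h2 := (measurable_wW hΦ hg c₀ ε k τ).comp h0
  have h3 := (measurable_Ys hΦ k τ ε).comp h1
  simp only [Function.comp_def] at h2 h3
  exact h2.mul h3

/-- The bound for one shape. -/
theorem shape_le (hΦ : IsPotential Φ) (hf : Measurable f₀) (hε : 0 < ε) (Lm : ℕ) (c₀ δ : ℝ) (k : Bool) (τ : Shape)
    (q : ℝ × Ph) (c : Conf Ph) :
    ewt c₀ q.2.2 * ∫⁻ x, rwt (fun z => ENNReal.ofReal (f₀ z)) Φ ε k τ q.2 q.1 x *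
      ind (ALt Φ ε Lm (pts c : Set Ph) (rT Φ ε k τ q.2 q.1 x) (sgt Φ ε q.2.2 q.1 x.1)) ∂(ro τ) ≤
    ∫⁻ x, wA (fh f₀) Φ c₀ δ ε k τ q x * Xs Φ Lm δ k τ ε c q x ∂(ro τ) +
        (∫⁻ x, wW (fh f₀) Φ c₀ ε k τ q x * Ys Φ k τ ε c q x ∂(ro τ) +
          ∫⁻ x, wB (fh f₀) Φ c₀ δ ε k τ q x ∂(ro τ)) := by
  have hmX : Measurable fun x : PY τ => wA (fh f₀) Φ c₀ δ ε k τ q x *
      Xs Φ Lm δ k τ ε c q x := by
    have h := (measurable_wAX hΦ (measurable_fh hf) c₀ δ ε Lm k τ).comp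
      (measurable_prodMk_left (x := (c, q)))
    simp only [Function.comp_def] at h
    exact h
  have hmY : Measurable fun x : PY τ => wW (fh f₀) Φ c₀ ε k τ q x * Ys Φ k τ ε c q x := by
    have h := (measurable_wWY hΦ (measurable_fh hf) c₀ ε k τ).comp
      (measurable_prodMk_left (x := (c, q)))
    simp only [Function.comp_def] at h
    exact h
  rw [← lintegral_const_mul' _ _ (ewt_ne_top _ _), ← lintegral_add_left hmY,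
    ← lintegral_add_left hmX]
  exact lintegral_mono fun x => rate_le (g := fh f₀) hΦ hε c₀ δ Lm k τ c q x

/-- The bound for one configuration. -/
theorem Rr_sub_le (hf : Measurable f₀) (hT : 0 ≤ T) (hε : 0 < ε) {Lm : ℕ} (hL : K.L₀ ≤ Lm + 1)
    {j : ℕ} (hj : j ≤ Lm) {c₀ δ : ℝ} (hδ : 0 ≤ δ) (k : Bool) {q : ℝ × Ph} (hq : q.1 ≤ T)
    (c : Conf Ph) :
    ewt c₀ q.2.2 * (Rr Φ f₀ Lm j k ε c q.1 q.2 - ENNReal.ofReal (K.rr j * (1 + ‖q.2.2‖))) ≤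
      ∑ τ ∈ (shapes Lm).filter (fun τ => τ.depth = j),
        ((∫⁻ x, wA (fh f₀) Φ c₀ δ ε k τ q x * Xs Φ Lm δ k τ ε c q x ∂(ro τ) -
          ∫⁻ x, wA0 (fh f₀) Φ c₀ δ k τ q x * SR K Lm δ k τ q x ∂(ro τ)) +
          (∫⁻ x, wW (fh f₀) Φ c₀ ε k τ q x * Ys Φ k τ ε c q x ∂(ro τ) +
            ∫⁻ x, wB (fh f₀) Φ c₀ δ ε k τ q x ∂(ro τ))) := by
  rw [ENNReal.mul_sub (fun _ _ => ewt_ne_top _ _), tsub_le_iff_right]
  refine le_trans ?_ (add_le_add le_rfl (sum_limit_le K hf hT hL hj (c₀ := c₀) hδ k hq))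
  rw [← Finset.sum_add_distrib]
  unfold Rr
  rw [Finset.mul_sum]
  refine Finset.sum_le_sum fun τ _ => (shape_le hΦ hf hε Lm c₀ δ k τ q c).trans ?_
  rw [add_right_comm]
  exact add_le_add le_tsub_add le_rfl

theorem ae_mQ_le (Tm : ℝ) : ∀ᵐ q : ℝ × Ph ∂(mQ Tm), 0 ≤ q.1 ∧ q.1 ≤ Tm :=
  Measure.quasiMeasurePreserving_fst.ae
    ((ae_restrict_mem measurableSet_Icc).mono fun _ hb => hb)

theorem lintegral_mQ (Tm : ℝ) {H : ℝ × Ph → ℝ≥0∞} (hH : Measurable H) :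
    ∫⁻ l : Ph, ∫⁻ b in Icc 0 Tm, H (b, l) = ∫⁻ q, H q ∂(mQ Tm) := by
  unfold mQ
  rw [lintegral_prod_symm _ hH.aemeasurable]

theorem lintegral_wWY_le (h : GoodDatum f₀ κ) (hΦ : IsPotential Φ) (hε : 0 < ε) (Tm c₀ : ℝ)
    (k : Bool) (τ : Shape) :
    ∫⁻ c, ∫⁻ q, ∫⁻ x, wW (fh f₀) Φ c₀ ε k τ q x * Ys Φ k τ ε c q x ∂(ro τ) ∂(mQ Tm)
      ∂(PP f₀ ε) ≤
    (τ.card * ENNReal.ofReal (κ * ε)) * ∫⁻ q, ∫⁻ x, wW (fh f₀) Φ c₀ ε k τ q x ∂(ro τ)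
      ∂(mQ Tm) := by
  have hP := isProbability_PP (ε := ε) h
  have hm := measurable_wWY hΦ (measurable_fh h.meas) c₀ ε k τ
  have hw := measurable_wW hΦ (measurable_fh h.meas) c₀ ε k τ
  have h1 : Measurable fun z : Conf Ph × (ℝ × Ph) => ∫⁻ x, wW (fh f₀) Φ c₀ ε k τ z.2 x *
      Ys Φ k τ ε z.1 z.2 x ∂(ro τ) := hm.lintegral_prod_right'
  rw [lintegral_lintegral_swap (f := fun c q => ∫⁻ x, wW (fh f₀) Φ c₀ ε k τ q x *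
      Ys Φ k τ ε c q x ∂(ro τ)) h1.aemeasurable]
  have h2 : Measurable fun q : ℝ × Ph => ∫⁻ x, wW (fh f₀) Φ c₀ ε k τ q x ∂(ro τ) :=
    hw.lintegral_prod_right'
  rw [← lintegral_const_mul _ h2]
  refine lintegral_mono fun q => ?_
  have h3 : Measurable fun z : Conf Ph × PY τ => wW (fh f₀) Φ c₀ ε k τ q z.2 *
      Ys Φ k τ ε z.1 q z.2 := by
    have h4 : Measurable fun z : Conf Ph × PY τ => ((z.1, q), z.2) := by fun_prop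
    have h5 := hm.comp h4
    simp only [Function.comp_def] at h5
    exact h5
  rw [lintegral_lintegral_swap (f := fun c x => wW (fh f₀) Φ c₀ ε k τ q x *
      Ys Φ k τ ε c q x) h3.aemeasurable]
  have h6 : Measurable fun x : PY τ => wW (fh f₀) Φ c₀ ε k τ q x := by
    have h5 := hw.comp (measurable_prodMk_left (x := q))
    simp only [Function.comp_def] at h5
    exact h5
  rw [← lintegral_const_mul _ h6]
  refine lintegral_mono fun x => ?_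
  have h7 : Measurable fun c : Conf Ph => Ys Φ k τ ε c q x := by
    have h4 : Measurable fun c : Conf Ph => (c, q, x) := by fun_prop
    have h5 := (measurable_Ys hΦ k τ ε).comp h4
    simp only [Function.comp_def] at h5
    exact h5
  rw [lintegral_const_mul _ h7, mul_comm]
  exact mul_le_mul' (lintegral_Ys_le h hε k τ q x) le_rfl

/-- **The bound of the target.** -/
theorem lint_sub_le (h : GoodDatum f₀ κ) (hT : 0 ≤ T) (hε : 0 < ε) {Lm : ℕ}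
    (hL : K.L₀ ≤ Lm + 1) {j : ℕ} (hj : j ≤ Lm) {c₀ δ Tm : ℝ} (hδ : 0 ≤ δ) (hTm : Tm ≤ T)
    (k : Bool) :
    ∫⁻ c, (∫⁻ l : Ph, ∫⁻ b in Icc 0 Tm, ENNReal.ofReal (Real.exp (-c₀ * ‖l.2‖ ^ 2)) *
        (Rr Φ f₀ Lm j k ε c b l - ENNReal.ofReal (K.rr j * (1 + ‖l.2‖)))) ∂(PP f₀ ε) ≤
    ∑ τ ∈ (shapes Lm).filter (fun τ => τ.depth = j),
      (∫⁻ c, ∫⁻ q, (∫⁻ x, wA (fh f₀) Φ c₀ δ ε k τ q x * Xs Φ Lm δ k τ ε c q x ∂(ro τ) -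
          ∫⁻ x, wA0 (fh f₀) Φ c₀ δ k τ q x * SR K Lm δ k τ q x ∂(ro τ)) ∂(mQ Tm) ∂(PP f₀ ε) +
        ((τ.card * ENNReal.ofReal (κ * ε)) * ∫⁻ q, ∫⁻ x, wW (fh f₀) Φ c₀ ε k τ q x ∂(ro τ)
            ∂(mQ Tm) +
          ∫⁻ q, ∫⁻ x, wB (fh f₀) Φ c₀ δ ε k τ q x ∂(ro τ) ∂(mQ Tm))) := by
  have hP := isProbability_PP (ε := ε) h
  have hg := measurable_fh h.meas
  -- measurability
  have mA : ∀ τ : Shape, Measurable fun z : Conf Ph × (ℝ × Ph) =>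
      ∫⁻ x, wA (fh f₀) Φ c₀ δ ε k τ z.2 x * Xs Φ Lm δ k τ ε z.1 z.2 x ∂(ro τ) -
        ∫⁻ x, wA0 (fh f₀) Φ c₀ δ k τ z.2 x * SR K Lm δ k τ z.2 x ∂(ro τ) := fun τ => by
    have h1 : Measurable fun z : Conf Ph × (ℝ × Ph) => ∫⁻ x, wA (fh f₀) Φ c₀ δ ε k τ z.2 x *
      Xs Φ Lm δ k τ ε z.1 z.2 x ∂(ro τ) :=
      (measurable_wAX hΦ hg c₀ δ ε Lm k τ).lintegral_prod_right'
    have h2 : Measurable fun q : ℝ × Ph => ∫⁻ x, wA0 (fh f₀) Φ c₀ δ k τ q x *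
        SR K Lm δ k τ q x ∂(ro τ) :=
      ((measurable_wA0 hΦ hg c₀ δ k τ).mul (measurable_SR K Lm δ k τ)).lintegral_prod_right'
    exact h1.sub (h2.comp measurable_snd)
  have mY : ∀ τ : Shape, Measurable fun z : Conf Ph × (ℝ × Ph) =>
      ∫⁻ x, wW (fh f₀) Φ c₀ ε k τ z.2 x * Ys Φ k τ ε z.1 z.2 x ∂(ro τ) := fun τ =>
    (measurable_wWY hΦ hg c₀ ε k τ).lintegral_prod_right'
  have mB : ∀ τ : Shape, Measurable fun q : ℝ × Ph =>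
      ∫⁻ x, wB (fh f₀) Φ c₀ δ ε k τ q x ∂(ro τ) := fun τ =>
    (measurable_wB hΦ hg c₀ δ ε k τ).lintegral_prod_right'
  have mc : ∀ {F : Conf Ph × (ℝ × Ph) → ℝ≥0∞} (c : Conf Ph), Measurable F →
      Measurable fun q : ℝ × Ph => F (c, q) := fun c hF => hF.comp measurable_prodMk_left
  calc _ ≤ ∫⁻ c, ∑ τ ∈ (shapes Lm).filter (fun τ => τ.depth = j),
        (∫⁻ q, (∫⁻ x, wA (fh f₀) Φ c₀ δ ε k τ q x * Xs Φ Lm δ k τ ε c q x ∂(ro τ) -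
          ∫⁻ x, wA0 (fh f₀) Φ c₀ δ k τ q x * SR K Lm δ k τ q x ∂(ro τ)) ∂(mQ Tm) +
        (∫⁻ q, ∫⁻ x, wW (fh f₀) Φ c₀ ε k τ q x * Ys Φ k τ ε c q x ∂(ro τ) ∂(mQ Tm) +
          ∫⁻ q, ∫⁻ x, wB (fh f₀) Φ c₀ δ ε k τ q x ∂(ro τ) ∂(mQ Tm))) ∂(PP f₀ ε) := by
        refine lintegral_mono fun c => ?_
        have hRm : Measurable fun q : ℝ × Ph => ENNReal.ofReal (Real.exp (-c₀ * ‖q.2.2‖ ^ 2)) *
            (Rr Φ f₀ Lm j k ε c q.1 q.2 - ENNReal.ofReal (K.rr j * (1 + ‖q.2.2‖))) := by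
          have h1 := (measurable_Rr hΦ h.meas Lm j k hε).comp (measurable_prodMk_left (x := c))
          simp only [Function.comp_def] at h1
          exact Measurable.mul (by fun_prop) (h1.sub (by fun_prop))
        have e1 := lintegral_mQ Tm hRm
        simp only at e1
        rw [e1]
        refine (lintegral_mono_ae ((ae_mQ_le Tm).mono fun q hq =>
          Rr_sub_le K h.meas hT hε hL hj (c₀ := c₀) hδ k (hq.2.trans hTm) c)).trans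
            (le_of_eq ?_)
        have m1 := fun τ : Shape => mc c (mA τ)
        have m2 := fun τ : Shape => mc c (mY τ)
        have m3 : ∀ τ ∈ (shapes Lm).filter (fun τ => τ.depth = j), Measurable fun q : ℝ × Ph =>
            ((∫⁻ x, wA (fh f₀) Φ c₀ δ ε k τ q x * Xs Φ Lm δ k τ ε c q x ∂(ro τ) -
              ∫⁻ x, wA0 (fh f₀) Φ c₀ δ k τ q x * SR K Lm δ k τ q x ∂(ro τ)) +
            (∫⁻ x, wW (fh f₀) Φ c₀ ε k τ q x * Ys Φ k τ ε c q x ∂(ro τ) +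
              ∫⁻ x, wB (fh f₀) Φ c₀ δ ε k τ q x ∂(ro τ))) := fun τ _ =>
          (m1 τ).add ((m2 τ).add (mB τ))
        rw [lintegral_finsetSum _ m3]
        refine Finset.sum_congr rfl fun τ _ => ?_
        rw [lintegral_add_left (m1 τ), lintegral_add_left (m2 τ)]
    _ = ∑ τ ∈ (shapes Lm).filter (fun τ => τ.depth = j),
        (∫⁻ c, ∫⁻ q, (∫⁻ x, wA (fh f₀) Φ c₀ δ ε k τ q x * Xs Φ Lm δ k τ ε c q x ∂(ro τ) -
          ∫⁻ x, wA0 (fh f₀) Φ c₀ δ k τ q x * SR K Lm δ k τ q x ∂(ro τ)) ∂(mQ Tm) ∂(PP f₀ ε) +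
        (∫⁻ c, ∫⁻ q, ∫⁻ x, wW (fh f₀) Φ c₀ ε k τ q x * Ys Φ k τ ε c q x ∂(ro τ) ∂(mQ Tm)
            ∂(PP f₀ ε) +
          ∫⁻ q, ∫⁻ x, wB (fh f₀) Φ c₀ δ ε k τ q x ∂(ro τ) ∂(mQ Tm))) := by
        have m1 := fun τ : Shape => (mA τ).lintegral_prod_right' (ν := mQ Tm)
        have m2 := fun τ : Shape => (mY τ).lintegral_prod_right' (ν := mQ Tm)
        simp only at m1 m2
        have m3 : ∀ τ ∈ (shapes Lm).filter (fun τ => τ.depth = j), Measurable fun c : Conf Ph =>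
            (∫⁻ q, (∫⁻ x, wA (fh f₀) Φ c₀ δ ε k τ q x * Xs Φ Lm δ k τ ε c q x ∂(ro τ) -
              ∫⁻ x, wA0 (fh f₀) Φ c₀ δ k τ q x * SR K Lm δ k τ q x ∂(ro τ)) ∂(mQ Tm) +
            (∫⁻ q, ∫⁻ x, wW (fh f₀) Φ c₀ ε k τ q x * Ys Φ k τ ε c q x ∂(ro τ) ∂(mQ Tm) +
              ∫⁻ q, ∫⁻ x, wB (fh f₀) Φ c₀ δ ε k τ q x ∂(ro τ) ∂(mQ Tm))) := fun τ _ =>
          (m1 τ).add ((m2 τ).add measurable_const)
        rw [lintegral_finsetSum _ m3]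
        refine Finset.sum_congr rfl fun τ _ => ?_
        rw [lintegral_add_left (m1 τ), lintegral_add_left (m2 τ), lintegral_const, measure_univ,
          mul_one]
    _ ≤ _ := Finset.sum_le_sum fun τ _ => add_le_add le_rfl
        (add_le_add (lintegral_wWY_le h hΦ hε Tm c₀ k τ) le_rfl)

theorem quench_wA (h : GoodDatum f₀ κ) (gd : GD (fh f₀) K.M K.b) {Lm : ℕ} {c₀ Tm δ : ℝ}
    (hc₀ : 0 < c₀) (hTm0 : 0 ≤ Tm) (hδ : 0 < δ) (k : Bool) (τ : Shape)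
    (h1 : HS1 K Tm Lm c₀ δ k τ) (h2 : HS2 K Tm Lm c₀ δ k τ) :
    Tendsto (fun ε => ∫⁻ c, ∫⁻ q, (∫⁻ x, wA (fh f₀) Φ c₀ δ ε k τ q x *
      Xs Φ Lm δ k τ ε c q x ∂(ro τ) - ∫⁻ x, wA0 (fh f₀) Φ c₀ δ k τ q x *
        SR K Lm δ k τ q x ∂(ro τ)) ∂(mQ Tm) ∂(PP f₀ ε)) (𝓝[>] 0) (𝓝 0) := by
  have hP : ∀ ε : ℝ, IsProbabilityMeasure (PP f₀ ε) := fun ε => isProbability_PP (ε := ε) h
  obtain ⟨e1, e2⟩ := wA_L1 (k := k) (τ := τ) hΦ gd.meas gd.cont gd.M0 gd.β0 hTm0 hc₀ gd.le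
    gd.mass hδ
  exact quench_upper (l := 𝓝[>] (0 : ℝ)) (Pr := fun ε => PP f₀ ε) (m := mQ Tm) (ν := ro τ)
    (X := fun ε c q x => Xs Φ Lm δ k τ ε c q x) (S := fun q x => SR K Lm δ k τ q x)
    (W := fun ε q x => wA (fh f₀) Φ c₀ δ ε k τ q x) (W₀ := fun q x => wA0 (fh f₀) Φ c₀ δ k τ q x)
    (fun ε => measurable_Xs hΦ Lm δ k τ ε) (fun ε c q x => Xs_le_one Lm δ k τ ε c q x)
    (measurable_SR K Lm δ k τ) (fun ε => measurable_wA hΦ gd.meas c₀ δ ε k τ)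
    (measurable_wA0 hΦ gd.meas c₀ δ k τ) e2 e1 h1 h2

/-- **The rate of the degenerate collisions.** -/
theorem inR_limit (h : GoodDatum f₀ κ) (gd : GD (fh f₀) K.M K.b) (hT : 0 ≤ T) {Lm : ℕ}
    (hL : K.L₀ ≤ Lm + 1) {j : ℕ} (hj : j ≤ Lm) {c₀ Tm : ℝ} (hc₀ : 0 < c₀) (hTm0 : 0 ≤ Tm)
    (hTm : Tm ≤ T) (k : Bool)
    (h1 : ∀ δ, 0 < δ → ∀ τ ∈ (shapes Lm).filter (fun τ => τ.depth = j),
      HS1 K Tm Lm c₀ δ k τ)
    (h2 : ∀ δ, 0 < δ → ∀ τ ∈ (shapes Lm).filter (fun τ => τ.depth = j),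
      HS2 K Tm Lm c₀ δ k τ) :
    Tendsto (fun ε => ∫⁻ c, (∫⁻ l : Ph, ∫⁻ b in Icc 0 Tm,
      ENNReal.ofReal (Real.exp (-c₀ * ‖l.2‖ ^ 2)) *
        (Rr Φ f₀ Lm j k ε c b l - ENNReal.ofReal (K.rr j * (1 + ‖l.2‖)))) ∂(PP f₀ ε))
      (𝓝[>] 0) (𝓝 0) := by
  -- the three terms
  have hW : ∀ τ : Shape, Tendsto (fun ε => (τ.card * ENNReal.ofReal (κ * ε)) *
      ∫⁻ q, ∫⁻ x, wW (fh f₀) Φ c₀ ε k τ q x ∂(ro τ) ∂(mQ Tm)) (𝓝[>] 0) (𝓝 0) := fun τ => by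
    obtain ⟨e1, e2⟩ := wW_L1 (k := k) (τ := τ) hΦ gd.meas gd.cont gd.M0 gd.β0 hTm0 hc₀ gd.le
      gd.mass
    have e3 : Tendsto (fun ε : ℝ => κ * ε) (𝓝[>] 0) (𝓝 (κ * 0)) :=
      (tendsto_nhdsWithin_of_tendsto_nhds tendsto_id).const_mul κ
    have e4 := ENNReal.Tendsto.const_mul (a := (τ.card : ℝ≥0∞)) (ENNReal.tendsto_ofReal e3)
      (Or.inr (ENNReal.natCast_ne_top _))
    rw [mul_zero, ENNReal.ofReal_zero, mul_zero] at e4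
    have e5 := ENNReal.Tendsto.mul e4 (Or.inr e2) e1 (Or.inr ENNReal.zero_ne_top)
    rw [zero_mul] at e5
    exact e5
  have hG : ∀ δ, 0 < δ → Tendsto (fun ε => ∑ τ ∈ (shapes Lm).filter (fun τ => τ.depth = j),
      (∫⁻ c, ∫⁻ q, (∫⁻ x, wA (fh f₀) Φ c₀ δ ε k τ q x * Xs Φ Lm δ k τ ε c q x ∂(ro τ) -
          ∫⁻ x, wA0 (fh f₀) Φ c₀ δ k τ q x * SR K Lm δ k τ q x ∂(ro τ)) ∂(mQ Tm) ∂(PP f₀ ε) +
        ((τ.card * ENNReal.ofReal (κ * ε)) * ∫⁻ q, ∫⁻ x, wW (fh f₀) Φ c₀ ε k τ q x ∂(ro τ)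
            ∂(mQ Tm) +
          ∫⁻ q, ∫⁻ x, wB (fh f₀) Φ c₀ δ ε k τ q x ∂(ro τ) ∂(mQ Tm)))) (𝓝[>] 0)
      (𝓝 (∑ τ ∈ (shapes Lm).filter (fun τ => τ.depth = j),
        ∫⁻ q, ∫⁻ x, wB0 (fh f₀) Φ c₀ δ k τ q x ∂(ro τ) ∂(mQ Tm))) := fun δ hδ => by
    refine tendsto_finsetSum _ fun τ hτ => ?_
    have e1 := quench_wA K h gd hc₀ hTm0 hδ k τ (h1 δ hδ τ hτ) (h2 δ hδ τ hτ)
    have e2 := wB_L1 (k := k) (τ := τ) hΦ gd.meas gd.cont gd.M0 gd.β0 hTm0 hc₀ gd.le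
      gd.mass hδ
    have e3 := e1.add ((hW τ).add e2)
    rw [zero_add, zero_add] at e3
    exact e3
  have hB : Tendsto (fun δ => ∑ τ ∈ (shapes Lm).filter (fun τ => τ.depth = j),
        ∫⁻ q, ∫⁻ x, wB0 (fh f₀) Φ c₀ δ k τ q x ∂(ro τ) ∂(mQ Tm)) (𝓝[>] 0) (𝓝 0) := by
    have e1 : (0 : ℝ≥0∞) = ∑ τ ∈ (shapes Lm).filter (fun τ => τ.depth = j), 0 := by simp
    rw [e1]
    refine tendsto_finsetSum _ fun τ _ => ?_
    obtain ⟨-, e2⟩ := wW_L1 (k := k) (τ := τ) hΦ gd.meas gd.cont gd.M0 gd.β0 hTm0 hc₀ gd.le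
      gd.mass
    exact wB0_tendsto hΦ gd.meas e2
  rw [ENNReal.tendsto_nhds_zero]
  intro η hη
  obtain ⟨δ, hδ0, hδ⟩ : ∃ δ : ℝ, 0 < δ ∧ ∑ τ ∈ (shapes Lm).filter (fun τ => τ.depth = j),
      ∫⁻ q, ∫⁻ x, wB0 (fh f₀) Φ c₀ δ k τ q x ∂(ro τ) ∂(mQ Tm) < η := by
    have e1 := (tendsto_order.1 hB).2 η hη
    obtain ⟨δ, h3, h4⟩ := (e1.and self_mem_nhdsWithin).exists
    exact ⟨δ, h4, h3⟩
  filter_upwards [(tendsto_order.1 (hG δ hδ0)).2 η hδ, self_mem_nhdsWithin] with ε h3 hε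
  exact (lint_sub_le K h hT hε hL hj hδ0.le hTm k).trans h3.le

/-- **In-R**, from the convergence of the survival probabilities. -/
theorem inR_of_surv (h : GoodDatum f₀ κ) (gd : GD (fh f₀) K.M K.b) (hT : 0 ≤ T) {Lm : ℕ}
    (hL : K.L₀ ≤ Lm + 1) {Tm : ℝ} (hTm0 : 0 ≤ Tm) (hTm : Tm ≤ T)
    (h1 : ∀ c₀ δ, 0 < c₀ → 0 < δ → ∀ k, ∀ τ ∈ shapes Lm, HS1 K Tm Lm c₀ δ k τ)
    (h2 : ∀ c₀ δ, 0 < c₀ → 0 < δ → ∀ k, ∀ τ ∈ shapes Lm, HS2 K Tm Lm c₀ δ k τ) :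
    InR Φ f₀ Lm Tm K.rr := by
  intro j hj k
  refine ⟨fun ε c b l => Rr Φ f₀ Lm j k ε c b l, fun ε hε => measurable_Rr hΦ h.meas Lm j k hε,
    fun ε hε c F hF => Rr_formula hΦ hε h.meas Tm Lm j k c hF, fun c₀ hc₀ => ?_⟩
  exact inR_limit K h gd hT hL hj hc₀ hTm0 hTm k
    (fun δ hδ τ hτ => h1 c₀ δ hc₀ hδ k τ (Finset.mem_filter.1 hτ).1)
    (fun δ hδ τ hτ => h2 c₀ δ hc₀ hδ k τ (Finset.mem_filter.1 hτ).1)

end main

end Vale.Agent.P119.Cap
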