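import Vale.Agent.P119.KT.Far
import Vale.Agent.P119.ML.Germ

/-!
# P119, block ML (`helper860`): the legs of a forest of germs, by index

* `lgG`, `lgF`: the legs of `glegs`, `flegs` as functions on the finite types `LI τ`, `KI F`;
* `lgE`: the legs of the forest at `ε`; `mem_lgE`, `sum_lgF`, `pairwise_lgF`;
* `lgE_line`, `lgE_zero`, `tendsto_lgE`.
-/

open MeasureTheory Filter Topology Set
open scoped ENNReal NNReal

noncomputable section

namespace Vale.Agent.P119.ML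

open KU M KT

variable {Φ : E3 → ℝ} {ε : ℝ}

/-- The legs of a germ, by index. -/
def lgG (Φ : E3 → ℝ) : (τ : Shape) → LG → PD τ → ℝ → LI τ → LG × ℝ × ℝ
  | .leaf, ℓ, _, h, _ => (ℓ, 0, h)
  | .node a _, ℓ, p, _, .inl k => lgG Φ a (inG1 Φ ℓ p.1) p.2.1 p.1.1 k
  | .node _ b, ℓ, p, _, .inr (.inl k) => lgG Φ b (inG2 Φ ℓ p.1) p.2.2 p.1.1 k
  | .node _ _, ℓ, p, h, .inr (.inr _) => (ℓ, p.1.1, h)

/-- The indices of the legs of a forest. -/
def KI : List TG → Type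
  | [] => Empty
  | G :: F => LI G.τ ⊕ KI F

instance instFintypeKI : (F : List TG) → Fintype (KI F)
  | [] => inferInstanceAs (Fintype Empty)
  | G :: F => by
    have := instFintypeKI F
    exact inferInstanceAs (Fintype (LI G.τ ⊕ KI F))

/-- The legs of a forest, by index. -/
def lgF (Φ : E3 → ℝ) : (F : List TG) → ℝ → KI F → LG × ℝ × ℝ
  | G :: _, h, .inl k => lgG Φ G.τ G.ℓ G.p h k
  | _ :: F, h, .inr k => lgF Φ F h k

/-- The legs of a forest at `ε`, by index. -/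
def lgE (Φ : E3 → ℝ) (ε : ℝ) : (F : List TG) → ℝ → KI F → Ph × ℝ × ℝ
  | G :: _, h, .inl k => lg Φ ε G.τ (lat ε G.ℓ) G.p h k
  | _ :: F, h, .inr k => lgE Φ ε F h k

/-- The parameters of all the germs are good. -/
def GoodF (Φ : E3 → ℝ) (F : List TG) : Prop := ∀ G ∈ F, good Φ G.τ G.ℓ.1.2 G.p

theorem GoodF.cons {G : TG} {F : List TG} (h : GoodF Φ (G :: F)) :
    good Φ G.τ G.ℓ.1.2 G.p ∧ GoodF Φ F :=
  ⟨h G (by simp), fun G' hG' => h G' (by simp [hG'])⟩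

theorem mem_lgE (hΦ : IsPotential Φ) (hε : ε ≠ 0) (t : ℝ) (l : Ph × ℝ × ℝ) : ∀ F : List TG,
    GoodF Φ F → ((∃ T ∈ trees Φ ε F, l ∈ legs Φ ε T t) ↔ ∃ k, lgE Φ ε F t k = l)
  | [], _ => by
    constructor
    · rintro ⟨T, hT, -⟩
      exact absurd hT (List.not_mem_nil)
    · rintro ⟨k, -⟩
      exact k.elim
  | G :: F, h => by
    have ih := mem_lgE hΦ hε t l F h.cons.2
    have h1 := mem_legs_bk hΦ hε G.τ (lat ε G.ℓ) G.p t l h.cons.1
    rw [trees_cons]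
    constructor
    · rintro ⟨T, hT, hl⟩
      rcases List.mem_cons.1 hT with rfl | hT
      · obtain ⟨k, hk⟩ := h1.1 hl
        exact ⟨.inl k, hk⟩
      · obtain ⟨k, hk⟩ := ih.1 ⟨T, hT, hl⟩
        exact ⟨.inr k, hk⟩
    · rintro ⟨k | k, hk⟩
      · exact ⟨_, List.mem_cons_self, h1.2 ⟨k, hk⟩⟩
      · obtain ⟨T, hT, hl⟩ := ih.2 ⟨k, hk⟩
        exact ⟨T, List.mem_cons_of_mem _ hT, hl⟩

theorem sum_lgG {M : Type*} [AddCommMonoid M] (φ : LG × ℝ × ℝ → M) : ∀ (τ : Shape) (ℓ : LG)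
    (p : PD τ) (h : ℝ), ∑ k : LI τ, φ (lgG Φ τ ℓ p h k) = ((glegs Φ τ ℓ p h).map φ).sum
  | .leaf, ℓ, p, h => by
    have e1 : ∑ k : LI .leaf, φ (lgG Φ .leaf ℓ p h k) = φ (ℓ, 0, h) :=
      Fintype.sum_unique (fun k : Unit => φ (lgG Φ .leaf ℓ p h k))
    rw [e1]
    simp [glegs]
  | .node a b, ℓ, p, h => by
    have e1 : ∑ k : LI (.node a b), φ (lgG Φ (.node a b) ℓ p h k) =
        ∑ k : LI a, φ (lgG Φ a (inG1 Φ ℓ p.1) p.2.1 p.1.1 k) +
          (∑ k : LI b, φ (lgG Φ b (inG2 Φ ℓ p.1) p.2.2 p.1.1 k) + φ (ℓ, p.1.1, h)) := by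
      refine (Fintype.sum_sum_type (fun k : LI a ⊕ (LI b ⊕ Unit) =>
        φ (lgG Φ (.node a b) ℓ p h k))).trans ?_
      congr 1
      refine (Fintype.sum_sum_type (fun k : LI b ⊕ Unit =>
        φ (lgG Φ (.node a b) ℓ p h (.inr k)))).trans ?_
      congr 1
      exact Fintype.sum_unique (fun k : Unit => φ (lgG Φ (.node a b) ℓ p h (.inr (.inr k))))
    rw [e1, sum_lgG φ a, sum_lgG φ b]
    have e2 : glegs Φ (.node a b) ℓ p h = glegs Φ a (inG1 Φ ℓ p.1) p.2.1 p.1.1 ++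
      glegs Φ b (inG2 Φ ℓ p.1) p.2.2 p.1.1 ++ [(ℓ, p.1.1, h)] := rfl
    rw [e2, List.map_append, List.map_append, List.sum_append, List.sum_append, List.map_singleton,
      List.sum_singleton, add_assoc]

/-- Sums over the legs. -/
theorem sum_lgF {M : Type*} [AddCommMonoid M] (φ : LG × ℝ × ℝ → M) (h : ℝ) : ∀ F : List TG,
    ∑ k : KI F, φ (lgF Φ F h k) = ((flegs Φ F h).map φ).sum
  | [] => by
    have e1 : ∑ k : KI [], φ (lgF Φ [] h k) = 0 :=
      Finset.sum_eq_zero fun k _ => k.elim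
    rw [e1]
    simp [flegs]
  | G :: F => by
    have e1 : ∑ k : KI (G :: F), φ (lgF Φ (G :: F) h k) =
        ∑ k : LI G.τ, φ (lgG Φ G.τ G.ℓ G.p h k) + ∑ k : KI F, φ (lgF Φ F h k) :=
      Fintype.sum_sum_type (fun k : LI G.τ ⊕ KI F => φ (lgF Φ (G :: F) h k))
    have e2 : flegs Φ (G :: F) h = glegs Φ G.τ G.ℓ G.p h ++ flegs Φ F h := rfl
    rw [e1, sum_lgG, sum_lgF φ h F, e2, List.map_append, List.sum_append]

theorem lgG_mem : ∀ (τ : Shape) (ℓ : LG) (p : PD τ) (h : ℝ) (k : LI τ),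
    lgG Φ τ ℓ p h k ∈ glegs Φ τ ℓ p h
  | .leaf, ℓ, p, h, _ => List.mem_singleton_self _
  | .node a b, ℓ, p, h, k => by
    have e2 : glegs Φ (.node a b) ℓ p h = glegs Φ a (inG1 Φ ℓ p.1) p.2.1 p.1.1 ++
      glegs Φ b (inG2 Φ ℓ p.1) p.2.2 p.1.1 ++ [(ℓ, p.1.1, h)] := rfl
    rw [e2, List.mem_append, List.mem_append]
    rcases k with k | k | k
    · exact Or.inl (Or.inl (lgG_mem a _ _ _ k))
    · exact Or.inl (Or.inr (lgG_mem b _ _ _ k))
    · exact Or.inr (List.mem_singleton_self _)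

theorem lgF_mem (h : ℝ) : ∀ (F : List TG) (k : KI F), lgF Φ F h k ∈ flegs Φ F h
  | [], k => k.elim
  | G :: F, k => by
    have e2 : flegs Φ (G :: F) h = glegs Φ G.τ G.ℓ G.p h ++ flegs Φ F h := rfl
    rw [e2, List.mem_append]
    rcases k with k | k
    · exact Or.inl (lgG_mem _ _ _ _ k)
    · exact Or.inr (lgF_mem h F k)

theorem pairwise_lgG {R : LG × ℝ × ℝ → LG × ℝ × ℝ → Prop} (hR : ∀ x y, R x y → R y x) :
    ∀ (τ : Shape) (ℓ : LG) (p : PD τ) (h : ℝ), (glegs Φ τ ℓ p h).Pairwise R →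
      ∀ k k' : LI τ, k ≠ k' → R (lgG Φ τ ℓ p h k) (lgG Φ τ ℓ p h k')
  | .leaf, ℓ, p, h, _, k, k', hk => absurd (show k = k' from Subsingleton.elim (α := Unit) k k') hk
  | .node a b, ℓ, p, h, hp, k, k', hk => by
    have e2 : glegs Φ (.node a b) ℓ p h = glegs Φ a (inG1 Φ ℓ p.1) p.2.1 p.1.1 ++
      glegs Φ b (inG2 Φ ℓ p.1) p.2.2 p.1.1 ++ [(ℓ, p.1.1, h)] := rfl
    rw [e2, List.pairwise_append, List.pairwise_append] at hp
    obtain ⟨⟨h1, h2, h3⟩, -, h4⟩ := hp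
    rcases k with k | k | k <;> rcases k' with k' | k' | k'
    · exact pairwise_lgG hR a _ _ _ h1 k k' fun h5 => hk (by rw [h5])
    · exact h3 _ (lgG_mem a _ _ _ k) _ (lgG_mem b _ _ _ k')
    · exact h4 _ (List.mem_append_left _ (lgG_mem a _ _ _ k)) _ (List.mem_singleton_self _)
    · exact hR _ _ (h3 _ (lgG_mem a _ _ _ k') _ (lgG_mem b _ _ _ k))
    · exact pairwise_lgG hR b _ _ _ h2 k k' fun h5 => hk (by rw [h5])
    · exact h4 _ (List.mem_append_right _ (lgG_mem b _ _ _ k)) _ (List.mem_singleton_self _)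
    · exact hR _ _ (h4 _ (List.mem_append_left _ (lgG_mem a _ _ _ k')) _
        (List.mem_singleton_self _))
    · exact hR _ _ (h4 _ (List.mem_append_right _ (lgG_mem b _ _ _ k')) _
        (List.mem_singleton_self _))
    · exact absurd rfl hk

/-- Pairs of legs. -/
theorem pairwise_lgF {R : LG × ℝ × ℝ → LG × ℝ × ℝ → Prop} (hR : ∀ x y, R x y → R y x) (h : ℝ) :
    ∀ F : List TG, (flegs Φ F h).Pairwise R →
      ∀ k k' : KI F, k ≠ k' → R (lgF Φ F h k) (lgF Φ F h k')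
  | [], _, k, _, _ => k.elim
  | G :: F, hp, k, k', hk => by
    have e2 : flegs Φ (G :: F) h = glegs Φ G.τ G.ℓ G.p h ++ flegs Φ F h := rfl
    rw [e2, List.pairwise_append] at hp
    obtain ⟨h1, h2, h3⟩ := hp
    rcases k with k | k <;> rcases k' with k' | k'
    · exact pairwise_lgG hR _ _ _ _ h1 k k' fun h5 => hk (by rw [h5])
    · exact h3 _ (lgG_mem _ _ _ _ k) _ (lgF_mem h F k')
    · exact hR _ _ (h3 _ (lgG_mem _ _ _ _ k') _ (lgF_mem h F k))
    · exact pairwise_lgF hR h F h2 k k' fun h5 => hk (by rw [h5])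

/-! ### The legs at `ε` -/

theorem lg_line : ∀ (τ : Shape) (ℓ : LG) (p : PD τ) (t h : ℝ) (k : LI τ),
    (lg Φ ε τ (lat ε ℓ) p t k).1 = lat ε (lgG Φ τ ℓ p h k).1
  | .leaf, _, _, _, _, _ => rfl
  | .node a b, ℓ, p, t, h, k => by
    rcases k with k | k | k
    · have h1 := lg_line a (inG1 Φ ℓ p.1) p.2.1
        (min t (p.1.1 + ε * tin (inRel Φ (lat ε ℓ).2 p.1))) p.1.1 k
      have h2 : (inLines Φ ε (lat ε ℓ) p.1).1 = lat ε (inG1 Φ ℓ p.1) := by rw [inLines_lat]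
      rw [← h2] at h1
      exact h1
    · have h1 := lg_line b (inG2 Φ ℓ p.1) p.2.2
        (min t (p.1.1 + ε * tin (inRel Φ (lat ε ℓ).2 p.1))) p.1.1 k
      have h2 : (inLines Φ ε (lat ε ℓ) p.1).2 = lat ε (inG2 Φ ℓ p.1) := by rw [inLines_lat]
      rw [← h2] at h1
      exact h1
    · rfl

/-- The line of a leg at `ε`. -/
theorem lgE_line (t h : ℝ) : ∀ (F : List TG) (k : KI F),
    (lgE Φ ε F t k).1 = lat ε (lgF Φ F h k).1
  | [], k => k.elim
  | G :: F, k => by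
    rcases k with k | k
    · exact lg_line G.τ G.ℓ G.p t h k
    · exact lgE_line t h F k

theorem lg_zero_begin : ∀ (τ : Shape) (ℓ : LG) (L : Ph) (p : PD τ) (t h : ℝ) (k : LI τ),
    (lg Φ 0 τ L p t k).2.1 = (lgG Φ τ ℓ p h k).2.1
  | .leaf, _, _, _, _, _, _ => rfl
  | .node a b, ℓ, L, p, t, h, k => by
    rcases k with k | k | k
    · exact lg_zero_begin a _ _ _ _ _ k
    · exact lg_zero_begin b _ _ _ _ _ k
    · change p.1.1 + 0 * half (outRel L.2 p.1) = p.1.1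
      rw [zero_mul, add_zero]

/-- The node times are (weakly) ordered. -/
def ord0 : (τ : Shape) → PD τ → Prop
  | .leaf, _ => True
  | .node a b, p => (stm a p.2.1 ≤ p.1.1 ∧ stm b p.2.2 ≤ p.1.1) ∧ ord0 a p.2.1 ∧ ord0 b p.2.2

theorem lgG_end_le : ∀ (τ : Shape) (ℓ : LG) (p : PD τ) (h : ℝ) (k : LI τ), ord0 τ p →
    stm τ p ≤ h → (lgG Φ τ ℓ p h k).2.2 ≤ h
  | .leaf, _, _, _, _, _, _ => le_rfl
  | .node a b, ℓ, p, h, k, ho, hs => by
    rcases k with k | k | k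
    · exact (lgG_end_le a _ _ _ k ho.2.1 ho.1.1).trans hs
    · exact (lgG_end_le b _ _ _ k ho.2.2 ho.1.2).trans hs
    · exact le_rfl

theorem lg_zero_end : ∀ (τ : Shape) (ℓ : LG) (L : Ph) (p : PD τ) (t h : ℝ) (k : LI τ),
    ord0 τ p → t ≤ h → (lg Φ 0 τ L p t k).2.2 = min (lgG Φ τ ℓ p h k).2.2 t
  | .leaf, _, _, _, t, h, _, _, hth => (min_eq_right hth).symm
  | .node a b, ℓ, L, p, t, h, k, ho, hth => by
    have e1 : p.1.1 + 0 * tin (inRel Φ L.2 p.1) = p.1.1 := by rw [zero_mul, add_zero]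
    rcases k with k | k | k
    · change (lg Φ 0 a (inLines Φ 0 L p.1).1 p.2.1
        (min t (p.1.1 + 0 * tin (inRel Φ L.2 p.1))) k).2.2 =
          min (lgG Φ a (inG1 Φ ℓ p.1) p.2.1 p.1.1 k).2.2 t
      rw [e1, lg_zero_end a (inG1 Φ ℓ p.1) _ p.2.1 (min t p.1.1) p.1.1 k ho.2.1 (min_le_right _ _)]
      have h1 := lgG_end_le a (inG1 Φ ℓ p.1) p.2.1 p.1.1 k ho.2.1 ho.1.1 (Φ := Φ)
      rw [min_comm t, ← min_assoc, min_eq_left h1]
    · change (lg Φ 0 b (inLines Φ 0 L p.1).2 p.2.2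
        (min t (p.1.1 + 0 * tin (inRel Φ L.2 p.1))) k).2.2 =
          min (lgG Φ b (inG2 Φ ℓ p.1) p.2.2 p.1.1 k).2.2 t
      rw [e1, lg_zero_end b (inG2 Φ ℓ p.1) _ p.2.2 (min t p.1.1) p.1.1 k ho.2.2 (min_le_right _ _)]
      have h1 := lgG_end_le b (inG2 Φ ℓ p.1) p.2.2 p.1.1 k ho.2.2 ho.1.2 (Φ := Φ)
      rw [min_comm t, ← min_assoc, min_eq_left h1]
    · exact (min_eq_right hth).symm

/-- The node times of all the germs are (weakly) ordered. -/
def OrdF (F : List TG) : Prop := ∀ G ∈ F, ord0 G.τ G.p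

theorem lgE_zero (t : ℝ) : ∀ (F : List TG) (k : KI F), OrdF F →
    (lgE Φ 0 F t k).2.1 = (lgF Φ F t k).2.1 ∧
      (lgE Φ 0 F t k).2.2 = min (lgF Φ F t k).2.2 t
  | [], k, _ => k.elim
  | G :: F, k, ho => by
    rcases k with k | k
    · exact ⟨lg_zero_begin _ _ _ _ _ _ _, lg_zero_end _ _ _ _ _ _ _ (ho G (by simp)) le_rfl⟩
    · exact lgE_zero t F k fun G' hG' => ho G' (by simp [hG'])

theorem lgE_end_le (t : ℝ) : ∀ (F : List TG) (k : KI F), (lgE Φ ε F t k).2.2 ≤ t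
  | [], k => k.elim
  | G :: F, k => by
    rcases k with k | k
    · exact lg_end_le ε G.τ _ _ _ k
    · exact lgE_end_le t F k

section Limits

variable {ι : Type*} {l : Filter ι} {εs : ι → ℝ}

/-- Convergence of the times of the legs. -/
theorem tendsto_lgE (hε : Tendsto εs l (𝓝 0)) (t : ℝ) : ∀ (F : List TG) (k : KI F),
    Tendsto (fun i => (lgE Φ (εs i) F t k).2.1) l (𝓝 (lgE Φ 0 F t k).2.1) ∧
      Tendsto (fun i => (lgE Φ (εs i) F t k).2.2) l (𝓝 (lgE Φ 0 F t k).2.2)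
  | [], k => k.elim
  | G :: F, k => by
    rcases k with k | k
    · have h1 : Tendsto (fun i => (lat (εs i) G.ℓ).1) l (𝓝 (lat 0 G.ℓ).1) := by
        simp only [lat_fst]
        exact (hε.smul_const _).const_add _
      exact (tendsto_lg (Φ := Φ) hε G.τ G.p k (Ls := fun i => lat (εs i) G.ℓ) (L := lat 0 G.ℓ)
        (fun i => rfl) h1 (tendsto_const_nhds (x := t))).2
    · exact tendsto_lgE hε t F k

end Limits

/-- The node times are ordered if the conditions on the times hold for arbitrarily small `ε`. -/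
theorem ord0_of_tok {ι : Type*} {l : Filter ι} [l.NeBot] {εs : ι → ℝ}
    (hε : Tendsto εs l (𝓝 0)) : ∀ (τ : Shape) (v : E3) (p : PD τ),
    (∀ᶠ i in l, tok Φ (εs i) τ v p) → ord0 τ p
  | .leaf, _, _, _ => trivial
  | .node a b, v, p, h => by
    have h1 : Tendsto (fun i => p.1.1 + εs i * tin (inRel Φ v p.1)) l (𝓝 p.1.1) := by
      have h := (hε.mul_const (tin (inRel Φ v p.1))).const_add p.1.1
      rw [zero_mul, add_zero] at h
      exact h
    refine ⟨⟨?_, ?_⟩, ?_, ?_⟩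
    · exact le_of_tendsto_of_tendsto (tendsto_ex hε a (inVel Φ v p.1).1 p.2.1) h1
        (h.mono fun i hi => hi.2.1.le)
    · exact le_of_tendsto_of_tendsto (tendsto_ex hε b (inVel Φ v p.1).2 p.2.2) h1
        (h.mono fun i hi => hi.2.2.le)
    · exact ord0_of_tok hε a _ _ (h.mono fun i hi => hi.1.1)
    · exact ord0_of_tok hε b _ _ (h.mono fun i hi => hi.1.2)

end Vale.Agent.P119.ML
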