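import Vale.Agent.P119.ML.Ftc
import Vale.Agent.P119.ML.Germ
import Vale.Agent.P119.KT.HitConv
import Vale.Agent.P119.KE.Shapes

/-!
# P119, block ML (`helper388`): the limit of the survival probability of a forest

* `rho R Φ F h r`: the sum of the rates `R` of the legs of `F` at the time `r`;
* `sv R Φ F t = exp (-∫_0^t rho)`; `sv_cons`, `sv_append`; `sv_singleton`: the product over the
  legs (`KE.legW`) for ordered germs;
* `measurable_sv_hit`.
-/

open MeasureTheory Filter Topology Set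
open scoped ENNReal NNReal

noncomputable section

namespace Vale.Agent.P119.ML

open KU M CTree KT KE

variable {Φ : E3 → ℝ} {R : Ph → ℝ → ℝ≥0∞}

/-- The sum of the rates of the legs at the time `r`. -/
def rleg (R : Ph → ℝ → ℝ≥0∞) (r : ℝ) (x : LG × ℝ × ℝ) : ℝ≥0∞ :=
  (Ioc x.2.1 x.2.2).indicator (R x.1.1) r

/-- The sum of the rates of the legs of a germ. -/
def grate (R : Ph → ℝ → ℝ≥0∞) (Φ : E3 → ℝ) (τ : Shape) (ℓ : LG) (p : PD τ) (h r : ℝ) : ℝ≥0∞ :=
  ((glegs Φ τ ℓ p h).map (rleg R r)).sum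

/-- The sum of the rates of the legs of a forest. -/
def rho (R : Ph → ℝ → ℝ≥0∞) (Φ : E3 → ℝ) (F : List TG) (h r : ℝ) : ℝ≥0∞ :=
  ((flegs Φ F h).map (rleg R r)).sum

/-- The limit of the survival probability. -/
def sv (R : Ph → ℝ → ℝ≥0∞) (Φ : E3 → ℝ) (F : List TG) (t : ℝ) : ℝ≥0∞ :=
  en (∫⁻ r in Ioc 0 t, rho R Φ F t r)

theorem grate_leaf (ℓ : LG) (p : PD .leaf) (h r : ℝ) :
    grate R Φ .leaf ℓ p h r = rleg R r (ℓ, 0, h) := by
  unfold grate glegs
  rw [List.map_singleton, List.sum_singleton]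

theorem grate_node (a b : Shape) (ℓ : LG) (p : PD (.node a b)) (h r : ℝ) :
    grate R Φ (.node a b) ℓ p h r =
      grate R Φ a (inG1 Φ ℓ p.1) p.2.1 p.1.1 r + grate R Φ b (inG2 Φ ℓ p.1) p.2.2 p.1.1 r +
        rleg R r (ℓ, p.1.1, h) := by
  unfold grate
  rw [glegs, List.map_append, List.map_append, List.sum_append, List.sum_append, List.map_singleton,
    List.sum_singleton]

theorem rho_nil (h r : ℝ) : rho R Φ [] h r = 0 := rfl

theorem rho_cons (G : TG) (F : List TG) (h r : ℝ) :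
    rho R Φ (G :: F) h r = grate R Φ G.τ G.ℓ G.p h r + rho R Φ F h r := by
  unfold rho grate
  have h1 : flegs Φ (G :: F) h = G.legs Φ h ++ flegs Φ F h := List.flatMap_cons
  rw [h1, List.map_append, List.sum_append]
  rfl

theorem rho_append (F F' : List TG) (h r : ℝ) :
    rho R Φ (F ++ F') h r = rho R Φ F h r + rho R Φ F' h r := by
  induction F with
  | nil => rw [List.nil_append, rho_nil, zero_add]
  | cons G F ih => rw [List.cons_append, rho_cons, rho_cons, ih, add_assoc]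

/-! ### Measurability -/

theorem hl_zero_apply (ℓ : Ph) (q : ND) : hl 0 ℓ q = (ℓ.1 + q.1 • (ℓ.2 - q.2.1), q.2.1) := by
  ext1
  · rw [hl_fst, zero_smul, add_zero]
  · rw [hl_snd]

theorem measurable_hG' : Measurable fun x : LG × ND => hG x.1 x.2 := by
  have h1 : Measurable fun x : LG × ND => outRel x.1.1.2 x.2 :=
    measurable_outRel.comp (by fun_prop : Measurable fun x : LG × ND => (x.1.1.2, x.2))
  have h2 : Measurable fun x : LG × ND => half (outRel x.1.1.2 x.2) := measurable_half.comp h1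
  have h3 : Measurable fun x : LG × ND => x.1.1.2 - x.2.2.1 := by fun_prop
  have h4 : Measurable fun x : LG × ND => hl 0 x.1.1 x.2 := by
    have h5 : (fun x : LG × ND => hl 0 x.1.1 x.2) =
        fun x : LG × ND => (x.1.1.1 + x.2.1 • (x.1.1.2 - x.2.2.1), x.2.2.1) := by
      funext x
      exact hl_zero_apply _ _
    rw [h5]
    fun_prop
  exact h4.prodMk ((by fun_prop : Measurable fun x : LG × ND => x.1.2).add
    ((h2.smul h3).sub h1.fst))

theorem measurable_inG1 (hΦ : IsPotential Φ) : Measurable fun x : LG × ND => inG1 Φ x.1 x.2 := by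
  have h0 : Measurable fun x : LG × ND => (x.1.1.2, x.2) := by fun_prop
  have h1 := measurable_outRel.comp h0
  have h2 := (measurable_inRel hΦ).comp h0
  have h3 := (measurable_inLines hΦ 0).comp
    (by fun_prop : Measurable fun x : LG × ND => (x.1.1, x.2))
  exact h3.fst.prodMk ((by fun_prop : Measurable fun x : LG × ND => x.1.2).add
    ((h2.fst.sub h1.fst).const_smul (1 / 2 : ℝ)))

theorem measurable_inG2 (hΦ : IsPotential Φ) : Measurable fun x : LG × ND => inG2 Φ x.1 x.2 := by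
  have h0 : Measurable fun x : LG × ND => (x.1.1.2, x.2) := by fun_prop
  have h1 := measurable_outRel.comp h0
  have h2 := (measurable_inRel hΦ).comp h0
  have h3 := (measurable_inLines hΦ 0).comp
    (by fun_prop : Measurable fun x : LG × ND => (x.1.1, x.2))
  exact h3.snd.prodMk ((by fun_prop : Measurable fun x : LG × ND => x.1.2).sub
    ((h2.fst.add h1.fst).const_smul (1 / 2 : ℝ)))

theorem measurable_rleg (hR : Measurable fun x : Ph × ℝ => R x.1 x.2) :
    Measurable fun x : (LG × ℝ × ℝ) × ℝ => rleg R x.2 x.1 := by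
  have h1 : MeasurableSet {x : (LG × ℝ × ℝ) × ℝ | x.1.2.1 < x.2 ∧ x.2 ≤ x.1.2.2} := by
    have e1 : Measurable fun x : (LG × ℝ × ℝ) × ℝ => x.1.2.1 := by fun_prop
    have e2 : Measurable fun x : (LG × ℝ × ℝ) × ℝ => x.2 := by fun_prop
    have e3 : Measurable fun x : (LG × ℝ × ℝ) × ℝ => x.1.2.2 := by fun_prop
    exact (measurableSet_lt e1 e2).inter (measurableSet_le e2 e3)
  have h2 : (fun x : (LG × ℝ × ℝ) × ℝ => rleg R x.2 x.1) =
      {x : (LG × ℝ × ℝ) × ℝ | x.1.2.1 < x.2 ∧ x.2 ≤ x.1.2.2}.indicator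
        fun x => R x.1.1.1 x.2 := by
    funext x
    unfold rleg
    by_cases h : x.1.2.1 < x.2 ∧ x.2 ≤ x.1.2.2
    · rw [indicator_of_mem (by exact h), indicator_of_mem (by exact h)]
    · rw [indicator_of_notMem (by exact h), indicator_of_notMem (by exact h)]
  rw [h2]
  exact (hR.comp (by fun_prop : Measurable fun x : (LG × ℝ × ℝ) × ℝ => (x.1.1.1, x.2))).indicator h1

theorem measurable_grate (hΦ : IsPotential Φ) (hR : Measurable fun x : Ph × ℝ => R x.1 x.2) :
    ∀ τ : Shape, Measurable fun x : (LG × PD τ) × ℝ × ℝ =>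
      grate R Φ τ x.1.1 x.1.2 x.2.1 x.2.2
  | .leaf => by
    simp only [grate_leaf]
    exact (measurable_rleg hR).comp
      (by fun_prop : Measurable fun x : (LG × Unit) × ℝ × ℝ => ((x.1.1, (0 : ℝ), x.2.1), x.2.2))
  | .node a b => by
    have ha := measurable_grate hΦ hR a
    have hb := measurable_grate hΦ hR b
    have h0 : Measurable fun x : (LG × (ND × PD a × PD b)) × ℝ × ℝ => (x.1.1, x.1.2.1) := by
      fun_prop
    have h1 := (measurable_inG1 hΦ).comp h0
    have h2 := (measurable_inG2 hΦ).comp h0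
    have h3 : Measurable fun x : (LG × (ND × PD a × PD b)) × ℝ × ℝ =>
        grate R Φ a (inG1 Φ x.1.1 x.1.2.1) x.1.2.2.1 x.1.2.1.1 x.2.2 :=
      ha.comp ((h1.prodMk (by fun_prop : Measurable fun x :
        (LG × (ND × PD a × PD b)) × ℝ × ℝ => x.1.2.2.1)).prodMk
        (by fun_prop : Measurable fun x : (LG × (ND × PD a × PD b)) × ℝ × ℝ =>
          (x.1.2.1.1, x.2.2)))
    have h4 : Measurable fun x : (LG × (ND × PD a × PD b)) × ℝ × ℝ =>
        grate R Φ b (inG2 Φ x.1.1 x.1.2.1) x.1.2.2.2 x.1.2.1.1 x.2.2 :=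
      hb.comp ((h2.prodMk (by fun_prop : Measurable fun x :
        (LG × (ND × PD a × PD b)) × ℝ × ℝ => x.1.2.2.2)).prodMk
        (by fun_prop : Measurable fun x : (LG × (ND × PD a × PD b)) × ℝ × ℝ =>
          (x.1.2.1.1, x.2.2)))
    have h5 : Measurable fun x : (LG × (ND × PD a × PD b)) × ℝ × ℝ =>
        rleg R x.2.2 (x.1.1, x.1.2.1.1, x.2.1) :=
      (measurable_rleg hR).comp (by fun_prop :
        Measurable fun x : (LG × (ND × PD a × PD b)) × ℝ × ℝ =>
          ((x.1.1, x.1.2.1.1, x.2.1), x.2.2))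
    have h6 := (h3.add h4).add h5
    simp only [grate_node]
    exact h6

theorem measurable_rho (hΦ : IsPotential Φ) (hR : Measurable fun x : Ph × ℝ => R x.1 x.2)
    (F : List TG) : Measurable fun x : ℝ × ℝ => rho R Φ F x.1 x.2 := by
  induction F with
  | nil => exact measurable_const
  | cons G F ih =>
    have h1 : Measurable fun x : ℝ × ℝ => grate R Φ G.τ G.ℓ G.p x.1 x.2 :=
      (measurable_grate hΦ hR G.τ).comp
        (by fun_prop : Measurable fun x : ℝ × ℝ => ((G.ℓ, G.p), x.1, x.2))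
    have h2 := h1.add ih
    simp only [rho_cons]
    exact h2

theorem measurable_lint_Ioc {X : Type*} [MeasurableSpace X] {f : X → ℝ → ℝ≥0∞}
    (hf : Measurable fun x : X × ℝ => f x.1 x.2) {s : X → ℝ} (hs : Measurable s) :
    Measurable fun x => ∫⁻ r in Ioc 0 (s x), f x r := by
  have h1 : MeasurableSet {x : X × ℝ | 0 < x.2 ∧ x.2 ≤ s x.1} :=
    (measurableSet_lt measurable_const measurable_snd).inter
      (measurableSet_le measurable_snd (hs.comp measurable_fst))
  have h2 := (hf.indicator h1).lintegral_prod_right' (ν := (volume : Measure ℝ))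
  have h3 : (fun x => ∫⁻ r in Ioc 0 (s x), f x r) = fun x => ∫⁻ r,
      {x : X × ℝ | 0 < x.2 ∧ x.2 ≤ s x.1}.indicator (fun x => f x.1 x.2) (x, r) := by
    funext x
    rw [← lintegral_indicator measurableSet_Ioc]
    refine lintegral_congr fun r => ?_
    by_cases h : 0 < r ∧ r ≤ s x
    · rw [indicator_of_mem (by exact h), indicator_of_mem (by exact h)]
    · rw [indicator_of_notMem (by exact h), indicator_of_notMem (by exact h)]
  rw [h3]
  exact h2

/-- Measurability in the parameters of the attached tree. -/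
theorem measurable_sv_hit (hΦ : IsPotential Φ) (hR : Measurable fun x : Ph × ℝ => R x.1 x.2)
    (F : List TG) (τ : Shape) : Measurable fun x : LG × (ND × PD τ) =>
      sv R Φ (TG.hit x.1 τ x.2.1 x.2.2 :: F) x.2.1.1 := by
  unfold sv
  refine measurable_en.comp ?_
  have h0 : Measurable fun x : (LG × (ND × PD τ)) × ℝ => hG x.1.1 x.1.2.1 :=
    measurable_hG'.comp (by fun_prop :
      Measurable fun x : (LG × (ND × PD τ)) × ℝ => (x.1.1, x.1.2.1))
  have h1 : Measurable fun x : (LG × (ND × PD τ)) × ℝ =>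
      rho R Φ (TG.hit x.1.1 τ x.1.2.1 x.1.2.2 :: F) x.1.2.1.1 x.2 := by
    simp only [rho_cons]
    refine Measurable.add ?_ ?_
    · exact (measurable_grate hΦ hR τ).comp ((h0.prodMk (by fun_prop :
        Measurable fun x : (LG × (ND × PD τ)) × ℝ => x.1.2.2)).prodMk (by fun_prop :
        Measurable fun x : (LG × (ND × PD τ)) × ℝ => (x.1.2.1.1, x.2)))
    · exact (measurable_rho hΦ hR F).comp (by fun_prop :
        Measurable fun x : (LG × (ND × PD τ)) × ℝ => (x.1.2.1.1, x.2))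
  exact measurable_lint_Ioc (f := fun (x : LG × (ND × PD τ)) r =>
    rho R Φ (TG.hit x.1 τ x.2.1 x.2.2 :: F) x.2.1.1 r) h1
    (by fun_prop : Measurable fun x : LG × (ND × PD τ) => x.2.1.1)

/-! ### Elementary properties -/

theorem rleg_congr {ℓ : LG} {a t h r : ℝ} (ht : r ≤ t) (hh : r ≤ h) :
    rleg R r (ℓ, a, t) = rleg R r (ℓ, a, h) := by
  unfold rleg
  by_cases h1 : a < r
  · rw [indicator_of_mem (show r ∈ Ioc a t from ⟨h1, ht⟩),
      indicator_of_mem (show r ∈ Ioc a h from ⟨h1, hh⟩)]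
  · rw [indicator_of_notMem (show r ∉ Ioc a t from fun h' => h1 h'.1),
      indicator_of_notMem (show r ∉ Ioc a h from fun h' => h1 h'.1)]

theorem grate_congr (τ : Shape) (ℓ : LG) (p : PD τ) {t h r : ℝ} (ht : r ≤ t) (hh : r ≤ h) :
    grate R Φ τ ℓ p t r = grate R Φ τ ℓ p h r := by
  cases τ with
  | leaf => rw [grate_leaf, grate_leaf, rleg_congr ht hh]
  | node a b => rw [grate_node, grate_node, rleg_congr ht hh]

theorem rho_congr (F : List TG) {t h r : ℝ} (ht : r ≤ t) (hh : r ≤ h) :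
    rho R Φ F t r = rho R Φ F h r := by
  induction F with
  | nil => rfl
  | cons G F ih => rw [rho_cons, rho_cons, ih, grate_congr _ _ _ ht hh]

theorem sv_nil (t : ℝ) : sv R Φ [] t = 1 := by
  unfold sv
  simp only [rho_nil, lintegral_zero, en_zero]

theorem sv_le_one (F : List TG) (t : ℝ) : sv R Φ F t ≤ 1 := en_le_one _

theorem sv_append (hΦ : IsPotential Φ) (hR : Measurable fun x : Ph × ℝ => R x.1 x.2)
    (F F' : List TG) (t : ℝ) : sv R Φ (F ++ F') t = sv R Φ F t * sv R Φ F' t := by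
  unfold sv
  have h1 : Measurable fun r : ℝ => rho R Φ F t r :=
    (measurable_rho hΦ hR F).comp (by fun_prop : Measurable fun r : ℝ => (t, r))
  simp only [rho_append]
  rw [lintegral_add_left h1, en_add]

theorem sv_cons (hΦ : IsPotential Φ) (hR : Measurable fun x : Ph × ℝ => R x.1 x.2)
    (G : TG) (F : List TG) (t : ℝ) : sv R Φ (G :: F) t = sv R Φ [G] t * sv R Φ F t :=
  sv_append hΦ hR [G] F t

theorem sv_eq (F : List TG) {t h : ℝ} (hth : t ≤ h) :
    sv R Φ F t = en (∫⁻ r in Ioc 0 t, rho R Φ F h r) := by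
  unfold sv
  congr 1
  refine setLIntegral_congr_fun measurableSet_Ioc fun r hr => ?_
  exact rho_congr F hr.2 (hr.2.trans hth)

/-! ### Ordered germs -/

/-- The weight of a leg. -/
def lgR (R : Ph → ℝ → ℝ≥0∞) (s t : ℝ) (l : Ph) : ℝ≥0∞ := en (∫⁻ r in Ioc s t, R l r)

theorem legs_bounds : ∀ (τ : Shape) (ℓ : LG) (p : PD τ) (t : ℝ), 0 ≤ t → ordd τ t p →
    ∀ x ∈ glegs Φ τ ℓ p t, 0 ≤ x.2.1 ∧ x.2.1 ≤ x.2.2 ∧ x.2.2 ≤ t
  | .leaf, ℓ, p, t, ht, _, x, hx => by
    rw [List.mem_singleton.1 hx]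
    exact ⟨le_rfl, ht, le_rfl⟩
  | .node a b, ℓ, p, t, ht, h, x, hx => by
    obtain ⟨h1, h2, h3⟩ := h
    rw [glegs, List.mem_append, List.mem_append, List.mem_singleton] at hx
    rcases hx with (hx | hx) | hx
    · have h4 := legs_bounds a _ _ _ h1.1.le h2 x hx
      exact ⟨h4.1, h4.2.1, h4.2.2.trans h1.2⟩
    · have h4 := legs_bounds b _ _ _ h1.1.le h3 x hx
      exact ⟨h4.1, h4.2.1, h4.2.2.trans h1.2⟩
    · rw [hx]
      exact ⟨h1.1.le, h1.2, le_rfl⟩

theorem prod_legs (lg : ℝ → ℝ → Ph → ℝ≥0∞) : ∀ (τ : Shape) (ℓ : LG) (p : PD τ) (t : ℝ),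
    ((glegs Φ τ ℓ p t).map fun x => lg x.2.1 x.2.2 x.1.1).prod = legW Φ lg τ t ℓ.1 p
  | .leaf, ℓ, p, t => by
    rw [glegs, List.map_singleton, List.prod_singleton]
    rfl
  | .node a b, ℓ, p, t => by
    rw [glegs, List.map_append, List.map_append, List.prod_append, List.prod_append,
      prod_legs lg a, prod_legs lg b, List.map_singleton, List.prod_singleton]
    have e1 : (inG1 Φ ℓ p.1).1 = (inLines Φ 0 ℓ.1 p.1).1 := rfl
    have e2 : (inG2 Φ ℓ p.1).1 = (inLines Φ 0 ℓ.1 p.1).2 := rfl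
    rw [e1, e2]
    change _ = lg p.1.1 t ℓ.1 * (legW Φ lg a p.1.1 (inLines Φ 0 ℓ.1 p.1).1 p.2.1 *
      legW Φ lg b p.1.1 (inLines Φ 0 ℓ.1 p.1).2 p.2.2)
    ring

theorem lint_rleg {t : ℝ} {x : LG × ℝ × ℝ} (h0 : 0 ≤ x.2.1) (ht : x.2.2 ≤ t) :
    ∫⁻ r in Ioc 0 t, rleg R r x = ∫⁻ r in Ioc x.2.1 x.2.2, R x.1.1 r := by
  unfold rleg
  rw [← lintegral_indicator measurableSet_Ioc, ← lintegral_indicator measurableSet_Ioc]
  refine lintegral_congr fun r => ?_
  by_cases h : r ∈ Ioc x.2.1 x.2.2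
  · rw [indicator_of_mem h, indicator_of_mem (show r ∈ Ioc 0 t from
      ⟨h0.trans_lt h.1, h.2.trans ht⟩), indicator_of_mem h]
  · rw [indicator_of_notMem h]
    by_cases h' : r ∈ Ioc 0 t
    · rw [indicator_of_mem h', indicator_of_notMem h]
    · rw [indicator_of_notMem h']

/-- The limit of the survival probability of an ordered germ is the product over the legs. -/
theorem sv_singleton (hR : Measurable fun x : Ph × ℝ => R x.1 x.2)
    (G : TG) {t : ℝ} (ht : 0 ≤ t) (ho : ordd G.τ t G.p) :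
    sv R Φ [G] t = legW Φ (lgR R) G.τ t G.ℓ.1 G.p := by
  rw [← prod_legs]
  unfold sv
  have hb := legs_bounds (Φ := Φ) G.τ G.ℓ G.p t ht ho
  have e : ∀ r, rho R Φ [G] t r = ((glegs Φ G.τ G.ℓ G.p t).map (rleg R r)).sum := fun r => by
    rw [rho_cons, rho_nil, add_zero]; rfl
  simp only [e]
  clear e
  generalize glegs Φ G.τ G.ℓ G.p t = l at hb
  induction l with
  | nil => simp [en_zero]
  | cons x l ih =>
    have h1 : Measurable fun r : ℝ => rleg R r x :=
      (measurable_rleg hR).comp (by fun_prop : Measurable fun r : ℝ => (x, r))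
    simp only [List.map_cons, List.sum_cons, List.prod_cons]
    rw [lintegral_add_left h1, en_add, ih fun y hy => hb y (List.mem_cons_of_mem _ hy)]
    have h2 := hb x List.mem_cons_self
    rw [lint_rleg h2.1 h2.2.2]
    rfl

end Vale.Agent.P119.ML
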