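import Vale.Agent.P119.ML.Att

/-!
# P119, block ML (`helper388`): the limit equation

* `limit_eq`: `sv F t + ∫_{attachments before t} sv (G :: F) = 1`.
-/

open MeasureTheory Filter Topology Set
open scoped ENNReal NNReal

noncomputable section

namespace Vale.Agent.P119.ML

open KU M CTree KT KE

variable {Φ : E3 → ℝ} {hΦ : IsPotential Φ} {f₀ : Ph → ℝ}
  {m₀ : Measurable fun p : E3 × E3 => K1.f0hat f₀ p.1 p.2} {T : ℝ} {f : ℝ → Ph → ℝ}
  (K : KinFamily hΦ f₀ m₀ T f)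

theorem measurable_sv {R : Ph → ℝ → ℝ≥0∞} (hΦ : IsPotential Φ)
    (hR : Measurable fun x : Ph × ℝ => R x.1 x.2) (F : List TG) :
    Measurable fun s => sv R Φ F s := by
  unfold sv
  exact measurable_en.comp (measurable_lint_Ioc (f := fun s r => rho R Φ F s r)
    ((measurable_rho hΦ hR F).comp (by fun_prop)) measurable_id)

theorem measurable_sv_AP {R : Ph → ℝ → ℝ≥0∞} (hΦ : IsPotential Φ)
    (hR : Measurable fun x : Ph × ℝ => R x.1 x.2) (F : List TG) :
    Measurable fun q : AP => sv R Φ (q.tg :: F) q.tm :=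
  measurable_of_sigma fun τ => measurable_sv_hit hΦ hR F τ

theorem Ioc_inter_eq (a b t : ℝ) : Ioc (max a 0) (min b t) = Ioc 0 t ∩ Ioc a b := by
  ext r
  simp only [mem_Ioc, mem_inter_iff, max_lt_iff, le_min_iff]
  tauto

/-- The hits of one leg before `t`, weighted by the survival. -/
theorem leg_rate {L : ℕ} (hL : K.L₀ ≤ L + 1) (x : LG × ℝ × ℝ) {t : ℝ} (ht : t ≤ T)
    {φ : ℝ → ℝ≥0∞} (hφ : Measurable φ) :
    ∑ τ ∈ shapes L, ∫⁻ y, regw (g₀ f₀) Φ 0 τ x.1.1 (max x.2.1 0) (min x.2.2 t) y *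
        (sv (rt K L) Φ [TG.hit x.1 τ y.1 y.2] y.1.1 * φ y.1.1) ∂(nvol.prod (pvol τ)) =
      ∫⁻ s in Ioc 0 t, rleg (rt K L) s x * φ s := by
  rw [hit_rate K hL x.1 (le_max_right _ _) ((min_le_right _ _).trans ht) hφ,
    setLIntegral_congr Ico_ae_eq_Ioc, Ioc_inter_eq, ← lintegral_indicator
      (measurableSet_Ioc.inter measurableSet_Ioc), ← lintegral_indicator measurableSet_Ioc]
  refine lintegral_congr fun s => ?_
  unfold rleg
  by_cases h1 : s ∈ Ioc 0 t
  · by_cases h2 : s ∈ Ioc x.2.1 x.2.2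
    · rw [indicator_of_mem (show s ∈ Ioc 0 t ∩ Ioc x.2.1 x.2.2 from ⟨h1, h2⟩),
        indicator_of_mem h1, indicator_of_mem h2]
    · rw [indicator_of_notMem (fun h => h2 h.2), indicator_of_mem h1, indicator_of_notMem h2,
        zero_mul]
  · rw [indicator_of_notMem (fun h => h1 h.1), indicator_of_notMem h1]

theorem rho_le {L : ℕ} (hL : K.L₀ ≤ L + 1) (F : List TG) (h : ℝ) : ∃ C : ℝ, ∀ r ∈ Icc 0 T,
    rho (rt K L) Φ F h r ≤ ENNReal.ofReal C := by
  unfold rho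
  induction flegs Φ F h with
  | nil => exact ⟨0, fun r _ => by simp⟩
  | cons x l ih =>
    obtain ⟨C, hC⟩ := ih
    refine ⟨max (K.M * ((K1.collOf hΦ).R K.b * (1 + ‖x.1.1.2‖))) 0 + max C 0, fun r hr => ?_⟩
    rw [List.map_cons, List.sum_cons, ENNReal.ofReal_add (le_max_right _ _) (le_max_right _ _)]
    refine add_le_add ?_ ((hC r hr).trans (ENNReal.ofReal_le_ofReal (le_max_left _ _)))
    unfold rleg
    by_cases h1 : r ∈ Ioc x.2.1 x.2.2
    · rw [indicator_of_mem h1]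
      exact (rt_le K hL _ hr).trans (ENNReal.ofReal_le_ofReal (le_max_left _ _))
    · rw [indicator_of_notMem h1]
      exact zero_le

/-- **The limit equation.** -/
theorem limit_eq (hf : Measurable f₀) {L : ℕ} (hL : K.L₀ ≤ L + 1) (F : List TG) {t h : ℝ}
    (h0 : 0 ≤ t) (hth : t ≤ h) (hT : t ≤ T) :
    sv (rt K L) Φ F t + ∫⁻ q in {q : AP | 0 ≤ q.tm ∧ q.tm < t},
      sv (rt K L) Φ (q.tg :: F) q.tm ∂(WF (g₀ f₀) Φ L F h) = 1 := by
  have hR := measurable_rt K L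
  have mg : Measurable (g₀ f₀) := hf.ennreal_ofReal
  rw [lintegral_WF_slab hΦ mg F le_rfl hth (measurable_sv_AP hΦ hR F)]
  have msv := measurable_sv hΦ hR F
  have e1 : ∀ x : LG × ℝ × ℝ, ∑ τ ∈ shapes L,
      ∫⁻ y, regw (g₀ f₀) Φ 0 τ x.1.1 (max x.2.1 0) (min x.2.2 t) y *
        sv (rt K L) Φ (AP.tg ⟨τ, x.1, y⟩ :: F) (AP.tm ⟨τ, x.1, y⟩) ∂(nvol.prod (pvol τ)) =
      ∫⁻ s in Ioc 0 t, rleg (rt K L) s x * sv (rt K L) Φ F s := by
    intro x
    rw [← leg_rate K hL x hT msv]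
    refine Finset.sum_congr rfl fun τ _ => lintegral_congr fun y => ?_
    rw [sv_cons hΦ hR]
    rfl
  have e2 : ((flegs Φ F h).map fun x => ∑ τ ∈ shapes L,
      ∫⁻ y, regw (g₀ f₀) Φ 0 τ x.1.1 (max x.2.1 0) (min x.2.2 t) y *
        sv (rt K L) Φ (AP.tg ⟨τ, x.1, y⟩ :: F) (AP.tm ⟨τ, x.1, y⟩)
          ∂(nvol.prod (pvol τ))).sum =
      ∫⁻ s in Ioc 0 t, rho (rt K L) Φ F h s * sv (rt K L) Φ F s := by
    simp only [e1]
    unfold rho
    induction flegs Φ F h with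
    | nil => simp
    | cons x l ih =>
      have m1 : Measurable fun s : ℝ => rleg (rt K L) s x :=
        (measurable_rleg hR).comp (by fun_prop : Measurable fun s : ℝ => (x, s))
      simp only [List.map_cons, List.sum_cons]
      have m2 : Measurable fun s : ℝ => rleg (rt K L) s x * sv (rt K L) Φ F s := m1.mul msv
      rw [ih, ← lintegral_add_left m2]
      refine lintegral_congr fun s => ?_
      rw [add_mul]
  rw [e2]
  have mrho : Measurable fun r : ℝ => rho (rt K L) Φ F h r :=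
    (measurable_rho hΦ hR F).comp (by fun_prop : Measurable fun r : ℝ => (h, r))
  have hfin : ∫⁻ s in Ioc 0 t, rho (rt K L) Φ F h s ≠ ∞ := by
    obtain ⟨C, hC⟩ := rho_le K hL F h
    have h1 : ∫⁻ s in Ioc 0 t, rho (rt K L) Φ F h s ≤ ∫⁻ _ in Ioc 0 t, ENNReal.ofReal C :=
      setLIntegral_mono measurable_const fun s hs => hC s ⟨hs.1.le, hs.2.trans hT⟩
    refine ne_top_of_le_ne_top ?_ h1
    rw [setLIntegral_const, Real.volume_Ioc]
    exact ENNReal.mul_ne_top ENNReal.ofReal_ne_top ENNReal.ofReal_ne_top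
  have h1 := lintegral_en_add mrho h0 hfin
  rw [add_comm, sv_eq F hth]
  refine Eq.trans ?_ h1
  congr 1
  refine setLIntegral_congr_fun measurableSet_Ioc fun s hs => ?_
  rw [sv_eq F (hs.2.trans hth)]

end Vale.Agent.P119.ML
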