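import Vale.Agent.P119.ML.InNdMain
import Vale.Agent.P119.ML.InRGen
import Vale.Agent.P119.KT.GenHit

/-!
# P119, block ML (In-nd, `helper67`): generic pairs of nodes with the same root line

* `ae_nV_ne`: the incoming velocities are different from a given velocity;
* `ae_cross`: two subtrees of two different nodes;
* `ae_ndGen1`, `ae_ndGen2`: the germs of one and of two nodes form a generic forest;
* `ndIn_of_sv`: **the inputs of In-nd** from the second moment limits of generic forests.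
-/

open MeasureTheory Filter Topology Set
open scoped ENNReal NNReal

noncomputable section

namespace Vale.Agent.P119.Cap

open KU M KT ML KE

variable {Φ : E3 → ℝ} {ε : ℝ} {f₀ : Ph → ℝ} {a b : Shape} {t : ℝ} {l : Ph} {L : ℕ} {Tm : ℝ}

/-! ### Velocities -/

theorem ae_inner_ne {x : E3} (hx : x ≠ 0) (c : E3) : ∀ᵐ w : E3, inner ℝ x (c - w) ≠ (0 : ℝ) := by
  have h1 : (volume : Measure E3) ((ℝ ∙ x)ᗮ : Submodule ℝ E3) = 0 := by
    refine Measure.addHaar_submodule _ _ fun h => hx ?_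
    have h2 : x ∈ ((ℝ ∙ x)ᗮ : Submodule ℝ E3) := by rw [h]; exact Submodule.mem_top
    have h3 := (Submodule.mem_orthogonal_singleton_iff_inner_right.1 h2)
    exact inner_self_eq_zero.1 h3
  have h2 : ∀ᵐ w : E3, w ∉ ((ℝ ∙ x)ᗮ : Submodule ℝ E3) :=
    measure_eq_zero_iff_ae_notMem.1 h1
  have h3 : MeasurePreserving (fun w : E3 => c - w) volume volume :=
    Measure.measurePreserving_sub_left _ c
  filter_upwards [h3.quasiMeasurePreserving.ae h2] with w hw hcon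
  exact hw (Submodule.mem_orthogonal_singleton_iff_inner_right.2 hcon)

theorem nV_ne_of_inner (hΦ : IsPotential Φ) {v c : E3} {y : E3 × E2}
    (h : inner ℝ (c - v) (c - y.1) ≠ (0 : ℝ)) : (nV Φ v y).1 ≠ c ∧ (nV Φ v y).2 ≠ c := by
  have h1 := inVel_sum (Φ := Φ) v ((0 : ℝ), y)
  have h2 := inVel_energy hΦ v ((0 : ℝ), y)
  change (nV Φ v y).1 + (nV Φ v y).2 = v + y.1 at h1
  change ‖(nV Φ v y).1‖ ^ 2 + ‖(nV Φ v y).2‖ ^ 2 = ‖v‖ ^ 2 + ‖y.1‖ ^ 2 at h2
  have key : ∀ p q : E3, p + q = v + y.1 → ‖p‖ ^ 2 + ‖q‖ ^ 2 = ‖v‖ ^ 2 + ‖y.1‖ ^ 2 → p ≠ c := by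
    intro p q h3 h4 h5
    refine h ?_
    have h6 : q = v + y.1 - c := by rw [← h5, ← h3]; abel
    rw [h5, h6] at h4
    simp only [← real_inner_self_eq_norm_sq] at h4
    simp only [inner_sub_left, inner_sub_right, inner_add_left, inner_add_right] at h4 ⊢
    have e1 := real_inner_comm v y.1
    have e2 := real_inner_comm v c
    have e3 := real_inner_comm y.1 c
    linarith
  exact ⟨key _ _ h1 h2, key _ _ (by rw [add_comm]; exact h1) (by rw [add_comm]; exact h2)⟩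

/-- **The incoming velocities are different from a given velocity.** -/
theorem ae_nV_ne (hΦ : IsPotential Φ) {v c : E3} (h : v ≠ c) :
    ∀ᵐ y ∂yvol, (nV Φ v y).1 ≠ c ∧ (nV Φ v y).2 ≠ c := by
  unfold yvol
  refine ae_restrict_of_ae ?_
  have h1 : ∀ᵐ y : E3 × E2, inner ℝ (c - v) (c - y.1) ≠ (0 : ℝ) :=
    (Measure.quasiMeasurePreserving_fst (μ := (volume : Measure E3))
      (ν := (volume : Measure E2))).ae (ae_inner_ne (sub_ne_zero.2 h.symm) c)
  filter_upwards [h1] with y hy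
  exact nV_ne_of_inner hΦ hy

theorem dG_false_fst (t : ℝ) (l : Ph) (y : E3 × E2) :
    (dG Φ false l t y).1 = (nL Φ 0 t l y).1 := by rw [← lat_dG_false, lat_zero]

theorem dG_true_fst (t : ℝ) (l : Ph) (y : E3 × E2) :
    (dG Φ true l t y).1 = (nL Φ 0 t l y).2 := by rw [← lat_dG_true, lat_zero]

theorem dG_false_vel (t : ℝ) (l : Ph) (y : E3 × E2) :
    (dG Φ false l t y).1.2 = (nV Φ l.2 y).1 := by rw [dG_false_fst, (nL_snd t l y).1]

theorem dG_true_vel (t : ℝ) (l : Ph) (y : E3 × E2) :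
    (dG Φ true l t y).1.2 = (nV Φ l.2 y).2 := by rw [dG_true_fst, (nL_snd t l y).2]

theorem ae_dG_vel_ne (hΦ : IsPotential Φ) (t : ℝ) (l : Ph) {c : E3} (h : l.2 ≠ c) :
    ∀ᵐ y ∂yvol, ∀ k, (dG Φ k l t y).1.2 ≠ c := by
  filter_upwards [ae_nV_ne hΦ h] with y hy k
  cases k
  · rw [dG_false_vel]; exact hy.1
  · rw [dG_true_vel]; exact hy.2

theorem ndv_iff (t : ℝ) (l : Ph) (y : E3 × E2) :
    ndv Φ l.2 y ↔ ∀ k, l.2 ≠ (dG Φ k l t y).1.2 := by
  unfold ndv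
  constructor
  · rintro ⟨h1, h2⟩ (_ | _)
    · rw [dG_false_vel]; exact h1
    · rw [dG_true_vel]; exact h2
  · intro h
    have h1 := h false
    have h2 := h true
    rw [dG_false_vel] at h1
    rw [dG_true_vel] at h2
    exact ⟨h1, h2⟩

/-- The lines of the subtrees of two nodes with the same root line and exit time. -/
theorem ae_nm_cross (hΦ : IsPotential Φ) (t : ℝ) (l : Ph) (k k' : Bool) :
    ∀ᵐ y ∂yvol, ∀ᵐ y' ∂yvol, ndv Φ l.2 y → nm t (dG Φ k l t y).1 (dG Φ k' l t y').1 := by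
  refine Eventually.of_forall fun y => ?_
  by_cases h : ndv Φ l.2 y
  · filter_upwards [ae_dG_vel_ne hΦ t l ((ndv_iff t l y).1 h k)] with y' hy' _
    refine nm_of_meetAt ?_ (hy' k').symm
    unfold meetAt
    rw [free_dG, free_dG]
  · exact Eventually.of_forall fun y' h' => absurd h' h

/-- The lines of the two subtrees of a node. -/
theorem ae_nm_sib (hΦ : IsPotential Φ) (t : ℝ) (l : Ph) :
    ∀ᵐ y ∂yvol, nm t (dG Φ false l t y).1 (dG Φ true l t y).1 := by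
  have h1 : ∀ᵐ y ∂yvol, l.2 - y.1 ≠ 0 := by
    unfold yvol
    exact ae_restrict_of_ae ((Measure.quasiMeasurePreserving_fst (μ := (volume : Measure E3))
      (ν := (volume : Measure E2))).ae (ae_ne l.2))
  filter_upwards [h1] with y hy σ hσ hm
  rw [dG_false_fst, dG_true_fst, nL_zero] at hm
  exact hσ.ne (nev_inLines hΦ (q := (t, y)) hy hm)

/-! ### Pairs of subtrees -/

theorem ae_prodMap {P P' Q Q' : Type*} [MeasurableSpace P] [MeasurableSpace P']
    [MeasurableSpace Q] [MeasurableSpace Q'] {ν : Measure P} {ν' : Measure P'} {ρ : Measure Q}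
    {ρ' : Measure Q'} [SFinite ν] [SFinite ν'] [SFinite ρ] [SFinite ρ'] {π : P → Q} {π' : P' → Q'}
    (hπ : Measure.QuasiMeasurePreserving π ν ρ) (hπ' : Measure.QuasiMeasurePreserving π' ν' ρ')
    {S : Q × Q' → Prop} (hS : MeasurableSet {w | S w}) (h : ∀ᵐ w ∂(ρ.prod ρ'), S w) :
    ∀ᵐ z ∂(ν.prod ν'), S (π z.1, π' z.2) := by
  have mπ := hπ.measurable
  have mπ' := hπ'.measurable
  have hm : MeasurableSet {z : P × P' | S (π z.1, π' z.2)} :=
    (by fun_prop : Measurable fun z : P × P' => (π z.1, π' z.2)) hS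
  refine (Measure.ae_prod_iff_ae_ae hm).2 ?_
  filter_upwards [hπ.ae ((Measure.ae_prod_iff_ae_ae hS).1 h)] with z hz
  exact hπ'.ae hz

/-- Two subtrees of two different nodes are apart. -/
theorem ae_cross (hΦ : IsPotential Φ) {τ τ' : Shape} {P P' : Type*} [MeasurableSpace P]
    [MeasurableSpace P'] {ν : Measure P} {ν' : Measure P'} [SFinite ν] [SFinite ν']
    {π : P → PD τ} {π' : P' → PD τ'} (hπ : Measure.QuasiMeasurePreserving π ν (pvol τ))
    (hπ' : Measure.QuasiMeasurePreserving π' ν' (pvol τ')) (t : ℝ) (l : Ph) (k k' : Bool) :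
    ∀ᵐ z ∂((yvol.prod ν).prod (yvol.prod ν')), ndv Φ l.2 z.1.1 → Bef t τ (π z.1.2) →
      Bef t τ' (π' z.2.2) →
      Apart Φ t τ (dG Φ k l t z.1.1).1 (π z.1.2) τ' (dG Φ k' l t z.2.1).1 (π' z.2.2) := by
  have hd := measurable_dG_fst hΦ k l t
  have hd' := measurable_dG_fst hΦ k' l t
  have mπ := hπ.measurable
  have mπ' := hπ'.measurable
  have m1 : MeasurableSet {z : ((E3 × E2) × P) × ((E3 × E2) × P') | ndv Φ l.2 z.1.1} :=
    (by fun_prop : Measurable fun z : ((E3 × E2) × P) × ((E3 × E2) × P') => (l.2, z.1.1))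
      (measurableSet_ndv hΦ)
  have m3 : MeasurableSet {z : ((E3 × E2) × P) × ((E3 × E2) × P') | Bef t τ (π z.1.2)} :=
    (by fun_prop : Measurable fun z : ((E3 × E2) × P) × ((E3 × E2) × P') => (t, π z.1.2))
      (measurableSet_bef τ)
  have m4 : MeasurableSet {z : ((E3 × E2) × P) × ((E3 × E2) × P') | Bef t τ' (π' z.2.2)} :=
    (by fun_prop : Measurable fun z : ((E3 × E2) × P) × ((E3 × E2) × P') => (t, π' z.2.2))
      (measurableSet_bef τ')
  have m5 : MeasurableSet {z : ((E3 × E2) × P) × ((E3 × E2) × P') |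
      Apart Φ t τ (dG Φ k l t z.1.1).1 (π z.1.2) τ' (dG Φ k' l t z.2.1).1 (π' z.2.2)} := by
    have h1 : Measurable fun z : ((E3 × E2) × P) × ((E3 × E2) × P') =>
        (t, ((dG Φ k l t z.1.1).1, π z.1.2), ((dG Φ k' l t z.2.1).1, π' z.2.2)) := by
      have h2 : Measurable fun z : ((E3 × E2) × P) × ((E3 × E2) × P') => (dG Φ k l t z.1.1).1 :=
        hd.comp (by fun_prop : Measurable fun z : ((E3 × E2) × P) × ((E3 × E2) × P') => z.1.1)
      have h3 : Measurable fun z : ((E3 × E2) × P) × ((E3 × E2) × P') => (dG Φ k' l t z.2.1).1 :=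
        hd'.comp (by fun_prop : Measurable fun z : ((E3 × E2) × P) × ((E3 × E2) × P') => z.2.1)
      exact measurable_const.prodMk ((h2.prodMk (by fun_prop)).prodMk (h3.prodMk (by fun_prop)))
    exact h1 (measurableSet_apart hΦ τ τ')
  refine ae_prod4 (measurableSet_imp m1 (measurableSet_imp m3 (measurableSet_imp m4 m5))) ?_
  filter_upwards [ae_nm_cross hΦ t l k k'] with y hy
  filter_upwards [hy] with y' hy'
  by_cases h : ndv Φ l.2 y
  swap
  · exact Eventually.of_forall fun z h' => absurd h' h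
  have n1 : MeasurableSet {w : PD τ × PD τ' | Bef t τ w.1} :=
    (by fun_prop : Measurable fun w : PD τ × PD τ' => (t, w.1)) (measurableSet_bef τ)
  have n2 : MeasurableSet {w : PD τ × PD τ' | Bef t τ' w.2} :=
    (by fun_prop : Measurable fun w : PD τ × PD τ' => (t, w.2)) (measurableSet_bef τ')
  have n3 : MeasurableSet {w : PD τ × PD τ' |
      Apart Φ t τ (dG Φ k l t y).1 w.1 τ' (dG Φ k' l t y').1 w.2} :=
    (by fun_prop : Measurable fun w : PD τ × PD τ' =>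
      (t, ((dG Φ k l t y).1, w.1), ((dG Φ k' l t y').1, w.2))) (measurableSet_apart hΦ τ τ')
  have h1 := ae_prodMap hπ hπ' (measurableSet_imp n1 (measurableSet_imp n2 n3))
    (ae_apart hΦ τ τ' (hy' h))
  filter_upwards [h1] with z hz _ h2 h3
  exact hz h2 h3

/-- The two subtrees of a node are apart. -/
theorem ae_sib (hΦ : IsPotential Φ) (a b : Shape) (t : ℝ) (l : Ph) :
    ∀ᵐ ξ ∂(xvol a b), Bef t a ξ.2.1 → Bef t b ξ.2.2 →
      Apart Φ t a (dG Φ false l t ξ.1).1 ξ.2.1 b (dG Φ true l t ξ.1).1 ξ.2.2 := by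
  have hd := measurable_dG_fst hΦ false l t
  have hd' := measurable_dG_fst hΦ true l t
  have m3 : MeasurableSet {z : XP a b | Bef t a z.2.1} :=
    (by fun_prop : Measurable fun z : XP a b => (t, z.2.1)) (measurableSet_bef a)
  have m4 : MeasurableSet {z : XP a b | Bef t b z.2.2} :=
    (by fun_prop : Measurable fun z : XP a b => (t, z.2.2)) (measurableSet_bef b)
  have m5 : MeasurableSet {z : XP a b |
      Apart Φ t a (dG Φ false l t z.1).1 z.2.1 b (dG Φ true l t z.1).1 z.2.2} := by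
    have h1 : Measurable fun z : XP a b =>
        (t, ((dG Φ false l t z.1).1, z.2.1), ((dG Φ true l t z.1).1, z.2.2)) := by
      have h2 : Measurable fun z : XP a b => (dG Φ false l t z.1).1 := hd.comp measurable_fst
      have h3 : Measurable fun z : XP a b => (dG Φ true l t z.1).1 := hd'.comp measurable_fst
      exact measurable_const.prodMk ((h2.prodMk (by fun_prop)).prodMk (h3.prodMk (by fun_prop)))
    exact h1 (measurableSet_apart hΦ a b)
  unfold xvol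
  refine (Measure.ae_prod_iff_ae_ae (measurableSet_imp m3 (measurableSet_imp m4 m5))).2 ?_
  filter_upwards [ae_nm_sib hΦ t l] with y hy
  exact ae_apart hΦ a b hy

/-! ### One subtree -/

/-- One subtree does not meet itself and has generic exhausts. -/
theorem ae_one (hΦ : IsPotential Φ) {τ : Shape} {P : Type*} [MeasurableSpace P] {ν : Measure P}
    [SFinite ν] {π : P → PD τ} (hπ : Measure.QuasiMeasurePreserving π ν (pvol τ)) (t : ℝ) (l : Ph)
    (k : Bool) :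
    ∀ᵐ x ∂(yvol.prod ν), (Ordr τ (π x.2) → Self Φ τ (dG Φ k l t x.1).1 (π x.2)) ∧
      WNe Φ τ (dG Φ k l t x.1).1.2 (π x.2) := by
  have hd := measurable_dG_fst hΦ k l t
  have mπ := hπ.measurable
  have m1 : MeasurableSet {x : (E3 × E2) × P | Ordr τ (π x.2)} :=
    (mπ.comp measurable_snd) (measurableSet_ordr τ)
  have h2 : Measurable fun x : (E3 × E2) × P => ((dG Φ k l t x.1).1, π x.2) :=
    (hd.comp measurable_fst).prodMk (mπ.comp measurable_snd)
  have m2 : MeasurableSet {x : (E3 × E2) × P | Self Φ τ (dG Φ k l t x.1).1 (π x.2)} :=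
    h2 (measurableSet_self hΦ τ)
  have h3 : Measurable fun x : (E3 × E2) × P => ((dG Φ k l t x.1).1.2, π x.2) :=
    (hd.snd.comp measurable_fst).prodMk (mπ.comp measurable_snd)
  have m3 : MeasurableSet {x : (E3 × E2) × P | WNe Φ τ (dG Φ k l t x.1).1.2 (π x.2)} :=
    h3 (measurableSet_WNe hΦ τ)
  refine (Measure.ae_prod_iff_ae_ae ((measurableSet_imp m1 m2).inter m3)).2
    (Eventually.of_forall fun y => ?_)
  filter_upwards [hπ.ae (ae_self hΦ τ (dG Φ k l t y).1),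
    hπ.ae (ae_WNe hΦ τ (dG Φ k l t y).1.2)] with x h4 h5
  exact ⟨h4, h5⟩

/-- The properties of almost all parameters of one node. -/
structure Nd1 (Φ : E3 → ℝ) (a b : Shape) (t : ℝ) (l : Ph) (ξ : XP a b) : Prop where
  sa : Ordr a ξ.2.1 → Self Φ a (dG Φ false l t ξ.1).1 ξ.2.1
  sb : Ordr b ξ.2.2 → Self Φ b (dG Φ true l t ξ.1).1 ξ.2.2
  wa : WNe Φ a (dG Φ false l t ξ.1).1.2 ξ.2.1
  wb : WNe Φ b (dG Φ true l t ξ.1).1.2 ξ.2.2
  ab : Bef t a ξ.2.1 → Bef t b ξ.2.2 →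
    Apart Φ t a (dG Φ false l t ξ.1).1 ξ.2.1 b (dG Φ true l t ξ.1).1 ξ.2.2

theorem ae_nd1 (hΦ : IsPotential Φ) (a b : Shape) (t : ℝ) (l : Ph) :
    ∀ᵐ ξ ∂(xvol a b), Nd1 Φ a b t l ξ := by
  have q1 := Measure.quasiMeasurePreserving_fst (μ := pvol a) (ν := pvol b)
  have q2 := Measure.quasiMeasurePreserving_snd (μ := pvol a) (ν := pvol b)
  filter_upwards [ae_one hΦ q1 t l false, ae_one hΦ q2 t l true, ae_sib hΦ a b t l] with
    ξ h1 h2 h3
  exact ⟨h1.1, h2.1, h1.2, h2.2, h3⟩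

/-- The properties of almost all parameters of two nodes. -/
structure Nd2 (Φ : E3 → ℝ) (a b : Shape) (t : ℝ) (l : Ph) (ξ ξ' : XP a b) : Prop where
  aa : Bef t a ξ.2.1 → Bef t a ξ'.2.1 →
    Apart Φ t a (dG Φ false l t ξ.1).1 ξ.2.1 a (dG Φ false l t ξ'.1).1 ξ'.2.1
  ab : Bef t a ξ.2.1 → Bef t b ξ'.2.2 →
    Apart Φ t a (dG Φ false l t ξ.1).1 ξ.2.1 b (dG Φ true l t ξ'.1).1 ξ'.2.2
  ba : Bef t b ξ.2.2 → Bef t a ξ'.2.1 →
    Apart Φ t b (dG Φ true l t ξ.1).1 ξ.2.2 a (dG Φ false l t ξ'.1).1 ξ'.2.1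
  bb : Bef t b ξ.2.2 → Bef t b ξ'.2.2 →
    Apart Φ t b (dG Φ true l t ξ.1).1 ξ.2.2 b (dG Φ true l t ξ'.1).1 ξ'.2.2

theorem ae_nd2 (hΦ : IsPotential Φ) (a b : Shape) (t : ℝ) (l : Ph) :
    ∀ᵐ z ∂((xvol a b).prod (xvol a b)), ndv Φ l.2 z.1.1 → Nd2 Φ a b t l z.1 z.2 := by
  have q1 := Measure.quasiMeasurePreserving_fst (μ := pvol a) (ν := pvol b)
  have q2 := Measure.quasiMeasurePreserving_snd (μ := pvol a) (ν := pvol b)
  have h1 := ae_cross hΦ q1 q1 t l false false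
  have h2 := ae_cross hΦ q1 q2 t l false true
  have h3 := ae_cross hΦ q2 q1 t l true false
  have h4 := ae_cross hΦ q2 q2 t l true true
  unfold xvol
  filter_upwards [h1, h2, h3, h4] with z h1 h2 h3 h4 hn
  exact ⟨h1 hn, h2 hn, h3 hn, h4 hn⟩

/-! ### Generic forests -/

section gen

variable {δ : ℝ} {ξ ξ' : XP a b}

theorem gdp_facts (hg : gdp Φ δ a b (l, t) ξ) :
    (good Φ a (nV Φ l.2 ξ.1).1 ξ.2.1 ∧ good Φ b (nV Φ l.2 ξ.1).2 ξ.2.2) ∧
      (Tord a ξ.2.1 ∧ Tord b ξ.2.2) ∧ ndv Φ l.2 ξ.1 ∧ stm a ξ.2.1 < t - δ ∧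
        stm b ξ.2.2 < t - δ := by
  obtain ⟨⟨h1, h2, h3⟩, h4, h5⟩ := hg
  unfold nvw at h1
  have h6 := right_ne_zero_of_mul h1
  exact ⟨⟨(wt_ne_zero_iff a _ _).1 (left_ne_zero_of_mul h6),
    (wt_ne_zero_iff b _ _).1 (right_ne_zero_of_mul h6)⟩,
    ⟨(tok_zero_iff a _ _).1 h2.1.1, (tok_zero_iff b _ _).1 h2.1.2⟩, h3, h4, h5⟩

theorem genG_gA (h1 : Nd1 Φ a b t l ξ) (ha : a.depth ≤ L) (hg : gdp Φ δ a b (l, t) ξ) :
    GenG Φ L (Cap.gA Φ a b t l ξ) := by
  obtain ⟨⟨g1, -⟩, ⟨o1, -⟩, -⟩ := gdp_facts hg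
  refine ⟨?_, o1, h1.sa o1.ordr, h1.wa, ha⟩
  change good Φ a (dG Φ false l t ξ.1).1.2 ξ.2.1
  rw [dG_false_vel]
  exact g1

theorem genG_gB (h1 : Nd1 Φ a b t l ξ) (hb : b.depth ≤ L) (hg : gdp Φ δ a b (l, t) ξ) :
    GenG Φ L (Cap.gB Φ a b t l ξ) := by
  obtain ⟨⟨-, g1⟩, ⟨-, o1⟩, -⟩ := gdp_facts hg
  refine ⟨?_, o1, h1.sb o1.ordr, h1.wb, hb⟩
  change good Φ b (dG Φ true l t ξ.1).1.2 ξ.2.2
  rw [dG_true_vel]
  exact g1

theorem bef_gA (hδ : 0 < δ) (hg : gdp Φ δ a b (l, t) ξ) : Bef t a ξ.2.1 ∧ Bef t b ξ.2.2 := by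
  obtain ⟨-, ⟨o1, o2⟩, -, h1, h2⟩ := gdp_facts hg
  exact ⟨o1.bef (by linarith), o2.bef (by linarith)⟩

theorem pos_gdp (hg : gdp Φ δ a b (l, t) ξ) : 0 < t - δ := by
  obtain ⟨-, ⟨o1, o2⟩, -, h1, h2⟩ := gdp_facts hg
  exact (KT.stm_nonneg a ξ.2.1 o1).trans_lt h1

theorem pairG_sib (hδ : 0 < δ) (h1 : Nd1 Φ a b t l ξ) (hg : gdp Φ δ a b (l, t) ξ) :
    PairG Φ (t - δ) (Cap.gA Φ a b t l ξ) (Cap.gB Φ a b t l ξ) := by
  obtain ⟨b1, b2⟩ := bef_gA hδ hg
  have hap : ApartG Φ t (Cap.gA Φ a b t l ξ) (Cap.gB Φ a b t l ξ) := h1.ab b1 b2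
  exact PairG.of_lt (ApT.of_apartG hap) (by linarith)

/-- The germs of one node form a generic forest. -/
theorem gen_one (hδ : 0 < δ) (ha : a.depth ≤ L) (hb : b.depth ≤ L) (h1 : Nd1 Φ a b t l ξ)
    (hg : gdp Φ δ a b (l, t) ξ) :
    Gen Φ L [Cap.gA Φ a b t l ξ, Cap.gB Φ a b t l ξ] (t - δ) := by
  refine ⟨pos_gdp hg, ?_, ?_⟩
  · intro G hG
    rcases List.mem_cons.1 hG with h | h
    · rw [h]; exact genG_gA h1 ha hg
    · rw [List.mem_singleton.1 h]; exact genG_gB h1 hb hg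
  · rw [List.pairwise_cons]
    refine ⟨fun G hG => ?_, List.pairwise_singleton _ _⟩
    rw [List.mem_singleton.1 hG]
    exact pairG_sib hδ h1 hg

/-- The germs of two nodes form a generic forest. -/
theorem gen_two (hδ : 0 < δ) (ha : a.depth ≤ L) (hb : b.depth ≤ L) (h1 : Nd1 Φ a b t l ξ)
    (h1' : Nd1 Φ a b t l ξ') (h2 : ndv Φ l.2 ξ.1 → Nd2 Φ a b t l ξ ξ')
    (hg : gdp Φ δ a b (l, t) ξ) (hg' : gdp Φ δ a b (l, t) ξ') :
    Gen Φ L ([Cap.gA Φ a b t l ξ, Cap.gB Φ a b t l ξ] ++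
      [Cap.gA Φ a b t l ξ', Cap.gB Φ a b t l ξ']) (t - δ) := by
  have f1 := gen_one hδ ha hb h1 hg
  have f2 := gen_one hδ ha hb h1' hg'
  obtain ⟨b1, b2⟩ := bef_gA hδ hg
  obtain ⟨b1', b2'⟩ := bef_gA hδ hg'
  have h3 := h2 (gdp_facts hg).2.2.1
  have hlt : t - δ < t := by linarith
  refine ⟨f1.pos, ?_, ?_⟩
  · intro G hG
    rcases List.mem_append.1 hG with h | h
    · exact f1.one G h
    · exact f2.one G h
  · rw [List.pairwise_append]
    refine ⟨f1.two, f2.two, ?_⟩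
    have caa : ApartG Φ t (Cap.gA Φ a b t l ξ) (Cap.gA Φ a b t l ξ') := h3.aa b1 b1'
    have cab : ApartG Φ t (Cap.gA Φ a b t l ξ) (Cap.gB Φ a b t l ξ') := h3.ab b1 b2'
    have cba : ApartG Φ t (Cap.gB Φ a b t l ξ) (Cap.gA Φ a b t l ξ') := h3.ba b2 b1'
    have cbb : ApartG Φ t (Cap.gB Φ a b t l ξ) (Cap.gB Φ a b t l ξ') := h3.bb b2 b2'
    intro G hG G' hG'
    rcases List.mem_cons.1 hG with h | h
    · rw [h]
      rcases List.mem_cons.1 hG' with h' | h'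
      · rw [h']; exact PairG.of_lt (ApT.of_apartG caa) hlt
      · rw [List.mem_singleton.1 h']; exact PairG.of_lt (ApT.of_apartG cab) hlt
    · rw [List.mem_singleton.1 h]
      rcases List.mem_cons.1 hG' with h' | h'
      · rw [h']; exact PairG.of_lt (ApT.of_apartG cba) hlt
      · rw [List.mem_singleton.1 h']; exact PairG.of_lt (ApT.of_apartG cbb) hlt

end gen

/-- The second moment limits for the generic forests. -/
def SvAll (Φ : E3 → ℝ) (f₀ : Ph → ℝ) (L : ℕ) (T : ℝ) (lg : ℝ → ℝ → Ph → ℝ≥0∞) : Prop :=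
  ∀ (F₁ F₂ : List TG) (h : ℝ), Gen Φ L (F₁ ++ F₂) h → (∀ G ∈ F₁ ++ F₂, stm G.τ G.p < h) → h ≤ T →
    Sv Φ f₀ L lg F₁ F₂ h

/-- **The inputs of In-nd** from the second moment limits. -/
theorem ndIn_of_sv (hΦ : IsPotential Φ) {T : ℝ} (hTm : Tm ≤ T) {lg : ℝ → ℝ → Ph → ℝ≥0∞}
    (H : SvAll Φ f₀ L T lg) {a b : Shape} (ha : a.depth ≤ L) (hb : b.depth ≤ L) :
    NdIn Φ f₀ L Tm lg a b := by
  intro δ hδ
  have hq : ∀ᵐ q ∂(qvol Tm), q.2 ∈ Icc 0 Tm :=
    Measure.quasiMeasurePreserving_snd.ae (ae_restrict_mem measurableSet_Icc)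
  constructor
  · filter_upwards [hq] with q hq
    filter_upwards [ae_nd1 hΦ a b q.2 q.1] with ξ h1 hg
    have h2 := gen_one hδ ha hb h1 hg
    refine H _ _ _ (by rw [List.append_nil]; exact h2) ?_ (by linarith [hq.2])
    intro G hG
    rw [List.append_nil] at hG
    rcases List.mem_cons.1 hG with h | h
    · rw [h]; exact hg.2.1
    · rw [List.mem_singleton.1 h]; exact hg.2.2
  · filter_upwards [hq] with q hq
    have e1 := (Measure.quasiMeasurePreserving_fst (μ := xvol a b) (ν := xvol a b)).ae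
      (ae_nd1 hΦ a b q.2 q.1)
    have e2 := (Measure.quasiMeasurePreserving_snd (μ := xvol a b) (ν := xvol a b)).ae
      (ae_nd1 hΦ a b q.2 q.1)
    filter_upwards [e1, e2, ae_nd2 hΦ a b q.2 q.1] with z h1 h2 h3 hg hg'
    refine H _ _ _ (gen_two hδ ha hb h1 h2 h3 hg hg') ?_ (by linarith [hq.2])
    intro G hG
    rcases List.mem_append.1 hG with hG | hG
    · rcases List.mem_cons.1 hG with h | h
      · rw [h]; exact hg.2.1
      · rw [List.mem_singleton.1 h]; exact hg.2.2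
    · rcases List.mem_cons.1 hG with h | h
      · rw [h]; exact hg'.2.1
      · rw [List.mem_singleton.1 h]; exact hg'.2.2

/-- **In-nd** from the second moment limits of generic forests. -/
theorem inNd_of_sv {hΦ : IsPotential Φ} {m₀ : Measurable fun p : E3 × E3 => K1.f0hat f₀ p.1 p.2}
    {T : ℝ} {f : ℝ → Ph → ℝ} (K : KinFamily hΦ f₀ m₀ T f) {κ : ℝ≥0} {β' : ℝ}
    (hgd : GoodDatum f₀ κ) (hd : IsDatum β' f₀) {L : ℕ} (hL : K.L₀ ≤ L + 1) (hT : 0 ≤ Tm)
    (hTm : Tm ≤ T) (H : SvAll Φ f₀ L T (K.leg L)) : InNd Φ f₀ L Tm K.nn K.b :=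
  inNd_of K hgd hd hL hT hTm fun _ _ ha hb => ndIn_of_sv hΦ hTm H ha.le hb.le

end Vale.Agent.P119.Cap
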