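import Vale.Agent.P119.FL.Hit

/-!
# P119: the law of the separation time (`helper321`)

The exit time of a collision, in terms of the OUTGOING lines, and the resulting flux formulas for the
outgoing line of a node.
-/

open MeasureTheory Set Filter Topology Metric ProbabilityTheory
open scoped ENNReal

namespace Vale.Agent.P119.ML

open KU FL

/-- The exit time of a pair, in terms of the outgoing lines. -/
noncomputable def outT (ε : ℝ) (q : Ph × Ph) : ℝ := ε * (-crd (rel ε q) + half (rel ε q))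

variable {Φ : E3 → ℝ} {ε : ℝ}

theorem sepT_eq_outT (hΦ : IsPotential Φ) (hε : ε ≠ 0) (q : Ph × Ph) :
    sepT Φ ε q = outT ε (sc2 Φ ε q) := by
  unfold sepT outT tout
  rw [rel_sc2 hε, half_scat hΦ]

theorem measurable_outT : Measurable (outT ε) := by
  have h : Measurable (rel ε) := continuous_rel.measurable
  unfold outT
  exact ((measurable_crd.comp h).neg.add (measurable_half.comp h)).const_mul ε

theorem outT_partner (hε : ε ≠ 0) (l : Ph) {u : E3} (hu : l.2 - u ≠ 0) (s : ℝ) {ρ : E3}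
    (hρ : (inner ℝ ρ (l.2 - u) : ℝ) = 0) :
    outT ε (l, partner ε l u s ρ) = s + ε * half (ρ, l.2 - u) := by
  unfold outT
  rw [crd_rel_partner hε l hu s hρ, rel_partner hε, half_free]
  field_simp

/-- The outgoing partners of a given outgoing line, in terms of the exit time and the velocity. -/
theorem lintegral_out {ε : ℝ} (hε : 0 < ε) (l : Ph) {G : ℝ → E3 → ℝ≥0∞}
    (hG : Measurable fun q : ℝ × E3 => G q.1 q.2) :
    ∫⁻ l' in {l' : Ph | Meets ε (l, l')}, G (outT ε (l, l')) l'.2 =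
      ENNReal.ofReal (ε ^ 2) * (ENNReal.ofReal Real.pi * ∫⁻ u : E3, ‖l.2 - u‖ₑ * ∫⁻ τ, G τ u) := by
  have hm : Measurable fun l' : Ph => G (outT ε (l, l')) l'.2 :=
    hG.comp ((measurable_outT.comp (measurable_const.prodMk measurable_id)).prodMk measurable_snd)
  rw [lintegral_partner hε l hm]
  congr 1
  have hGm : Measurable fun u : E3 => ∫⁻ τ, G τ u := by
    have h : Measurable fun q : E3 × ℝ => G q.2 q.1 := hG.comp measurable_swap
    exact h.lintegral_prod_right'
  have hGm3 : Measurable fun u : E3 => ‖l.2 - u‖ₑ * ∫⁻ τ, G τ u :=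
    (by fun_prop : Measurable fun u : E3 => ‖l.2 - u‖ₑ).mul hGm
  rw [← lintegral_const_mul _ hGm3]
  refine lintegral_congr fun u => ?_
  rcases eq_or_ne (l.2 - u) 0 with h0 | h0
  · rw [h0]; simp
  have h1 : ∀ s : ℝ, ∫⁻ ρ, G (outT ε (l, partner ε l u s ρ)) (partner ε l u s ρ).2
      ∂(kappa (l.2 - u)) = ∫⁻ ρ, G (s + ε * half (ρ, l.2 - u)) u ∂(kappa (l.2 - u)) := by
    intro s
    refine lintegral_congr_ae ?_
    filter_upwards [ae_kappa h0] with ρ hρ
    rw [outT_partner hε.ne' l h0 s hρ.2]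
    rfl
  simp_rw [h1]
  have hGm2 : Measurable fun q : ℝ × E3 => G (q.1 + ε * half (q.2, l.2 - u)) u := by
    refine hG.comp (Measurable.prodMk ?_ measurable_const)
    exact measurable_fst.add ((measurable_half.comp
      (measurable_snd.prodMk measurable_const)).const_mul ε)
  rw [lintegral_lintegral_swap hGm2.aemeasurable]
  have h2 : ∀ ρ : E3, ∫⁻ s : ℝ, G (s + ε * half (ρ, l.2 - u)) u = ∫⁻ τ, G τ u := by
    intro ρ
    exact lintegral_add_right_eq_self (fun τ => G τ u) _
  simp_rw [h2]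
  rw [lintegral_const, kappa_univ h0]
  ring

/-- kinetic energy of a pair -/
noncomputable def kin (q : Ph × Ph) : ℝ := ‖q.1.2‖ ^ 2 + ‖q.2.2‖ ^ 2

theorem measurable_kin : Measurable kin := by unfold kin; fun_prop

/-- **Law of the outgoing line of a node** for an incoming pair density which is a function of the
kinetic energy. -/
theorem lintegral_node (hΦ : IsPotential Φ) (hε : 0 < ε) {k : ℝ → ℝ≥0∞} (hk : Measurable k)
    {G : ℝ → Ph → ℝ≥0∞} (hG : Measurable fun q : ℝ × Ph => G q.1 q.2) :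
    ∫⁻ q in {q : Ph × Ph | Meets ε q}, k (kin q) * G (sepT Φ ε q) (sc2 Φ ε q).1 =
      ENNReal.ofReal (ε ^ 2) * (ENNReal.ofReal Real.pi *
        ∫⁻ l : Ph, ∫⁻ u : E3, ‖l.2 - u‖ₑ * ∫⁻ τ, k (‖l.2‖ ^ 2 + ‖u‖ ^ 2) * G τ l) := by
  have hm : MeasurableSet {q : Ph × Ph | Meets ε q} := measurableSet_meets
  have h1 : ∀ q : Ph × Ph, k (kin q) * G (sepT Φ ε q) (sc2 Φ ε q).1 =
      (fun (_ q' : Ph × Ph) => k (kin q') * G (outT ε q') q'.1) q (sc2 Φ ε q) := by
    intro q
    simp only
    rw [sepT_eq_outT hΦ hε.ne']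
    congr 2
    unfold kin
    rw [energy_sc2 hΦ hε.ne']
  have hF : Measurable fun q' : Ph × Ph => k (kin q') * G (outT ε q') q'.1 :=
    (hk.comp measurable_kin).mul (hG.comp (measurable_outT.prodMk measurable_fst))
  have h0 := lintegral_sc2 hΦ hε.ne' (F := fun (_ q' : Ph × Ph) => k (kin q') * G (outT ε q') q'.1)
    (hF.comp measurable_snd)
  rw [lintegral_congr h1, h0]
  rw [← lintegral_indicator hm, Measure.volume_eq_prod, lintegral_prod _ (hF.indicator hm).aemeasurable]
  have h2 : ∀ l : Ph, ∫⁻ l' : Ph, {q : Ph × Ph | Meets ε q}.indicator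
      (fun q' => k (kin q') * G (outT ε q') q'.1) (l, l') =
      ENNReal.ofReal (ε ^ 2) * (ENNReal.ofReal Real.pi *
        ∫⁻ u : E3, ‖l.2 - u‖ₑ * ∫⁻ τ, k (‖l.2‖ ^ 2 + ‖u‖ ^ 2) * G τ l) := by
    intro l
    rw [← lintegral_out hε l (G := fun τ u => k (‖l.2‖ ^ 2 + ‖u‖ ^ 2) * G τ l) ?_]
    · have hml : MeasurableSet {l' : Ph | Meets ε (l, l')} :=
        measurable_prodMk_left measurableSet_meets
      rw [← lintegral_indicator hml]
      refine lintegral_congr fun l' => ?_
      by_cases h : Meets ε (l, l')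
      · rw [indicator_of_mem (show (l, l') ∈ {q : Ph × Ph | Meets ε q} from h),
          indicator_of_mem (show l' ∈ {l' : Ph | Meets ε (l, l')} from h)]
        rfl
      · rw [indicator_of_notMem (show (l, l') ∉ {q : Ph × Ph | Meets ε q} from h),
          indicator_of_notMem (show l' ∉ {l' : Ph | Meets ε (l, l')} from h)]
    · refine Measurable.mul ?_ ?_
      · exact hk.comp (by fun_prop)
      · exact hG.comp (measurable_fst.prodMk measurable_const)
  simp_rw [h2]
  have hmeas : Measurable fun l : Ph =>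
      ∫⁻ u : E3, ‖l.2 - u‖ₑ * ∫⁻ τ, k (‖l.2‖ ^ 2 + ‖u‖ ^ 2) * G τ l := by
    have h3 : Measurable fun q : (Ph × E3) × ℝ => k (‖q.1.1.2‖ ^ 2 + ‖q.1.2‖ ^ 2) * G q.2 q.1.1 := by
      refine Measurable.mul ?_ ?_
      · exact hk.comp (by fun_prop)
      · exact hG.comp (measurable_snd.prodMk (measurable_fst.comp measurable_fst))
    have h4 : Measurable fun q : Ph × E3 => ‖q.1.2 - q.2‖ₑ *
        ∫⁻ τ, k (‖q.1.2‖ ^ 2 + ‖q.2‖ ^ 2) * G τ q.1 :=
      (by fun_prop : Measurable fun q : Ph × E3 => ‖q.1.2 - q.2‖ₑ).mul h3.lintegral_prod_right'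
    exact h4.lintegral_prod_right'
  rw [lintegral_const_mul _ (hmeas.const_mul _), lintegral_const_mul _ hmeas]

end Vale.Agent.P119.ML
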