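import Vale.Agent.P119.ML.SysS

/-!
# P119, block ML (`helper388`): two worlds

* `Hyp.Dp_tendsto`, `Hyp.Dm_tendsto`: for generic forests the probability that a tree has different
  fates in the worlds with and without another forest vanishes.
-/

open MeasureTheory Filter Topology Set
open scoped ENNReal NNReal

noncomputable section

namespace Vale.Agent.P119.ML

open KU M CTree KT KE GC MM

variable {Φ : E3 → ℝ} {hΦ : IsPotential Φ} {f₀ : Ph → ℝ}
  {m₀ : Measurable fun p : E3 × E3 => K1.f0hat f₀ p.1 p.2} {T : ℝ} {f : ℝ → Ph → ℝ}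
  {K : KinFamily hΦ f₀ m₀ T f} {κ : ℝ} {L : ℕ} {εs : ℕ → ℝ} {g : Ph → ℝ≥0∞}

theorem mem_flegs {F : List TG} {h : ℝ} {x : LG × ℝ × ℝ} :
    x ∈ flegs Φ F h ↔ ∃ G ∈ F, x ∈ G.legs Φ h := List.mem_flatMap

/-- Almost all attachments to a part of a generic forest are generic. -/
theorem GSys.ae_att_sub (S : GSys Φ f₀ L) (hΦ : IsPotential Φ) (hg : Measurable g)
    {E F : List TG} {h : ℝ} (hE : S.Gen E h) (hF : ∀ G ∈ F, G ∈ E) :
    ∀ᵐ q ∂(WF g Φ L F h), S.Gen (q.tg :: E) q.tm ∧ q.tm < h := by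
  refine ae_WF hΦ hg F h fun x hx τ hτ => ?_
  obtain ⟨G, hG, hxG⟩ := mem_flegs.1 hx
  have hx' : x ∈ flegs Φ E h := mem_flegs.2 ⟨G, hF G hG, hxG⟩
  filter_upwards [S.att hE x hx' τ hτ, ae_time_ne (ν := pvol τ) (c := fun _ => max x.2.1 0)
    measurable_const] with y h1 h2 h3
  obtain ⟨h4, h5, h6, h7, h8⟩ := regw_ne_zero h3
  exact ⟨h1 (lt_of_le_of_ne h7 (Ne.symm h2)) h8 h4 h5 h6, h8.trans_le (min_le_right _ _)⟩

theorem Dp_le_one {ε : ℝ} {A C : List CTree} {c : CTree} {t : ℝ} (hf : GoodDatum f₀ κ) :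
    Dp Φ ε L f₀ A C c t ≤ 1 := by
  have := isProbability_PP (ε := ε) hf
  calc Dp Φ ε L f₀ A C c t ≤ ∫⁻ _ : Conf Ph, 1 ∂(PP f₀ ε) := lintegral_mono fun c => ind_le_one _
    _ = 1 := by rw [lintegral_one, measure_univ]

theorem Dm_le_one {ε : ℝ} {A C : List CTree} {c : CTree} {t : ℝ} (hf : GoodDatum f₀ κ) :
    Dm Φ ε L f₀ A C c t ≤ 1 := by
  have := isProbability_PP (ε := ε) hf
  calc Dm Φ ε L f₀ A C c t ≤ ∫⁻ _ : Conf Ph, 1 ∂(PP f₀ ε) := lintegral_mono fun c => ind_le_one _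
    _ = 1 := by rw [lintegral_one, measure_univ]

theorem measurable_Dp_pair (hf : GoodDatum f₀ κ) (hΦ : IsPotential Φ) {ε : ℝ} (hε : 0 < ε)
    (A C : List CTree) : Measurable fun p : CTree × ℝ => Dp Φ ε L f₀ A C p.1 p.2 := by
  have := isProbability_PP (ε := ε) hf
  have h2 := measurable_Dp (L := L) (f₀ := f₀) hΦ hε (MF.cst (X := CTree × ℝ) A)
    (MF.cst (X := CTree × ℝ) C) measurable_fst measurable_snd
  simp only [ev_cst] at h2
  exact h2

theorem measurable_Dm_pair (hf : GoodDatum f₀ κ) (hΦ : IsPotential Φ) {ε : ℝ} (hε : 0 < ε)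
    (A C : List CTree) : Measurable fun p : CTree × ℝ => Dm Φ ε L f₀ A C p.1 p.2 := by
  have := isProbability_PP (ε := ε) hf
  have h2 := measurable_Dm (L := L) (f₀ := f₀) hΦ hε (MF.cst (X := CTree × ℝ) A)
    (MF.cst (X := CTree × ℝ) C) measurable_fst measurable_snd
  simp only [ev_cst] at h2
  exact h2

/-- A state of the hierarchy of two worlds. -/
structure DSt where
  /-- the sign -/
  sg : Bool
  /-- the forest of the first world -/
  A : List TG
  /-- the common forest -/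
  C : List TG
  /-- the distinguished tree -/
  c : TG
  /-- the horizon -/
  h : ℝ

/-- All trees of a state. -/
def DSt.all (σ : DSt) : List TG := σ.A ++ σ.c :: σ.C

/-- The state after the attachment. -/
def DSt.att (σ : DSt) (q : AP) : DSt := ⟨!σ.sg, σ.A, σ.c :: σ.C, q.tg, q.tm⟩

/-- The defect of a state. -/
def DSt.D (Φ : E3 → ℝ) (ε : ℝ) (L : ℕ) (f₀ : Ph → ℝ) (σ : DSt) (t : ℝ) : ℝ≥0∞ :=
  if σ.sg then Dp Φ ε L f₀ (trees Φ ε σ.A) (trees Φ ε σ.C) (σ.c.tree Φ ε) t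
    else Dm Φ ε L f₀ (trees Φ ε σ.A) (trees Φ ε σ.C) (σ.c.tree Φ ε) t

theorem DSt.D_le_one {ε : ℝ} (hf : GoodDatum f₀ κ) (σ : DSt) (t : ℝ) :
    σ.D Φ ε L f₀ t ≤ 1 := by
  unfold DSt.D
  split_ifs
  · exact Dp_le_one hf
  · exact Dm_le_one hf

theorem DSt.all_att (σ : DSt) (q : AP) : (σ.att q).all.Perm (q.tg :: σ.all) := by
  unfold DSt.all DSt.att
  exact List.perm_middle

theorem eF_append (F F' : List TG) : eF (F ++ F') = eF F + eF F' := by
  unfold eF; rw [List.map_append, List.sum_append]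

theorem DSt.eF_att (σ : DSt) (q : AP) : eF (σ.att q).all = eG q.tg + eF σ.all := by
  unfold DSt.all DSt.att
  rw [eF_append, eF_append, eF_cons]
  ring

theorem DSt.c_mem (σ : DSt) : σ.c ∈ σ.all := by
  unfold DSt.all; simp

theorem DSt.eF_c (σ : DSt) : eF [σ.c] ≤ eF σ.all := by
  unfold DSt.all
  have h1 := eF_nonneg σ.A
  have h2 := eF_nonneg σ.C
  rw [eF_append, eF_cons, eF_cons, eF_nil]
  linarith

theorem DSt.meas (hf : GoodDatum f₀ κ) (hΦ : IsPotential Φ) {ε : ℝ} (hε : 0 < ε) (σ : DSt) :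
    Measurable fun q : AP => (σ.att q).D Φ ε L f₀ q.tm := by
  unfold DSt.D DSt.att
  have h0 := (measurable_tree_AP hΦ ε).prodMk AP.measurable_tm
  cases σ.sg with
  | false =>
    have h1 := (measurable_Dp_pair (L := L) hf hΦ hε (trees Φ ε σ.A)
      (trees Φ ε (σ.c :: σ.C))).comp h0
    exact h1
  | true =>
    have h1 := (measurable_Dm_pair (L := L) hf hΦ hε (trees Φ ε σ.A)
      (trees Φ ε (σ.c :: σ.C))).comp h0
    exact h1

theorem trees_singleton (G : TG) (ε : ℝ) : trees Φ ε [G] = [G.tree Φ ε] := rfl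

theorem Hyp.stepD (hy : Hyp K κ L εs) (S : GSys Φ f₀ L) {σ : DSt} {t : ℝ}
    (hF : S.Gen σ.all σ.h) (ht : t ≤ σ.h) :
    ∃ r : ℕ → ℝ≥0∞, Tendsto r atTop (𝓝 0) ∧ ∀ n,
      σ.D Φ (εs n) L f₀ t ≤
        ∫⁻ q in {q : AP | 0 ≤ q.tm ∧ q.tm < t}, (σ.att q).D Φ (εs n) L f₀ q.tm
          ∂(WF (g₀ f₀) Φ L [σ.c] σ.h) + r n := by
  have hc : S.Gen [σ.c] σ.h := by
    refine S.sub ?_ hF
    unfold DSt.all
    exact (List.singleton_sublist.2 (by simp))
  obtain ⟨r, hr, hconv⟩ := hy.conv0 S hc ht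
  have hall := S.mono ht hF
  cases hs : σ.sg with
  | true =>
    have hcC : S.Gen (σ.c :: σ.C) t := by
      refine S.sub ?_ hall
      unfold DSt.all
      exact List.sublist_append_right _ _
    have hrel := hy.rel_zero S hcC
    refine exists_all (r := fun n => RelP Φ (εs n) L f₀ (trees Φ (εs n) (σ.c :: σ.C)) t + r n)
      (fun n => DSt.D_le_one hy.datum σ t) (by simpa using hrel.add hr) ?_
    filter_upwards [hconv] with n hn
    have h1 := (hn (fun T' s => Dm Φ (εs n) L f₀ (trees Φ (εs n) σ.A)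
      (trees Φ (εs n) (σ.c :: σ.C)) T' s) (measurable_Dm_pair hy.datum hΦ (hy.pos n) _ _)
      (fun _ _ => Dm_le_one hy.datum)).1
    have h2 := Dp_le' (L := L) hy.datum hΦ (hy.pos n) (trees Φ (εs n) σ.A)
      (trees Φ (εs n) σ.C) (σ.c.tree Φ (εs n)) t
    have e1 : σ.D Φ (εs n) L f₀ t = Dp Φ (εs n) L f₀ (trees Φ (εs n) σ.A)
        (trees Φ (εs n) σ.C) (σ.c.tree Φ (εs n)) t := by unfold DSt.D; rw [if_pos hs]
    have e2 : ∀ q : AP, (σ.att q).D Φ (εs n) L f₀ q.tm = Dm Φ (εs n) L f₀ (trees Φ (εs n) σ.A)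
        (trees Φ (εs n) (σ.c :: σ.C)) (q.tg.tree Φ (εs n)) q.tm := fun q => by
      unfold DSt.D DSt.att
      rw [hs]
      rfl
    rw [e1]
    simp only [e2]
    refine h2.trans ?_
    rw [trees_singleton] at h1
    calc RelP Φ (εs n) L f₀ (σ.c.tree Φ (εs n) :: trees Φ (εs n) σ.C) t + _ ≤
          RelP Φ (εs n) L f₀ (trees Φ (εs n) (σ.c :: σ.C)) t + (_ + r n) :=
          add_le_add le_rfl h1
      _ = _ := by ring
  | false =>
    have hrel := hy.rel_zero S hall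
    refine exists_all (r := fun n => RelP Φ (εs n) L f₀ (trees Φ (εs n) σ.all) t + r n)
      (fun n => DSt.D_le_one hy.datum σ t) (by simpa using hrel.add hr) ?_
    filter_upwards [hconv] with n hn
    have h1 := (hn (fun T' s => Dp Φ (εs n) L f₀ (trees Φ (εs n) σ.A)
      (trees Φ (εs n) (σ.c :: σ.C)) T' s) (measurable_Dp_pair hy.datum hΦ (hy.pos n) _ _)
      (fun _ _ => Dp_le_one hy.datum)).1
    have h2 := Dm_le' (L := L) hy.datum hΦ (hy.pos n) (trees Φ (εs n) σ.A)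
      (trees Φ (εs n) σ.C) (σ.c.tree Φ (εs n)) t
    have e1 : σ.D Φ (εs n) L f₀ t = Dm Φ (εs n) L f₀ (trees Φ (εs n) σ.A)
        (trees Φ (εs n) σ.C) (σ.c.tree Φ (εs n)) t := by
      unfold DSt.D; rw [hs]; rfl
    have e2 : ∀ q : AP, (σ.att q).D Φ (εs n) L f₀ q.tm = Dp Φ (εs n) L f₀ (trees Φ (εs n) σ.A)
        (trees Φ (εs n) (σ.c :: σ.C)) (q.tg.tree Φ (εs n)) q.tm := fun q => by
      unfold DSt.D DSt.att
      rw [hs]
      rfl
    have e3 : trees Φ (εs n) σ.all = trees Φ (εs n) σ.A ++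
        σ.c.tree Φ (εs n) :: trees Φ (εs n) σ.C := by
      unfold DSt.all
      rw [trees_append, trees_cons]
    rw [e1, e3]
    simp only [e2]
    refine h2.trans ?_
    rw [trees_singleton] at h1
    calc RelP Φ (εs n) L f₀ (trees Φ (εs n) σ.A ++ σ.c.tree Φ (εs n) :: trees Φ (εs n) σ.C) t +
          _ ≤ RelP Φ (εs n) L f₀ (trees Φ (εs n) σ.A ++
            σ.c.tree Φ (εs n) :: trees Φ (εs n) σ.C) t + (_ + r n) := add_le_add le_rfl h1
      _ = _ := by ring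

/-- The hierarchy of two worlds. -/
def hierD (hy : Hyp K κ L εs) (S : GSys Φ f₀ L) : Hier DSt AP where
  hor σ := horS S T σ.all σ.h
  a σ := K.b / 2 * eF σ.all
  D n σ t := σ.D Φ (εs n) L f₀ t
  att := DSt.att
  tm := AP.tm
  W σ := WS S T σ.all [σ.c] σ.h
  C := (hy.weight S).choose
  a_nonneg σ := by
    have h1 := K.b0
    have h2 := eF_nonneg σ.all
    positivity
  C_nonneg := (hy.weight S).choose_spec.1
  D_le n σ t := DSt.D_le_one hy.datum σ t
  meas_tm := AP.measurable_tm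
  meas n σ := DSt.meas hy.datum hΦ (hy.pos n) σ
  hor_att σ := by
    by_cases h : S.Gen σ.all σ.h ∧ σ.h ≤ T
    · rw [WS_of S h.1 h.2]
      have h1 : ∀ G ∈ [σ.c], G ∈ σ.all := fun G hG => by
        rw [List.mem_singleton.1 hG]; exact σ.c_mem
      filter_upwards [S.ae_att_sub hΦ hy.mg h.1 h1] with q hq
      have h2 : S.Gen (σ.att q).all q.tm := S.perm (σ.all_att q).symm hq.1
      have h3 : horS S T (σ.att q).all (σ.att q).h = q.tm := horS_of S h2 (hq.2.le.trans h.2)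
      rw [h3]
    · have h1 : WS S T σ.all [σ.c] σ.h = 0 := by unfold WS; rw [if_neg h]
      rw [h1]
      simp
  step σ t h0 ht := by
    obtain ⟨h1, h2, h3⟩ := of_le_horS S h0 ht
    rw [WS_of S h1 h2]
    exact hy.stepD S h1 h3
  weight σ t₀ t h0 ht0 ht l hl φ hφ := by
    have h1 := (hy.weight S).choose_spec.2 σ.all [σ.c] (fun G hG => by
      rw [List.mem_singleton.1 hG]; exact σ.c_mem) σ.eF_c σ.h t₀ t h0 ht0 ht l hl φ hφ
    simp only [DSt.eF_att]
    exact h1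

/-- **The defect `Dp` of a generic forest vanishes.** -/
theorem Hyp.Dp_tendsto (hy : Hyp K κ L εs) (S : GSys Φ f₀ L) {A C : List TG} {c : TG} {t : ℝ}
    (hF : S.Gen (A ++ c :: C) t) (h0 : 0 ≤ t) (hT : t ≤ T) :
    Tendsto (fun n => Dp Φ (εs n) L f₀ (trees Φ (εs n) A) (trees Φ (εs n) C)
      (c.tree Φ (εs n)) t) atTop (𝓝 0) :=
  (hierD hy S).main ⟨true, A, C, c, t⟩ h0 (horS_of S hF hT).ge

/-- **The defect `Dm` of a generic forest vanishes.** -/
theorem Hyp.Dm_tendsto (hy : Hyp K κ L εs) (S : GSys Φ f₀ L) {A C : List TG} {c : TG} {t : ℝ}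
    (hF : S.Gen (A ++ c :: C) t) (h0 : 0 ≤ t) (hT : t ≤ T) :
    Tendsto (fun n => Dm Φ (εs n) L f₀ (trees Φ (εs n) A) (trees Φ (εs n) C)
      (c.tree Φ (εs n)) t) atTop (𝓝 0) :=
  (hierD hy S).main ⟨false, A, C, c, t⟩ h0 (horS_of S hF hT).ge

end Vale.Agent.P119.ML
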