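import Vale.Agent.P119.ML.Tools

/-!
# P119, block ML (`helper388`): the limit of the survival probabilities

* `Hyp.surv_tendsto`: for generic forests the survival probability converges to `sv`.
-/

open MeasureTheory Filter Topology Set
open scoped ENNReal NNReal

noncomputable section

namespace Vale.Agent.P119.ML

open KU M CTree KT KE GC MM

/-! ### Compatibility with the gas -/

section Cmp

variable {f₀ : Ph → ℝ} {κ ε : ℝ} {Φ : E3 → ℝ}

/-- The probability that the gas is not compatible with the forest. -/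
def nCmp (ε : ℝ) (f₀ : Ph → ℝ) (F : List CTree) : ℝ≥0∞ :=
  ∫⁻ c, ind (¬CmpF ε F (pts c)) ∂(PP f₀ ε)

theorem measurableSet_cmpF_pts (F : List CTree) :
    MeasurableSet {c : Conf Ph | CmpF ε F (pts c)} := by
  have h := measurableSet_cmpF (ε := ε) (MF.cst (X := Conf Ph) F) measurable_id
  simp only [ev_cst] at h
  exact h

theorem nCmp_cons (T : CTree) (F : List CTree) :
    nCmp ε f₀ (T :: F) ≤ nCmp ε f₀ [T] + nCmp ε f₀ F := by
  unfold nCmp
  have hm : Measurable fun c : Conf Ph => ind (¬CmpF ε [T] (pts c)) :=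
    measurable_ind (measurableSet_cmpF_pts [T]).compl
  rw [← lintegral_add_left hm]
  refine lintegral_mono fun c => ?_
  by_cases h1 : CmpF ε [T] (pts c)
  · by_cases h2 : CmpF ε F (pts c)
    · rw [ind_of_false fun h => h (cmpF_cons.2 ⟨h1, h2⟩)]
      exact zero_le
    · rw [ind_of_true h2]
      exact (ind_le_one _).trans le_add_self
  · rw [ind_of_true h1]
    exact (ind_le_one _).trans le_self_add

theorem nCmp_single (hf : GoodDatum f₀ κ) (hε : 0 < ε) (G : TG) :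
    nCmp ε f₀ [G.tree Φ ε] ≤ G.τ.card * ENNReal.ofReal (κ * ε) := by
  have h1 := prob_not_cmp_le hf hε (ldEquiv G.τ (G.ld Φ ε))
  refine le_trans (le_of_eq ?_) h1
  unfold nCmp
  have h2 : MeasurableSet {c : Conf Ph | ¬ Cmp (Cx ε) (ldEquiv G.τ (G.ld Φ ε)) (pts c)} := by
    have h3 := (measurableSet_cmpF_pts (ε := ε) [G.τ.ord (ldEquiv G.τ (G.ld Φ ε))]).compl
    simp only [cmpF_ord] at h3
    exact h3
  rw [← lintegral_indicator_one h2]
  refine lintegral_congr fun c => ?_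
  have e : G.tree Φ ε = G.τ.ord (ldEquiv G.τ (G.ld Φ ε)) := mkL_eq_ord _ _
  by_cases h : Cmp (Cx ε) (ldEquiv G.τ (G.ld Φ ε)) (pts c)
  · have h4 : c ∉ {c : Conf Ph | ¬ Cmp (Cx ε) (ldEquiv G.τ (G.ld Φ ε)) (pts c)} :=
      fun h' => h' h
    rw [indicator_of_notMem h4, ind_of_false]
    rw [e, cmpF_ord, not_not]
    exact h
  · rw [indicator_of_mem (by exact h), ind_of_true]
    · rfl
    · rw [e, cmpF_ord]
      exact h

theorem nCmp_nil : nCmp ε f₀ [] = 0 := by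
  unfold nCmp
  have h : ∀ c : Conf Ph, ind (¬CmpF ε [] (pts c)) = 0 := fun c => by
    refine ind_of_false fun h => h ?_
    intro z _ σ hσ
    rw [lvs_nil] at hσ
    exact absurd hσ (notMem_empty _)
  simp only [h, lintegral_zero]

theorem nCmp_tendsto (hf : GoodDatum f₀ κ) {εs : ℕ → ℝ} (hpos : ∀ n, 0 < εs n)
    (hlim : Tendsto εs atTop (𝓝 0)) (F : List TG) :
    Tendsto (fun n => nCmp (εs n) f₀ (trees Φ (εs n) F)) atTop (𝓝 0) := by
  induction F with
  | nil =>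
    have h : ∀ n, nCmp (εs n) f₀ (trees Φ (εs n) []) = 0 := fun n => nCmp_nil
    simp only [h]
    exact tendsto_const_nhds
  | cons G F ih =>
    have h1 : Tendsto (fun n => (G.τ.card : ℝ≥0∞) * ENNReal.ofReal (κ * εs n)) atTop (𝓝 0) := by
      have h2 : Tendsto (fun n => ENNReal.ofReal (κ * εs n)) atTop (𝓝 (ENNReal.ofReal (κ * 0))) :=
        ENNReal.tendsto_ofReal (hlim.const_mul κ)
      rw [mul_zero, ENNReal.ofReal_zero] at h2
      have h3 := ENNReal.Tendsto.const_mul (a := (G.τ.card : ℝ≥0∞)) h2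
        (Or.inr (ENNReal.natCast_ne_top _))
      rw [mul_zero] at h3
      exact h3
    have h4 := h1.add ih
    rw [add_zero] at h4
    refine tendsto_of_tendsto_of_tendsto_of_le_of_le tendsto_const_nhds h4
      (fun _ => zero_le) fun n => ?_
    exact (nCmp_cons _ _).trans (add_le_add (nCmp_single hf (hpos n) G) le_rfl)

end Cmp

/-! ### The initial time -/

theorem surv_zero {Φ : E3 → ℝ} {ε : ℝ} {L : ℕ} {f₀ : Ph → ℝ} {κ : ℝ} {F : List CTree}
    (hf : GoodDatum f₀ κ) (hΦ : IsPotential Φ) (hε : 0 < ε) (hF : OkF Φ ε L F) :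
    1 ≤ surv Φ ε L f₀ F 0 + nCmp ε f₀ F := by
  have := isProbability_PP (ε := ε) hf
  unfold surv nCmp
  rw [← lintegral_add_left (measurable_indUnhit hΦ hε F 0)]
  have h1 : (1 : ℝ≥0∞) = ∫⁻ _ : Conf Ph, 1 ∂(PP f₀ ε) := by
    rw [lintegral_one, measure_univ]
  rw [h1]
  refine lintegral_mono fun c => ?_
  by_cases h : CmpF ε F (pts c)
  · rw [ind_of_true (P := CmpF ε F (pts c) ∧ Unhit Φ ε L (Wc F (pts c)) F 0)
      ⟨h, hF, noHit_zero hΦ hε hF⟩]
    exact le_self_add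
  · rw [ind_of_true (P := ¬CmpF ε F (pts c)) h]
    exact le_add_self

/-! ### Differences in `[0, ∞]` -/

/-- The distance of two numbers in `[0, ∞]`. -/
def dd (x y : ℝ≥0∞) : ℝ≥0∞ := (x - y) + (y - x)

theorem dd_le_one {x y : ℝ≥0∞} (hx : x ≤ 1) (hy : y ≤ 1) : dd x y ≤ 1 := by
  unfold dd
  rcases le_total x y with h | h
  · rw [tsub_eq_zero_of_le h, zero_add]
    exact tsub_le_self.trans hy
  · rw [tsub_eq_zero_of_le h, add_zero]
    exact tsub_le_self.trans hx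

theorem measurable_dd {X : Type*} [MeasurableSpace X] {u v : X → ℝ≥0∞} (hu : Measurable u)
    (hv : Measurable v) : Measurable fun x => dd (u x) (v x) := (hu.sub hv).add (hv.sub hu)

theorem le_add_dd (x y : ℝ≥0∞) : x ≤ y + dd x y := by
  unfold dd
  rw [← add_assoc]
  exact le_add_right le_add_tsub

theorem le_add_dd' (x y : ℝ≥0∞) : y ≤ x + dd x y := by
  unfold dd
  rw [add_comm (x - y), ← add_assoc]
  exact le_add_right le_add_tsub

theorem dd_lintegral {X : Type*} [MeasurableSpace X] {μ : Measure X} {u v : X → ℝ≥0∞}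
    (hu : Measurable u) (hv : Measurable v) :
    dd (∫⁻ x, u x ∂μ) (∫⁻ x, v x ∂μ) ≤ ∫⁻ x, dd (u x) (v x) ∂μ := by
  unfold dd
  have hm : Measurable fun x => u x - v x := hu.sub hv
  rw [lintegral_add_left hm]
  exact add_le_add (lintegral_sub_le' _ _ hv.aemeasurable) (lintegral_sub_le' _ _ hu.aemeasurable)

/-- The elementary inequality of the hierarchy. -/
theorem dd_step {x y M M' e e' : ℝ≥0∞} (hM : M ≠ ∞) (hM' : M' ≠ ∞) (h : y + M' = 1)
    (h1 : 1 ≤ x + M + e) (h2 : x + M ≤ 1 + e') : dd x y ≤ dd M M' + (e + e') := by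
  have h3 : x ≤ y + ((M' - M) + e') := by
    have h4 : x + M ≤ y + ((M' - M) + e') + M := by
      calc x + M ≤ y + M' + e' := by rw [h]; exact h2
        _ ≤ y + ((M' - M) + M) + e' := by gcongr; exact le_tsub_add
        _ = _ := by ring
    exact (ENNReal.add_le_add_iff_right hM).1 h4
  have h5 : y ≤ x + ((M - M') + e) := by
    have h4 : y + M' ≤ x + ((M - M') + e) + M' := by
      calc y + M' ≤ x + M + e := by rw [h]; exact h1
        _ ≤ x + ((M - M') + M') + e := by gcongr; exact le_tsub_add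
        _ = _ := by ring
    exact (ENNReal.add_le_add_iff_right hM').1 h4
  unfold dd
  calc (x - y) + (y - x) ≤ ((M' - M) + e') + ((M - M') + e) :=
        add_le_add (tsub_le_iff_left.2 h3) (tsub_le_iff_left.2 h5)
    _ = _ := by ring

/-! ### Horizon, measure and weights -/

variable {Φ : E3 → ℝ} {hΦ : IsPotential Φ} {f₀ : Ph → ℝ}
  {m₀ : Measurable fun p : E3 × E3 => K1.f0hat f₀ p.1 p.2} {T : ℝ} {f : ℝ → Ph → ℝ}
  {K : KinFamily hΦ f₀ m₀ T f} {κ : ℝ} {L : ℕ} {εs : ℕ → ℝ}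

open Classical in
/-- The horizon. -/
def horS (S : GSys Φ f₀ L) (T : ℝ) (F : List TG) (h : ℝ) : ℝ :=
  if S.Gen F h ∧ h ≤ T then h else -1

open Classical in
/-- The measure of the attachments to `F`, if the forest `E` is generic. -/
def WS (S : GSys Φ f₀ L) (T : ℝ) (E F : List TG) (h : ℝ) : Measure AP :=
  if S.Gen E h ∧ h ≤ T then WF (g₀ f₀) Φ L F h else 0

theorem horS_of (S : GSys Φ f₀ L) {F : List TG} {h : ℝ} (h1 : S.Gen F h) (h2 : h ≤ T) :
    horS S T F h = h := by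
  unfold horS; rw [if_pos ⟨h1, h2⟩]

theorem of_le_horS (S : GSys Φ f₀ L) {F : List TG} {h t : ℝ} (h0 : 0 ≤ t)
    (ht : t ≤ horS S T F h) : S.Gen F h ∧ h ≤ T ∧ t ≤ h := by
  unfold horS at ht
  split_ifs at ht with h1
  · exact ⟨h1.1, h1.2, ht⟩
  · linarith

theorem WS_of (S : GSys Φ f₀ L) {E F : List TG} {h : ℝ} (h1 : S.Gen E h) (h2 : h ≤ T) :
    WS S T E F h = WF (g₀ f₀) Φ L F h := by
  unfold WS; rw [if_pos ⟨h1, h2⟩]

/-- The weight bound for the hierarchy. -/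
theorem Hyp.weight (hy : Hyp K κ L εs) (S : GSys Φ f₀ L) : ∃ C : ℝ, 0 ≤ C ∧
    ∀ (E F : List TG), (∀ G ∈ F, G ∈ E) → eF F ≤ eF E → ∀ (h t₀ t : ℝ), 0 ≤ t₀ → t₀ ≤ t →
      t ≤ horS S T E h →
      ∀ l ∈ Icc (0 : ℝ) 1, ∀ φ : ℝ → ℝ≥0∞, Measurable φ →
      ∫⁻ q in {q : AP | t₀ ≤ q.tm ∧ q.tm < t},
        φ q.tm * ENNReal.ofReal (Real.exp (l * (K.b / 2 * (eG q.tg + eF E)))) ∂(WS S T E F h) ≤
      ENNReal.ofReal (C * (K.b / 2 * eF E) * Real.exp (l * (K.b / 2 * eF E))) *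
        ∫⁻ s in Ico t₀ t, φ s := by
  obtain ⟨C, hC0, hC⟩ := WF_weight (g := g₀ f₀) hΦ hy.mg K.b0 hy.time K.M0 (g0_le K) L
  refine ⟨C, hC0, ?_⟩
  intro E F hEF he h t₀ t h0 ht0 hth l hl φ hφ
  obtain ⟨hE, hhT, ht⟩ := of_le_horS S (h0.trans ht0) hth
  rw [WS_of S hE hhT]
  have h1 := hC F (fun G hG => S.depth hE G (hEF G hG)) h t₀ t h0 ht hhT l hl φ hφ
  have hb := K.b0
  have e : ∀ q : AP, φ q.tm * ENNReal.ofReal (Real.exp (l * (K.b / 2 * (eG q.tg + eF E)))) =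
      ENNReal.ofReal (Real.exp (l * (K.b / 2 * eF E))) *
        (φ q.tm * ENNReal.ofReal (Real.exp (l * (K.b / 2 * eG q.tg)))) := by
    intro q
    have e1 : Real.exp (l * (K.b / 2 * (eG q.tg + eF E))) =
        Real.exp (l * (K.b / 2 * eF E)) * Real.exp (l * (K.b / 2 * eG q.tg)) := by
      rw [← Real.exp_add]; congr 1; ring
    rw [e1, ENNReal.ofReal_mul (Real.exp_nonneg _)]
    ring
  simp only [e]
  rw [lintegral_const_mul' _ _ ENNReal.ofReal_ne_top]
  refine (mul_le_mul' le_rfl h1).trans ?_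
  rw [← mul_assoc, ← ENNReal.ofReal_mul (Real.exp_nonneg _)]
  refine mul_le_mul' (ENNReal.ofReal_le_ofReal ?_) le_rfl
  have hE0 := eF_nonneg F
  calc Real.exp (l * (K.b / 2 * eF E)) * (C * (K.b / 2 * eF F))
      ≤ Real.exp (l * (K.b / 2 * eF E)) * (C * (K.b / 2 * eF E)) := by gcongr
    _ = _ := by ring

theorem exists_all {D I r : ℕ → ℝ≥0∞} (h1 : ∀ n, D n ≤ 1) (hr : Tendsto r atTop (𝓝 0))
    (h : ∀ᶠ n in atTop, D n ≤ I n + r n) :
    ∃ r' : ℕ → ℝ≥0∞, Tendsto r' atTop (𝓝 0) ∧ ∀ n, D n ≤ I n + r' n := by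
  classical
  obtain ⟨N, hN⟩ := eventually_atTop.1 h
  refine ⟨fun n => if N ≤ n then r n else 1, ?_, fun n => ?_⟩
  · refine hr.congr' ?_
    filter_upwards [eventually_ge_atTop N] with n hn
    rw [if_pos hn]
  · change D n ≤ I n + (if N ≤ n then r n else 1)
    by_cases hn : N ≤ n
    · rw [if_pos hn]; exact hN n hn
    · rw [if_neg hn]; exact (h1 n).trans le_add_self

/-! ### The step for the survival probability -/

theorem measurable_surv_pair (hf : GoodDatum f₀ κ) (hΦ : IsPotential Φ) {ε : ℝ} (hε : 0 < ε)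
    (F : List CTree) : Measurable fun p : CTree × ℝ => surv Φ ε L f₀ (p.1 :: F) p.2 := by
  have := isProbability_PP (ε := ε) hf
  have hFs : MF ((fun p : CTree × ℝ => p.1) :: cst (CTree × ℝ) F) :=
    MF.cons measurable_fst (MF.cst F)
  have h2 := measurable_surv (L := L) (f₀ := f₀) hΦ hε hFs measurable_snd
  simp only [ev_cons, ev_cst] at h2
  exact h2

theorem Hyp.meas_surv_att (hy : Hyp K κ L εs) (F : List TG) (n : ℕ) :
    Measurable fun q : AP => surv Φ (εs n) L f₀ (trees Φ (εs n) (q.tg :: F)) q.tm :=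
  (measurable_surv_pair hy.datum hΦ (hy.pos n) (trees Φ (εs n) F)).comp
    ((measurable_tree_AP hΦ (εs n)).prodMk AP.measurable_tm)

theorem Hyp.stepS (hy : Hyp K κ L εs) (S : GSys Φ f₀ L) {F : List TG} {h t : ℝ}
    (hF : S.Gen F h) (hh : h ≤ T) (h0 : 0 ≤ t) (ht : t ≤ h) :
    ∃ r : ℕ → ℝ≥0∞, Tendsto r atTop (𝓝 0) ∧ ∀ n,
      dd (surv Φ (εs n) L f₀ (trees Φ (εs n) F) t) (sv (rt K L) Φ F t) ≤
        ∫⁻ q in {q : AP | 0 ≤ q.tm ∧ q.tm < t},
          dd (surv Φ (εs n) L f₀ (trees Φ (εs n) (q.tg :: F)) q.tm)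
            (sv (rt K L) Φ (q.tg :: F) q.tm) ∂(WF (g₀ f₀) Φ L F h) + r n := by
  obtain ⟨r, hr, hconv⟩ := hy.conv0 S hF ht
  have hR := measurable_rt K L
  have hfin := hy.slab_lt_top S hF hh ht
  have hrel := hy.rel_zero S (S.mono ht hF)
  have hhr := hy.hi_rel S hF hh ht
  have htie := hy.tie_zero S hF hh ht
  have hcmp := nCmp_tendsto (Φ := Φ) hy.datum hy.pos hy.lim F
  set μ := WF (g₀ f₀) Φ L F h with hμ
  refine exists_all (fun n => dd_le_one (surv_le_one hy.datum) (sv_le_one F t))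
    (r := fun n => ((r n + RelP Φ (εs n) L f₀ (trees Φ (εs n) F) t) +
      nCmp (εs n) f₀ (trees Φ (εs n) F)) +
      ((HI Φ (εs n) L f₀ (trees Φ (εs n) F) 0 t
      (fun T' => RelP Φ (εs n) L f₀ (T' :: trees Φ (εs n) F)
        (ff Φ (εs n) (trees Φ (εs n) F) T')) + Tie Φ (εs n) L f₀ (trees Φ (εs n) F) 0 t) +
        r n)) ?_ ?_
  · have h1 := ((hr.add hrel).add hcmp).add ((hhr.add htie).add hr)
    simp only [add_zero] at h1
    exact h1
  · filter_upwards [hconv, hy.lim'.eventually (S.okF hF)] with n hn hok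
    have hm := measurable_surv_pair (L := L) hy.datum hΦ (hy.pos n) (trees Φ (εs n) F)
    obtain ⟨h1, h2⟩ := hn (fun T' s => surv Φ (εs n) L f₀ (T' :: trees Φ (εs n) F) s) hm
      (fun T' s => surv_le_one hy.datum)
    have h3 := surv_le' (L := L) hy.datum hΦ (hy.pos n) (trees Φ (εs n) F) 0 t
    have h4 := le_surv' (L := L) hy.datum hΦ (hy.pos n) (trees Φ (εs n) F) h0
    have h5 := surv_zero (L := L) hy.datum hΦ (hy.pos n) hok
    have h6 : surv Φ (εs n) L f₀ (trees Φ (εs n) F) 0 ≤ 1 := surv_le_one hy.datum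
    have h7 := limit_eq K hy.meas hy.depth F h0 ht (ht.trans hh)
    set x := surv Φ (εs n) L f₀ (trees Φ (εs n) F) t with hx
    set M := ∫⁻ q in {q : AP | 0 ≤ q.tm ∧ q.tm < t},
      surv Φ (εs n) L f₀ (q.tg.tree Φ (εs n) :: trees Φ (εs n) F) q.tm ∂μ with hM
    set M' := ∫⁻ q in {q : AP | 0 ≤ q.tm ∧ q.tm < t}, sv (rt K L) Φ (q.tg :: F) q.tm ∂μ with hM'
    have hMt : M ≠ ∞ := by
      refine ne_top_of_le_ne_top hfin.ne ?_
      calc M ≤ ∫⁻ _ in {q : AP | 0 ≤ q.tm ∧ q.tm < t}, 1 ∂μ :=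
            lintegral_mono fun q => surv_le_one hy.datum
        _ = _ := by rw [lintegral_one, Measure.restrict_apply_univ]
    have hMt' : M' ≠ ∞ := by
      refine ne_top_of_le_ne_top hfin.ne ?_
      calc M' ≤ ∫⁻ _ in {q : AP | 0 ≤ q.tm ∧ q.tm < t}, 1 ∂μ :=
            lintegral_mono fun q => sv_le_one _ _
        _ = _ := by rw [lintegral_one, Measure.restrict_apply_univ]
    have h8 : dd M M' ≤ ∫⁻ q in {q : AP | 0 ≤ q.tm ∧ q.tm < t},
          dd (surv Φ (εs n) L f₀ (trees Φ (εs n) (q.tg :: F)) q.tm)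
            (sv (rt K L) Φ (q.tg :: F) q.tm) ∂μ :=
      dd_lintegral (hy.meas_surv_att F n) (measurable_sv_AP hΦ hR F)
    refine (dd_step hMt hMt' h7 (e := (r n + RelP Φ (εs n) L f₀ (trees Φ (εs n) F) t) +
      nCmp (εs n) f₀ (trees Φ (εs n) F)) (e' := (HI Φ (εs n) L f₀ (trees Φ (εs n) F) 0 t
      (fun T' => RelP Φ (εs n) L f₀ (T' :: trees Φ (εs n) F)
        (ff Φ (εs n) (trees Φ (εs n) F) T')) + Tie Φ (εs n) L f₀ (trees Φ (εs n) F) 0 t) +
        r n) ?_ ?_).trans (add_le_add h8 le_rfl)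
    · calc (1 : ℝ≥0∞) ≤ surv Φ (εs n) L f₀ (trees Φ (εs n) F) 0 +
            nCmp (εs n) f₀ (trees Φ (εs n) F) := h5
        _ ≤ (x + (M + r n) + RelP Φ (εs n) L f₀ (trees Φ (εs n) F) t) +
            nCmp (εs n) f₀ (trees Φ (εs n) F) := by
            refine add_le_add (h3.trans ?_) le_rfl
            exact add_le_add (add_le_add le_rfl h1) le_rfl
        _ = _ := by ring
    · calc x + M ≤ x + (HI Φ (εs n) L f₀ (trees Φ (εs n) F) 0 t
            (fun T' => surv Φ (εs n) L f₀ (T' :: trees Φ (εs n) F)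
              (ff Φ (εs n) (trees Φ (εs n) F) T')) + r n) := add_le_add le_rfl h2
        _ = (x + HI Φ (εs n) L f₀ (trees Φ (εs n) F) 0 t
            (fun T' => surv Φ (εs n) L f₀ (T' :: trees Φ (εs n) F)
              (ff Φ (εs n) (trees Φ (εs n) F) T'))) + r n := by ring
        _ ≤ (1 + (HI Φ (εs n) L f₀ (trees Φ (εs n) F) 0 t
            (fun T' => RelP Φ (εs n) L f₀ (T' :: trees Φ (εs n) F)
            (ff Φ (εs n) (trees Φ (εs n) F) T')) + Tie Φ (εs n) L f₀ (trees Φ (εs n) F) 0 t)) +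
              r n := add_le_add (h4.trans (add_le_add h6 le_rfl)) le_rfl
        _ = _ := by ring

/-- The hierarchy of the survival probabilities. -/
def hierS (hy : Hyp K κ L εs) (S : GSys Φ f₀ L) : Hier (List TG × ℝ) AP where
  hor σ := horS S T σ.1 σ.2
  a σ := K.b / 2 * eF σ.1
  D n σ t := dd (surv Φ (εs n) L f₀ (trees Φ (εs n) σ.1) t) (sv (rt K L) Φ σ.1 t)
  att σ q := (q.tg :: σ.1, q.tm)
  tm := AP.tm
  W σ := WS S T σ.1 σ.1 σ.2
  C := (hy.weight S).choose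
  a_nonneg σ := by
    have h1 := K.b0
    have h2 := eF_nonneg σ.1
    positivity
  C_nonneg := (hy.weight S).choose_spec.1
  D_le n σ t := dd_le_one (surv_le_one hy.datum) (sv_le_one _ _)
  meas_tm := AP.measurable_tm
  meas n σ := measurable_dd (hy.meas_surv_att σ.1 n)
    (measurable_sv_AP hΦ (measurable_rt K L) σ.1)
  hor_att σ := by
    by_cases h : S.Gen σ.1 σ.2 ∧ σ.2 ≤ T
    · rw [WS_of S h.1 h.2]
      filter_upwards [S.ae_att hΦ hy.mg h.1] with q hq
      rw [horS_of S hq.1 (hq.2.le.trans h.2)]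
    · have h1 : WS S T σ.1 σ.1 σ.2 = 0 := by unfold WS; rw [if_neg h]
      rw [h1]
      simp
  step σ t h0 ht := by
    obtain ⟨h1, h2, h3⟩ := of_le_horS S h0 ht
    rw [WS_of S h1 h2]
    exact hy.stepS S h1 h2 h0 h3
  weight σ t₀ t h0 ht0 ht l hl φ hφ := by
    have h1 := (hy.weight S).choose_spec.2 σ.1 σ.1 (fun _ h => h) le_rfl σ.2 t₀ t h0 ht0 ht l hl φ
      hφ
    simp only [eF_cons]
    exact h1

/-- **The survival probability of a generic forest converges.** -/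
theorem Hyp.surv_dd (hy : Hyp K κ L εs) (S : GSys Φ f₀ L) {F : List TG} {t : ℝ}
    (hF : S.Gen F t) (h0 : 0 ≤ t) (hT : t ≤ T) :
    Tendsto (fun n => dd (surv Φ (εs n) L f₀ (trees Φ (εs n) F) t) (sv (rt K L) Φ F t)) atTop
      (𝓝 0) :=
  (hierS hy S).main (F, t) h0 (horS_of S hF hT).ge

theorem tendsto_of_dd {u : ℕ → ℝ≥0∞} {a : ℝ≥0∞} (ha : a ≠ ∞)
    (h : Tendsto (fun n => dd (u n) a) atTop (𝓝 0)) : Tendsto u atTop (𝓝 a) := by
  have h1 := h.const_add a
  rw [add_zero] at h1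
  have h2 : Tendsto (fun n => a - dd (u n) a) atTop (𝓝 (a - 0)) :=
    ENNReal.Tendsto.sub tendsto_const_nhds h (Or.inl ha)
  rw [tsub_zero] at h2
  exact tendsto_of_tendsto_of_tendsto_of_le_of_le h2 h1
    (fun n => tsub_le_iff_right.2 (le_add_dd' _ _)) (fun n => le_add_dd _ _)

/-- **The survival probability of a generic forest converges.** -/
theorem Hyp.surv_tendsto (hy : Hyp K κ L εs) (S : GSys Φ f₀ L) {F : List TG} {t : ℝ}
    (hF : S.Gen F t) (h0 : 0 ≤ t) (hT : t ≤ T) :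
    Tendsto (fun n => surv Φ (εs n) L f₀ (trees Φ (εs n) F) t) atTop
      (𝓝 (sv (rt K L) Φ F t)) :=
  tendsto_of_dd (ne_top_of_le_ne_top ENNReal.one_ne_top (sv_le_one F t)) (hy.surv_dd S hF h0 hT)

end Vale.Agent.P119.ML
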