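import Vale.Agent.P119.ML.Sys

/-!
# P119, block ML (`helper388`): the errors of the hierarchy vanish

* `Hyp`: the standing hypotheses;
* `conv0`: convergence of the hit integral to the integral over the attachments;
* `hi_zero`: the hit integral of a functional which vanishes in the limit;
* `rel_zero`, `hi_rel`, `tie_zero`.
-/

open MeasureTheory Filter Topology Set
open scoped ENNReal NNReal

noncomputable section

namespace Vale.Agent.P119.ML

open KU M CTree KT KE GC MM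

section HIm

variable {Φ : E3 → ℝ} {ε : ℝ} {L : ℕ} {f₀ : Ph → ℝ} {κ : ℝ} {F : List CTree} {t₀ t : ℝ}

/-- The measure of the hitters. -/
def HIm (Φ : E3 → ℝ) (ε : ℝ) (L : ℕ) (f₀ : Ph → ℝ) (F : List CTree) (t₀ t : ℝ) : Measure CTree :=
  ∑ τ ∈ shapes L, (((Measure.pi fun _ : Fin τ.card => inten f₀ ε).restrict
    {z | PW (Cx ε) z}).withDensity fun z => ind (HitEv Φ ε F t₀ t z (τ.ord z))).map τ.ord

theorem lintegral_HIm (hΦ : IsPotential Φ) (hε : 0 < ε) {H : CTree → ℝ≥0∞} (hH : Measurable H) :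
    ∫⁻ T, H T ∂(HIm Φ ε L f₀ F t₀ t) = HI Φ ε L f₀ F t₀ t H := by
  unfold HIm HI
  rw [lintegral_finsetSum_measure]
  refine Finset.sum_congr rfl fun τ _ => ?_
  rw [lintegral_map hH (M.measurable_ord τ)]
  exact lintegral_withDensity_eq_lintegral_mul _ (measurable_hitEv hΦ hε τ)
    (hH.comp (M.measurable_ord τ))

theorem sFinite_HIm (hf : GoodDatum f₀ κ) : SFinite (HIm Φ ε L f₀ F t₀ t) := by
  have := isFiniteMeasure_inten (ε := ε) hf
  unfold HIm
  refine Finset.sum_induction _ (fun μ : Measure CTree => SFinite μ)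
    (fun μ ν h1 h2 => inferInstance) inferInstance fun τ _ => inferInstance

/-- The mass of the hitters with first contact at `s`. -/
def Ms (Φ : E3 → ℝ) (ε : ℝ) (L : ℕ) (f₀ : Ph → ℝ) (F : List CTree) (t₀ t s : ℝ) : ℝ≥0∞ :=
  HI Φ ε L f₀ F t₀ t fun T' => ind (ff Φ ε F T' = s)

theorem measurableSet_ff_eq (hΦ : IsPotential Φ) (hε : 0 < ε) :
    MeasurableSet {x : ℝ × CTree | ff Φ ε F x.2 = x.1} := by
  have h1 := measurable_ff hΦ hε.ne' (MF.cst (X := ℝ × CTree) F)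
    (measurable_snd (α := ℝ) (β := CTree))
  simp only [ev_cst] at h1
  exact measurableSet_eq_fun h1 measurable_fst

theorem Ms_eq (hΦ : IsPotential Φ) (hε : 0 < ε) (s : ℝ) :
    Ms Φ ε L f₀ F t₀ t s = HIm Φ ε L f₀ F t₀ t {T | ff Φ ε F T = s} := by
  have h1 : MeasurableSet {T : CTree | ff Φ ε F T = s} :=
    measurable_prodMk_left (measurableSet_ff_eq hΦ hε)
  unfold Ms
  rw [← lintegral_HIm hΦ hε (measurable_ind h1), ← lintegral_indicator_one h1]
  refine lintegral_congr fun T => ?_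
  by_cases h : ff Φ ε F T = s
  · rw [ind_of_true h, indicator_of_mem (by exact h)]; rfl
  · rw [ind_of_false h, indicator_of_notMem (by exact h)]

theorem measurable_Ms (hf : GoodDatum f₀ κ) (hΦ : IsPotential Φ) (hε : 0 < ε) :
    Measurable fun s => Ms Φ ε L f₀ F t₀ t s := by
  have := sFinite_HIm (Φ := Φ) (ε := ε) (L := L) (F := F) (t₀ := t₀) (t := t) hf
  simp only [Ms_eq hΦ hε]
  exact measurable_measure_prodMk_left (measurableSet_ff_eq hΦ hε)

theorem countable_Ms (hf : GoodDatum f₀ κ) (hΦ : IsPotential Φ) (hε : 0 < ε) :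
    {s | Ms Φ ε L f₀ F t₀ t s ≠ 0}.Countable := by
  have := sFinite_HIm (Φ := Φ) (ε := ε) (L := L) (F := F) (t₀ := t₀) (t := t) hf
  have h1 := Measure.countable_meas_pos_of_disjoint_iUnion (μ := HIm Φ ε L f₀ F t₀ t)
    (As := fun s : ℝ => {T | ff Φ ε F T = s})
    (fun s => measurable_prodMk_left (measurableSet_ff_eq hΦ hε))
    (fun s s' hs => Set.disjoint_left.2 fun T h h' => hs (by
      have h2 : ff Φ ε F T = s := h
      have h3 : ff Φ ε F T = s' := h'
      rw [← h2, ← h3]))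
  refine h1.mono fun s hs => ?_
  have h2 : Ms Φ ε L f₀ F t₀ t s ≠ 0 := hs
  rw [Ms_eq hΦ hε] at h2
  exact pos_iff_ne_zero.2 h2

theorem Ms_le {s : ℝ} : Ms Φ ε L f₀ F t₀ t s ≤ HI Φ ε L f₀ F t₀ t fun _ => 1 :=
  HI_mono fun _ => ind_le_one _

end HIm

variable {Φ : E3 → ℝ} {hΦ : IsPotential Φ} {f₀ : Ph → ℝ}
  {m₀ : Measurable fun p : E3 × E3 => K1.f0hat f₀ p.1 p.2} {T : ℝ} {f : ℝ → Ph → ℝ}

/-- The standing hypotheses. -/
structure Hyp (K : KinFamily hΦ f₀ m₀ T f) (κ : ℝ) (L : ℕ) (εs : ℕ → ℝ) : Prop where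
  datum : GoodDatum f₀ κ
  cont : Continuous f₀
  depth : K.L₀ ≤ L + 1
  time : 0 ≤ T
  pos : ∀ n, 0 < εs n
  lim : Tendsto εs atTop (𝓝 0)

variable {K : KinFamily hΦ f₀ m₀ T f} {κ : ℝ} {L : ℕ} {εs : ℕ → ℝ}

theorem Hyp.lim' (hy : Hyp K κ L εs) : Tendsto εs atTop (𝓝[>] 0) :=
  tendsto_nhdsWithin_iff.2 ⟨hy.lim, Eventually.of_forall fun n => hy.pos n⟩

theorem Hyp.meas (hy : Hyp K κ L εs) : Measurable f₀ := hy.cont.measurable

theorem Hyp.mg (hy : Hyp K κ L εs) : Measurable (g₀ f₀) := hy.meas.ennreal_ofReal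

theorem f0_bound (K : KinFamily hΦ f₀ m₀ T f) (z : Ph) :
    f₀ z ≤ K.M * Real.exp (-K.b * ‖z.2‖ ^ 2) := by
  have h1 := K.f0_le z.1 z.2
  unfold K1.f0hat gs at h1
  have h2 := K.M0
  exact (ENNReal.ofReal_le_ofReal_iff (by positivity)).1 h1

theorem g0_le (K : KinFamily hΦ f₀ m₀ T f) (x v : E3) : g₀ f₀ (x, v) ≤ gs K.M K.b v :=
  K.f0_le x v

/-- The attachments before `t` have finite measure. -/
theorem Hyp.slab_lt_top (hy : Hyp K κ L εs) (S : GSys Φ f₀ L) {F : List TG} {h t : ℝ}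
    (hF : S.Gen F h) (hh : h ≤ T) (ht : t ≤ h) :
    WF (g₀ f₀) Φ L F h {q : AP | 0 ≤ q.tm ∧ q.tm < t} < ∞ := by
  obtain ⟨C, hC0, hC⟩ := WF_weight (g := g₀ f₀) hΦ hy.mg K.b0 hy.time K.M0 (g0_le K) L
  have h1 := hC F (S.depth hF) h 0 t le_rfl ht hh 0 ⟨le_rfl, zero_le_one⟩ (fun _ => 1)
    measurable_const
  simp only [zero_mul, Real.exp_zero, ENNReal.ofReal_one, mul_one, lintegral_one,
    Measure.restrict_apply_univ] at h1
  refine h1.trans_lt ?_
  rw [Real.volume_Ico]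
  exact ENNReal.mul_lt_top ENNReal.ofReal_lt_top ENNReal.ofReal_lt_top

/-- **Convergence of the hit integral** to the integral over the attachments. -/
theorem Hyp.conv0 (hy : Hyp K κ L εs) (S : GSys Φ f₀ L) {F : List TG} {h t : ℝ}
    (hF : S.Gen F h) (ht : t ≤ h) :
    ∃ r : ℕ → ℝ≥0∞, Tendsto r atTop (𝓝 0) ∧ ∀ᶠ n in atTop, ∀ H : CTree → ℝ → ℝ≥0∞,
      (Measurable fun p : CTree × ℝ => H p.1 p.2) → (∀ T s, H T s ≤ 1) →
      HI Φ (εs n) L f₀ (trees Φ (εs n) F) 0 t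
        (fun T' => H T' (ff Φ (εs n) (trees Φ (εs n) F) T')) ≤
          ∫⁻ q in {q : AP | 0 ≤ q.tm ∧ q.tm < t}, H (q.tg.tree Φ (εs n)) q.tm
            ∂(WF (g₀ f₀) Φ L F h) + r n ∧
      ∫⁻ q in {q : AP | 0 ≤ q.tm ∧ q.tm < t}, H (q.tg.tree Φ (εs n)) q.tm
            ∂(WF (g₀ f₀) Φ L F h) ≤ HI Φ (εs n) L f₀ (trees Φ (εs n) F) 0 t
        (fun T' => H T' (ff Φ (εs n) (trees Φ (εs n) F) T')) + r n := by
  have hFt := S.mono ht hF
  obtain ⟨r, hr, hH⟩ := conv_forest hΦ hy.datum hy.cont K.b0 K.M0 (f0_bound K) L hy.lim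
    (Eventually.of_forall hy.pos) F (S.good hF) (hy.lim'.eventually (S.okF hF)) 0 t (S.sep hFt)
  refine ⟨r, hr, ?_⟩
  filter_upwards [hH] with n hn H hHm hH1
  have hm : Measurable fun q : AP => H (q.tg.tree Φ (εs n)) q.tm :=
    hHm.comp ((measurable_tree_AP hΦ (εs n)).prodMk AP.measurable_tm)
  have e : ∫⁻ q in {q : AP | 0 ≤ q.tm ∧ q.tm < t}, H (q.tg.tree Φ (εs n)) q.tm
      ∂(WF (g₀ f₀) Φ L F h) = MainF Φ f₀ L F 0 t (εs n) H := by
    rw [lintegral_WF_slab hΦ hy.mg F le_rfl ht hm]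
    unfold MainF legI
    refine congrArg List.sum ((flegs_map_congr _ (fun ℓ a => ?_) F).symm)
    simp only [min_self, min_eq_right ht]
  rw [e]
  exact hn H hHm hH1

/-- The hit integral of a functional which vanishes in the limit. -/
theorem Hyp.hi_zero (hy : Hyp K κ L εs) (S : GSys Φ f₀ L) {F : List TG} {h t : ℝ}
    (hF : S.Gen F h) (hh : h ≤ T) (ht : t ≤ h) {H : ℕ → CTree → ℝ → ℝ≥0∞}
    (hm : ∀ n, Measurable fun p : CTree × ℝ => H n p.1 p.2) (h1 : ∀ n T s, H n T s ≤ 1)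
    (hz : ∀ᵐ q ∂(WF (g₀ f₀) Φ L F h), 0 ≤ q.tm → q.tm < t →
      Tendsto (fun n => H n (q.tg.tree Φ (εs n)) q.tm) atTop (𝓝 0)) :
    Tendsto (fun n => HI Φ (εs n) L f₀ (trees Φ (εs n) F) 0 t
      (fun T' => H n T' (ff Φ (εs n) (trees Φ (εs n) F) T'))) atTop (𝓝 0) := by
  obtain ⟨r, hr, hH⟩ := hy.conv0 S hF ht
  have hint : Tendsto (fun n => ∫⁻ q in {q : AP | 0 ≤ q.tm ∧ q.tm < t},
      H n (q.tg.tree Φ (εs n)) q.tm ∂(WF (g₀ f₀) Φ L F h)) atTop (𝓝 0) := by
    have h2 := tendsto_lintegral_of_dominated_convergence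
      (μ := (WF (g₀ f₀) Φ L F h).restrict {q : AP | 0 ≤ q.tm ∧ q.tm < t})
      (F := fun n q => H n (q.tg.tree Φ (εs n)) q.tm) (f := fun _ => 0) (fun _ => 1)
      (fun n => (hm n).comp ((measurable_tree_AP hΦ (εs n)).prodMk AP.measurable_tm))
      (fun n => Eventually.of_forall fun q => h1 n _ _) (by
        rw [lintegral_one, Measure.restrict_apply_univ]
        exact (hy.slab_lt_top S hF hh ht).ne) (by
        filter_upwards [ae_restrict_of_ae hz, ae_restrict_mem (measurableSet_slabAP 0 t)]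
          with q hq hq2
        exact hq hq2.1 hq2.2)
    rw [lintegral_zero] at h2
    exact h2
  have h3 := hint.add hr
  rw [add_zero] at h3
  refine tendsto_of_tendsto_of_tendsto_of_le_of_le' tendsto_const_nhds h3
    (Eventually.of_forall fun _ => zero_le) ?_
  filter_upwards [hH] with n hn
  exact (hn (H n) (hm n) (h1 n)).1

/-- The probability of related hitters vanishes. -/
theorem Hyp.rel_zero (hy : Hyp K κ L εs) (S : GSys Φ f₀ L) {F : List TG} {t : ℝ}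
    (hF : S.Gen F t) :
    Tendsto (fun n => RelP Φ (εs n) L f₀ (trees Φ (εs n) F) t) atTop (𝓝 0) :=
  (S.rel hF).comp hy.lim'

theorem measurable_RelP_pair (hf : GoodDatum f₀ κ) (hΦ : IsPotential Φ) {ε : ℝ} (hε : 0 < ε)
    (F : List CTree) : Measurable fun p : CTree × ℝ => RelP Φ ε L f₀ (p.1 :: F) p.2 := by
  have := isProbability_PP (ε := ε) hf
  have hFs : MF ((fun p : CTree × ℝ => p.1) :: cst (CTree × ℝ) F) :=
    MF.cons measurable_fst (MF.cst F)
  have h2 := measurable_RelP (L := L) (f₀ := f₀) hΦ hε hFs measurable_snd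
  simp only [ev_cons, ev_cst] at h2
  exact h2

/-- The related hitters of the forest with the hitter vanish. -/
theorem Hyp.hi_rel (hy : Hyp K κ L εs) (S : GSys Φ f₀ L) {F : List TG} {h t : ℝ}
    (hF : S.Gen F h) (hh : h ≤ T) (ht : t ≤ h) :
    Tendsto (fun n => HI Φ (εs n) L f₀ (trees Φ (εs n) F) 0 t
      (fun T' => RelP Φ (εs n) L f₀ (T' :: trees Φ (εs n) F)
        (ff Φ (εs n) (trees Φ (εs n) F) T'))) atTop (𝓝 0) := by
  refine hy.hi_zero S hF hh ht (H := fun n T' s =>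
    RelP Φ (εs n) L f₀ (T' :: trees Φ (εs n) F) s)
    (fun n => measurable_RelP_pair hy.datum hΦ (hy.pos n) _)
    (fun n _ _ => RelP_le_one hy.datum) ?_
  filter_upwards [S.ae_att hΦ hy.mg hF] with q hq _ _
  exact hy.rel_zero S hq.1

/-- The simultaneous hits vanish. -/
theorem Hyp.tie_zero (hy : Hyp K κ L εs) (S : GSys Φ f₀ L) {F : List TG} {h t : ℝ}
    (hF : S.Gen F h) (hh : h ≤ T) (ht : t ≤ h) :
    Tendsto (fun n => Tie Φ (εs n) L f₀ (trees Φ (εs n) F) 0 t) atTop (𝓝 0) := by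
  set C : ℝ≥0∞ := WF (g₀ f₀) Φ L F h {q : AP | 0 ≤ q.tm ∧ q.tm < t} + 1 with hC
  have hCt : C ≠ ∞ := ENNReal.add_ne_top.2 ⟨(hy.slab_lt_top S hF hh ht).ne, ENNReal.one_ne_top⟩
  have hC0 : C ≠ 0 := (lt_of_lt_of_le one_pos (by rw [hC]; exact le_add_self)).ne'
  set M : ℕ → ℝ → ℝ≥0∞ := fun n s => Ms Φ (εs n) L f₀ (trees Φ (εs n) F) 0 t s with hM
  set H : ℕ → CTree → ℝ → ℝ≥0∞ := fun n _ s => min 1 (M n s / C) with hH
  have hmM : ∀ n, Measurable (M n) := fun n => measurable_Ms hy.datum hΦ (hy.pos n)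
  have h1 := hy.hi_zero S hF hh ht (H := H)
    (fun n => by
      rw [hH]
      exact (measurable_const.min ((hmM n).div_const C)).comp measurable_snd)
    (fun n _ _ => min_le_left _ _) (by
      have h2 : ∀ n, ∀ᵐ q ∂(WF (g₀ f₀) Φ L F h), M n q.tm = 0 := by
        intro n
        have h3 : ∀ c : ℝ, ∀ᵐ q ∂(WF (g₀ f₀) Φ L F h), q.tm ≠ c := fun c => by
          refine ae_WF hΦ hy.mg F h fun x _ τ _ => ?_
          filter_upwards [ae_time_ne (ν := pvol τ) (c := fun _ => c) measurable_const] with y hy' _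
          exact hy'
        have h4 := countable_Ms (L := L) (F := trees Φ (εs n) F) (t₀ := 0) (t := t) hy.datum hΦ
          (hy.pos n)
        have h5 : ∀ᵐ q ∂(WF (g₀ f₀) Φ L F h), ∀ c ∈ {s | M n s ≠ 0}, q.tm ≠ c :=
          (ae_ball_iff h4).2 fun c _ => h3 c
        filter_upwards [h5] with q hq
        by_contra hne
        exact hq _ hne rfl
      have h3 : ∀ᵐ q ∂(WF (g₀ f₀) Φ L F h), ∀ n, M n q.tm = 0 := ae_all_iff.2 h2
      filter_upwards [h3] with q hq _ _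
      have e : ∀ n, H n (q.tg.tree Φ (εs n)) q.tm = 0 := fun n => by
        rw [hH]
        simp only
        rw [hq n, ENNReal.zero_div, min_eq_right zero_le_one]
      simp only [e]
      exact tendsto_const_nhds)
  obtain ⟨r, hr, hconv⟩ := hy.conv0 S hF ht
  have h2 : ∀ᶠ n in atTop, Tie Φ (εs n) L f₀ (trees Φ (εs n) F) 0 t =
      C * HI Φ (εs n) L f₀ (trees Φ (εs n) F) 0 t
        (fun T' => H n T' (ff Φ (εs n) (trees Φ (εs n) F) T')) := by
    filter_upwards [hconv, hr.eventually (ge_mem_nhds (zero_lt_one : (0 : ℝ≥0∞) < 1))]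
      with n hn hr1
    have h3 := (hn (fun _ _ => 1) measurable_const (fun _ _ => le_rfl)).1
    rw [lintegral_one, Measure.restrict_apply_univ] at h3
    have h4 : ∀ s, M n s ≤ C := fun s => Ms_le.trans (h3.trans (add_le_add le_rfl hr1))
    have h5 : ∀ s, C * min 1 (M n s / C) = M n s := fun s => by
      rw [min_eq_right (ENNReal.div_le_of_le_mul (by rw [one_mul]; exact h4 s)),
        ENNReal.mul_div_cancel hC0 hCt]
    have h6 : Tie Φ (εs n) L f₀ (trees Φ (εs n) F) 0 t =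
        HI Φ (εs n) L f₀ (trees Φ (εs n) F) 0 t
          (fun T' => M n (ff Φ (εs n) (trees Φ (εs n) F) T')) := rfl
    have h7 : Measurable fun T' : CTree =>
        H n T' (ff Φ (εs n) (trees Φ (εs n) F) T') := by
      have h8 := measurable_ff hΦ (hy.pos n).ne' (MF.cst (X := CTree) (trees Φ (εs n) F))
        measurable_id
      simp only [ev_cst] at h8
      rw [hH]
      exact (measurable_const.min ((hmM n).div_const C)).comp h8
    rw [h6, ← lintegral_HIm hΦ (hy.pos n) h7, ← lintegral_const_mul _ h7, lintegral_HIm hΦ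
      (hy.pos n) (h7.const_mul C)]
    congr 1
    funext T'
    exact (h5 _).symm
  have h3 := ENNReal.Tendsto.const_mul h1 (Or.inr hCt)
  rw [mul_zero] at h3
  exact h3.congr' (h2.mono fun n hn => hn.symm)

end Vale.Agent.P119.ML
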